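import Vale.Agent.P155.U.Gam1
import Mathlib.Analysis.SpecialFunctions.Trigonometric.Bounds

/-!
# P155, block U (uniqueness), GAM: the field `Γ = lim c H_k`
-/

namespace Vale.Agent.P155.Uq.Gam

open MeasureTheory Filter Topology TopologicalSpace Vale.Agent.P155.U

variable {Ω : Set ℂ} {Q : Measure (Sp Ω)} {φ ψ : ℂ → ℝ}

/-- `c H_k(φ)` -/
noncomputable def Mk (k : ℕ) (φ : ℂ → ℝ) (s : Sp Ω) : ℝ := cst * pr (s k).2 φ

theorem cst_pos : 0 < cst := Real.sqrt_pos.2 (by positivity)

theorem meas_Mk (hφ : IsTest Ω φ) (k : ℕ) : Measurable (Mk (Ω := Ω) k φ) :=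
  measurable_const.mul (meas_pr hφ k)

theorem Mk_bd (hQ : Canon Ω Q) (hφ : IsTest Ω φ) (k : ℕ) :
    ∀ᵐ s ∂Q, |Mk k φ s| ≤ cst * (k * ∫ z in Ω, |φ z|) := by
  filter_upwards [pr_bd hQ hφ k] with s hs
  rw [Mk, abs_mul, abs_of_pos cst_pos]
  exact mul_le_mul_of_nonneg_left hs cst_pos.le

theorem memLp_Mk (hQ : Canon Ω Q) (hφ : IsTest Ω φ) (k : ℕ) : MemLp (Mk (Ω := Ω) k φ) 2 Q := by
  have := hQ.prob
  exact MemLp.of_bound (meas_Mk hφ k).aestronglyMeasurable _ (by
    filter_upwards [Mk_bd hQ hφ k] with s hs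
    exact hs)

theorem int_of_bd [IsFiniteMeasure Q] {f : Sp Ω → ℝ} (hf : Measurable f) {C : ℝ}
    (h : ∀ᵐ s ∂Q, |f s| ≤ C) : Integrable f Q :=
  Integrable.of_bound hf.aestronglyMeasurable C h

/-- second moment bound of the increments -/
theorem sq_le (hb : Bornology.IsBounded Ω) (hQ : Canon Ω Q) (hφ : IsTest Ω φ) (k n : ℕ) :
    ∫ s, (Mk (k + n) φ s - Mk k φ s) ^ 2 ∂Q ≤
      Real.pi ^ 2 / 4 * ∫ s, greenEnergy (Ω \ (s k).1) φ ∂Q := by
  have := hQ.prob
  set X : Sp Ω → ℝ := fun s => Mk (k + n) φ s - Mk k φ s with hX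
  have mX : Measurable X := (meas_Mk hφ _).sub (meas_Mk hφ _)
  set C : ℝ := cst * (((k + n : ℕ) : ℝ) * ∫ z in Ω, |φ z|) + cst * ((k : ℝ) * ∫ z in Ω, |φ z|) + 1
    with hC
  have hI : 0 ≤ ∫ z in Ω, |φ z| := integral_nonneg fun z => abs_nonneg _
  have hc := cst_pos
  have hC0 : 0 < C := by positivity
  have bX : ∀ᵐ s ∂Q, |X s| ≤ C := by
    filter_upwards [Mk_bd hQ hφ (k + n), Mk_bd hQ hφ k] with s h1 h2
    have := abs_sub (Mk (k + n) φ s) (Mk k φ s)
    simp only [hX, hC]
    linarith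
  set t : ℝ := C⁻¹ with ht
  have ht0 : 0 < t := inv_pos.2 hC0
  have bt : ∀ᵐ s ∂Q, |t * X s| ≤ 1 := by
    filter_upwards [bX] with s hs
    rw [abs_mul, abs_of_pos ht0, ht, inv_mul_le_iff₀ hC0]
    linarith
  set V : Sp Ω → ℝ := fun s => greenEnergy (Ω \ (s k).1) φ with hV
  set V' : Sp Ω → ℝ := fun s => greenEnergy (Ω \ (s (k + n)).1) φ with hV'
  have mV : Measurable V := meas_green hb hφ k
  have mV' : Measurable V' := meas_green hb hφ (k + n)
  have V0 : ∀ s, 0 ≤ V s := fun s => green_nn hb hφ Set.sdiff_subset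
  have V0' : ∀ s, 0 ≤ V' s := fun s => green_nn hb hφ Set.sdiff_subset
  have VC : ∀ s, V s ≤ greenEnergy Ω φ := fun s => green_le hb hφ Set.sdiff_subset
  have h1 := tele hb hQ (test_smul hφ t) k n (Ψ := fun _ => 1) ⟨measurable_const, 1, fun _ => by simp⟩
  -- real parts
  have i1 : Integrable (fun s => Complex.exp (((t * X s : ℝ) : ℂ) * Complex.I -
      ((t ^ 2 * V' s / 2 : ℝ) : ℂ))) Q := by
    refine Integrable.of_bound (C := 1) ?_ (Eventually.of_forall fun s => ?_)
    · exact (Complex.measurable_exp.comp ((((Complex.measurable_ofReal.comp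
        (mX.const_mul t)).mul_const _)).sub (Complex.measurable_ofReal.comp
        ((mV'.const_mul _).div_const _)))).aestronglyMeasurable
    · rw [Complex.norm_exp]
      simp only [Complex.sub_re, Complex.mul_re, Complex.ofReal_re, Complex.I_re, mul_zero,
        Complex.ofReal_im, Complex.I_im, mul_one, sub_self, zero_sub]
      rw [Real.exp_le_one_iff]
      have := V0' s
      have : 0 ≤ t ^ 2 * V' s / 2 := by positivity
      linarith
  have i2 : Integrable (fun s => ((Real.exp (-(t ^ 2 * V s / 2)) : ℝ) : ℂ)) Q := by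
    refine Integrable.of_bound (C := 1) ?_ (Eventually.of_forall fun s => ?_)
    · exact (Complex.measurable_ofReal.comp (Real.measurable_exp.comp
        ((mV.const_mul _).div_const _).neg)).aestronglyMeasurable
    · rw [Complex.norm_real, Real.norm_eq_abs, abs_of_pos (Real.exp_pos _), Real.exp_le_one_iff]
      have := V0 s
      have : 0 ≤ t ^ 2 * V s / 2 := by positivity
      linarith
  have e1 : ∫ s, Complex.exp (((t * X s : ℝ) : ℂ) * Complex.I - ((t ^ 2 * V' s / 2 : ℝ) : ℂ)) ∂Q =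
      ∫ s, ((Real.exp (-(t ^ 2 * V s / 2)) : ℝ) : ℂ) ∂Q := by
    have a1 : ∀ s : Sp Ω, Complex.exp (((t * X s : ℝ) : ℂ) * Complex.I -
        ((t ^ 2 * V' s / 2 : ℝ) : ℂ)) = ((1 : ℝ) : ℂ) * Complex.exp (Complex.I * cst *
          (pr (s (k + n)).2 (fun z => t * φ z) - pr (s k).2 (fun z => t * φ z)) -
          greenEnergy (Ω \ (s (k + n)).1) (fun z => t * φ z) / 2) := by
      intro s
      rw [pr_smul, pr_smul, green_smul hb hφ Set.sdiff_subset ht0.ne', Complex.ofReal_one, one_mul]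
      congr 1
      simp only [hX, Mk, hV']
      push_cast
      ring
    have a2 : ∀ s : Sp Ω, ((Real.exp (-(t ^ 2 * V s / 2)) : ℝ) : ℂ) = ((1 : ℝ) : ℂ) *
        Complex.exp (- greenEnergy (Ω \ (s k).1) (fun z => t * φ z) / 2) := by
      intro s
      rw [green_smul hb hφ Set.sdiff_subset ht0.ne', Complex.ofReal_one, one_mul,
        Complex.ofReal_exp]
      congr 1
      simp only [hV]
      push_cast
      ring
    simp only [a1, a2]
    exact h1
  have e2 := congrArg Complex.re e1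
  have r1 : (∫ s, Complex.exp (((t * X s : ℝ) : ℂ) * Complex.I -
      ((t ^ 2 * V' s / 2 : ℝ) : ℂ)) ∂Q).re =
      ∫ s, Real.cos (t * X s) * Real.exp (-(t ^ 2 * V' s / 2)) ∂Q := by
    have := integral_re i1
    rw [show (∫ s, Complex.exp (((t * X s : ℝ) : ℂ) * Complex.I -
      ((t ^ 2 * V' s / 2 : ℝ) : ℂ)) ∂Q).re = RCLike.re (∫ s, Complex.exp (((t * X s : ℝ) : ℂ) *
        Complex.I - ((t ^ 2 * V' s / 2 : ℝ) : ℂ)) ∂Q) from rfl, ← this]
    refine integral_congr_ae (Eventually.of_forall fun s => ?_)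
    simp only
    rw [show (RCLike.re (Complex.exp (((t * X s : ℝ) : ℂ) * Complex.I -
      ((t ^ 2 * V' s / 2 : ℝ) : ℂ))) : ℝ) = (Complex.exp (((t * X s : ℝ) : ℂ) * Complex.I -
      ((t ^ 2 * V' s / 2 : ℝ) : ℂ))).re from rfl, Complex.exp_re]
    simp only [Complex.sub_re, Complex.sub_im, Complex.mul_re, Complex.mul_im, Complex.ofReal_re,
      Complex.ofReal_im, Complex.I_re, Complex.I_im, mul_zero, mul_one, zero_sub, sub_zero,
      add_zero, sub_self]
    ring
  have r2 : (∫ s, ((Real.exp (-(t ^ 2 * V s / 2)) : ℝ) : ℂ) ∂Q).re =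
      ∫ s, Real.exp (-(t ^ 2 * V s / 2)) ∂Q := by
    rw [integral_complex_ofReal, Complex.ofReal_re]
  rw [r1, r2] at e2
  have j1 : Integrable (fun s => Real.cos (t * X s) * Real.exp (-(t ^ 2 * V' s / 2))) Q := by
    refine int_of_bd (C := 1) ((Real.measurable_cos.comp (mX.const_mul t)).mul
      (Real.measurable_exp.comp ((mV'.const_mul _).div_const _).neg))
      (Eventually.of_forall fun s => ?_)
    rw [abs_mul, abs_of_pos (Real.exp_pos _)]
    refine mul_le_one₀ (Real.abs_cos_le_one _) (Real.exp_pos _).le ?_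
    rw [Real.exp_le_one_iff]
    have := V0' s
    have : 0 ≤ t ^ 2 * V' s / 2 := by positivity
    linarith
  have j2 : Integrable (fun s => Real.exp (-(t ^ 2 * V s / 2))) Q := by
    refine int_of_bd (C := 1) (Real.measurable_exp.comp ((mV.const_mul _).div_const _).neg)
      (Eventually.of_forall fun s => ?_)
    rw [abs_of_pos (Real.exp_pos _), Real.exp_le_one_iff]
    have := V0 s
    have : 0 ≤ t ^ 2 * V s / 2 := by positivity
    linarith
  have j3 : Integrable (fun s => X s ^ 2) Q := by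
    refine int_of_bd (C := C ^ 2) (mX.pow_const 2) ?_
    filter_upwards [bX] with s hs
    rw [abs_pow]
    exact pow_le_pow_left₀ (abs_nonneg _) hs 2
  have j4 : Integrable V Q := by
    refine int_of_bd (C := greenEnergy Ω φ) mV (Eventually.of_forall fun s => ?_)
    rw [abs_of_nonneg (V0 s)]
    exact VC s
  have k1 : ∫ s, 2 / Real.pi ^ 2 * t ^ 2 * X s ^ 2 ∂Q ≤
      ∫ s, (1 - Real.cos (t * X s) * Real.exp (-(t ^ 2 * V' s / 2))) ∂Q := by
    refine integral_mono_ae (j3.const_mul _) ((integrable_const 1).sub j1) ?_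
    filter_upwards [bt] with s hs
    have h2 : |t * X s| ≤ Real.pi := hs.trans (by linarith [Real.pi_gt_three])
    have h3 := Real.cos_le_one_sub_mul_cos_sq h2
    have h4 : 0 ≤ Real.cos (t * X s) := by
      apply Real.cos_nonneg_of_neg_pi_div_two_le_of_le
      · have := (abs_le.1 hs).1
        linarith [Real.pi_gt_three]
      · have := (abs_le.1 hs).2
        linarith [Real.pi_gt_three]
    have h5 : Real.exp (-(t ^ 2 * V' s / 2)) ≤ 1 := by
      rw [Real.exp_le_one_iff]
      have := V0' s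
      have : 0 ≤ t ^ 2 * V' s / 2 := by positivity
      linarith
    have h6 := mul_le_mul_of_nonneg_left h5 h4
    have h7 : 2 / Real.pi ^ 2 * (t * X s) ^ 2 = 2 / Real.pi ^ 2 * t ^ 2 * X s ^ 2 := by ring
    linarith
  have k2 : ∫ s, (1 - Real.exp (-(t ^ 2 * V s / 2))) ∂Q ≤ ∫ s, t ^ 2 / 2 * V s ∂Q := by
    refine integral_mono ((integrable_const 1).sub j2) (j4.const_mul _) fun s => ?_
    have := Real.add_one_le_exp (-(t ^ 2 * V s / 2))
    simp only
    linarith
  rw [integral_sub (integrable_const 1) j1, e2, ← integral_sub (integrable_const 1) j2] at k1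
  have k3 := k1.trans k2
  rw [integral_const_mul, integral_const_mul] at k3
  have ht2 : 0 < t ^ 2 := by positivity
  have hpi : 0 < Real.pi ^ 2 := by positivity
  have k4 : 2 / Real.pi ^ 2 * ∫ s, X s ^ 2 ∂Q ≤ 1 / 2 * ∫ s, V s ∂Q := by
    have h8 : t ^ 2 * (2 / Real.pi ^ 2 * ∫ s, X s ^ 2 ∂Q) ≤ t ^ 2 * (1 / 2 * ∫ s, V s ∂Q) := by
      linarith
    exact le_of_mul_le_mul_left h8 ht2
  have k5 := mul_le_mul_of_nonneg_left k4 (by positivity : 0 ≤ Real.pi ^ 2 / 2)
  have k6 : Real.pi ^ 2 / 2 * (2 / Real.pi ^ 2 * ∫ s, X s ^ 2 ∂Q) = ∫ s, X s ^ 2 ∂Q := by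
    field_simp
  rw [k6] at k5
  linarith

/-- the energies tend to `0` in mean -/
theorem tendsto_V (hvk : VkStmt) (hΩ : IsOpen Ω) (hb : Bornology.IsBounded Ω) (hne : Ω.Nonempty)
    (hQ : Canon Ω Q) (hφ : IsTest Ω φ) :
    Tendsto (fun k => ∫ s, greenEnergy (Ω \ (s k).1) φ ∂Q) atTop (𝓝 0) := by
  have := hQ.prob
  have h := tendsto_integral_of_dominated_convergence (μ := Q)
    (F := fun k s => greenEnergy (Ω \ (s k).1) φ) (f := fun _ => 0)
    (fun _ => greenEnergy Ω φ) (fun k => (meas_green hb hφ k).aestronglyMeasurable)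
    (integrable_const _) (fun k => Eventually.of_forall fun s => by
      rw [Real.norm_eq_abs, abs_of_nonneg (green_nn hb hφ Set.sdiff_subset)]
      exact green_le hb hφ Set.sdiff_subset)
    (hvk Ω hΩ hb hne Q hQ φ hφ)
  simpa using h

theorem norm_sq_toLp {f : Sp Ω → ℝ} (hf : MemLp f 2 Q) : ‖hf.toLp f‖ ^ 2 = ∫ s, f s ^ 2 ∂Q := by
  rw [← real_inner_self_eq_norm_sq, L2.inner_def]
  refine integral_congr_ae ?_
  filter_upwards [hf.coeFn_toLp] with s hs
  rw [hs]
  simp [pow_two]

/-- existence of the limit in `L²` -/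
theorem exists_lim (hvk : VkStmt) (hΩ : IsOpen Ω) (hb : Bornology.IsBounded Ω)
    (hne : Ω.Nonempty) (hQ : Canon Ω Q) (hφ : IsTest Ω φ) :
    ∃ L : Lp ℝ 2 Q, Tendsto (fun k => (memLp_Mk hQ hφ k).toLp (Mk k φ)) atTop (𝓝 L) := by
  apply cauchySeq_tendsto_of_complete
  refine cauchySeq_of_le_tendsto_0' (fun k => Real.sqrt (Real.pi ^ 2 / 4 *
    ∫ s, greenEnergy (Ω \ (s k).1) φ ∂Q)) (fun k m hkm => ?_) ?_
  · obtain ⟨n, rfl⟩ := Nat.exists_eq_add_of_le hkm
    rw [dist_comm, dist_eq_norm, ← MemLp.toLp_sub]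
    apply Real.le_sqrt_of_sq_le
    rw [norm_sq_toLp]
    exact sq_le hb hQ hφ k n
  · have h := ((tendsto_V hvk hΩ hb hne hQ hφ).const_mul (Real.pi ^ 2 / 4)).sqrt
    simpa using h

theorem int_abs_sq_le [IsProbabilityMeasure Q] {f : Sp Ω → ℝ} (hf : MemLp f 2 Q) :
    (∫ s, |f s| ∂Q) ^ 2 ≤ ∫ s, f s ^ 2 ∂Q := by
  set c := ∫ s, |f s| ∂Q with hc
  have h1 : Integrable (fun s => |f s|) Q := (hf.integrable (by norm_num)).abs
  have h2 : Integrable (fun s => f s ^ 2) Q := hf.integrable_sq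
  have h3 : 0 ≤ ∫ s, (|f s| - c) ^ 2 ∂Q := integral_nonneg fun s => sq_nonneg _
  have h4 : ∫ s, (|f s| - c) ^ 2 ∂Q = ∫ s, f s ^ 2 ∂Q - 2 * c * c + c ^ 2 := by
    have e : ∀ s, (|f s| - c) ^ 2 = f s ^ 2 - 2 * c * |f s| + c ^ 2 := fun s => by
      rw [sub_sq, sq_abs]
      ring
    simp only [e]
    rw [integral_add (f := fun s => f s ^ 2 - 2 * c * |f s|) (g := fun _ => c ^ 2)
      (h2.sub (h1.const_mul _)) (integrable_const _),
      integral_sub h2 (h1.const_mul _), integral_const_mul, ← hc]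
    simp
  rw [h4] at h3
  linarith

theorem exp_diff (a b v : ℝ) (hv : 0 ≤ v) :
    ‖Complex.exp (Complex.I * a - v / 2) - Complex.exp (Complex.I * b)‖ ≤ |a - b| + v / 2 := by
  have h1 : Complex.exp (Complex.I * a - v / 2) - Complex.exp (Complex.I * b) =
      Complex.exp (Complex.I * a) * (((Real.exp (-(v / 2)) - 1 : ℝ)) : ℂ) +
        Complex.exp (Complex.I * b) * (Complex.exp (Complex.I * ((a - b : ℝ) : ℂ)) - 1) := by
    rw [mul_sub, ← Complex.exp_add]
    push_cast
    rw [mul_sub, ← Complex.exp_add]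
    ring_nf
  rw [h1]
  refine (norm_add_le _ _).trans ?_
  rw [norm_mul, norm_mul]
  have n1 : ‖Complex.exp (Complex.I * a)‖ = 1 := by
    rw [mul_comm, Complex.norm_exp_ofReal_mul_I]
  have n2 : ‖Complex.exp (Complex.I * b)‖ = 1 := by
    rw [mul_comm, Complex.norm_exp_ofReal_mul_I]
  rw [n1, n2, one_mul, one_mul, Complex.norm_real, Real.norm_eq_abs]
  have h2 : |Real.exp (-(v / 2)) - 1| ≤ v / 2 := by
    rw [abs_of_nonpos (by
      have : Real.exp (-(v / 2)) ≤ 1 := by
        rw [Real.exp_le_one_iff]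
        linarith
      linarith)]
    have := Real.add_one_le_exp (-(v / 2))
    linarith
  have h3 := Real.norm_exp_I_mul_ofReal_sub_one_le (x := a - b)
  rw [Real.norm_eq_abs] at h3
  linarith

theorem gamStmt_of (hvk : VkStmt) : GamStmt := by
  classical
  intro Ω hΩ hb hne Q hQ
  have := hQ.prob
  choose L hL using fun (φ : ℂ → ℝ) (hφ : IsTest Ω φ) => exists_lim hvk hΩ hb hne hQ hφ
  refine ⟨fun φ => if hφ : IsTest Ω φ then (L φ hφ : Sp Ω → ℝ) else 0, ?_, ?_, ?_⟩
  · intro φ hφ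
    show MemLp (if hφ : IsTest Ω φ then (L φ hφ : Sp Ω → ℝ) else 0) 2 Q
    rw [dif_pos hφ]
    exact Lp.memLp _
  · intro φ ψ hφ hψ s t
    have h3 := test_lin hφ hψ s t
    simp only [hφ, hψ, h3, dif_pos]
    have e : L _ h3 = s • L φ hφ + t • L ψ hψ := by
      refine tendsto_nhds_unique (hL _ h3) ?_
      have hl := ((hL φ hφ).const_smul s).add ((hL ψ hψ).const_smul t)
      refine hl.congr fun k => ?_
      rw [← MemLp.toLp_const_smul, ← MemLp.toLp_const_smul, ← MemLp.toLp_add]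
      apply MemLp.toLp_congr
      refine Eventually.of_forall fun x => ?_
      simp only [Pi.add_apply, Pi.smul_apply, smul_eq_mul, Mk]
      rw [pr_lin hφ hψ]
      ring
    rw [e]
    filter_upwards [Lp.coeFn_add (s • L φ hφ) (t • L ψ hψ), Lp.coeFn_smul s (L φ hφ),
      Lp.coeFn_smul t (L ψ hψ)] with x h1 h2 h3
    rw [h1, Pi.add_apply, h2, h3]
    simp
  · intro k φ hφ Ψ hΨ
    simp only [hφ, dif_pos]
    obtain ⟨mΨ, C, hC⟩ := hΨ
    have mpast : Measurable (fun s : Sp Ω => past k s) :=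
      measurable_pi_lambda _ fun j => measurable_pi_apply _
    have hC0 : 0 ≤ C := (abs_nonneg _).trans (hC (past k (fun _ => (⟨⟨{0}, isCompact_singleton⟩,
      by simp⟩, 0))))
    have mL : AEStronglyMeasurable (L φ hφ : Sp Ω → ℝ) Q := Lp.aestronglyMeasurable _
    set T : Sp Ω → ℂ := fun s => (Ψ (past k s) : ℂ) *
      Complex.exp (Complex.I * ((L φ hφ : Sp Ω → ℝ) s - cst * pr (s k).2 φ)) with hT
    set U : ℕ → Sp Ω → ℂ := fun n s => (Ψ (past k s) : ℂ) *
      Complex.exp (Complex.I * cst * (pr (s (k + n)).2 φ -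
          pr (s k).2 φ) - greenEnergy (Ω \ (s (k + n)).1) φ / 2) with hU
    have mΨ' : AEStronglyMeasurable (fun s : Sp Ω => (Ψ (past k s) : ℂ)) Q :=
      (Complex.measurable_ofReal.comp (mΨ.comp mpast)).aestronglyMeasurable
    have iT : Integrable T Q := by
      refine Integrable.of_bound (C := C) ?_ (Eventually.of_forall fun s => ?_)
      · refine mΨ'.mul (Complex.continuous_exp.comp_aestronglyMeasurable ?_)
        refine (continuous_const.mul continuous_id).comp_aestronglyMeasurable ?_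
        exact (Complex.continuous_ofReal.comp_aestronglyMeasurable mL).sub
          ((Complex.continuous_ofReal.measurable.comp ((meas_pr hφ k).const_mul cst)
            |>.aestronglyMeasurable).congr (Eventually.of_forall fun s => by simp))
      · rw [hT]
        simp only
        rw [norm_mul, Complex.norm_real]
        have : ‖Complex.exp (Complex.I * ((L φ hφ : Sp Ω → ℝ) s - cst * pr (s k).2 φ))‖ = 1 := by
          have e : Complex.I * ((L φ hφ : Sp Ω → ℝ) s - cst * pr (s k).2 φ : ℂ) =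
              (((L φ hφ : Sp Ω → ℝ) s - cst * pr (s k).2 φ : ℝ) : ℂ) * Complex.I := by
            push_cast
            ring
          rw [e, Complex.norm_exp_ofReal_mul_I]
        rw [this, mul_one]
        exact hC _
    have hdiff : ∀ n s, ‖U n s - T s‖ ≤ C * (|Mk (k + n) φ s - (L φ hφ : Sp Ω → ℝ) s| +
        greenEnergy (Ω \ (s (k + n)).1) φ / 2) := by
      intro n s
      have h0 : 0 ≤ greenEnergy (Ω \ (s (k + n)).1) φ := green_nn hb hφ Set.sdiff_subset
      have h1 := exp_diff (Mk (k + n) φ s - Mk k φ s) ((L φ hφ : Sp Ω → ℝ) s - Mk k φ s) _ h0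
      have e : U n s - T s = (Ψ (past k s) : ℂ) *
          (Complex.exp (Complex.I * ((Mk (k + n) φ s - Mk k φ s : ℝ) : ℂ) -
            (greenEnergy (Ω \ (s (k + n)).1) φ : ℂ) / 2) -
            Complex.exp (Complex.I * (((L φ hφ : Sp Ω → ℝ) s - Mk k φ s : ℝ) : ℂ))) := by
        rw [mul_sub]
        simp only [hU, hT, Mk]
        congr 2
        · congr 1
          push_cast
          ring
        · congr 1
          push_cast
          ring
      rw [e, norm_mul, Complex.norm_real]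
      have h2 : Mk (k + n) φ s - Mk k φ s - ((L φ hφ : Sp Ω → ℝ) s - Mk k φ s) =
          Mk (k + n) φ s - (L φ hφ : Sp Ω → ℝ) s := by ring
      rw [h2] at h1
      exact mul_le_mul (hC _) h1 (norm_nonneg _) hC0
    have iM : ∀ n, MemLp (fun s => Mk (k + n) φ s - (L φ hφ : Sp Ω → ℝ) s) 2 Q := fun n =>
      (memLp_Mk hQ hφ (k + n)).sub (Lp.memLp (L φ hφ))
    have iV : ∀ n, Integrable (fun s : Sp Ω => greenEnergy (Ω \ (s (k + n)).1) φ) Q := fun n =>
      int_of_bd (C := greenEnergy Ω φ) (meas_green hb hφ _) (Eventually.of_forall fun s => by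
        rw [abs_of_nonneg (green_nn hb hφ Set.sdiff_subset)]
        exact green_le hb hφ Set.sdiff_subset)
    have iB : ∀ n, Integrable (fun s => C * (|Mk (k + n) φ s - (L φ hφ : Sp Ω → ℝ) s| +
        greenEnergy (Ω \ (s (k + n)).1) φ / 2)) Q := fun n =>
      ((((iM n).integrable (by norm_num)).abs).add ((iV n).div_const 2)).const_mul C
    have iU : ∀ n, Integrable (U n) Q := by
      intro n
      have hm : AEStronglyMeasurable (U n) Q := by
        refine mΨ'.mul (Complex.measurable_exp.comp ?_).aestronglyMeasurable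
        exact (measurable_const.mul ((Complex.measurable_ofReal.comp (meas_pr hφ _)).sub
          (Complex.measurable_ofReal.comp (meas_pr hφ _)))).sub
          ((Complex.measurable_ofReal.comp (meas_green hb hφ _)).div_const _)
      have h1 : Integrable (fun s => U n s - T s) Q :=
        Integrable.mono' (iB n) (hm.sub iT.1) (Eventually.of_forall (hdiff n))
      have := h1.add iT
      refine this.congr (Eventually.of_forall fun s => ?_)
      simp
    have hlim : Tendsto (fun n => ∫ s, U n s ∂Q) atTop (𝓝 (∫ s, T s ∂Q)) := by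
      rw [tendsto_iff_norm_sub_tendsto_zero]
      have hb2 : ∀ n, ‖∫ s, U n s ∂Q - ∫ s, T s ∂Q‖ ≤
          C * (‖(memLp_Mk hQ hφ (k + n)).toLp (Mk (k + n) φ) - L φ hφ‖ +
            (∫ s, greenEnergy (Ω \ (s (k + n)).1) φ ∂Q) / 2) := by
        intro n
        rw [← integral_sub (iU n) iT]
        refine (norm_integral_le_of_norm_le (iB n) (Eventually.of_forall (hdiff n))).trans ?_
        rw [integral_const_mul, integral_add (((iM n).integrable (by norm_num)).abs)
          ((iV n).div_const 2), integral_div]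
        refine mul_le_mul_of_nonneg_left ?_ hC0
        gcongr
        rw [← pow_le_pow_iff_left₀ (integral_nonneg fun s => abs_nonneg _) (norm_nonneg _)
          two_ne_zero]
        refine (int_abs_sq_le (iM n)).trans (le_of_eq ?_)
        rw [← norm_sq_toLp (iM n)]
        congr 2
        conv_rhs => rw [← Lp.toLp_coeFn (L φ hφ) (Lp.memLp (L φ hφ))]
        rw [← MemLp.toLp_sub]
        rfl
      refine squeeze_zero (fun n => norm_nonneg _) hb2 ?_
      have l1 : Tendsto (fun n => ‖(memLp_Mk hQ hφ (k + n)).toLp (Mk (k + n) φ) - L φ hφ‖)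
          atTop (𝓝 0) := by
        have := (tendsto_iff_norm_sub_tendsto_zero.1 (hL φ hφ)).comp (tendsto_add_atTop_nat k)
        refine this.congr fun n => ?_
        simp only [Function.comp, add_comm n k]
      have l2 : Tendsto (fun n => ∫ s, greenEnergy (Ω \ (s (k + n)).1) φ ∂Q) atTop (𝓝 0) := by
        have := (tendsto_V hvk hΩ hb hne hQ hφ).comp (tendsto_add_atTop_nat k)
        refine this.congr fun n => ?_
        simp only [Function.comp, add_comm n k]
      have := (l1.add (l2.div_const 2)).const_mul C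
      simpa using this
    have hcon : ∀ n, ∫ s, U n s ∂Q = ∫ s, (Ψ (past k s) : ℂ) *
        Complex.exp (- greenEnergy (Ω \ (s k).1) φ / 2) ∂Q := fun n =>
      tele hb hQ hφ k n ⟨mΨ, C, hC⟩
    simp only [hcon] at hlim
    exact (tendsto_nhds_unique hlim tendsto_const_nhds)

end Vale.Agent.P155.Uq.Gam
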