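import Vale.Agent.P155.U.Iface2
import Mathlib.Geometry.Manifold.PartitionOfUnity
import Mathlib.Analysis.Distribution.AEEqOfIntegralContDiff

/-!
# P155, block U: the height functions are locally constant off the carpets (LOCH)
-/

namespace Vale.Agent.P155.Uq

open MeasureTheory Filter Topology TopologicalSpace Metric

/-- `f = t` a.e. near `z`. -/
def LC (f : ℂ → ℝ) (z : ℂ) (t : ℝ) : Prop :=
  ∃ r > 0, ∀ᵐ w ∂(volume : Measure ℂ), w ∈ ball z r → f w = t

lemma LC.unique {f : ℂ → ℝ} {z : ℂ} {t t' : ℝ} (h : LC f z t) (h' : LC f z t') : t = t' := by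
  obtain ⟨r, hr, h⟩ := h
  obtain ⟨r', hr', h'⟩ := h'
  by_contra hne
  have h1 : ∀ᵐ w ∂(volume : Measure ℂ), w ∉ ball z (min r r') := by
    filter_upwards [h, h'] with w h1 h2 hw
    exact hne (by rw [← h1 (ball_subset_ball (min_le_left _ _) hw),
      ← h2 (ball_subset_ball (min_le_right _ _) hw)])
  have h2 : volume (ball z (min r r')) = 0 := by
    rw [ae_iff] at h1
    simp only [not_not, Set.ofPred_mem_eq] at h1
    exact h1
  exact absurd h2 (measure_ball_pos volume z (lt_min hr hr')).ne'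

lemma LC.near {f : ℂ → ℝ} {z : ℂ} {t : ℝ} (h : LC f z t) : ∀ᶠ y in 𝓝 z, LC f y t := by
  obtain ⟨r, hr, h⟩ := h
  filter_upwards [ball_mem_nhds z hr] with y hy
  obtain ⟨ε, hε, hεs⟩ := Metric.isOpen_ball.mem_nhds hy |> Metric.mem_nhds_iff.mp
  exact ⟨ε, hε, h.mono fun w hw hw' => hw (hεs hw')⟩

open Classical in
/-- The locally constant version of `f`. -/
noncomputable def lc (f : ℂ → ℝ) (z : ℂ) : ℝ := if h : ∃ t, LC f z t then h.choose else 0

lemma lc_eq {f : ℂ → ℝ} {z : ℂ} {t : ℝ} (h : LC f z t) : lc f z = t := by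
  have h' : ∃ t, LC f z t := ⟨t, h⟩
  rw [lc, dif_pos h']
  exact h'.choose_spec.unique h

lemma lc_near {f : ℂ → ℝ} {z : ℂ} {t : ℝ} (h : LC f z t) : lc f =ᶠ[𝓝 z] fun _ => t :=
  h.near.mono fun _ hy => lc_eq hy

lemma ae_lc {f : ℂ → ℝ} {U : Set ℂ} (h : ∀ z ∈ U, ∃ t, LC f z t) :
    ∀ᵐ w ∂(volume : Measure ℂ), w ∈ U → f w = lc f w := by
  rw [ae_iff]
  refine measure_null_of_locally_null _ fun z hz => ?_
  have hz' : z ∈ U := by
    by_contra h1
    exact hz fun h2 => absurd h2 h1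
  obtain ⟨t, ht⟩ := h z hz'
  have h1 := lc_near ht
  obtain ⟨r, hr, h2⟩ := ht
  obtain ⟨r', hr', h3⟩ := Metric.eventually_nhds_iff_ball.mp h1
  refine ⟨{a | ¬ (a ∈ U → f a = lc f a)} ∩ ball z (min r r'),
    inter_mem_nhdsWithin _ (ball_mem_nhds z (lt_min hr hr')), ?_⟩
  rw [ae_iff] at h2
  refine measure_mono_null (fun w hw => ?_) h2
  obtain ⟨hw1, hw2⟩ := hw
  intro hw3
  apply hw1
  intro _
  rw [hw3 (ball_subset_ball (min_le_left _ _) hw2),
    h3 w (ball_subset_ball (min_le_right _ _) hw2)]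

/-- A function which is locally constant off `G` is orthogonal to `Δ v`, for `v` supported off
`G`. -/
theorem loch_det {Ω G : Set ℂ} (hΩ : IsOpen Ω) (hG : IsClosed G) {f : ℂ → ℝ}
    (h : ∀ z ∈ Ω \ G, ∃ t, LC f z t) {v φ : ℂ → ℝ} (hv : IsTest Ω v) (hφ : IsTest Ω φ)
    (hN : NegLap v φ) (hd : Disjoint (tsupport v) G) : ∫ z in Ω, f z * φ z = 0 := by
  have hU : IsOpen (Ω \ G) := hΩ.sdiff hG
  have hK : IsCompact (tsupport v) := hv.2.1
  have hKU : tsupport v ⊆ Ω \ G := fun z hz => ⟨hv.2.2 hz, fun h' => hd.le_bot ⟨hz, h'⟩⟩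
  obtain ⟨L, hL, hKL, hLU⟩ := exists_compact_between hK hU hKU
  obtain ⟨χ, hχ1, hχ0, -⟩ := exists_contMDiffMap_one_nhds_of_subset_interior
    (modelWithCornersSelf ℝ ℂ) (n := (⊤ : ℕ∞)) (isClosed_tsupport v) hKL
  have hχc : ContDiff ℝ ((⊤ : ℕ∞) : WithTop ℕ∞) (χ : ℂ → ℝ) := χ.contMDiff.contDiff
  -- the test function
  set w : ℂ → ℝ := fun z => χ z * lc f z with hw
  have hwc : ContDiff ℝ ((⊤ : ℕ∞) : WithTop ℕ∞) w := by
    rw [contDiff_iff_contDiffAt]
    intro z
    by_cases hz : z ∈ Ω \ G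
    · obtain ⟨t, ht⟩ := h z hz
      have h1 : w =ᶠ[𝓝 z] fun y => χ y * t := by
        filter_upwards [lc_near ht] with y hy
        simp only [hw, hy]
      exact (hχc.contDiffAt.mul contDiffAt_const).congr_of_eventuallyEq h1
    · have h1 : w =ᶠ[𝓝 z] fun _ => 0 := by
        filter_upwards [hL.isClosed.isOpen_compl.mem_nhds fun h' => hz (hLU h')] with y hy
        simp only [hw, hχ0 y hy, zero_mul]
      exact contDiffAt_const.congr_of_eventuallyEq h1
  have hws : HasCompactSupport w := by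
    refine HasCompactSupport.intro hL fun z hz => ?_
    simp only [hw, hχ0 z hz, zero_mul]
  have hwT : IsTest Set.univ w := ⟨hwc, hws, Set.subset_univ _⟩
  -- `φ = 0` off the support of `v`
  have hφ0 : ∀ᵐ z ∂(volume : Measure ℂ), z ∈ (tsupport v)ᶜ → φ z = 0 := by
    refine (isClosed_tsupport v).isOpen_compl.ae_eq_zero_of_integral_contDiff_smul_eq_zero
      (hφ.1.continuous.locallyIntegrable.locallyIntegrableOn _) fun g hg1 hg2 hg3 => ?_
    have h1 := hN g ⟨hg1, hg2, Set.subset_univ _⟩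
    have h2 : ∫ z, g z • φ z = ∫ z, φ z * g z := by
      refine integral_congr_ae (ae_of_all _ fun z => ?_)
      simp only [smul_eq_mul, mul_comm]
    rw [h2, h1]
    refine integral_eq_zero_of_ae (ae_of_all _ fun z => ?_)
    by_cases hz : z ∈ tsupport v
    · have h3 : fderiv ℝ g z = 0 := by
        have h4 : z ∉ tsupport g := fun h5 => hg3 h5 hz
        have h5 : z ∉ tsupport (fderiv ℝ g) := fun h6 => h4 (tsupport_fderiv_subset ℝ h6)
        exact image_eq_zero_of_notMem_tsupport h5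
      simp [h3]
    · have h3 : fderiv ℝ v z = 0 := by
        have h5 : z ∉ tsupport (fderiv ℝ v) := fun h6 => hz (tsupport_fderiv_subset ℝ h6)
        exact image_eq_zero_of_notMem_tsupport h5
      simp [h3]
  have h0 : ∫ z, φ z * w z = 0 := by
    rw [hN w hwT]
    refine integral_eq_zero_of_ae (ae_of_all _ fun z => ?_)
    by_cases hz : z ∈ tsupport v
    · have h3 : fderiv ℝ w z = 0 := by
        obtain ⟨t, ht⟩ := h z (hKU hz)
        have h4 : w =ᶠ[𝓝 z] fun _ => t := by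
          filter_upwards [lc_near ht, (eventually_nhdsSet_iff_forall.mp hχ1) z hz] with y h5 h6
          simp only [hw, h5, h6, one_mul]
        rw [h4.fderiv_eq]
        simp
      simp [h3]
    · have h3 : fderiv ℝ v z = 0 := by
        have h5 : z ∉ tsupport (fderiv ℝ v) := fun h6 => hz (tsupport_fderiv_subset ℝ h6)
        exact image_eq_zero_of_notMem_tsupport h5
      simp [h3]
  have h1 : ∫ z in Ω, f z * φ z = ∫ z in Ω, φ z * w z := by
    refine integral_congr_ae (ae_restrict_of_ae ?_)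
    filter_upwards [ae_lc h, hφ0] with z h2 h3
    by_cases hz : z ∈ tsupport v
    · have h4 : χ z = 1 := (eventually_nhdsSet_iff_forall.mp hχ1 z hz).self_of_nhds
      simp only [hw, h4, one_mul, h2 (hKU hz), mul_comm]
    · simp only [h3 hz, mul_zero, zero_mul]
  rw [h1, setIntegral_eq_integral_of_forall_compl_eq_zero, h0]
  intro z hz
  have : φ z = 0 := image_eq_zero_of_notMem_tsupport fun h' => hz (hφ.2.2 h')
  rw [this, zero_mul]

/-- LOCH. -/
theorem lochStmt : LochStmt := by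
  intro Ω hΩ hb hne Q hQ k
  filter_upwards [hQ.zero, hQ.mono, hQ.sign] with s hz hm hs v φ hv hφ hN hd
  have key : ∀ j : ℕ, ∀ z r, 0 < r → closedBall z r ⊆ Ω →
      Disjoint (closedBall z r) ((s j).1 : Set ℂ) → ∃ t : ℝ,
      ∀ᵐ w ∂(volume.restrict Ω : Measure ℂ), w ∈ ball z r → (s j).2 w = t := by
    intro j
    induction j with
    | zero =>
      intro z r hr hB hD
      refine ⟨0, ?_⟩
      rw [hz.2]
      filter_upwards [Lp.coeFn_zero ℝ 2 (volume.restrict Ω : Measure ℂ)] with w hw _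
      rw [hw]
      rfl
    | succ j ih =>
      intro z r hr hB hD
      obtain ⟨t, ht⟩ := ih z r hr hB (hD.mono_right (hm j).1)
      obtain ⟨t', -, ht'⟩ := hs j z r hr hB hD
      refine ⟨t + t', ?_⟩
      filter_upwards [ht, ht'] with w h1 h2 hw
      linarith [h1 hw, h2 hw]
  refine loch_det hΩ (s k).1.isCompact.isClosed ?_ hv hφ hN hd
  intro z hz
  obtain ⟨r, hr, hrs⟩ := Metric.nhds_basis_closedBall.mem_iff.mp
    ((hΩ.sdiff (s k).1.isCompact.isClosed).mem_nhds hz)
  obtain ⟨t, ht⟩ := key k z r hr (fun y hy => (hrs hy).1)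
    (Set.disjoint_left.mpr fun y hy hy' => (hrs hy).2 hy')
  refine ⟨t, r, hr, ?_⟩
  rw [ae_restrict_iff' hΩ.measurableSet] at ht
  exact ht.mono fun w hw hw' => hw (hrs (ball_subset_closedBall hw')).1 hw'

end Vale.Agent.P155.Uq
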