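import Vale.Agent.P155.U.Inj
import Vale.Agent.P155.K.Conn2

/-!
# P155 uniqueness: a countable family of test functions whose Green energies separate connected
sets; Borel measurability of the Green energy
-/

namespace Vale.Agent.P155.U

open MeasureTheory Set TopologicalSpace
open scoped ContDiff

/-- the possible values of the gaskets -/
def CC (Ω : Set ℂ) : Set (NonemptyCompacts ℂ) :=
  {K | IsConnected (K : Set ℂ) ∧ frontier Ω ⊆ K ∧ (K : Set ℂ) ⊆ closure Ω}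

theorem isClosed_CC (Ω : Set ℂ) : IsClosed (CC Ω) := by
  have h1 : IsClosed {K : NonemptyCompacts ℂ | IsConnected (K : Set ℂ)} := KConn.isClosed_connected
  have h2 : IsClosed {K : NonemptyCompacts ℂ | frontier Ω ⊆ K} := by
    have e : {K : NonemptyCompacts ℂ | frontier Ω ⊆ K} =
        ⋂ x ∈ frontier Ω, {K : NonemptyCompacts ℂ | x ∈ K} := by
      ext K
      simp only [mem_iInter, mem_ofPred_eq]
      rfl
    rw [e]
    refine isClosed_biInter fun x _ => ?_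
    rw [← isOpen_compl_iff]
    have : {K : NonemptyCompacts ℂ | x ∈ K}ᶜ = {K : NonemptyCompacts ℂ | (K : Set ℂ) ⊆ {x}ᶜ} := by
      ext K
      simp only [mem_compl_iff, mem_ofPred_eq, subset_compl_singleton_iff]
      rfl
    rw [this]
    exact NonemptyCompacts.isOpen_subsets_of_isOpen isOpen_compl_singleton
  have h3 : IsClosed {K : NonemptyCompacts ℂ | (K : Set ℂ) ⊆ closure Ω} :=
    NonemptyCompacts.isClosed_subsets_of_isClosed isClosed_closure
  have : CC Ω = {K : NonemptyCompacts ℂ | IsConnected (K : Set ℂ)} ∩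
      ({K : NonemptyCompacts ℂ | frontier Ω ⊆ K} ∩
        {K : NonemptyCompacts ℂ | (K : Set ℂ) ⊆ closure Ω}) := rfl
  rw [this]
  exact h1.inter (h2.inter h3)

/-- rational discs -/
abbrev Idx := (ℚ × ℚ) × ℚ

/-- centre -/
noncomputable def ctr (i : Idx) : ℂ := ⟨(i.1.1 : ℝ), (i.1.2 : ℝ)⟩

/-- the bump of the rational disc -/
noncomputable def bmp (i : Idx) : ℂ → ℝ :=
  if h : 0 < i.2 then
    (⟨(i.2 : ℝ), 2 * (i.2 : ℝ), by exact_mod_cast h, by
      have : (0 : ℝ) < i.2 := by exact_mod_cast h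
      linarith⟩ : ContDiffBump (ctr i))
  else 0

theorem bmp_test {i : Idx} (h : 0 < i.2) {U : Set ℂ}
    (hU : Metric.closedBall (ctr i) (2 * (i.2 : ℝ)) ⊆ U) : IsTest U (bmp i) := by
  unfold bmp
  rw [dif_pos h]
  refine ⟨ContDiffBump.contDiff _, ContDiffBump.hasCompactSupport _, ?_⟩
  rw [ContDiffBump.tsupport_eq]
  exact hU

theorem bmp_one {i : Idx} (h : 0 < i.2) {z : ℂ} (hz : z ∈ Metric.closedBall (ctr i) (i.2 : ℝ)) :
    bmp i z = 1 := by
  unfold bmp
  rw [dif_pos h]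
  exact ContDiffBump.one_of_mem_closedBall _ hz

/-- the indices of the discs inside `Ω` -/
def IdxIn (Ω : Set ℂ) : Type :=
  {i : Idx // 0 < i.2 ∧ Metric.closedBall (ctr i) (2 * (i.2 : ℝ)) ⊆ Ω}

instance (Ω : Set ℂ) : Countable (IdxIn Ω) := by
  unfold IdxIn
  infer_instance

/-- the separating family -/
noncomputable def fam (Ω : Set ℂ) (i : IdxIn Ω) : ℂ → ℝ := nlap (bmp i.1)

theorem fam_test (Ω : Set ℂ) (i : IdxIn Ω) : IsTest Ω (fam Ω i) :=
  isTest_nlap (bmp_test i.2.1 i.2.2)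

/-- rational discs around a point of an open set -/
theorem exists_idx {U : Set ℂ} (hU : IsOpen U) {p : ℂ} (hp : p ∈ U) :
    ∃ i : Idx, 0 < i.2 ∧ Metric.closedBall (ctr i) (2 * (i.2 : ℝ)) ⊆ U ∧
      p ∈ Metric.ball (ctr i) (i.2 : ℝ) := by
  obtain ⟨ε, hε, hball⟩ := Metric.isOpen_iff.1 hU p hp
  obtain ⟨ρ, hρ0, hρ1⟩ := exists_rat_btwn (show (0 : ℝ) < ε / 4 by positivity)
  obtain ⟨a, ha0, ha1⟩ := exists_rat_btwn (show p.re < p.re + (ρ : ℝ) / 2 by linarith)
  obtain ⟨b, hb0, hb1⟩ := exists_rat_btwn (show p.im < p.im + (ρ : ℝ) / 2 by linarith)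
  have hd : dist p (ctr ((a, b), ρ)) < ρ := by
    rw [dist_eq_norm]
    have h1 := Complex.norm_le_abs_re_add_abs_im (p - ctr ((a, b), ρ))
    have h2 : |(p - ctr ((a, b), ρ)).re| < ρ / 2 := by
      simp only [ctr, Complex.sub_re]
      rw [abs_lt]
      constructor <;> linarith
    have h3 : |(p - ctr ((a, b), ρ)).im| < ρ / 2 := by
      simp only [ctr, Complex.sub_im]
      rw [abs_lt]
      constructor <;> linarith
    linarith
  refine ⟨((a, b), ρ), by exact_mod_cast hρ0, ?_, Metric.mem_ball.2 hd⟩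
  intro z hz
  apply hball
  rw [Metric.mem_closedBall] at hz
  rw [Metric.mem_ball]
  simp only at hz
  have h4 := dist_triangle z (ctr ((a, b), ρ)) p
  have h5 := dist_comm (ctr ((a, b), ρ)) p
  linarith

theorem subset_of_fam {Ω : Set ℂ} (hΩ : IsOpen Ω) (hb : Bornology.IsBounded Ω)
    {K K' : NonemptyCompacts ℂ} (hK : K ∈ CC Ω) (hK' : K' ∈ CC Ω)
    (h : ∀ i, greenEnergy (Ω \ K) (fam Ω i) ≤ greenEnergy (Ω \ K') (fam Ω i)) :
    (K' : Set ℂ) ⊆ K := by
  intro p hp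
  by_contra hpK
  have hpΩ : p ∈ Ω := by
    by_contra hpΩ
    apply hpK
    apply hK.2.1
    rw [frontier, hΩ.interior_eq]
    exact ⟨hK'.2.2 hp, hpΩ⟩
  have hopen : IsOpen (Ω \ (K : Set ℂ)) := hΩ.sdiff K.isCompact.isClosed
  obtain ⟨i, hi, hball, hpi⟩ := exists_idx hopen (show p ∈ Ω \ (K : Set ℂ) from ⟨hpΩ, hpK⟩)
  have hfr : (frontier Ω).Nonempty := by
    rw [nonempty_frontier_iff]
    refine ⟨⟨p, hpΩ⟩, ?_⟩
    rintro rfl
    exact NormedSpace.unbounded_univ ℝ ℂ hb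
  obtain ⟨q, hq⟩ := hfr
  have hqΩ : q ∉ Ω := by
    rw [frontier, hΩ.interior_eq] at hq
    exact hq.2
  have hlt := greenEnergy_lt (A := (K : Set ℂ)) hb hK'.1.isPreconnected hp
    ⟨q, hK'.2.1 hq, fun h' => hqΩ (h' ▸ hpΩ)⟩ (bmp_test hi hball)
    (Filter.eventually_of_mem (Metric.isOpen_ball.mem_nhds hpi) fun z hz =>
      bmp_one hi (Metric.ball_subset_closedBall hz))
  have := h ⟨i, hi, hball.trans sdiff_subset⟩
  exact absurd this (not_le.2 hlt)

/-- **Injectivity**: the Green energies of the family determine the set. -/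
theorem fam_inj {Ω : Set ℂ} (hΩ : IsOpen Ω) (hb : Bornology.IsBounded Ω)
    {K K' : NonemptyCompacts ℂ} (hK : K ∈ CC Ω) (hK' : K' ∈ CC Ω)
    (h : ∀ i, greenEnergy (Ω \ K) (fam Ω i) = greenEnergy (Ω \ K') (fam Ω i)) : K = K' := by
  apply SetLike.coe_injective
  apply Subset.antisymm
  · exact subset_of_fam hΩ hb hK' hK fun i => (h i).ge
  · exact subset_of_fam hΩ hb hK hK' fun i => (h i).le

/-! ### lower semicontinuity -/

/-- boundedness of the Dirichlet functional -/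
theorem bdd_dval {Ω : Set ℂ} (hb : Bornology.IsBounded Ω) {φ : ℂ → ℝ} {M : ℝ}
    (hφ : ∀ z, |φ z| ≤ M) (hφ0 : ∀ z, z ∉ Ω → φ z = 0) {U : Set ℂ} (hU : U ⊆ Ω) :
    BddAbove {x | ∃ v, IsTest U v ∧ x = 2 * (∫ z, φ z * v z) - ∫ z, ‖fderiv ℝ v z‖ ^ 2} := by
  obtain ⟨R0, hR0⟩ := hb.subset_ball 0
  set R : ℝ := max R0 1 with hR
  have hR1 : 0 < R := by positivity
  have hout : ∀ z, R ≤ dist z 0 → z ∉ Ω := by
    intro z hz h
    have h1 := hR0 h
    rw [Metric.mem_ball] at h1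
    have := le_max_left R0 1
    linarith
  refine ⟨160 * (M * R ^ 2) ^ 2, ?_⟩
  rintro x ⟨v, hv, rfl⟩
  have h1 := poinc_phi (test_c1 hv) 0 hR1 (le_refl R) (φ := φ) (M := M * R ^ 2) (fun x hx => by
      have h3 : dist (x : ℂ) 0 = x := by
        rw [dist_zero_right, Complex.norm_real, Real.norm_of_nonneg (hR1.le.trans hx.1)]
      exact ⟨x, h3, test_zero hv (fun h' => hout _ (by rw [h3]; exact hx.1) (hU h'))⟩)
    (fun z => by
      rw [mul_div_assoc, div_self (by positivity), mul_one]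
      exact hφ z)
    (fun z hz => by
      apply hφ0
      apply hout
      rw [Metric.mem_ball, not_lt] at hz
      exact hz)
  rw [div_self hR1.ne', Real.log_one, add_zero, mul_one] at h1
  have h2 : ∫ z in Metric.ball (0 : ℂ) (2 * R), ‖fderiv ℝ v z‖ ^ 2 ≤ ∫ z, ‖fderiv ℝ v z‖ ^ 2 :=
    setIntegral_le_integral (test_sq hv) (Filter.Eventually.of_forall fun z => sq_nonneg _)
  set X := ∫ z, φ z * v z with hX
  set E := ∫ z, ‖fderiv ℝ v z‖ ^ 2 with hE
  have h3 : X ^ 2 ≤ 160 * (M * R ^ 2) ^ 2 * E :=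
    h1.trans (mul_le_mul_of_nonneg_left h2 (by positivity))
  set C := 160 * (M * R ^ 2) ^ 2 with hC
  have hE0 : 0 ≤ E := integral_nonneg fun z => sq_nonneg _
  have hC0 : 0 ≤ C := by positivity
  nlinarith [sq_nonneg (X - E), sq_nonneg (X - C), sq_nonneg (C - E), abs_nonneg X]

/-- The Green energy is a lower semicontinuous function of the compact set. -/
theorem lsc_green {Ω : Set ℂ} (hb : Bornology.IsBounded Ω) {φ : ℂ → ℝ} (hφ : IsTest Ω φ) :
    LowerSemicontinuous (fun K : NonemptyCompacts ℂ => greenEnergy (Ω \ K) φ) := by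
  obtain ⟨M, hM⟩ := hφ.1.continuous.bounded_above_of_compact_support hφ.2.1
  have hM' : ∀ z, |φ z| ≤ M := fun z => by
    have := hM z
    rwa [Real.norm_eq_abs] at this
  have h0 : ∀ z, z ∉ Ω → φ z = 0 := fun z hz => test_zero hφ hz
  intro K t ht
  have hbdd := bdd_dval hb hM' h0 (U := Ω \ K) sdiff_subset
  have hlt := (lt_csSup_iff hbdd ⟨_, _, isTest_zero _, rfl⟩).1 ht
  obtain ⟨x, ⟨v, hv, rfl⟩, hx⟩ := hlt
  have hopen : IsOpen {K' : NonemptyCompacts ℂ | (K' : Set ℂ) ⊆ (tsupport v)ᶜ} :=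
    NonemptyCompacts.isOpen_subsets_of_isOpen (isClosed_tsupport v).isOpen_compl
  have hmem : K ∈ {K' : NonemptyCompacts ℂ | (K' : Set ℂ) ⊆ (tsupport v)ᶜ} := by
    intro z hz hz'
    exact (hv.2.2 hz').2 hz
  filter_upwards [hopen.mem_nhds hmem] with K' hK'
  have hv' : IsTest (Ω \ K') v := ⟨hv.1, hv.2.1, fun z hz =>
    ⟨(hv.2.2 hz).1, fun hz' => hK' hz' hz⟩⟩
  have hbdd' := bdd_dval hb hM' h0 (U := Ω \ K') sdiff_subset
  exact lt_of_lt_of_le hx (le_csSup hbdd' ⟨v, hv', rfl⟩)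

theorem measurable_green {Ω : Set ℂ} (hb : Bornology.IsBounded Ω) {φ : ℂ → ℝ} (hφ : IsTest Ω φ) :
    @Measurable _ _ (borel (NonemptyCompacts ℂ)) _
      (fun K : NonemptyCompacts ℂ => greenEnergy (Ω \ K) φ) := by
  let _ : MeasurableSpace (NonemptyCompacts ℂ) := borel _
  have : BorelSpace (NonemptyCompacts ℂ) := ⟨rfl⟩
  exact (lsc_green hb hφ).measurable

end Vale.Agent.P155.U
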