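import Vale.Agent.P155.U.Iface2
import Vale.Agent.P155.U.Family

/-!
# P155 uniqueness: block HIL, the Hilbert space of gradients
-/

namespace Vale.Agent.P155.U

open MeasureTheory Set TopologicalSpace Vale.Agent.P155.Uq
open scoped ContDiff

theorem grad_continuous {v : ℂ → ℝ} (hv : ContDiff ℝ 1 v) : Continuous (grad v) := by
  have h1 : Continuous (fun z => fderiv ℝ v z 1) :=
    (hv.continuous_fderiv (by norm_num)).clm_apply continuous_const
  have h2 : Continuous (fun z => fderiv ℝ v z Complex.I) :=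
    (hv.continuous_fderiv (by norm_num)).clm_apply continuous_const
  have e : grad v = fun z => (fderiv ℝ v z 1 : ℂ) + (fderiv ℝ v z Complex.I : ℂ) * Complex.I := by
    funext z
    apply Complex.ext <;> simp [grad]
  rw [e]
  exact (Complex.continuous_ofReal.comp h1).add
    ((Complex.continuous_ofReal.comp h2).mul continuous_const)

theorem grad_cpt {v : ℂ → ℝ} (hc : HasCompactSupport v) : HasCompactSupport (grad v) := by
  have h1 : HasCompactSupport (fderiv ℝ v) := hc.fderiv (𝕜 := ℝ)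
  apply h1.mono
  intro z hz
  rw [Function.mem_support] at hz ⊢
  intro h0
  apply hz
  unfold grad
  rw [h0]
  rfl

theorem memLp_grad {U : Set ℂ} {v : ℂ → ℝ} (hv : IsTest U v) :
    MemLp (grad v) 2 (volume : Measure ℂ) :=
  (grad_continuous (test_c1 hv)).memLp_of_hasCompactSupport (grad_cpt hv.2.1)

theorem gr_eq {U : Set ℂ} {v : ℂ → ℝ} (hv : IsTest U v) : gr v = (memLp_grad hv).toLp _ := by
  unfold gr
  rw [dif_pos (memLp_grad hv)]

theorem gr_ae {U : Set ℂ} {v : ℂ → ℝ} (hv : IsTest U v) : gr v =ᵐ[volume] grad v := by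
  rw [gr_eq hv]
  exact (memLp_grad hv).coeFn_toLp

/-- the Dirichlet inner product -/
theorem inner_gr {U U' : Set ℂ} {v w : ℂ → ℝ} (hv : IsTest U v) (hw : IsTest U' w) :
    inner ℝ (gr v) (gr w) =
      ∫ z, (fderiv ℝ v z 1 * fderiv ℝ w z 1 + fderiv ℝ v z Complex.I * fderiv ℝ w z Complex.I) := by
  rw [L2.inner_def]
  apply integral_congr_ae
  filter_upwards [gr_ae hv, gr_ae hw] with z h1 h2
  rw [h1, h2, Complex.inner]
  simp only [grad, Complex.mul_re, Complex.conj_re, Complex.conj_im]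
  ring

theorem norm_gr {U : Set ℂ} {v : ℂ → ℝ} (hv : IsTest U v) :
    ‖gr v‖ ^ 2 = ∫ z, ‖fderiv ℝ v z‖ ^ 2 := by
  rw [← real_inner_self_eq_norm_sq, inner_gr hv hv]
  congr 1
  funext z
  rw [norm_sq_clm]
  ring

theorem test_comb {U : Set ℂ} {v w : ℂ → ℝ} (hv : IsTest U v) (hw : IsTest U w) (s t : ℝ) :
    IsTest U (fun z => s * v z + t * w z) := by
  have hsub : tsupport (fun z => s * v z + t * w z) ⊆ tsupport v ∪ tsupport w := by
    apply closure_minimal _ ((isClosed_tsupport v).union (isClosed_tsupport w))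
    intro z hz
    by_contra h
    rw [mem_union, not_or] at h
    apply hz
    show s * v z + t * w z = 0
    rw [image_eq_zero_of_notMem_tsupport h.1, image_eq_zero_of_notMem_tsupport h.2]
    ring
  refine ⟨(contDiff_const.mul hv.1).add (contDiff_const.mul hw.1), ?_,
    hsub.trans (union_subset hv.2.2 hw.2.2)⟩
  exact (hv.2.1.isCompact.union hw.2.1.isCompact).of_isClosed_subset (isClosed_tsupport _) hsub

theorem grad_comb {U : Set ℂ} {v w : ℂ → ℝ} (hv : IsTest U v) (hw : IsTest U w) (s t : ℝ) (z : ℂ) :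
    grad (fun z => s * v z + t * w z) z = s * grad v z + t * grad w z := by
  have hdv : DifferentiableAt ℝ v z := hv.1.differentiable (by norm_num) z
  have hdw : DifferentiableAt ℝ w z := hw.1.differentiable (by norm_num) z
  have h : fderiv ℝ (fun z => s * v z + t * w z) z = s • fderiv ℝ v z + t • fderiv ℝ w z := by
    rw [fderiv_fun_add (hdv.const_mul s) (hdw.const_mul t), fderiv_const_mul hdv,
      fderiv_const_mul hdw]
  unfold grad
  rw [h]
  apply Complex.ext
  · simp
  · simp

theorem gr_comb {U : Set ℂ} {v w : ℂ → ℝ} (hv : IsTest U v) (hw : IsTest U w) (s t : ℝ) :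
    gr (fun z => s * v z + t * w z) = s • gr v + t • gr w := by
  apply Lp.ext
  filter_upwards [gr_ae (test_comb hv hw s t), gr_ae hv, gr_ae hw,
    Lp.coeFn_add (s • gr v) (t • gr w), Lp.coeFn_smul s (gr v), Lp.coeFn_smul t (gr w)]
    with z h1 h2 h3 h4 h5 h6
  rw [h1, h4, Pi.add_apply, h5, h6, Pi.smul_apply, Pi.smul_apply, h2, h3, grad_comb hv hw]
  simp [Complex.real_smul]

/-- gradients of test functions form a subspace -/
noncomputable def G0 (U : Set ℂ) : Submodule ℝ HL where
  carrier := {f | ∃ v, IsTest U v ∧ f = gr v}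
  add_mem' := by
    rintro _ _ ⟨v, hv, rfl⟩ ⟨w, hw, rfl⟩
    refine ⟨fun z => 1 * v z + 1 * w z, test_comb hv hw 1 1, ?_⟩
    rw [gr_comb hv hw, one_smul, one_smul]
  zero_mem' := by
    refine ⟨fun _ => 0, isTest_zero U, ?_⟩
    have h := gr_comb (isTest_zero U) (isTest_zero U) 0 0
    rw [zero_smul, add_zero] at h
    rw [← h]
    congr 1
    funext z
    ring
  smul_mem' := by
    rintro c _ ⟨v, hv, rfl⟩
    refine ⟨fun z => c * v z + 0 * v z, test_comb hv hv c 0, ?_⟩
    rw [gr_comb hv hv, zero_smul, add_zero]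

theorem GV_eq (U : Set ℂ) : GV U = (G0 U).topologicalClosure := by
  unfold GV
  congr 1
  exact Submodule.span_eq (G0 U)

theorem gr_mem {U : Set ℂ} {v : ℂ → ℝ} (hv : IsTest U v) : gr v ∈ GV U := by
  rw [GV_eq]
  exact (G0 U).le_topologicalClosure ⟨v, hv, rfl⟩

/-- elements of `GV U` are determined by their inner products with gradients -/
theorem GV_ext {U : Set ℂ} {r r' : HL} (hr : r ∈ GV U) (hr' : r' ∈ GV U)
    (h : ∀ v, IsTest U v → inner ℝ r (gr v) = inner ℝ r' (gr v)) : r = r' := by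
  have hd : r - r' ∈ GV U := (GV U).sub_mem hr hr'
  have hz : ∀ f ∈ GV U, inner ℝ (r - r') f = 0 := by
    intro f hf
    rw [GV_eq] at hf
    have hcl : IsClosed {f : HL | inner ℝ (r - r') f = 0} :=
      isClosed_eq (continuous_const.inner continuous_id) continuous_const
    have hsub : (G0 U : Set HL) ⊆ {f : HL | inner ℝ (r - r') f = 0} := by
      rintro _ ⟨v, hv, rfl⟩
      show inner ℝ (r - r') (gr v) = 0
      rw [inner_sub_left, h v hv, sub_self]
    exact closure_minimal hsub hcl hf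
  have := hz _ hd
  rw [inner_self_eq_zero] at this
  exact sub_eq_zero.1 this

/-- boundedness of `v ↦ ∫ φ v` in the Dirichlet norm -/
theorem energy_bound {Ω : Set ℂ} (hb : Bornology.IsBounded Ω) {φ : ℂ → ℝ} (hφ : IsTest Ω φ) :
    ∃ C : ℝ, 0 ≤ C ∧ ∀ v, IsTest Ω v → |∫ z, φ z * v z| ≤ C * ‖gr v‖ := by
  obtain ⟨M, hM⟩ := hφ.1.continuous.bounded_above_of_compact_support hφ.2.1
  have hM' : ∀ z, |φ z| ≤ M := fun z => by
    have := hM z
    rwa [Real.norm_eq_abs] at this
  have h0 : ∀ z, z ∉ Ω → φ z = 0 := fun z hz => test_zero hφ hz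
  have hbdd := bdd_dval hb hM' h0 (U := Ω) subset_rfl
  obtain ⟨B, hB⟩ := hbdd
  have hB0 : 0 ≤ B := by
    have := hB ⟨_, isTest_zero Ω, rfl⟩
    simpa using this
  refine ⟨Real.sqrt B, Real.sqrt_nonneg _, ?_⟩
  intro v hv
  -- scaling
  have hscale : ∀ t : ℝ, 2 * t * (∫ z, φ z * v z) - t ^ 2 * ‖gr v‖ ^ 2 ≤ B := by
    intro t
    have h1 := hB ⟨_, test_comb hv hv t 0, rfl⟩
    have e1 : ∫ z, φ z * (t * v z + 0 * v z) = t * ∫ z, φ z * v z := by
      rw [← integral_const_mul]
      congr 1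
      funext z
      ring
    have e2 : ∫ z, ‖fderiv ℝ (fun z => t * v z + 0 * v z) z‖ ^ 2 = t ^ 2 * ‖gr v‖ ^ 2 := by
      rw [← norm_gr (test_comb hv hv t 0), gr_comb hv hv, zero_smul, add_zero, norm_smul,
        mul_pow, Real.norm_eq_abs, sq_abs]
    rw [e1, e2] at h1
    linarith
  set X := ∫ z, φ z * v z with hX
  set N := ‖gr v‖ with hN
  have hN0 : 0 ≤ N := norm_nonneg _
  have hXN : X ^ 2 ≤ B * N ^ 2 := by
    rcases eq_or_lt_of_le hN0 with h | h
    · -- N = 0
      have hX0 : X = 0 := by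
        by_contra hne
        have h1 := hscale ((B + 1) / X)
        rw [← h] at h1
        have h2 : 2 * ((B + 1) / X) * X = 2 * (B + 1) := by
          field_simp
        rw [h2] at h1
        nlinarith
      rw [hX0, ← h]
      simp
    · have h1 := hscale (X / N ^ 2)
      have h2 : 2 * (X / N ^ 2) * X - (X / N ^ 2) ^ 2 * N ^ 2 = X ^ 2 / N ^ 2 := by
        field_simp
        ring
      rw [h2, div_le_iff₀ (by positivity)] at h1
      exact h1
  apply abs_le_of_sq_le_sq _ (by positivity)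
  rw [mul_pow, Real.sq_sqrt hB0]
  exact hXN

/-- Riesz representation -/
theorem exists_R {Ω : Set ℂ} (hb : Bornology.IsBounded Ω) {φ : ℂ → ℝ} (hφ : IsTest Ω φ) :
    ∃ r ∈ GV Ω, ∀ v, IsTest Ω v → inner ℝ r (gr v) = ∫ z, φ z * v z := by
  obtain ⟨C, hC0, hC⟩ := energy_bound hb hφ
  have hint : ∀ v, IsTest Ω v → Integrable (fun z => φ z * v z) := fun v hv =>
    (hφ.1.continuous.mul hv.1.continuous).integrable_of_hasCompactSupport hφ.2.1.mul_right
  -- well defined
  have hwd : ∀ v w, IsTest Ω v → IsTest Ω w → gr v = gr w →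
      ∫ z, φ z * v z = ∫ z, φ z * w z := by
    intro v w hv hw hvw
    have h1 := hC _ (test_comb hv hw 1 (-1))
    rw [gr_comb hv hw, hvw, one_smul, neg_one_smul, add_neg_cancel, norm_zero, mul_zero] at h1
    have h2 : ∫ z, φ z * (1 * v z + -1 * w z) = (∫ z, φ z * v z) - ∫ z, φ z * w z := by
      rw [← integral_sub (hint v hv) (hint w hw)]
      congr 1
      funext z
      ring
    rw [h2] at h1
    have h3 := abs_nonpos_iff.1 h1
    linarith
  choose pick hpick1 hpick2 using fun f : G0 Ω => f.2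
  let ℓ : G0 Ω →ₗ[ℝ] ℝ :=
    { toFun := fun f => ∫ z, φ z * pick f z
      map_add' := by
        intro f g
        have h1 := test_comb (hpick1 f) (hpick1 g) 1 1
        have h2 : gr (pick (f + g)) = gr (fun z => 1 * pick f z + 1 * pick g z) := by
          rw [gr_comb (hpick1 f) (hpick1 g), one_smul, one_smul, ← hpick2, ← hpick2, ← hpick2]
          rfl
        rw [hwd _ _ (hpick1 _) h1 h2, ← integral_add (hint _ (hpick1 f)) (hint _ (hpick1 g))]
        congr 1
        funext z
        ring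
      map_smul' := by
        intro c f
        have h1 := test_comb (hpick1 f) (hpick1 f) c 0
        have h2 : gr (pick (c • f)) = gr (fun z => c * pick f z + 0 * pick f z) := by
          rw [gr_comb (hpick1 f) (hpick1 f), zero_smul, add_zero, ← hpick2, ← hpick2]
          rfl
        rw [hwd _ _ (hpick1 _) h1 h2, RingHom.id_apply, smul_eq_mul, ← integral_const_mul]
        congr 1
        funext z
        ring }
  have hℓ : ∀ f : G0 Ω, ‖ℓ f‖ ≤ C * ‖f‖ := by
    intro f
    have h1 := hC _ (hpick1 f)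
    rw [← hpick2] at h1
    exact h1
  obtain ⟨g, hg, -⟩ := exists_extension_norm_eq (𝕜 := ℝ) (G0 Ω) (ℓ.mkContinuous C hℓ)
  set r : HL := (InnerProductSpace.toDual ℝ HL).symm g with hr
  refine ⟨(GV Ω).starProjection r, ?_, ?_⟩
  · rw [Submodule.starProjection_apply]
    exact Submodule.coe_mem _
  · intro v hv
    rw [Submodule.inner_starProjection_left_eq_right,
      Submodule.starProjection_eq_self_iff.2 (gr_mem hv), hr, InnerProductSpace.toDual_symm_apply]
    have h1 := hg ⟨gr v, v, hv, rfl⟩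
    rw [h1]
    show ∫ z, φ z * pick ⟨gr v, v, hv, rfl⟩ z = ∫ z, φ z * v z
    exact hwd _ _ (hpick1 _) hv (hpick2 ⟨gr v, v, hv, rfl⟩).symm

/-- the Dirichlet principle in `GV Ω` -/
theorem green_proj {Ω : Set ℂ} {U : Set ℂ} (hU : U ⊆ Ω) {φ : ℂ → ℝ} {r : HL}
    (hr : ∀ v, IsTest Ω v → inner ℝ r (gr v) = ∫ z, φ z * v z) :
    greenEnergy U φ = ‖(GV U).starProjection r‖ ^ 2 := by
  set p := (GV U).starProjection r with hp
  have hpm : p ∈ GV U := by
    rw [hp, Submodule.starProjection_apply]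
    exact Submodule.coe_mem _
  -- completing the square
  have hval : ∀ v, IsTest U v → 2 * (∫ z, φ z * v z) - ∫ z, ‖fderiv ℝ v z‖ ^ 2 =
      ‖p‖ ^ 2 - ‖p - gr v‖ ^ 2 := by
    intro v hv
    have hvΩ : IsTest Ω v := ⟨hv.1, hv.2.1, hv.2.2.trans hU⟩
    have h1 : inner ℝ p (gr v) = ∫ z, φ z * v z := by
      rw [← hr v hvΩ, hp, Submodule.inner_starProjection_left_eq_right,
        Submodule.starProjection_eq_self_iff.2 (gr_mem hv)]
    rw [← norm_gr hv, ← h1, norm_sub_sq_real]
    ring
  apply le_antisymm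
  · apply greenEnergy_le
    intro v hv
    rw [hval v hv]
    have := sq_nonneg ‖p - gr v‖
    linarith
  · have hbdd : BddAbove {x | ∃ v, IsTest U v ∧ x = 2 * (∫ z, φ z * v z) -
        ∫ z, ‖fderiv ℝ v z‖ ^ 2} := by
      refine ⟨‖p‖ ^ 2, ?_⟩
      rintro x ⟨v, hv, rfl⟩
      rw [hval v hv]
      have := sq_nonneg ‖p - gr v‖
      linarith
    apply le_of_forall_pos_le_add
    intro ε hε
    have hcl : p ∈ closure (G0 U : Set HL) := by
      have := hpm
      rw [GV_eq] at this
      exact this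
    obtain ⟨f, ⟨v, hv, rfl⟩, hf⟩ := Metric.mem_closure_iff.1 hcl (Real.sqrt ε) (Real.sqrt_pos.2 hε)
    have h1 : ‖p - gr v‖ ^ 2 ≤ ε := by
      rw [dist_eq_norm] at hf
      calc ‖p - gr v‖ ^ 2 ≤ (Real.sqrt ε) ^ 2 := pow_le_pow_left₀ (norm_nonneg _) hf.le 2
        _ = ε := Real.sq_sqrt hε.le
    have h2 : ‖p‖ ^ 2 - ‖p - gr v‖ ^ 2 ≤ greenEnergy U φ := by
      rw [← hval v hv]
      exact le_csSup hbdd ⟨v, hv, rfl⟩
    linarith

theorem negLap_nlap {U : Set ℂ} {v : ℂ → ℝ} (hv : IsTest U v) : NegLap v (nlap v) := by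
  intro w hw
  have hc : ∀ e : ℂ, Integrable (fun z => fderiv ℝ v z e * fderiv ℝ w z e) := by
    intro e
    exact ((smooth_dir hv.1 e).continuous.mul
      (smooth_dir hw.1 e).continuous).integrable_of_hasCompactSupport
      (hv.2.1.fderiv_apply ℝ e).mul_right
  have hd : ∀ e : ℂ, Integrable (fun z => fderiv ℝ (fun w => fderiv ℝ v w e) z e * w z) := by
    intro e
    exact ((smooth_dir (smooth_dir hv.1 e) e).continuous.mul
      hw.1.continuous).integrable_of_hasCompactSupport hw.2.1.mul_left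
  rw [integral_add (hc 1) (hc Complex.I), ibp hv.1 hw.1 hw.2.1, ibp hv.1 hw.1 hw.2.1, ← neg_add,
    ← integral_add (hd 1) (hd Complex.I), ← integral_neg]
  congr 1
  funext z
  unfold nlap
  ring

theorem tsupport_nlap (v : ℂ → ℝ) : tsupport (nlap v) ⊆ tsupport v := by
  apply closure_minimal _ (isClosed_tsupport v)
  intro z hz
  by_contra h
  exact hz (nlap_eq_zero h)

theorem hilStmt : HilStmt := by
  classical
  intro Ω hΩ hb
  refine ⟨fun φ => if h : IsTest Ω φ then (exists_R hb h).choose else 0, ?_, ?_, ?_, ?_, ?_⟩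
  · intro φ
    by_cases h : IsTest Ω φ
    · simp only [dif_pos h]
      exact (exists_R hb h).choose_spec.1
    · simp only [dif_neg h]
      exact (GV Ω).zero_mem
  · intro φ ψ hφ hψ s t
    have hc := test_comb hφ hψ s t
    simp only [dif_pos hφ, dif_pos hψ, dif_pos hc]
    have s1 := (exists_R hb hφ).choose_spec
    have s2 := (exists_R hb hψ).choose_spec
    have s3 := (exists_R hb hc).choose_spec
    apply GV_ext s3.1 ((GV Ω).add_mem ((GV Ω).smul_mem s s1.1) ((GV Ω).smul_mem t s2.1))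
    intro v hv
    rw [s3.2 v hv, inner_add_left, inner_smul_left, inner_smul_left, s1.2 v hv, s2.2 v hv]
    simp only [conj_trivial]
    rw [← integral_const_mul, ← integral_const_mul, ← integral_add]
    · congr 1
      funext z
      ring
    · exact ((hφ.1.continuous.mul
        hv.1.continuous).integrable_of_hasCompactSupport hφ.2.1.mul_right).const_mul s
    · exact ((hψ.1.continuous.mul
        hv.1.continuous).integrable_of_hasCompactSupport hψ.2.1.mul_right).const_mul t
  · intro U hU φ hφ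
    simp only [dif_pos hφ]
    exact green_proj hU (exists_R hb hφ).choose_spec.2
  · intro v φ hv hφ hvφ
    simp only [dif_pos hφ]
    have s1 := (exists_R hb hφ).choose_spec
    apply GV_ext s1.1 (gr_mem hv)
    intro w hw
    rw [s1.2 w hw, inner_gr hv hw]
    exact hvφ w ⟨hw.1, hw.2.1, subset_univ _⟩
  · intro v hv
    exact ⟨nlap v, isTest_nlap hv, tsupport_nlap v, negLap_nlap hv⟩

end Vale.Agent.P155.U
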