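import Vale.Agent.P155.U.Iface3
import Vale.Agent.P155.U.Hil

/-!
# P155 uniqueness: blocks PRJ and MEA
-/

namespace Vale.Agent.P155.U

open MeasureTheory Set TopologicalSpace Vale.Agent.P155.Uq Filter Topology
open scoped ContDiff

theorem G0_mono {U U' : Set ℂ} (h : U ⊆ U') : G0 U ≤ G0 U' := by
  rintro _ ⟨v, hv, rfl⟩
  exact ⟨v, ⟨hv.1, hv.2.1, hv.2.2.trans h⟩, rfl⟩

theorem GV_mono {U U' : Set ℂ} (h : U ⊆ U') : GV U ≤ GV U' := by
  rw [GV_eq, GV_eq]
  exact Submodule.topologicalClosure_mono (G0_mono h)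

theorem prjStmt : PrjStmt := by
  refine ⟨fun U U' h => GV_mono h, ?_⟩
  intro U V hmono hsub hex f
  have hm : Monotone V := monotone_nat_of_le_succ hmono
  have hmG : Monotone (fun n => GV (V n)) := fun a b hab => GV_mono (hm hab)
  have hcl : (⨆ n, GV (V n)).topologicalClosure = GV U := by
    apply le_antisymm
    · apply Submodule.topologicalClosure_minimal
      · exact iSup_le fun n => GV_mono (hsub n)
      · rw [GV_eq]
        exact Submodule.isClosed_topologicalClosure _
    · rw [GV_eq]
      apply Submodule.topologicalClosure_mono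
      rintro _ ⟨v, hv, rfl⟩
      obtain ⟨n, hn⟩ := hex v hv
      exact (le_iSup (fun n => GV (V n)) n) (gr_mem ⟨hv.1, hv.2.1, hn⟩)
  have hproj : (⨆ n, GV (V n)).topologicalClosure.HasOrthogonalProjection := by
    rw [hcl]
    infer_instance
  have h := Submodule.starProjection_tendsto_closure_iSup (fun n => GV (V n)) hmG f
  have e : (⨆ n, GV (V n)).topologicalClosure.starProjection f = (GV U).starProjection f := by
    congr! 2
  rw [e] at h
  exact h

/-- quadratic form of the projection at gradients -/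
theorem proj_gr_sq {Ω U : Set ℂ} (hU : U ⊆ Ω) {v : ℂ → ℝ} (hv : IsTest Ω v) :
    ‖(GV U).starProjection (gr v)‖ ^ 2 = greenEnergy U (nlap v) := by
  symm
  apply green_proj hU
  intro w hw
  rw [inner_gr hv hw]
  exact (negLap_nlap hv w ⟨hw.1, hw.2.1, subset_univ _⟩).symm

theorem polar_proj (K : Submodule ℝ HL) [K.HasOrthogonalProjection] (f g : HL) :
    inner ℝ (K.starProjection f) g =
      (‖K.starProjection (f + g)‖ ^ 2 - ‖K.starProjection (f - g)‖ ^ 2) / 4 := by
  have h1 : inner ℝ (K.starProjection f) g =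
      inner ℝ (K.starProjection f) (K.starProjection g) := by
    have hm : K.starProjection g ∈ K := by
      rw [Submodule.starProjection_apply]
      exact Submodule.coe_mem _
    rw [Submodule.inner_starProjection_left_eq_right K f g,
      Submodule.inner_starProjection_left_eq_right K f (K.starProjection g),
      Submodule.starProjection_eq_self_iff.2 hm]
  rw [h1, map_add, map_sub, norm_add_sq_real, norm_sub_sq_real]
  ring

theorem meas_gr {Ω : Set ℂ} (hb : Bornology.IsBounded Ω) {v w : ℂ → ℝ} (hv : IsTest Ω v)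
    (hw : IsTest Ω w) :
    Measurable (fun A : NonemptyCompacts ℂ =>
      inner ℝ ((GV (Ω \ A)).starProjection (gr v)) (gr w)) := by
  have h1 := test_comb hv hw 1 1
  have h2 := test_comb hv hw 1 (-1)
  have e : (fun A : NonemptyCompacts ℂ =>
      inner ℝ ((GV (Ω \ A)).starProjection (gr v)) (gr w)) =
      fun A : NonemptyCompacts ℂ =>
        (greenEnergy (Ω \ A) (nlap (fun z => 1 * v z + 1 * w z)) -
          greenEnergy (Ω \ A) (nlap (fun z => 1 * v z + -1 * w z))) / 4 := by
    funext A
    rw [polar_proj, ← proj_gr_sq (Ω := Ω) sdiff_subset h1, ← proj_gr_sq (Ω := Ω) sdiff_subset h2,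
      gr_comb hv hw, gr_comb hv hw, one_smul, one_smul, neg_one_smul, ← sub_eq_add_neg]
  rw [e]
  exact ((measurable_green hb (isTest_nlap h1)).sub
    (measurable_green hb (isTest_nlap h2))).div_const 4

theorem exists_seq_gr {Ω : Set ℂ} {f : HL} (hf : f ∈ GV Ω) :
    ∃ v : ℕ → ℂ → ℝ, (∀ n, IsTest Ω (v n)) ∧ Tendsto (fun n => gr (v n)) atTop (𝓝 f) := by
  rw [GV_eq] at hf
  obtain ⟨x, hx, hlim⟩ := mem_closure_iff_seq_limit.1 (show f ∈ closure (G0 Ω : Set HL) from hf)
  choose v hv hvx using hx
  refine ⟨v, hv, ?_⟩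
  have : (fun n => gr (v n)) = x := by
    funext n
    exact (hvx n).symm
  rw [this]
  exact hlim

theorem meaStmt : MeaStmt := by
  intro Ω hΩ hb f g hf hg
  obtain ⟨v, hv, hvf⟩ := exists_seq_gr hf
  obtain ⟨w, hw, hwg⟩ := exists_seq_gr hg
  apply measurable_of_tendsto_metrizable
    (f := fun n (A : NonemptyCompacts ℂ) =>
      inner ℝ ((GV (Ω \ A)).starProjection (gr (v n))) (gr (w n)))
  · intro n
    exact meas_gr hb (hv n) (hw n)
  · rw [tendsto_pi_nhds]
    intro A
    exact (((GV (Ω \ A)).starProjection.continuous.tendsto f).comp hvf).inner hwg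

end Vale.Agent.P155.U
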