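import Vale.Agent.P155.U.Vk2

/-!
# P155, block U: the Green energies tend to zero
-/

namespace Vale.Agent.P155.Uq

open MeasureTheory Filter Topology TopologicalSpace

section pairing
variable {Ω : Set ℂ}

theorem memLp_test {φ : ℂ → ℝ} {U : Set ℂ} (hφ : IsTest U φ) :
    MemLp φ 2 (volume.restrict Ω : Measure ℂ) :=
  (hφ.1.continuous.memLp_of_hasCompactSupport hφ.2.1).restrict Ω

theorem integrable_pr (f : Fld Ω) {φ : ℂ → ℝ} {U : Set ℂ} (hφ : IsTest U φ) :
    IntegrableOn (fun z => f z * φ z) Ω :=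
  (Lp.memLp f).integrable_mul (memLp_test hφ)

/-- the pairing as an inner product -/
theorem pr_eq_inner (f : Fld Ω) {φ : ℂ → ℝ} {U : Set ℂ} (hφ : IsTest U φ) :
    pr f φ = inner ℝ ((memLp_test (Ω := Ω) hφ).toLp φ) f := by
  rw [L2.inner_def]
  unfold pr
  apply integral_congr_ae
  filter_upwards [(memLp_test (Ω := Ω) hφ).coeFn_toLp] with z hz
  rw [hz]
  simp [inner]

theorem continuous_pr {φ : ℂ → ℝ} {U : Set ℂ} (hφ : IsTest U φ) :
    Continuous (fun f : Fld Ω => pr f φ) := by
  have : (fun f : Fld Ω => pr f φ) = fun f => inner ℝ ((memLp_test (Ω := Ω) hφ).toLp φ) f := by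
    funext f
    exact pr_eq_inner f hφ
  rw [this]
  exact continuous_const.inner continuous_id

theorem measurable_pr {φ : ℂ → ℝ} {U : Set ℂ} (hφ : IsTest U φ) :
    Measurable (fun f : Fld Ω => pr f φ) := (continuous_pr hφ).measurable

end pairing

section
variable {Ω : Set ℂ}

theorem green_bounds (hb : Bornology.IsBounded Ω) {φ : ℂ → ℝ} (hφ : IsTest Ω φ) :
    ∃ B : ℝ, ∀ K : Set ℂ, 0 ≤ greenEnergy (Ω \ K) φ ∧ greenEnergy (Ω \ K) φ ≤ B := by
  obtain ⟨M, hM⟩ := hφ.1.continuous.bounded_above_of_compact_support hφ.2.1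
  have hM' : ∀ z, |φ z| ≤ M := fun z => by
    have := hM z
    rwa [Real.norm_eq_abs] at this
  have hz0 : ∀ z, z ∉ Ω → φ z = 0 := fun z hz => U.test_zero hφ hz
  refine ⟨greenEnergy Ω φ, fun K => ⟨?_, ?_⟩⟩
  · have hbdd := U.bdd_dval hb hM' hz0 (U := Ω \ K) Set.sdiff_subset
    have h1 := le_csSup hbdd ⟨_, U.isTest_zero _, rfl⟩
    refine le_trans (le_of_eq ?_) h1
    simp
  · have hbdd := U.bdd_dval hb hM' hz0 (U := Ω) subset_rfl
    apply U.greenEnergy_le
    intro v hv
    exact le_csSup hbdd ⟨v, ⟨hv.1, hv.2.1, hv.2.2.trans Set.sdiff_subset⟩, rfl⟩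

theorem measurable_carpet (k : ℕ) : Measurable (fun s : Sp Ω => (s k).1) :=
  measurable_fst.comp (measurable_pi_apply k)

theorem measurable_field (k : ℕ) : Measurable (fun s : Sp Ω => (s k).2) :=
  measurable_snd.comp (measurable_pi_apply k)

/-- one step of the hitting estimate -/
theorem hit_step (hb : Bornology.IsBounded Ω) {Q : Measure (Sp Ω)} (hQ : Canon Ω Q) {q : ℂ} {ρ : ℝ}
    (hρ : 0 < ρ) (hball : Metric.closedBall q ρ ⊆ Ω) : ∃ c : ℝ, 0 < c ∧ ∀ k : ℕ,
    (1 + c) * Q.real {s : Sp Ω | ρ < Metric.infDist q ((s (k + 1)).1 : Set ℂ)} ≤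
      Q.real {s : Sp Ω | ρ < Metric.infDist q ((s k).1 : Set ℂ)} := by
  have := hQ.prob
  let f : ContDiffBump q := ⟨ρ / 4, ρ / 2, by positivity, by linarith⟩
  have hf0 : 0 < ∫ z, f z := f.integral_pos
  have hcst : 0 < cst := Real.sqrt_pos.2 (by positivity)
  set lam : ℝ := Real.pi / (cst * ∫ z, f z) with hlam
  set φ : ℂ → ℝ := fun z => lam * f z with hφdef
  have hts : tsupport φ ⊆ Metric.closedBall q (ρ / 2) := by
    refine closure_minimal ?_ Metric.isClosed_closedBall
    intro z hz
    have h1 : f z ≠ 0 := right_ne_zero_of_mul hz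
    have h2 := subset_tsupport (f : ℂ → ℝ) h1
    rw [f.tsupport_eq] at h2
    exact h2
  have hcd : ContDiff ℝ ((⊤ : ℕ∞) : WithTop ℕ∞) φ := contDiff_const.mul f.contDiff
  have hcs : HasCompactSupport φ := f.hasCompactSupport.mul_left
  have hφb : tsupport φ ⊆ Metric.ball q ρ :=
    hts.trans (Metric.closedBall_subset_ball (by linarith))
  have hφ : IsTest Ω φ := ⟨hcd, hcs, hφb.trans (Metric.ball_subset_closedBall.trans hball)⟩
  have hint : ∫ z, φ z = Real.pi / cst := by
    rw [hφdef, integral_const_mul, hlam]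
    field_simp
  obtain ⟨B, hB⟩ := green_bounds hb hφ
  have hc0 : 0 < 2 * Real.exp (-(B / 2)) := by positivity
  refine ⟨2 * Real.exp (-(B / 2)), hc0, fun k => ?_⟩
  have mI : ∀ l, Measurable (fun s : Sp Ω => Metric.infDist q ((s l).1 : Set ℂ)) := by
    intro l
    have h1 : Continuous (fun C : NonemptyCompacts ℂ => Metric.infDist q (C : Set ℂ)) :=
      (Metric.lipschitz_infDist_set q).continuous
    exact h1.measurable.comp (measurable_carpet l)
  set E : ℕ → Set (Sp Ω) := fun l => {s | ρ < Metric.infDist q ((s l).1 : Set ℂ)} with hE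
  have mE : ∀ l, MeasurableSet (E l) := fun l => measurableSet_lt measurable_const (mI l)
  set V : ℕ → Sp Ω → ℝ := fun l s => greenEnergy (Ω \ (s l).1) φ with hV
  have mV : ∀ l, Measurable (V l) := fun l => (U.measurable_green hb hφ).comp (measurable_carpet l)
  set D : Sp Ω → ℝ := fun s => pr (s (k + 1)).2 φ - pr (s k).2 φ with hD
  have mD : Measurable D := ((measurable_pr hφ).comp (measurable_field (k + 1))).sub
    ((measurable_pr hφ).comp (measurable_field k))
  -- the functional
  set Ψ : Past Ω k → ℝ := Set.indicator {p | ρ < Metric.infDist q ((p (Fin.last k)).1 : Set ℂ)}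
    (fun _ => 1) with hΨ
  have hΨm : BM Ψ := by
    constructor
    · apply measurable_const.indicator
      apply measurableSet_lt measurable_const
      have h1 : Continuous (fun C : NonemptyCompacts ℂ => Metric.infDist q (C : Set ℂ)) :=
        (Metric.lipschitz_infDist_set q).continuous
      exact h1.measurable.comp (measurable_fst.comp (measurable_pi_apply _))
    · refine ⟨1, fun s => ?_⟩
      rw [hΨ]
      by_cases h : s ∈ {p : Past Ω k | ρ < Metric.infDist q ((p (Fin.last k)).1 : Set ℂ)}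
      · rw [Set.indicator_of_mem h, abs_one]
      · rw [Set.indicator_of_notMem h, abs_zero]
        exact zero_le_one
  have hΨE : ∀ s : Sp Ω, Ψ (past k s) = (E k).indicator (fun _ => (1 : ℝ)) s := by
    intro s
    rw [hΨ]
    by_cases h : s ∈ E k
    · rw [Set.indicator_of_mem h]
      exact Set.indicator_of_mem (show past k s ∈ {p : Past Ω k |
        ρ < Metric.infDist q ((p (Fin.last k)).1 : Set ℂ)} from h) _
    · rw [Set.indicator_of_notMem h]
      exact Set.indicator_of_notMem (show past k s ∉ {p : Past Ω k |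
        ρ < Metric.infDist q ((p (Fin.last k)).1 : Set ℂ)} from h) _
  have hid := hQ.gff k φ hφ Ψ hΨm
  simp_rw [hΨE] at hid
  have hind : ∀ l s, (E l).indicator (fun _ => (1 : ℝ)) s = 0 ∨
      (E l).indicator (fun _ => (1 : ℝ)) s = 1 := by
    intro l s
    by_cases hx : s ∈ E l
    · right
      exact Set.indicator_of_mem hx _
    · left
      exact Set.indicator_of_notMem hx _
  have mi : ∀ l, Measurable ((E l).indicator (fun _ => (1 : ℝ))) := fun l =>
    measurable_const.indicator (mE l)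
  -- integrability of the left side
  have hleft : Integrable (fun s : Sp Ω => (((E k).indicator (fun _ => (1 : ℝ)) s : ℝ) : ℂ) *
      Complex.exp (Complex.I * cst * (pr (s (k + 1)).2 φ - pr (s k).2 φ) -
        greenEnergy (Ω \ (s (k + 1)).1) φ / 2)) Q := by
    have hm : Measurable (fun s : Sp Ω => (((E k).indicator (fun _ => (1 : ℝ)) s : ℝ) : ℂ) *
      Complex.exp (Complex.I * cst * (pr (s (k + 1)).2 φ - pr (s k).2 φ) -
        greenEnergy (Ω \ (s (k + 1)).1) φ / 2)) := by
      refine (Complex.measurable_ofReal.comp (mi k)).mul (Complex.measurable_exp.comp ?_)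
      have e1 : Measurable (fun s => ((D s : ℝ) : ℂ)) := Complex.measurable_ofReal.comp mD
      have e2 : Measurable (fun s => ((V (k + 1) s : ℝ) : ℂ)) :=
        Complex.measurable_ofReal.comp (mV (k + 1))
      have e3 : (fun s : Sp Ω => (Complex.I * cst * (pr (s (k + 1)).2 φ - pr (s k).2 φ) -
        greenEnergy (Ω \ (s (k + 1)).1) φ / 2 : ℂ)) =
          fun s => Complex.I * cst * ((D s : ℝ) : ℂ) - ((V (k + 1) s : ℝ) : ℂ) / 2 := by
        funext s
        rw [hD, hV]
        push_cast
        rfl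
      rw [e3]
      exact (e1.const_mul _).sub (e2.div_const 2)
    refine Integrable.of_bound hm.aestronglyMeasurable 1 (Eventually.of_forall fun s => ?_)
    rw [norm_mul, Complex.norm_real, Complex.norm_exp]
    have h1 : (Complex.I * cst * (pr (s (k + 1)).2 φ - pr (s k).2 φ) -
        greenEnergy (Ω \ (s (k + 1)).1) φ / 2 : ℂ).re = -(V (k + 1) s / 2) := by
      simp [hV]
    rw [h1]
    have h2 : Real.exp (-(V (k + 1) s / 2)) ≤ 1 := by
      rw [Real.exp_le_one_iff]
      have h3 := (hB ((s (k + 1)).1 : Set ℂ)).1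
      have h4 : V (k + 1) s = greenEnergy (Ω \ ((s (k + 1)).1 : Set ℂ)) φ := rfl
      linarith
    have h5 := (Real.exp_pos (-(V (k + 1) s / 2))).le
    rcases hind k s with h | h <;> rw [h]
    · simp
    · simpa using h2
  have hright : Integrable (fun s : Sp Ω => (E k).indicator (fun _ => (1 : ℝ)) s *
      Real.exp (-(V k s / 2))) Q := by
    refine Integrable.of_bound ((mi k).mul (Real.measurable_exp.comp
      ((mV k).div_const 2).neg)).aestronglyMeasurable 1 (Eventually.of_forall fun s => ?_)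
    have h2 : Real.exp (-(V k s / 2)) ≤ 1 := by
      rw [Real.exp_le_one_iff]
      have h3 := (hB ((s k).1 : Set ℂ)).1
      have h4 : V k s = greenEnergy (Ω \ ((s k).1 : Set ℂ)) φ := rfl
      linarith
    have h5 := (Real.exp_pos (-(V k s / 2))).le
    rcases hind k s with h | h <;> rw [h]
    · simp
    · rw [one_mul, Real.norm_of_nonneg h5]
      exact h2
  have hR : (∫ s, (((E k).indicator (fun _ => (1 : ℝ)) s : ℝ) : ℂ) *
      Complex.exp (- greenEnergy (Ω \ (s k).1) φ / 2) ∂Q) =
      ((∫ s, (E k).indicator (fun _ => (1 : ℝ)) s * Real.exp (-(V k s / 2)) ∂Q : ℝ) : ℂ) := by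
    rw [← integral_complex_ofReal]
    congr 1
    funext s
    rw [Complex.ofReal_mul, Complex.ofReal_exp, hV]
    push_cast
    congr 2
    ring
  rw [hR] at hid
  have hre := integral_re hleft
  rw [hid] at hre
  have hre2 : (RCLike.re ((∫ s, (E k).indicator (fun _ => (1 : ℝ)) s *
      Real.exp (-(V k s / 2)) ∂Q : ℝ) : ℂ) : ℝ) =
      ∫ s, (E k).indicator (fun _ => (1 : ℝ)) s * Real.exp (-(V k s / 2)) ∂Q :=
    Complex.ofReal_re _
  rw [hre2] at hre
  have hrex : ∀ s : Sp Ω, (RCLike.re ((((E k).indicator (fun _ => (1 : ℝ)) s : ℝ) : ℂ) *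
      Complex.exp (Complex.I * cst * (pr (s (k + 1)).2 φ - pr (s k).2 φ) -
        greenEnergy (Ω \ (s (k + 1)).1) φ / 2)) : ℝ) =
      (E k).indicator (fun _ => (1 : ℝ)) s *
        (Real.exp (-(V (k + 1) s / 2)) * Real.cos (cst * D s)) := by
    intro s
    have e1 : (Complex.I * cst * (pr (s (k + 1)).2 φ - pr (s k).2 φ) -
        greenEnergy (Ω \ (s (k + 1)).1) φ / 2 : ℂ) =
        ((-(V (k + 1) s / 2) : ℝ) : ℂ) + ((cst * D s : ℝ) : ℂ) * Complex.I := by
      rw [hV, hD]
      push_cast
      ring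
    rw [e1]
    show ((((E k).indicator (fun _ => (1 : ℝ)) s : ℝ) : ℂ) *
      Complex.exp (((-(V (k + 1) s / 2) : ℝ) : ℂ) + ((cst * D s : ℝ) : ℂ) * Complex.I)).re = _
    rw [Complex.re_ofReal_mul, Complex.exp_re]
    simp
  -- pointwise inequality, integrated
  have key : ∫ s, ((2 * Real.exp (-(B / 2)) + 1) * (E (k + 1)).indicator (fun _ => (1 : ℝ)) s -
      (E k).indicator (fun _ => (1 : ℝ)) s) ∂Q ≤
      ∫ s, ((E k).indicator (fun _ => (1 : ℝ)) s * Real.exp (-(V k s / 2)) -
        RCLike.re ((((E k).indicator (fun _ => (1 : ℝ)) s : ℝ) : ℂ) *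
      Complex.exp (Complex.I * cst * (pr (s (k + 1)).2 φ - pr (s k).2 φ) -
        greenEnergy (Ω \ (s (k + 1)).1) φ / 2))) ∂Q := by
    have ii : ∀ l, Integrable ((E l).indicator (fun _ => (1 : ℝ))) Q := fun l =>
      (integrable_const (1 : ℝ)).indicator (mE l)
    apply integral_mono_ae (((ii (k + 1)).const_mul _).sub (ii k)) (hright.sub hleft.re)
    filter_upwards [hQ.mono, hQ.sign] with s hm hsg
    simp only [Pi.sub_apply]
    rw [hrex s]
    have hV0 : 0 ≤ V (k + 1) s ∧ V (k + 1) s ≤ B := hB _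
    have hV1 : 0 ≤ V k s ∧ V k s ≤ B := hB _
    have x1 : Real.exp (-(V (k + 1) s / 2)) ≤ 1 := by
      rw [Real.exp_le_one_iff]
      linarith [hV0.1]
    have x2 : Real.exp (-(B / 2)) ≤ Real.exp (-(V (k + 1) s / 2)) :=
      Real.exp_le_exp.2 (by linarith [hV0.2])
    have x3 : Real.exp (-(B / 2)) ≤ Real.exp (-(V k s / 2)) :=
      Real.exp_le_exp.2 (by linarith [hV1.2])
    by_cases h1 : s ∈ E (k + 1)
    · have h0 : s ∈ E k := by
        have h2 : Metric.infDist q ((s (k + 1)).1 : Set ℂ) ≤ Metric.infDist q ((s k).1 : Set ℂ) :=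
          Metric.infDist_le_infDist_of_subset (hm k).1 (s k).1.nonempty
        exact lt_of_lt_of_le h1 h2
      rw [Set.indicator_of_mem h1, Set.indicator_of_mem h0]
      have hdisj : Disjoint (Metric.closedBall q ρ) ((s (k + 1)).1 : Set ℂ) := by
        rw [Set.disjoint_left]
        intro z hz hz'
        have h3 := Metric.infDist_le_dist_of_mem hz' (x := q)
        rw [Metric.mem_closedBall, dist_comm] at hz
        have h4 : ρ < Metric.infDist q ((s (k + 1)).1 : Set ℂ) := h1
        linarith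
      obtain ⟨t, ht, hts'⟩ := hsg k q ρ hρ hball hdisj
      have hDt : D s = t * (Real.pi / cst) := by
        rw [hD]
        simp only
        unfold pr
        rw [← integral_sub (integrable_pr _ hφ) (integrable_pr _ hφ), ← hint, ← integral_const_mul]
        have e4 : ∫ z in Ω, ((s (k + 1)).2 z * φ z - (s k).2 z * φ z) = ∫ z in Ω, t * φ z := by
          apply integral_congr_ae
          filter_upwards [hts'] with z hz
          by_cases hzb : z ∈ Metric.ball q ρ
          · rw [← sub_mul, hz hzb]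
          · have : φ z = 0 := by
              by_contra h5
              exact hzb (hφb (subset_tsupport φ h5))
            rw [this]
            ring
        rw [e4]
        apply setIntegral_eq_integral_of_forall_compl_eq_zero
        intro z hz
        rw [U.test_zero hφ hz, mul_zero]
      have hcos : Real.cos (cst * D s) = -1 := by
        have e5 : cst * D s = t * Real.pi := by
          rw [hDt]
          field_simp
        rw [e5]
        rcases ht with rfl | rfl
        · rw [one_mul, Real.cos_pi]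
        · rw [neg_one_mul, Real.cos_neg, Real.cos_pi]
      rw [hcos]
      linarith
    · rw [Set.indicator_of_notMem h1]
      by_cases h0 : s ∈ E k
      · rw [Set.indicator_of_mem h0]
        have h6 : Real.exp (-(V (k + 1) s / 2)) * Real.cos (cst * D s) ≤ 1 := by
          have h7 := Real.cos_le_one (cst * D s)
          have h8 := (Real.exp_pos (-(V (k + 1) s / 2))).le
          calc Real.exp (-(V (k + 1) s / 2)) * Real.cos (cst * D s)
              ≤ Real.exp (-(V (k + 1) s / 2)) * 1 := mul_le_mul_of_nonneg_left h7 h8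
            _ ≤ 1 := by linarith
        have h9 := (Real.exp_pos (-(V k s / 2))).le
        linarith
      · rw [Set.indicator_of_notMem h0]
        simp
  rw [integral_sub hright hleft.re, hre, sub_self] at key
  have ii : ∀ l, Integrable ((E l).indicator (fun _ => (1 : ℝ))) Q := fun l =>
    (integrable_const (1 : ℝ)).indicator (mE l)
  have iv : ∀ l, ∫ s, (E l).indicator (fun _ => (1 : ℝ)) s ∂Q = Q.real (E l) := by
    intro l
    rw [integral_indicator (mE l), setIntegral_const, smul_eq_mul, mul_one]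
  rw [integral_sub ((ii (k + 1)).const_mul _) (ii k), integral_const_mul, iv, iv] at key
  linarith

/-- every closed ball of the domain is hit by some carpet -/
theorem hit_ball (hb : Bornology.IsBounded Ω) {Q : Measure (Sp Ω)} (hQ : Canon Ω Q) {q : ℂ} {ρ : ℝ}
    (hρ : 0 < ρ) (hball : Metric.closedBall q ρ ⊆ Ω) :
    ∀ᵐ s ∂Q, ∃ k, ∃ w ∈ ((s k).1 : Set ℂ), dist w q ≤ ρ := by
  have := hQ.prob
  obtain ⟨c, hc, hstep⟩ := hit_step hb hQ hρ hball
  set E : ℕ → Set (Sp Ω) := fun l => {s | ρ < Metric.infDist q ((s l).1 : Set ℂ)} with hE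
  have h1 : ∀ k, Q.real (E k) ≤ ((1 + c)⁻¹) ^ k := by
    intro k
    induction k with
    | zero =>
      rw [pow_zero]
      exact measureReal_le_one
    | succ k ih =>
      have h2 := hstep k
      rw [pow_succ]
      have h3 : Q.real (E (k + 1)) ≤ Q.real (E k) * (1 + c)⁻¹ := by
        rw [← div_eq_mul_inv, le_div_iff₀ (by linarith)]
        linarith
      exact h3.trans (mul_le_mul_of_nonneg_right ih (by positivity))
  have h2 : Q.real {s : Sp Ω | ∀ k, s ∈ E k} = 0 := by
    apply le_antisymm _ measureReal_nonneg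
    have h3 : Tendsto (fun k : ℕ => ((1 + c)⁻¹) ^ k) atTop (𝓝 0) := by
      apply tendsto_pow_atTop_nhds_zero_of_lt_one (by positivity)
      rw [inv_lt_one₀ (by linarith)]
      linarith
    apply ge_of_tendsto h3
    filter_upwards with k
    refine le_trans (measureReal_mono ?_) (h1 k)
    intro s hs
    exact hs k
  have h3 : Q {s : Sp Ω | ∀ k, s ∈ E k} = 0 := by
    rwa [measureReal_eq_zero_iff] at h2
  rw [measure_eq_zero_iff_ae_notMem] at h3
  filter_upwards [h3] with s hs
  have hs' : ¬ ∀ k, s ∈ E k := hs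
  push Not at hs'
  obtain ⟨k, hk⟩ := hs'
  have hk' : Metric.infDist q ((s k).1 : Set ℂ) ≤ ρ := not_lt.1 hk
  obtain ⟨w, hw, hwd⟩ := (s k).1.isCompact.exists_infDist_eq_dist (s k).1.nonempty q
  refine ⟨k, w, hw, ?_⟩
  rw [dist_comm, ← hwd]
  exact hk'

/-- **VK.** -/
theorem vk : VkStmt := by
  intro Ω hΩ hb hne Q hQ φ hφ
  have := hQ.prob
  have h1 : ∀ᵐ s ∂Q, ∀ i m : ℕ, Metric.closedBall (denseSeq ℂ i) (1 / (m + 1 : ℝ)) ⊆ Ω →
      ∃ k, ∃ w ∈ ((s k).1 : Set ℂ), dist w (denseSeq ℂ i) ≤ 1 / (m + 1 : ℝ) := by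
    rw [ae_all_iff]
    intro i
    rw [ae_all_iff]
    intro m
    by_cases h : Metric.closedBall (denseSeq ℂ i) (1 / (m + 1 : ℝ)) ⊆ Ω
    · filter_upwards [hit_ball hb hQ (by positivity) h] with s hs _
      exact hs
    · exact Eventually.of_forall fun s h' => absurd h' h
  filter_upwards [h1, hQ.zero, hQ.mono, hQ.conn] with s hs h0 hm hc
  exact tendsto_green hΩ hb hne (K := fun k => ((s k).1 : Set ℂ)) (fun k => (hm k).1)
    (fun k => (hc k).isPreconnected) h0.1.ge hs hφ

end

end Vale.Agent.P155.Uq
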