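import Vale.Agent.P155.U.Iface4
import Vale.Agent.P155.U.Loch
import Vale.Agent.P155.U.Mea
import Vale.Agent.P155.U.Vk

/-!
# P155, block U, part (3) of `LocStmt`: locality of the field
-/

namespace Vale.Agent.P155.Uq

open MeasureTheory Filter Topology TopologicalSpace

section cts

variable {X : Type*} [MeasurableSpace X] {μ : Measure X} [IsProbabilityMeasure μ]

theorem loc_int {w : X → ℂ} (hw : AEStronglyMeasurable w μ) {C : ℝ} (hC : ∀ x, ‖w x‖ ≤ C)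
    {U : X → ℝ} (hU : AEStronglyMeasurable U μ) :
    Integrable (fun x => w x * Complex.exp (Complex.I * (U x : ℂ))) μ := by
  have h1 : AEMeasurable (fun x => (U x : ℂ)) μ :=
    Complex.measurable_ofReal.comp_aemeasurable hU.aemeasurable
  have h2 := (Complex.measurable_exp.comp_aemeasurable (h1.const_mul Complex.I)).aestronglyMeasurable
  refine Integrable.mono' (integrable_const C) (hw.mul h2) (Eventually.of_forall fun x => ?_)
  rw [norm_mul, mul_comm Complex.I, Complex.norm_exp_ofReal_mul_I, mul_one]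
  exact hC x

theorem norm_exp_sub_exp_le (a b : ℝ) :
    ‖Complex.exp (Complex.I * (a : ℂ)) - Complex.exp (Complex.I * (b : ℂ))‖ ≤ |a - b| := by
  have h : Complex.exp (Complex.I * (a : ℂ)) - Complex.exp (Complex.I * (b : ℂ)) =
      Complex.exp (Complex.I * (b : ℂ)) * (Complex.exp (Complex.I * ((a - b : ℝ) : ℂ)) - 1) := by
    rw [mul_sub, ← Complex.exp_add, mul_one]
    congr 2
    push_cast
    ring
  rw [h, norm_mul, mul_comm Complex.I (b : ℂ), Complex.norm_exp_ofReal_mul_I, one_mul]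
  simpa using Real.norm_exp_I_mul_ofReal_sub_one_le (x := a - b)

/-- The functional `F ↦ E[w e^{iF}]` is Lipschitz. -/
theorem lip_exp {w : X → ℝ} (hw : AEStronglyMeasurable w μ) {C : ℝ} (hC : ∀ x, |w x| ≤ C)
    (hC0 : 0 ≤ C) (F G : Lp ℝ 2 μ) :
    ‖(∫ x, (w x : ℂ) * Complex.exp (Complex.I * (F x : ℝ)) ∂μ) -
      ∫ x, (w x : ℂ) * Complex.exp (Complex.I * (G x : ℝ)) ∂μ‖ ≤ C * ‖F - G‖ := by
  have hwc : AEStronglyMeasurable (fun x => (w x : ℂ)) μ :=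
    (Complex.measurable_ofReal.comp_aemeasurable hw.aemeasurable).aestronglyMeasurable
  have hwb : ∀ x, ‖(w x : ℂ)‖ ≤ C := fun x => by rw [Complex.norm_real]; exact hC x
  rw [← integral_sub (loc_int hwc hwb (Lp.aestronglyMeasurable F))
    (loc_int hwc hwb (Lp.aestronglyMeasurable G))]
  have hm : MemLp (fun x => F x - G x) 2 μ := (Lp.memLp F).sub (Lp.memLp G)
  have hi : Integrable (fun x => ‖F x - G x‖) μ := (hm.integrable (by norm_num)).norm
  have h1 : ∫ x, ‖F x - G x‖ ∂μ ≤ ‖F - G‖ := by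
    rw [Lp.norm_def, integral_norm_eq_lintegral_enorm hm.1]
    apply ENNReal.toReal_mono (Lp.eLpNorm_ne_top _)
    have h2 : eLpNorm (fun x => F x - G x) 1 μ ≤ eLpNorm (fun x => F x - G x) 2 μ :=
      eLpNorm_le_eLpNorm_of_exponent_le (by norm_num) hm.1
    rw [eLpNorm_one_eq_lintegral_enorm] at h2
    refine h2.trans (le_of_eq ?_)
    exact eLpNorm_congr_ae (Lp.coeFn_sub F G).symm
  calc ‖∫ x, ((w x : ℂ) * Complex.exp (Complex.I * (F x : ℝ)) -
        (w x : ℂ) * Complex.exp (Complex.I * (G x : ℝ))) ∂μ‖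
      ≤ ∫ x, C * ‖F x - G x‖ ∂μ := by
        apply norm_integral_le_of_norm_le (hi.const_mul C)
        refine Eventually.of_forall fun x => ?_
        rw [← mul_sub, norm_mul]
        exact mul_le_mul (hwb x) (norm_exp_sub_exp_le _ _) (norm_nonneg _) hC0
    _ = C * ∫ x, ‖F x - G x‖ ∂μ := integral_const_mul _ _
    _ ≤ C * ‖F - G‖ := mul_le_mul_of_nonneg_left h1 hC0

theorem tendsto_exp {w : X → ℝ} (hw : AEStronglyMeasurable w μ) {C : ℝ} (hC : ∀ x, |w x| ≤ C)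
    (hC0 : 0 ≤ C) {F : ℕ → Lp ℝ 2 μ} {G : Lp ℝ 2 μ} (h : Tendsto F atTop (𝓝 G)) :
    Tendsto (fun n => ∫ x, (w x : ℂ) * Complex.exp (Complex.I * (F n x : ℝ)) ∂μ) atTop
      (𝓝 (∫ x, (w x : ℂ) * Complex.exp (Complex.I * (G x : ℝ)) ∂μ)) := by
  rw [tendsto_iff_norm_sub_tendsto_zero] at h ⊢
  refine squeeze_zero (fun _ => norm_nonneg _) (fun n => lip_exp hw hC hC0 (F n) G) ?_
  simpa using h.const_mul C

end cts

/-- The conditional characteristic function with complex weights. -/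
theorem gam_cx {Ω : Set ℂ} (hb : Bornology.IsBounded Ω) {Q : Measure (Sp Ω)}
    [IsProbabilityMeasure Q] {Γ : (ℂ → ℝ) → Sp Ω → ℝ}
    (hΓ2 : ∀ φ, IsTest Ω φ → MemLp (Γ φ) 2 Q)
    (hΓ : ∀ (k : ℕ) (φ : ℂ → ℝ), IsTest Ω φ → ∀ Ψ : Past Ω k → ℝ, BM Ψ →
      ∫ s, (Ψ (past k s) : ℂ) * Complex.exp (Complex.I * (Γ φ s - cst * pr (s k).2 φ)) ∂Q =
        ∫ s, (Ψ (past k s) : ℂ) * Complex.exp (- greenEnergy (Ω \ (s k).1) φ / 2) ∂Q)
    (k : ℕ) {φ : ℂ → ℝ} (hφ : IsTest Ω φ) {w : Past Ω k → ℂ} (hw : Measurable w) {C : ℝ}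
    (hC : ∀ p, ‖w p‖ ≤ C) :
    ∫ s, w (past k s) * Complex.exp (Complex.I * (Γ φ s - cst * pr (s k).2 φ)) ∂Q =
      ∫ s, w (past k s) * Complex.exp (- greenEnergy (Ω \ (s k).1) φ / 2) ∂Q := by
  obtain ⟨B, hB⟩ := green_bounds hb hφ
  have hpast : Measurable (past k : Sp Ω → Past Ω k) :=
    measurable_pi_lambda _ fun j => measurable_pi_apply _
  have hU : AEStronglyMeasurable (fun s : Sp Ω => Γ φ s - cst * pr (s k).2 φ) Q :=
    (hΓ2 φ hφ).1.sub (((measurable_pr hφ).comp (measurable_field k)).const_mul cst).aestronglyMeasurable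
  have hre : BM (fun p => (w p).re) :=
    ⟨Complex.measurable_re.comp hw, C, fun p => (Complex.abs_re_le_norm _).trans (hC p)⟩
  have him : BM (fun p => (w p).im) :=
    ⟨Complex.measurable_im.comp hw, C, fun p => (Complex.abs_im_le_norm _).trans (hC p)⟩
  have hgm : Measurable (fun s : Sp Ω => greenEnergy (Ω \ (s k).1) φ) :=
    (U.measurable_green hb hφ).comp (measurable_carpet k)
  -- integrability
  have hi1 : ∀ Ψ : Past Ω k → ℝ, BM Ψ →
      Integrable (fun s => (Ψ (past k s) : ℂ) *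
        Complex.exp (Complex.I * (Γ φ s - cst * pr (s k).2 φ))) Q := by
    rintro Ψ ⟨hm, D, hD⟩
    have h1 : AEStronglyMeasurable (fun s : Sp Ω => (Ψ (past k s) : ℂ)) Q :=
      (Complex.measurable_ofReal.comp (hm.comp hpast)).aestronglyMeasurable
    have h2 := loc_int h1 (C := D) (fun s => by
      rw [Complex.norm_real]; exact hD _) hU
    refine h2.congr (Eventually.of_forall fun s => ?_)
    push_cast
    rfl
  have hi2 : ∀ Ψ : Past Ω k → ℝ, BM Ψ →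
      Integrable (fun s => (Ψ (past k s) : ℂ) *
        Complex.exp (- greenEnergy (Ω \ (s k).1) φ / 2)) Q := by
    rintro Ψ ⟨hm, D, hD⟩
    have h1 : AEStronglyMeasurable (fun s : Sp Ω => (Ψ (past k s) : ℂ)) Q :=
      (Complex.measurable_ofReal.comp (hm.comp hpast)).aestronglyMeasurable
    have h2 : AEStronglyMeasurable (fun s : Sp Ω =>
        Complex.exp (- greenEnergy (Ω \ (s k).1) φ / 2)) Q :=
      (Complex.measurable_exp.comp
        ((Complex.measurable_ofReal.comp hgm).neg.div_const 2)).aestronglyMeasurable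
    refine Integrable.mono' (integrable_const D) (h1.mul h2) (Eventually.of_forall fun s => ?_)
    rw [norm_mul, Complex.norm_exp, Complex.norm_real]
    have h3 : (-(greenEnergy (Ω \ (s k).1) φ : ℂ) / 2).re = -(greenEnergy (Ω \ (s k).1) φ) / 2 := by
      have : (-(greenEnergy (Ω \ (s k).1) φ : ℂ) / 2) =
          ((-(greenEnergy (Ω \ (s k).1) φ) / 2 : ℝ) : ℂ) := by push_cast; rfl
      rw [this, Complex.ofReal_re]
    rw [h3]
    have h4 : Real.exp (-(greenEnergy (Ω \ (s k).1) φ) / 2) ≤ 1 :=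
      Real.exp_le_one_iff.2 (by linarith [(hB (s k).1).1])
    calc |Ψ (past k s)| * Real.exp (-(greenEnergy (Ω \ (s k).1) φ) / 2) ≤ D * 1 :=
          mul_le_mul (hD _) h4 (Real.exp_pos _).le ((abs_nonneg _).trans (hD (past k s)))
      _ = D := mul_one D
  have key : ∀ e : Sp Ω → ℂ, (∀ Ψ : Past Ω k → ℝ, BM Ψ →
      Integrable (fun s => (Ψ (past k s) : ℂ) * e s) Q) →
      ∫ s, w (past k s) * e s ∂Q = (∫ s, ((w (past k s)).re : ℂ) * e s ∂Q) +
        Complex.I * ∫ s, ((w (past k s)).im : ℂ) * e s ∂Q := by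
    intro e he
    rw [← integral_const_mul, ← integral_add (he _ hre) ((he _ him).const_mul _)]
    congr 1
    funext s
    conv_lhs => rw [← Complex.re_add_im (w (past k s))]
    ring
  rw [key _ hi1, key _ hi2, hΓ k φ hφ _ hre, hΓ k φ hφ _ him]

/-- Additivity of the Green energy, off a subset `G` of `K`. -/
theorem green_add {Ω : Set ℂ} {R : (ℂ → ℝ) → HL} (hR : IsR Ω R) {K G : Set ℂ} (hG : G ⊆ K)
    {φ v ψ : ℂ → ℝ} (hφ : IsTest Ω φ) (hv : IsTest (Ω \ K) v) (hψ : IsTest Ω ψ)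
    (hvψ : NegLap v ψ) :
    greenEnergy (Ω \ G) (fun z => 1 * φ z + 1 * ψ z) =
      greenEnergy (Ω \ G) φ + (2 * inner ℝ (R φ) (gr v) + ‖gr v‖ ^ 2) := by
  have hvΩ : IsTest Ω v := ⟨hv.1, hv.2.1, hv.2.2.trans Set.sdiff_subset⟩
  have hvG : IsTest (Ω \ G) v := ⟨hv.1, hv.2.1, hv.2.2.trans fun z hz => ⟨hz.1, fun h => hz.2 (hG h)⟩⟩
  have hP : (GV (Ω \ G)).starProjection (gr v) = gr v :=
    Submodule.starProjection_eq_self_iff.2 (U.gr_mem hvG)
  rw [hR.energy _ Set.sdiff_subset _ (U.test_comb hφ hψ 1 1), hR.lin φ ψ hφ hψ 1 1, one_smul,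
    one_smul, hR.lap v ψ hvΩ hψ hvψ, map_add, norm_add_sq_real, hP,
    hR.energy _ Set.sdiff_subset _ hφ]
  have h1 : inner ℝ ((GV (Ω \ G)).starProjection (R φ)) (gr v) = inner ℝ (R φ) (gr v) := by
    conv_lhs => rw [← hP]
    rw [Submodule.inner_starProjection_left_eq_right, hP, hP]
  rw [h1]
  ring

theorem pr_add_test {Ω : Set ℂ} (f : Fld Ω) {φ ψ : ℂ → ℝ} (hφ : IsTest Ω φ) (hψ : IsTest Ω ψ) :
    pr f (fun z => 1 * φ z + 1 * ψ z) = pr f φ + pr f ψ := by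
  unfold pr
  rw [← integral_add (integrable_pr f hφ) (integrable_pr f hψ)]
  congr 1
  funext z
  ring

/-- Identity (3) for gradients of test functions. -/
theorem loc3_step {Ω : Set ℂ} (hΩ : IsOpen Ω) (hb : Bornology.IsBounded Ω) (hne : Ω.Nonempty)
    {R : (ℂ → ℝ) → HL} (hR : IsR Ω R) {Q : Measure (Sp Ω)} (hQ : Canon Ω Q)
    {Γ : (ℂ → ℝ) → Sp Ω → ℝ} (hΓ2 : ∀ φ, IsTest Ω φ → MemLp (Γ φ) 2 Q)
    (hΓ : ∀ (k : ℕ) (φ : ℂ → ℝ), IsTest Ω φ → ∀ Ψ : Past Ω k → ℝ, BM Ψ →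
      ∫ s, (Ψ (past k s) : ℂ) * Complex.exp (Complex.I * (Γ φ s - cst * pr (s k).2 φ)) ∂Q =
        ∫ s, (Ψ (past k s) : ℂ) * Complex.exp (- greenEnergy (Ω \ (s k).1) φ / 2) ∂Q)
    (k : ℕ) {K : Set ℂ} {E : Set (Past Ω k)} (hE : MeasurableSet E)
    (hEK : ∀ p ∈ E, ((p (Fin.last k)).1 : Set ℂ) ⊆ K) {Ψ : Past Ω k → ℝ} (hΨ : BM Ψ)
    {φ v ψ : ℂ → ℝ} (hφ : IsTest Ω φ) (hv : IsTest (Ω \ K) v) (hψ : IsTest Ω ψ)
    (hvψ : NegLap v ψ) :
    ∫ s, ((E.indicator Ψ (past k s) : ℝ) : ℂ) *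
        Complex.exp (Complex.I * (Γ (fun z => 1 * φ z + 1 * ψ z) s : ℝ)) ∂Q =
      Complex.exp (-(2 * inner ℝ (R φ) (gr v) + ‖gr v‖ ^ 2 : ℝ) / 2) *
        ∫ s, ((E.indicator Ψ (past k s) : ℝ) : ℂ) * Complex.exp (Complex.I * (Γ φ s : ℝ)) ∂Q := by
  have := hQ.prob
  obtain ⟨hΨm, C, hC⟩ := hΨ
  have hΨE : Measurable (E.indicator Ψ) := hΨm.indicator hE
  have hCE : ∀ p, ‖((E.indicator Ψ p : ℝ) : ℂ)‖ ≤ C := by
    intro p
    rw [Complex.norm_real]
    by_cases hp : p ∈ E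
    · rw [Set.indicator_of_mem hp]; exact hC p
    · rw [Set.indicator_of_notMem hp, norm_zero]; exact (abs_nonneg _).trans (hC p)
  -- the weight
  set wt : (ℂ → ℝ) → Past Ω k → ℂ := fun θ p => ((E.indicator Ψ p : ℝ) : ℂ) *
    Complex.exp (Complex.I * (cst * pr (p (Fin.last k)).2 θ : ℝ)) with hwt
  have hwm : ∀ θ, IsTest Ω θ → Measurable (wt θ) := by
    intro θ hθ
    refine (Complex.measurable_ofReal.comp hΨE).mul (Complex.measurable_exp.comp ?_)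
    refine Measurable.const_mul (Complex.measurable_ofReal.comp (Measurable.const_mul ?_ _)) _
    exact (measurable_pr hθ).comp (measurable_snd.comp (measurable_pi_apply _))
  have hwb : ∀ θ p, ‖wt θ p‖ ≤ C := by
    intro θ p
    rw [hwt]
    simp only
    rw [norm_mul, mul_comm Complex.I, Complex.norm_exp_ofReal_mul_I, mul_one]
    exact hCE p
  have key : ∀ θ, IsTest Ω θ →
      ∫ s, ((E.indicator Ψ (past k s) : ℝ) : ℂ) * Complex.exp (Complex.I * (Γ θ s : ℝ)) ∂Q =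
        ∫ s, wt θ (past k s) * Complex.exp (- greenEnergy (Ω \ (s k).1) θ / 2) ∂Q := by
    intro θ hθ
    rw [← gam_cx hb hΓ2 hΓ k hθ (hwm θ hθ) (hwb θ)]
    congr 1
    funext s
    rw [hwt]
    simp only
    rw [mul_assoc, ← Complex.exp_add]
    congr 2
    have : (past k s (Fin.last k)).2 = (s k).2 := rfl
    rw [this]
    push_cast
    ring
  have hθ := U.test_comb hφ hψ 1 1
  rw [key _ hθ, key _ hφ, ← integral_const_mul]
  apply integral_congr_ae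
  have hvΩ : IsTest Ω v := ⟨hv.1, hv.2.1, hv.2.2.trans Set.sdiff_subset⟩
  filter_upwards [lochStmt Ω hΩ hb hne Q hQ k] with s hs
  rw [hwt]
  simp only
  by_cases hp : past k s ∈ E
  swap
  · rw [Set.indicator_of_notMem hp]; simp
  have hGK : ((s k).1 : Set ℂ) ⊆ K := hEK _ hp
  have hdis : Disjoint (tsupport v) ((s k).1 : Set ℂ) :=
    Set.disjoint_left.2 fun z hz hz' => (hv.2.2 hz).2 (hGK hz')
  have h0 : pr (s k).2 ψ = 0 := hs v ψ hvΩ hψ hvψ hdis
  have hlast : (past k s (Fin.last k)).2 = (s k).2 := rfl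
  rw [hlast, pr_add_test _ hφ hψ, h0, add_zero, green_add hR hGK hφ hv hψ hvψ]
  rw [mul_left_comm]
  congr 1
  rw [← Complex.exp_add]
  congr 1
  push_cast
  ring

/-- Part (3) of `LocStmt`. -/
theorem loc3 {Ω : Set ℂ} (hΩ : IsOpen Ω) (hb : Bornology.IsBounded Ω) (hne : Ω.Nonempty)
    {R : (ℂ → ℝ) → HL} (hR : IsR Ω R) {Q : Measure (Sp Ω)} (hQ : Canon Ω Q)
    {Γ : (ℂ → ℝ) → Sp Ω → ℝ} (hΓ2 : ∀ φ, IsTest Ω φ → MemLp (Γ φ) 2 Q)
    (hΓ : ∀ (k : ℕ) (φ : ℂ → ℝ), IsTest Ω φ → ∀ Ψ : Past Ω k → ℝ, BM Ψ →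
      ∫ s, (Ψ (past k s) : ℂ) * Complex.exp (Complex.I * (Γ φ s - cst * pr (s k).2 φ)) ∂Q =
        ∫ s, (Ψ (past k s) : ℂ) * Complex.exp (- greenEnergy (Ω \ (s k).1) φ / 2) ∂Q)
    {W : GV Ω →ₗᵢ[ℝ] Lp ℝ 2 Q}
    (hW : ∀ φ (h : R φ ∈ GV Ω), IsTest Ω φ → W ⟨R φ, h⟩ =ᵐ[Q] Γ φ)
    (k : ℕ) (K : Set ℂ) (E : Set (Past Ω k)) (hE : MeasurableSet E)
    (hEK : ∀ p ∈ E, ((p (Fin.last k)).1 : Set ℂ) ⊆ K) (Ψ : Past Ω k → ℝ) (hΨ : BM Ψ)
    (f g : GV Ω) (hf : (f : HL) ∈ GV (Ω \ K)) (hg : (g : HL) ∈ (GV (Ω \ K))ᗮ) :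
    ∫ s, ((E.indicator Ψ (past k s) : ℝ) : ℂ) * Complex.exp (Complex.I * (W (g + f) s : ℝ)) ∂Q =
      Complex.exp (-(‖f‖ ^ 2 / 2 : ℝ)) *
        ∫ s, ((E.indicator Ψ (past k s) : ℝ) : ℂ) * Complex.exp (Complex.I * (W g s : ℝ)) ∂Q := by
  have := hQ.prob
  obtain ⟨v, hv, hvf⟩ := U.exists_seq_gr hf
  obtain ⟨u, hu, hug⟩ := U.exists_seq_gr g.2
  choose φ hφ hφs hφl using fun n => hR.ex (u n) (hu n)
  have hvΩ : ∀ n, IsTest Ω (v n) := fun n => ⟨(hv n).1, (hv n).2.1, (hv n).2.2.trans Set.sdiff_subset⟩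
  choose ψ hψ hψs hψl using fun n => hR.ex (v n) (hvΩ n)
  have hRφ : ∀ n, R (φ n) = gr (u n) := fun n => hR.lap _ _ (hu n) (hφ n) (hφl n)
  have hRψ : ∀ n, R (ψ n) = gr (v n) := fun n => hR.lap _ _ (hvΩ n) (hψ n) (hψl n)
  set G : ℕ → GV Ω := fun n => ⟨R (φ n), hR.mem _⟩ with hG
  set F : ℕ → GV Ω := fun n => ⟨R (ψ n), hR.mem _⟩ with hF
  have hGt : Tendsto G atTop (𝓝 g) := by
    rw [tendsto_subtype_rng]
    refine hug.congr fun n => ?_
    rw [hG]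
    exact (hRφ n).symm
  have hFt : Tendsto F atTop (𝓝 f) := by
    rw [tendsto_subtype_rng]
    refine hvf.congr fun n => ?_
    rw [hF]
    exact (hRψ n).symm
  obtain ⟨hΨm, C, hC⟩ := id hΨ
  have hpast : Measurable (past k : Sp Ω → Past Ω k) :=
    measurable_pi_lambda _ fun j => measurable_pi_apply _
  have hwm : AEStronglyMeasurable (fun s : Sp Ω => E.indicator Ψ (past k s)) Q :=
    ((hΨm.indicator hE).comp hpast).aestronglyMeasurable
  have hC0 : 0 ≤ |C| := abs_nonneg C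
  have hwb : ∀ s : Sp Ω, |E.indicator Ψ (past k s)| ≤ |C| := by
    intro s
    by_cases hp : past k s ∈ E
    · rw [Set.indicator_of_mem hp]; exact (hC _).trans (le_abs_self C)
    · rw [Set.indicator_of_notMem hp, abs_zero]; exact hC0
  -- the identity along the sequence
  have hid : ∀ n, ∫ s, ((E.indicator Ψ (past k s) : ℝ) : ℂ) *
        Complex.exp (Complex.I * (W (G n + F n) s : ℝ)) ∂Q =
      Complex.exp (-(2 * inner ℝ (G n : HL) (F n : HL) + ‖(F n : HL)‖ ^ 2 : ℝ) / 2) *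
        ∫ s, ((E.indicator Ψ (past k s) : ℝ) : ℂ) *
          Complex.exp (Complex.I * (W (G n) s : ℝ)) ∂Q := by
    intro n
    have hstep := loc3_step hΩ hb hne hR hQ hΓ2 hΓ k hE hEK hΨ (hφ n) (hv n) (hψ n) (hψl n)
    have e1 : G n + F n = ⟨R (fun z => 1 * φ n z + 1 * ψ n z), hR.mem _⟩ := by
      apply Subtype.ext
      have e3 := hR.lin _ _ (hφ n) (hψ n) 1 1
      rw [one_smul, one_smul] at e3
      exact e3.symm
    have h1 : ∫ s, ((E.indicator Ψ (past k s) : ℝ) : ℂ) *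
          Complex.exp (Complex.I * (W (G n + F n) s : ℝ)) ∂Q =
        ∫ s, ((E.indicator Ψ (past k s) : ℝ) : ℂ) *
          Complex.exp (Complex.I * (Γ (fun z => 1 * φ n z + 1 * ψ n z) s : ℝ)) ∂Q := by
      apply integral_congr_ae
      rw [e1]
      filter_upwards [hW _ (hR.mem _) (U.test_comb (hφ n) (hψ n) 1 1)] with s hs
      rw [hs]
    have h2 : ∫ s, ((E.indicator Ψ (past k s) : ℝ) : ℂ) *
          Complex.exp (Complex.I * (W (G n) s : ℝ)) ∂Q =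
        ∫ s, ((E.indicator Ψ (past k s) : ℝ) : ℂ) *
          Complex.exp (Complex.I * (Γ (φ n) s : ℝ)) ∂Q := by
      apply integral_congr_ae
      filter_upwards [hW _ (hR.mem _) (hφ n)] with s hs
      rw [hs]
    rw [h1, h2, hstep]
    have e2 : (F n : HL) = gr (v n) := hRψ n
    rw [e2]
  have hL := tendsto_exp hwm hwb hC0 ((W.continuous.tendsto (g + f)).comp (hGt.add hFt))
  have hR1 := tendsto_exp hwm hwb hC0 ((W.continuous.tendsto g).comp hGt)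
  have hR2 : Tendsto (fun n => Complex.exp
      (-(2 * inner ℝ (G n : HL) (F n : HL) + ‖(F n : HL)‖ ^ 2 : ℝ) / 2)) atTop
      (𝓝 (Complex.exp (-(2 * inner ℝ (g : HL) (f : HL) + ‖(f : HL)‖ ^ 2 : ℝ) / 2))) := by
    have hG' : Tendsto (fun n => (G n : HL)) atTop (𝓝 (g : HL)) :=
      (continuous_subtype_val.tendsto g).comp hGt
    have hF' : Tendsto (fun n => (F n : HL)) atTop (𝓝 (f : HL)) :=
      (continuous_subtype_val.tendsto f).comp hFt
    have h3 : Tendsto (fun n => (2 * inner ℝ (G n : HL) (F n : HL) + ‖(F n : HL)‖ ^ 2 : ℝ)) atTop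
        (𝓝 (2 * inner ℝ (g : HL) (f : HL) + ‖(f : HL)‖ ^ 2)) :=
      ((hG'.inner hF').const_mul 2).add (hF'.norm.pow 2)
    exact (Complex.continuous_exp.tendsto _).comp
      ((((Complex.continuous_ofReal.tendsto _).comp h3).neg).div_const 2)
  have hlim := tendsto_nhds_unique (hL.congr hid) (hR2.mul hR1)
  have horth : inner ℝ (g : HL) (f : HL) = 0 := by
    rw [real_inner_comm]
    exact hg _ hf
  rw [hlim, horth]
  congr 2
  push_cast
  rw [Submodule.coe_norm]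
  ring

end Vale.Agent.P155.Uq
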