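import Vale.Agent.P155.U.WIso
import Vale.Agent.P155.U.Loc3
import Vale.Agent.P155.U.Gam
import Vale.Agent.P155.U.Vk

/-!
# P155, block U: `LocStmt`
-/

namespace Vale.Agent.P155.Uq

open MeasureTheory Filter Topology TopologicalSpace

theorem gamStmt : GamStmt := Gam.gamStmt_of vk

theorem locStmt : LocStmt := by
  intro Ω hΩ hb hne R hR Q hQ
  obtain ⟨Γ, h1, h2, h3⟩ := gamStmt Ω hΩ hb hne Q hQ
  obtain ⟨W, ha, hb1, hb2⟩ := WI.exists_W hΩ hQ hR h1 h2 h3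
  refine ⟨W, hb1, hb2, ?_⟩
  intro k K _ E hE hEK Ψ hΨ f g hf hg
  exact loc3 hΩ hb hne hR hQ h1 h3 ha k K E hE hEK Ψ hΨ f g hf hg

end Vale.Agent.P155.Uq
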