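import Vale.Agent.P155.U.Iface5

/-!
# P155, block U: interface, continued (block CPLLOC)
-/

namespace Vale.Agent.P155.Uq

open MeasureTheory Filter Topology TopologicalSpace

/-- The conditional characteristic function of the field given the first `k` levels. -/
def CondCh (Ω : Set ℂ) (R : (ℂ → ℝ) → HL) (Q : Measure (Sp Ω)) (W : GV Ω →ₗᵢ[ℝ] Lp ℝ 2 Q) : Prop :=
  ∀ (k : ℕ) (φ : ℂ → ℝ) (hR : R φ ∈ GV Ω), IsTest Ω φ → ∀ Ψ : Past Ω k → ℝ, BM Ψ →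
      ∫ s, (Ψ (past k s) : ℂ) *
          Complex.exp (Complex.I * ((W ⟨R φ, hR⟩ s - cst * pr (s k).2 φ : ℝ) : ℂ)) ∂Q =
        ∫ s, (Ψ (past k s) : ℂ) * Complex.exp (-(greenEnergy (Ω \ (s k).1) φ / 2 : ℝ)) ∂Q

/-- Second moments of the coupled field on `H¹₀(Ω \ K)` on an event where both carpets are
contained in `K`. -/
def PieceK (Ω : Set ℂ) {X : Type} [MeasurableSpace X] (μ : Measure X) (a a' : X → Sp Ω)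
    (Wt : GV Ω →ₗᵢ[ℝ] Lp ℝ 2 μ) : Prop :=
  ∀ (k : ℕ) (K : Set ℂ), IsClosed K → ∀ w : Past Ω k × Past Ω k → ℝ, BM w →
    (∀ t, w t ≠ 0 → ((t.1 (Fin.last k)).1 : Set ℂ) ⊆ K ∧ ((t.2 (Fin.last k)).1 : Set ℂ) ⊆ K) →
    ∀ f g : GV Ω, (f : HL) ∈ GV (Ω \ K) →
      (∫ x, w (past k (a x), past k (a' x)) * ((Wt f : X → ℝ) x * (Wt g : X → ℝ) x) ∂μ =
        inner ℝ f g * ∫ x, w (past k (a x), past k (a' x)) ∂μ) ∧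
      ∫ x, w (past k (a x), past k (a' x)) * (Wt f : X → ℝ) x ∂μ = 0

/-- Block CPLLOC: the coupling with its locality (from CPL-2 and LocStmt). -/
def CplLocStmt : Prop :=
  ∀ Ω : Set ℂ, IsOpen Ω → Bornology.IsBounded Ω → Ω.Nonempty → ∀ R, IsR Ω R →
  ∀ Q Q' : Measure (Sp Ω), Canon Ω Q → Canon Ω Q' →
  ∃ (W : GV Ω →ₗᵢ[ℝ] Lp ℝ 2 Q) (W' : GV Ω →ₗᵢ[ℝ] Lp ℝ 2 Q') (X : Type) (_ : MeasurableSpace X)
    (μ : Measure X) (a a' : X → Sp Ω) (Wt : GV Ω →ₗᵢ[ℝ] Lp ℝ 2 μ),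
    IsProbabilityMeasure μ ∧ Measurable a ∧ Measurable a' ∧ μ.map a = Q ∧ μ.map a' = Q' ∧
    (∀ f, ∀ᵐ x ∂μ, (Wt f : X → ℝ) x = (W f : Sp Ω → ℝ) (a x)) ∧
    (∀ f, ∀ᵐ x ∂μ, (Wt f : X → ℝ) x = (W' f : Sp Ω → ℝ) (a' x)) ∧
    CondCh Ω R Q W ∧ CondCh Ω R Q' W' ∧ PieceK Ω μ a a' Wt

end Vale.Agent.P155.Uq
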