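import Vale.Agent.P155.U.Piece
import Vale.Agent.P155.U.Loc
import Vale.Agent.P155.U877.CplLoc

/-!
# P155, block U (uniqueness): `CplLocStmt` is a theorem
-/

namespace Vale.Agent.P155.Uq

open MeasureTheory Filter Topology TopologicalSpace

theorem cont_infDist_nc (w : ℂ) :
    Continuous (fun K : NonemptyCompacts ℂ => Metric.infDist w (K : Set ℂ)) := by
  have hL : LipschitzWith 1 (fun K : NonemptyCompacts ℂ => Metric.infDist w (K : Set ℂ)) := by
    apply LipschitzWith.of_le_add
    intro K K'
    have hfin : Metric.hausdorffEDist (K' : Set ℂ) (K : Set ℂ) ≠ ⊤ :=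
      Metric.hausdorffEDist_ne_top_of_nonempty_of_bounded K'.nonempty K.nonempty
        K'.isCompact.isBounded K.isCompact.isBounded
    have h := Metric.infDist_le_infDist_add_hausdorffDist (x := w) hfin
    rw [Metric.NonemptyCompacts.dist_eq, Metric.hausdorffDist_comm]
    exact h
  exact hL.continuous

theorem meas_subset {K : Set ℂ} (hK : IsClosed K) :
    MeasurableSet {A : NonemptyCompacts ℂ | (A : Set ℂ) ⊆ K} := by
  rcases K.eq_empty_or_nonempty with rfl | hne
  · have : {A : NonemptyCompacts ℂ | (A : Set ℂ) ⊆ (∅ : Set ℂ)} = ∅ := by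
      ext A
      simp only [Set.mem_ofPred_eq, Set.mem_empty_iff_false, iff_false]
      intro h
      obtain ⟨x, hx⟩ := A.nonempty
      exact h hx
    rw [this]
    exact MeasurableSet.empty
  · have : {A : NonemptyCompacts ℂ | (A : Set ℂ) ⊆ K} =
        ⋂ q : ℂ, {A : NonemptyCompacts ℂ | Metric.infDist q K ≤ Metric.infDist q (A : Set ℂ)} := by
      ext A
      simp only [Set.mem_ofPred_eq, Set.mem_iInter]
      constructor
      · intro h q
        exact Metric.infDist_le_infDist_of_subset h A.nonempty
      · intro h q hq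
        have h1 := h q
        rw [Metric.infDist_zero_of_mem hq] at h1
        exact (hK.mem_iff_infDist_zero hne).2 (le_antisymm h1 Metric.infDist_nonneg)
    rw [this]
    apply IsClosed.measurableSet
    exact isClosed_iInter fun q => isClosed_le continuous_const (cont_infDist_nc q)

theorem meas_last_subset {Ω : Set ℂ} (k : ℕ) {K : Set ℂ} (hK : IsClosed K) :
    MeasurableSet {p : Past Ω k | ((p (Fin.last k)).1 : Set ℂ) ⊆ K} := by
  have h : Measurable (fun p : Past Ω k => (p (Fin.last k)).1) :=
    measurable_fst.comp (measurable_pi_apply _)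
  exact h (meas_subset hK)

/-- **CplLocStmt** -/
theorem cplLocStmt : CplLocStmt := by
  apply U877.cplLoc_of locStmt
  intro Ω X _ μ a a' Wt _ _ hp ha ha' H
  apply pieceK_of ha ha' (fun k K hK => meas_last_subset k hK)
  intro k K hK E E' hE hE' hEK hEK' f hf g hg
  have hsub : GV (Ω \ K) ≤ GV Ω := by
    refine Submodule.topologicalClosure_mono (Submodule.span_mono ?_)
    rintro _ ⟨v, hv, rfl⟩
    exact ⟨v, ⟨hv.1, hv.2.1, hv.2.2.trans Set.sdiff_subset⟩, rfl⟩
  have hgo : (g : HL) ∈ (GV (Ω \ K))ᗮ := by
    rw [Submodule.mem_orthogonal] at hg ⊢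
    intro u hu
    exact hg ⟨u, hsub hu⟩ hu
  have hone : BM (fun _ : Past Ω k => (1 : ℝ)) := ⟨measurable_const, 1, fun _ => by simp⟩
  have key := H k K hK E E' hE hE' hEK hEK' (fun _ => 1) (fun _ => 1) hone hone f g hf hgo
  set T : Set X := (fun x => past k (a x)) ⁻¹' E ∩ (fun x => past k (a' x)) ⁻¹' E' with hT
  have mT : MeasurableSet T :=
    (((U877.measurable_past k).comp ha) hE).inter (((U877.measurable_past k).comp ha') hE')
  have e : ∀ u : GV Ω, ∫ x, ((E.indicator (fun _ => (1 : ℝ)) (past k (a x)) *
      E'.indicator (fun _ => (1 : ℝ)) (past k (a' x)) : ℝ) : ℂ) *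
      Complex.exp (Complex.I * ((Wt u : X → ℝ) x : ℝ)) ∂μ =
      ∫ x in T, Complex.exp (Complex.I * ((Wt u : X → ℝ) x : ℝ)) ∂μ := by
    intro u
    rw [← integral_indicator mT]
    apply integral_congr_ae
    refine Eventually.of_forall fun x => ?_
    by_cases h1 : past k (a x) ∈ E
    · by_cases h2 : past k (a' x) ∈ E'
      · simp only
        rw [Set.indicator_of_mem h1, Set.indicator_of_mem h2,
          Set.indicator_of_mem (show x ∈ T from ⟨h1, h2⟩)]
        simp
      · simp only
        rw [Set.indicator_of_notMem h2,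
          Set.indicator_of_notMem (show x ∉ T from fun h => h2 h.2)]
        simp
    · simp only
      rw [Set.indicator_of_notMem h1,
        Set.indicator_of_notMem (show x ∉ T from fun h => h1 h.1)]
      simp
  rw [e, e, ← U877.exp_cast] at key
  exact key

end Vale.Agent.P155.Uq
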