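import Vale.Agent.P155.U.Family

/-!
# P155 uniqueness: equality of Green energies forces inclusion of connected sets
-/

namespace Vale.Agent.P155.U

open MeasureTheory Set TopologicalSpace
open scoped ContDiff

/-- **(EQ), set form.** -/
theorem eq_core {Ω K K' : Set ℂ} (hΩ : IsOpen Ω) (hb : Bornology.IsBounded Ω)
    (hKc : IsClosed K) (hKf : frontier Ω ⊆ K) (hK' : IsPreconnected K')
    (hKf' : frontier Ω ⊆ K') (hKs' : K' ⊆ closure Ω)
    (h : ∀ i, greenEnergy (Ω \ K) (fam Ω i) ≤ greenEnergy (Ω \ K') (fam Ω i)) : K' ⊆ K := by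
  intro p hp
  by_contra hpK
  have hpΩ : p ∈ Ω := by
    by_contra hpΩ
    apply hpK
    apply hKf
    rw [frontier, hΩ.interior_eq]
    exact ⟨hKs' hp, hpΩ⟩
  have hopen : IsOpen (Ω \ K) := hΩ.sdiff hKc
  obtain ⟨i, hi, hball, hpi⟩ := exists_idx hopen (show p ∈ Ω \ K from ⟨hpΩ, hpK⟩)
  have hfr : (frontier Ω).Nonempty := by
    rw [nonempty_frontier_iff]
    refine ⟨⟨p, hpΩ⟩, ?_⟩
    rintro rfl
    exact NormedSpace.unbounded_univ ℝ ℂ hb
  obtain ⟨q, hq⟩ := hfr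
  have hqΩ : q ∉ Ω := by
    rw [frontier, hΩ.interior_eq] at hq
    exact hq.2
  have hlt := greenEnergy_lt (A := K) hb hK' hp
    ⟨q, hKf' hq, fun h' => hqΩ (h' ▸ hpΩ)⟩ (bmp_test hi hball)
    (Filter.eventually_of_mem (Metric.isOpen_ball.mem_nhds hpi) fun z hz =>
      bmp_one hi (Metric.ball_subset_closedBall hz))
  have := h ⟨i, hi, hball.trans sdiff_subset⟩
  exact absurd this (not_le.2 hlt)

/-- **(EQ), union form**: if adding `K'` does not change the Green energies off `K` then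
`K' ⊆ K`. -/
theorem eq_union {Ω K K' : Set ℂ} (hΩ : IsOpen Ω) (hb : Bornology.IsBounded Ω) (hne : Ω.Nonempty)
    (hKc : IsClosed K) (hK : IsPreconnected K) (hKf : frontier Ω ⊆ K) (hKs : K ⊆ closure Ω)
    (hK' : IsPreconnected K') (hKf' : frontier Ω ⊆ K') (hKs' : K' ⊆ closure Ω)
    (h : ∀ i, greenEnergy (Ω \ K) (fam Ω i) ≤ greenEnergy (Ω \ (K ∪ K')) (fam Ω i)) :
    K' ⊆ K := by
  have hfr : (frontier Ω).Nonempty := by
    rw [nonempty_frontier_iff]
    refine ⟨hne, ?_⟩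
    rintro rfl
    exact NormedSpace.unbounded_univ ℝ ℂ hb
  obtain ⟨q, hq⟩ := hfr
  have hU : IsPreconnected (K ∪ K') := hK.union q (hKf hq) (hKf' hq) hK'
  exact subset_union_right.trans (eq_core hΩ hb hKc hKf hU (hKf.trans subset_union_left)
    (union_subset hKs hKs') h)

/-- two connected closed sets for which the union has the Green energies of both are equal -/
theorem eq_of_union {Ω K K' : Set ℂ} (hΩ : IsOpen Ω) (hb : Bornology.IsBounded Ω)
    (hne : Ω.Nonempty) (hKc : IsClosed K) (hK : IsPreconnected K) (hKf : frontier Ω ⊆ K)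
    (hKs : K ⊆ closure Ω) (hKc' : IsClosed K') (hK' : IsPreconnected K') (hKf' : frontier Ω ⊆ K')
    (hKs' : K' ⊆ closure Ω)
    (h : ∀ i, greenEnergy (Ω \ K) (fam Ω i) ≤ greenEnergy (Ω \ (K ∪ K')) (fam Ω i))
    (h' : ∀ i, greenEnergy (Ω \ K') (fam Ω i) ≤ greenEnergy (Ω \ (K ∪ K')) (fam Ω i)) :
    K = K' := by
  apply Subset.antisymm
  · rw [union_comm] at h'
    exact eq_union hΩ hb hne hKc' hK' hKf' hKs' hK hKf hKs h'
  · exact eq_union hΩ hb hne hKc hK hKf hKs hK' hKf' hKs' h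

/-- monotonicity of the Green energy in the domain -/
theorem greenEnergy_mono_sub {Ω U U' : Set ℂ} (hb : Bornology.IsBounded Ω) {φ : ℂ → ℝ}
    (hφ : IsTest Ω φ) (h : U ⊆ U') (h' : U' ⊆ Ω) : greenEnergy U φ ≤ greenEnergy U' φ := by
  obtain ⟨M, hM⟩ := hφ.1.continuous.bounded_above_of_compact_support hφ.2.1
  have hM' : ∀ z, |φ z| ≤ M := fun z => by
    have := hM z
    rwa [Real.norm_eq_abs] at this
  have h0 : ∀ z, z ∉ Ω → φ z = 0 := fun z hz => test_zero hφ hz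
  apply greenEnergy_le
  intro v hv
  exact le_csSup (bdd_dval hb hM' h0 h') ⟨v, ⟨hv.1, hv.2.1, hv.2.2.trans h⟩, rfl⟩

end Vale.Agent.P155.U
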