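import Vale.Agent.P155.U.ExtAbs
import Mathlib.Analysis.FunctionalSpaces.SobolevInequality

/-!
# P155, block U, U-EXT: Poincaré inequality for test functions, small balls and random carpets
-/

namespace Vale.Agent.P155.Uq

open MeasureTheory Filter Topology TopologicalSpace ENNReal

/-- Square integrals of test functions and `eLpNorm`. -/
theorem eLpNorm_two_eq {E : Type*} [NormedAddCommGroup E] {f : ℂ → E}
    (hf : MemLp f 2 volume) : eLpNorm f 2 volume = ENNReal.ofReal (√(∫ z, ‖f z‖ ^ 2)) := by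
  rw [hf.eLpNorm_eq_integral_rpow_norm (by norm_num) (by norm_num)]
  congr 1
  rw [Real.sqrt_eq_rpow]
  norm_num

theorem fderiv_memLp {Ω : Set ℂ} {v : ℂ → ℝ} (hv : IsTest Ω v) :
    MemLp (fderiv ℝ v) 2 volume := by
  apply Continuous.memLp_of_hasCompactSupport
  · exact (hv.1.of_le (by exact_mod_cast le_top) : ContDiff ℝ 1 v).continuous_fderiv (by norm_num)
  · exact hv.2.1.fderiv (𝕜 := ℝ)

/-- **Poincaré inequality** in a bounded set. -/
theorem poinc_sq {Ω : Set ℂ} (hb : Bornology.IsBounded Ω) : ∃ C : ℝ, 0 < C ∧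
    ∀ v, IsTest Ω v → ∫ z, v z ^ 2 ≤ C * ∫ z, ‖fderiv ℝ v z‖ ^ 2 := by
  obtain ⟨R, hR⟩ := hb.exists_norm_le
  set S : Set ℂ := Metric.closedBall 0 (|R| + 1) with hS
  have hSb : Bornology.IsBounded S := Metric.isBounded_closedBall
  have hΩS : Ω ⊆ S := by
    intro z hz
    rw [hS, Metric.mem_closedBall, dist_zero_right]
    have := hR z hz
    have := le_abs_self R
    linarith
  set K := eLpNormLESNormFDerivOfLeConst ℝ (volume : Measure ℂ) S 1 2 with hK
  set W : ℝ := (volume S).toReal with hW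
  refine ⟨(K : ℝ) ^ 2 * W + 1, by positivity, ?_⟩
  intro v hv
  have hv1 : ContDiff ℝ 1 v := hv.1.of_le (by exact_mod_cast le_top)
  have h1 := eLpNorm_le_eLpNorm_fderiv_of_le (F := ℝ) (volume : Measure ℂ) (u := v) (s := S) hv1
    ((subset_tsupport v).trans (hv.2.2.trans hΩS)) (p := 1) (q := 2) le_rfl
    (by rw [Complex.finrank_real_complex]; norm_num)
    (by rw [Complex.finrank_real_complex]; norm_num) hSb
  have hg : MemLp (fderiv ℝ v) 2 volume := fderiv_memLp hv
  have hsup : Function.support (fderiv ℝ v) ⊆ S :=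
    (subset_tsupport _).trans ((tsupport_fderiv_subset ℝ).trans (hv.2.2.trans hΩS))
  have h2 : eLpNorm (fderiv ℝ v) 1 volume ≤
      eLpNorm (fderiv ℝ v) 2 volume * volume S ^ ((1 : ℝ) / 2) := by
    rw [← eLpNorm_norm (fderiv ℝ v), ← eLpNorm_norm (fderiv ℝ v)]
    set g : ℂ → ℝ := fun z => ‖fderiv ℝ v z‖ with hgdef
    have hgs : Function.support g ⊆ S := by
      intro z hz
      apply hsup
      intro h0
      apply hz
      rw [hgdef]
      simp only
      rw [h0, norm_zero]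
    have e1 := eLpNorm_restrict_eq_of_support_subset (p := 1) (μ := (volume : Measure ℂ)) hgs
    have e2 := eLpNorm_restrict_eq_of_support_subset (p := 2) (μ := (volume : Measure ℂ)) hgs
    rw [← e1, ← e2]
    have h := eLpNorm_le_eLpNorm_mul_rpow_measure_univ (p := 1) (q := 2) (f := g)
      (μ := (volume : Measure ℂ).restrict S) (by norm_num)
      (hg.1.norm.mono_measure Measure.restrict_le_self)
    rw [Measure.restrict_apply_univ] at h
    have e3 : (1 : ℝ) / (1 : ℝ≥0∞).toReal - 1 / (2 : ℝ≥0∞).toReal = 1 / 2 := by norm_num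
    rw [e3] at h
    exact h
  rw [eLpNorm_two_eq hg] at h2
  have h1' : eLpNorm v 2 volume ≤ (K : ℝ≥0∞) * eLpNorm (fderiv ℝ v) 1 volume := h1
  rw [eLpNorm_two_eq (tmemLp hv)] at h1'
  have hWfin : volume S ≠ ⊤ := measure_closedBall_lt_top.ne
  have h3 : ENNReal.ofReal (√(∫ z, ‖v z‖ ^ 2)) ≤
      ENNReal.ofReal ((K : ℝ) * (√(∫ z, ‖fderiv ℝ v z‖ ^ 2) * √W)) := by
    refine h1'.trans ?_
    rw [ENNReal.ofReal_mul (by positivity), ENNReal.ofReal_mul (Real.sqrt_nonneg _),
      ENNReal.ofReal_coe_nnreal]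
    refine mul_le_mul_right (h2.trans ?_) _
    apply mul_le_mul_right
    rw [← ENNReal.ofReal_toReal hWfin, ENNReal.ofReal_rpow_of_nonneg ENNReal.toReal_nonneg
      (by norm_num), ← Real.sqrt_eq_rpow]
  rw [ENNReal.ofReal_le_ofReal_iff (by positivity)] at h3
  have h4 : (√(∫ z, ‖v z‖ ^ 2)) ^ 2 ≤ ((K : ℝ) * (√(∫ z, ‖fderiv ℝ v z‖ ^ 2) * √W)) ^ 2 :=
    pow_le_pow_left₀ (Real.sqrt_nonneg _) h3 2
  have hn1 : 0 ≤ ∫ z, ‖v z‖ ^ 2 := integral_nonneg fun _ => by positivity
  have hn2 : 0 ≤ ∫ z, ‖fderiv ℝ v z‖ ^ 2 := integral_nonneg fun _ => by positivity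
  rw [Real.sq_sqrt hn1, mul_pow, mul_pow, Real.sq_sqrt hn2, Real.sq_sqrt (by positivity)] at h4
  have e : ∫ z, v z ^ 2 = ∫ z, ‖v z‖ ^ 2 := by
    congr 1; funext z; rw [Real.norm_eq_abs, sq_abs]
  rw [e]
  nlinarith

/-- The Green energy is bounded by the square integral. -/
theorem poinc_test {Ω : Set ℂ} (hb : Bornology.IsBounded Ω) : ∃ C : ℝ, 0 < C ∧
    ∀ (U : Set ℂ) (φ : ℂ → ℝ), U ⊆ Ω → Continuous φ → HasCompactSupport φ →
      greenEnergy U φ ≤ C * ∫ z, φ z ^ 2 := by
  obtain ⟨C, hC, h⟩ := poinc_sq hb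
  refine ⟨C, hC, ?_⟩
  intro U φ hU hφ hφc
  apply csSup_le
  · exact ⟨_, _, tzero U, rfl⟩
  · rintro x ⟨v, hv, rfl⟩
    have hv' : IsTest Ω v := ⟨hv.1, hv.2.1, hv.2.2.trans hU⟩
    have h1 := h v hv'
    have hvc := tcont hv
    have i1 : Integrable (fun z => φ z ^ 2) :=
      (hφ.memLp_of_hasCompactSupport hφc : MemLp φ 2 volume).integrable_sq
    have i2 : Integrable (fun z => v z ^ 2) := (tmemLp hv).integrable_sq
    have i3 : Integrable (fun z => φ z * v z) :=
      (hφ.mul hvc).integrable_of_hasCompactSupport hφc.mul_right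
    have h2 : 2 * (∫ z, φ z * v z) ≤ C * (∫ z, φ z ^ 2) + C⁻¹ * (∫ z, v z ^ 2) := by
      rw [← integral_const_mul, ← integral_const_mul, ← integral_const_mul,
        ← integral_add (i1.const_mul C) (i2.const_mul C⁻¹)]
      apply integral_mono (i3.const_mul 2) ((i1.const_mul C).add (i2.const_mul C⁻¹))
      intro z
      simp only [Pi.add_apply]
      have h3 : 0 ≤ C * (φ z - C⁻¹ * v z) ^ 2 := by positivity
      have h4 : C * (φ z - C⁻¹ * v z) ^ 2 = C * φ z ^ 2 + C⁻¹ * v z ^ 2 - 2 * (φ z * v z) := by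
        field_simp
        ring
      linarith
    have h5 : C⁻¹ * (∫ z, v z ^ 2) ≤ ∫ z, ‖fderiv ℝ v z‖ ^ 2 := by
      rw [inv_mul_le_iff₀ hC]
      exact h1
    linarith

/-! ## random carpets and small balls -/

theorem cont_infDist :
    Continuous (fun p : ℂ × NonemptyCompacts ℂ => Metric.infDist p.1 (p.2 : Set ℂ)) :=
  Metric.lipschitz_infDist.continuous

/-- The distance to the random set is jointly measurable. -/
theorem meas_infDist {X : Type*} [MeasurableSpace X] {A : X → NonemptyCompacts ℂ}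
    (hA : @Measurable _ _ _ (borel (NonemptyCompacts ℂ)) A) :
    Measurable (fun p : X × ℂ => Metric.infDist p.2 (A p.1 : Set ℂ)) := by
  let _ : MeasurableSpace (NonemptyCompacts ℂ) := borel _
  have : BorelSpace (NonemptyCompacts ℂ) := ⟨rfl⟩
  have hc : Measurable (fun p : X × ℂ => (p.2, A p.1)) :=
    Measurable.prodMk measurable_snd (hA.comp measurable_fst)
  have h := Measurable.comp cont_infDist.measurable hc
  simp only [Function.comp_def] at h
  exact h

/-- Balls and distances. -/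
theorem not_disjoint_iff {K : NonemptyCompacts ℂ} {z : ℂ} {r : ℝ} :
    ¬ Disjoint (Metric.closedBall z r) (K : Set ℂ) ↔ Metric.infDist z (K : Set ℂ) ≤ r := by
  constructor
  · intro h
    obtain ⟨w, hw1, hw2⟩ := Set.not_disjoint_iff.1 h
    have := Metric.infDist_le_dist_of_mem (x := z) hw2
    rw [Metric.mem_closedBall, dist_comm] at hw1
    exact this.trans hw1
  · intro h
    obtain ⟨w, hw, hd⟩ := K.isCompact.exists_infDist_eq_dist K.nonempty z
    apply Set.not_disjoint_iff.2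
    refine ⟨w, ?_, hw⟩
    rw [Metric.mem_closedBall, dist_comm, ← hd]
    exact h

/-- The event that the random set meets a ball. -/
theorem meas_meet {X : Type*} [MeasurableSpace X] {A : X → NonemptyCompacts ℂ}
    (hA : @Measurable _ _ _ (borel (NonemptyCompacts ℂ)) A) (z : ℂ) (r : ℝ) :
    MeasurableSet {x | ¬ Disjoint (Metric.closedBall z r) (A x : Set ℂ)} := by
  have h : {x | ¬ Disjoint (Metric.closedBall z r) (A x : Set ℂ)} =
      {x | Metric.infDist z (A x : Set ℂ) ≤ r} := by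
    ext x
    exact not_disjoint_iff
  rw [h]
  have hc : Measurable (fun x : X => (x, z)) := measurable_id.prodMk measurable_const
  have h1 := Measurable.comp (meas_infDist hA) hc
  simp only [Function.comp_def] at h1
  exact measurableSet_le h1 measurable_const

/-- If the random set has area zero in `Ω`, small balls around almost every point of `Ω` are not
met, with high probability. -/
theorem fubini_zero {X : Type*} [MeasurableSpace X] {μ : Measure X} [IsFiniteMeasure μ]
    {A : X → NonemptyCompacts ℂ} (hA : @Measurable _ _ _ (borel (NonemptyCompacts ℂ)) A)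
    {Ω : Set ℂ} (hΩ : IsOpen Ω) (h0 : ∀ᵐ x ∂μ, volume ((A x : Set ℂ) ∩ Ω) = 0) :
    ∀ᵐ z : ℂ, z ∈ Ω → Tendsto (fun r => μ {x | ¬ Disjoint (Metric.closedBall z r) (A x : Set ℂ)})
      (𝓝[>] 0) (𝓝 0) := by
  have hmeas : MeasurableSet {p : X × ℂ | ¬ (Metric.infDist p.2 (A p.1 : Set ℂ) ≤ 0 ∧ p.2 ∈ Ω)} :=
    ((measurableSet_le (meas_infDist hA) measurable_const).inter
      (measurable_snd hΩ.measurableSet)).compl
  have h1 : ∀ᵐ x ∂μ, ∀ᵐ z : ℂ, ¬ (Metric.infDist z (A x : Set ℂ) ≤ 0 ∧ z ∈ Ω) := by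
    filter_upwards [h0] with x hx
    rw [ae_iff]
    refine measure_mono_null ?_ hx
    intro z hz
    simp only [not_not] at hz
    have hz' : Metric.infDist z (A x : Set ℂ) ≤ 0 ∧ z ∈ Ω := hz
    have h2 : Metric.infDist z (A x : Set ℂ) = 0 := le_antisymm hz'.1 Metric.infDist_nonneg
    refine ⟨?_, hz'.2⟩
    exact ((A x).isCompact.isClosed.mem_iff_infDist_zero (A x).nonempty).2 h2
  have h2 := (Measure.ae_ae_comm (μ := μ) (ν := (volume : Measure ℂ))
    (p := fun x z => ¬ (Metric.infDist z (A x : Set ℂ) ≤ 0 ∧ z ∈ Ω)) hmeas).1 h1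
  filter_upwards [h2] with z hz hzΩ
  have hlim := tendsto_measure_biInter_gt (μ := μ) (a := (0 : ℝ))
    (s := fun r => {x | ¬ Disjoint (Metric.closedBall z r) (A x : Set ℂ)})
    (fun r _ => (meas_meet hA z r).nullMeasurableSet)
    (fun i j _ hij x hx => by
      intro hd
      exact hx (hd.mono_left (Metric.closedBall_subset_closedBall hij)))
    ⟨1, by norm_num, measure_ne_top _ _⟩
  have hzero : μ (⋂ r > (0 : ℝ), {x | ¬ Disjoint (Metric.closedBall z r) (A x : Set ℂ)}) = 0 := by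
    refine measure_mono_null ?_ (ae_iff.1 hz)
    intro x hx
    simp only [Set.mem_iInter] at hx
    show ¬ ¬ (Metric.infDist z (A x : Set ℂ) ≤ 0 ∧ z ∈ Ω)
    rw [not_not]
    refine ⟨?_, hzΩ⟩
    apply _root_.le_of_forall_pos_le_add
    intro ε hε
    rw [zero_add]
    exact not_disjoint_iff.1 (hx ε hε)
  rw [hzero] at hlim
  exact hlim

end Vale.Agent.P155.Uq
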