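import Vale.Agent.P155.U.ExtB
import Vale.Agent.P155.U.EQ
import Vale.Agent.P155.U.ExtFub

/-!
# P155, block U-EXT: the two levels of a coupled pair agree
-/

namespace Vale.Agent.P155.Uq

open MeasureTheory Filter Topology TopologicalSpace
open Vale.Agent.P155.UK (bump bump_test bump_nonneg integral_bump bump_tsupport)

variable {Ω : Set ℂ} {X S S' : Type} [MeasurableSpace X] [MeasurableSpace S]
    [MeasurableSpace S'] {μ : Measure X} {K0 : X → Set ℂ} {a : X → S} {a' : X → S'}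
    {A : S → NonemptyCompacts ℂ} {A' : S' → NonemptyCompacts ℂ}
    {h : S → (ℂ → ℝ) → ℝ} {h' : S' → (ℂ → ℝ) → ℝ} {Γ Z : (ℂ → ℝ) → X → ℝ}

/-- small discs around almost every point are disjoint from the random null set, with high
probability -/
def SmallDisc (Ω : Set ℂ) (μ : Measure X) (A : X → NonemptyCompacts ℂ) : Prop :=
  ∀ᵐ z : ℂ, z ∈ Ω →
    Tendsto (fun r => μ {x | ¬ Disjoint (Metric.closedBall z r) (A x : Set ℂ)}) (𝓝[>] 0) (𝓝 0)

theorem smallDisc_two [IsProbabilityMeasure μ] {A : X → NonemptyCompacts ℂ} {z : ℂ}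
    (h : Tendsto (fun r => μ {x | ¬ Disjoint (Metric.closedBall z r) (A x : Set ℂ)})
      (𝓝[>] 0) (𝓝 0)) :
    Tendsto (fun r => μ.real {x | ¬ Disjoint (Metric.closedBall z (2 * r)) (A x : Set ℂ)})
      (𝓝[>] 0) (𝓝 0) := by
  have h2 : Tendsto (fun r : ℝ => 2 * r) (𝓝[>] 0) (𝓝[>] 0) := by
    apply tendsto_nhdsWithin_iff.2
    constructor
    · have : Tendsto (fun r : ℝ => 2 * r) (𝓝 0) (𝓝 (2 * 0)) := tendsto_id.const_mul 2
      rw [mul_zero] at this
      exact this.mono_left nhdsWithin_le_nhds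
    · filter_upwards [self_mem_nhdsWithin] with r hr
      have : (0 : ℝ) < r := hr
      show (0 : ℝ) < 2 * r
      linarith
  have h3 := (ENNReal.tendsto_toReal ENNReal.zero_ne_top).comp (h.comp h2)
  exact h3

theorem test_lin {U : Set ℂ} {φ ψ : ℂ → ℝ} (hφ : IsTest U φ) (hψ : IsTest U ψ) (s t : ℝ) :
    IsTest U (fun z => s * φ z + t * ψ z) := by
  refine ⟨(contDiff_const.mul hφ.1).add (contDiff_const.mul hψ.1),
    (hφ.2.1.mul_left).add (hψ.2.1.mul_left), ?_⟩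
  refine (tsupport_add (f := fun z => s * φ z) (g := fun z => t * ψ z)).trans ?_
  apply Set.union_subset
  · exact (tsupport_mul_subset_right (f := fun _ => s) (g := φ)).trans hφ.2.2
  · exact (tsupport_mul_subset_right (f := fun _ => t) (g := ψ)).trans hψ.2.2

theorem Cpl.linh (C : Cpl Ω μ K0 a a' A A' h h' Γ Z) {φ ψ : ℂ → ℝ} (hφ : IsTest Ω φ)
    (hψ : IsTest Ω ψ) (s t : ℝ) :
    ∀ᵐ x ∂μ, h (a x) (fun z => s * φ z + t * ψ z) = s * h (a x) φ + t * h (a x) ψ := by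
  filter_upwards [C.one.rep] with x hx
  obtain ⟨g, hg, hg1, hrep⟩ := hx
  rw [hrep _ (test_lin hφ hψ s t), hrep _ hφ, hrep _ hψ]
  have i1 : Integrable (fun z => g z * φ z) :=
    (Vale.Agent.P155.U.test_int hφ).bdd_mul hg.aestronglyMeasurable (c := 1)
      (Eventually.of_forall fun z => by rw [Real.norm_eq_abs]; exact hg1 z)
  have i2 : Integrable (fun z => g z * ψ z) :=
    (Vale.Agent.P155.U.test_int hψ).bdd_mul hg.aestronglyMeasurable (c := 1)
      (Eventually.of_forall fun z => by rw [Real.norm_eq_abs]; exact hg1 z)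
  have e : (fun z => g z * (s * φ z + t * ψ z)) = fun z => s * (g z * φ z) + t * (g z * ψ z) := by
    funext z; ring
  rw [e, integral_add (i1.const_mul s) (i2.const_mul t), integral_const_mul, integral_const_mul]

/-- the functional `ψ ↦ E Y (Z ψ - c h ψ)` -/
noncomputable def ellY (μ : Measure X) (a : X → S) (h : S → (ℂ → ℝ) → ℝ) (Z : (ℂ → ℝ) → X → ℝ)
    (Y : X → ℝ) (ψ : ℂ → ℝ) : ℝ := ∫ x, Y x * (Z ψ x - cst * h (a x) ψ) ∂μ

theorem Cpl.int_YD (C : Cpl Ω μ K0 a a' A A' h h' Γ Z) {Y : X → ℝ} (hY : Measurable Y) {B : ℝ}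
    (hB : ∀ x, |Y x| ≤ B) {φ : ℂ → ℝ} (hφ : IsTest Ω φ) :
    Integrable (fun x => Y x * (Z φ x - cst * h (a x) φ)) μ := by
  have := C.prob
  exact ((C.memD hφ).integrable (by norm_num)).bdd_mul hY.aestronglyMeasurable (c := B)
    (Eventually.of_forall fun x => by rw [Real.norm_eq_abs]; exact hB x)

theorem Cpl.abs_ellY (C : Cpl Ω μ K0 a a' A A' h h' Γ Z) {Y : X → ℝ} {B : ℝ}
    (hB : ∀ x, |Y x| ≤ B) {φ : ℂ → ℝ} (hφ : IsTest Ω φ) :
    |ellY μ a h Z Y φ| ≤ B * ∫ x, |Z φ x - cst * h (a x) φ| ∂μ := by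
  have := C.prob
  unfold ellY
  rw [← Real.norm_eq_abs, ← integral_const_mul]
  apply norm_integral_le_of_norm_le
  · exact ((C.memD hφ).integrable (by norm_num)).abs.const_mul B
  · refine Eventually.of_forall fun x => ?_
    rw [Real.norm_eq_abs, abs_mul]
    exact mul_le_mul_of_nonneg_right (hB x) (abs_nonneg _)

theorem Cpl.l1_le (C : Cpl Ω μ K0 a a' A A' h h' Γ Z) {φ : ℂ → ℝ} (hφ : IsTest Ω φ) {c : ℝ}
    (hc0 : 0 ≤ c) (hc : ∫ x, (Z φ x - cst * h (a x) φ) ^ 2 ∂μ ≤ c ^ 2) :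
    ∫ x, |Z φ x - cst * h (a x) φ| ∂μ ≤ c := by
  have := C.prob
  have h1 := int_mul_sqrt (B := Set.univ) (C.memD hφ) hc hc0
  simpa using h1

theorem Cpl.Zeq (C : Cpl Ω μ K0 a a' A A' h h' Γ Z) (hkey : Key Ω μ a a' A A' Z)
    (hsd : SmallDisc Ω μ (fun x => A (a x)))
    (hsd' : SmallDisc Ω μ (fun x => A' (a' x))) {φ : ℂ → ℝ} (hφ : IsTest Ω φ) :
    ∀ᵐ x ∂μ, Z φ x = cst * h (a x) φ := by
  have := C.prob
  -- `ℓ_Y = 0`
  have hY : ∀ Y : X → ℝ, Measurable Y → (∀ x, |Y x| ≤ 1) → ellY μ a h Z Y φ = 0 := by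
    intro Y hYm hY1
    obtain ⟨P, hP0, hP'⟩ := poinc_test C.bdd
    have hP : ∀ ψ, IsTest Ω ψ → greenEnergy Ω ψ ≤ P * ∫ z, ψ z ^ 2 := fun ψ hψ =>
      hP' Ω ψ subset_rfl hψ.1.continuous hψ.2.1
    apply abs_zero C.isOpen (ℓ := ellY μ a h Z Y) _ (C := 2 * √P) _ (B := 3 * cst) _ _ φ hφ
    · -- linear
      intro φ ψ hφ hψ s t
      unfold ellY
      have e : (fun x => Y x * (Z (fun z => s * φ z + t * ψ z) x -
          cst * h (a x) (fun z => s * φ z + t * ψ z))) =ᵐ[μ]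
          fun x => s * (Y x * (Z φ x - cst * h (a x) φ)) + t * (Y x * (Z ψ x - cst * h (a x) ψ)) := by
        filter_upwards [C.linZ φ ψ hφ hψ s t, C.linh hφ hψ s t] with x h1 h2
        rw [h1, h2]
        ring
      rw [integral_congr_ae e, integral_add ((C.int_YD hYm hY1 hφ).const_mul s)
        ((C.int_YD hYm hY1 hψ).const_mul t), integral_const_mul, integral_const_mul]
    · -- bounded
      intro ψ hψ
      refine (C.abs_ellY hY1 hψ).trans ?_
      rw [one_mul]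
      have h0 : 0 ≤ ∫ z, ψ z ^ 2 := integral_nonneg fun z => sq_nonneg _
      apply C.l1_le hψ (by positivity)
      have h1 := C.ED_le hψ (C.EZ_le' hψ) (C.Eh_le' hψ)
      have h2 := hP ψ hψ
      calc _ ≤ _ := h1
        _ ≤ 4 * (P * ∫ z, ψ z ^ 2) := by linarith
        _ = _ := by
          rw [mul_pow, mul_pow, Real.sq_sqrt hP0.le, Real.sq_sqrt h0]
          ring
    · -- bumps
      intro z r hr hz
      refine (C.abs_ellY hY1 (bump_test hr hz)).trans ?_
      rw [one_mul]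
      apply C.l1_le (bump_test hr hz) (mul_nonneg (by norm_num) cst_nonneg)
      have h1 := C.ED_bump hr hz
      nlinarith [sq_nonneg cst]
    · -- convergence
      filter_upwards [hsd, hsd'] with z hz hz' hzΩ
      have h1 := smallDisc_two (hz hzΩ)
      have h2 := smallDisc_two (hz' hzΩ)
      have h3 : Tendsto (fun r => 2 * (3 * cst * √(μ.real {x | ¬ Disjoint
          (Metric.closedBall z (2 * r)) (A (a x) : Set ℂ)} + μ.real {x | ¬ Disjoint
          (Metric.closedBall z (2 * r)) (A' (a' x) : Set ℂ)}))) (𝓝[>] 0) (𝓝 0) := by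
        have h4 : Tendsto (fun r => √(μ.real {x | ¬ Disjoint
          (Metric.closedBall z (2 * r)) (A (a x) : Set ℂ)} + μ.real {x | ¬ Disjoint
          (Metric.closedBall z (2 * r)) (A' (a' x) : Set ℂ)})) (𝓝[>] 0) (𝓝 0) := by
          have := (h1.add h2).sqrt
          simpa using this
        simpa using (h4.const_mul (3 * cst)).const_mul 2
      obtain ⟨ρ, hρ0, hρ⟩ := Metric.isOpen_iff.1 C.isOpen z hzΩ
      have hev : ∀ᶠ r : ℝ in 𝓝[>] 0, 0 < r ∧ 2 * r < ρ := by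
        have e1 : Set.Ioo (0 : ℝ) (ρ / 2) ∈ 𝓝[>] (0 : ℝ) := Ioo_mem_nhdsGT (by positivity)
        filter_upwards [e1] with r hr
        exact ⟨hr.1, by linarith [hr.2]⟩
      apply squeeze_zero_norm' _ h3
      filter_upwards [hev] with r hr
      have hcb : Metric.closedBall z (2 * r) ⊆ Ω :=
        (Metric.closedBall_subset_ball hr.2).trans hρ
      have hcb' : Metric.closedBall z r ⊆ Ω :=
        (Metric.closedBall_subset_closedBall (by linarith [hr.1])).trans hcb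
      rw [Real.norm_eq_abs]
      refine (C.abs_ellY hY1 (bump_test hr.1 hcb')).trans ?_
      rw [one_mul]
      refine (C.ext_bump hkey hr.1 hcb).trans ?_
      have hc := cst_nonneg
      gcongr
      refine le_trans (measureReal_mono ?_ (measure_ne_top _ _)) (measureReal_union_le _ _)
      intro x hx
      rw [Set.mem_compl_iff, Set.mem_inter_iff, not_and_or] at hx
      exact hx
  -- choose `Y` = sign
  set D : X → ℝ := fun x => Z φ x - cst * h (a x) φ with hD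
  have mD : MemLp D 2 μ := C.memD hφ
  have iD : Integrable D μ := mD.integrable (by norm_num)
  obtain ⟨D', hD'm, hD'⟩ := iD.aestronglyMeasurable
  have h1 := hY (fun x => Real.sign (D' x)) (by
    have : Measurable Real.sign := by
      unfold Real.sign
      exact Measurable.ite (measurableSet_Iio) measurable_const
        (Measurable.ite (measurableSet_Ioi) measurable_const measurable_const)
    exact this.comp hD'm.measurable) (fun x => by
      rcases Real.sign_apply_eq (D' x) with h | h | h <;> rw [h] <;> simp)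
  have h2 : ∫ x, |D x| ∂μ = 0 := by
    rw [← h1]
    unfold ellY
    apply integral_congr_ae
    filter_upwards [hD'] with x hx
    have e : Z φ x - cst * h (a x) φ = D' x := hx
    rw [show |D x| = |D' x| by rw [hx], e]
    rcases lt_trichotomy (D' x) 0 with h | h | h
    · rw [Real.sign_of_neg h, abs_of_neg h]; ring
    · rw [h]; simp
    · rw [Real.sign_of_pos h, abs_of_pos h]; ring
  have h3 := (integral_eq_zero_iff_of_nonneg (fun x => abs_nonneg _) iD.abs).1 h2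
  filter_upwards [h3] with x hx
  have hx' : |D x| = 0 := hx
  have := abs_eq_zero.1 hx'
  simp only [hD] at this
  linarith

/-- Green energies do not change when `A'` is added. -/
theorem Cpl.green_eq (C : Cpl Ω μ K0 a a' A A' h h' Γ Z) {φ : ℂ → ℝ} (hφ : IsTest Ω φ)
    (hZ : ∀ᵐ x ∂μ, Z φ x = cst * h (a x) φ) :
    ∀ᵐ x ∂μ, greenEnergy (Ω \ (A (a x) : Set ℂ)) φ ≤
      greenEnergy (Ω \ ((A (a x) : Set ℂ) ∪ A' (a' x))) φ := by
  obtain ⟨M, hM⟩ := test_bound hφ
  have e1 := C.varGZ hφ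
  have e2 := C.varGh hφ
  have e3 : ∫ x, (Γ φ x - Z φ x) ^ 2 ∂μ = ∫ x, (Γ φ x - cst * h (a x) φ) ^ 2 ∂μ := by
    apply integral_congr_ae
    filter_upwards [hZ] with x hx
    rw [hx]
  have h0 : ∀ x, 0 ≤ greenEnergy (Ω \ (A (a x) : Set ℂ)) φ -
      greenEnergy (Ω \ ((A (a x) : Set ℂ) ∪ A' (a' x))) φ := by
    intro x
    have : greenEnergy (Ω \ ((A (a x) : Set ℂ) ∪ A' (a' x))) φ ≤
        greenEnergy (Ω \ (A (a x) : Set ℂ)) φ := by
      apply green_mono _ (C.bdd.subset Set.sdiff_subset) hM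
      exact Set.sdiff_subset_sdiff_right Set.subset_union_left
    linarith
  have h1 : ∫ x, (greenEnergy (Ω \ (A (a x) : Set ℂ)) φ -
      greenEnergy (Ω \ ((A (a x) : Set ℂ) ∪ A' (a' x))) φ) ∂μ = 0 := by
    rw [integral_sub (C.int_gA hφ) (C.int_gAA hφ), ← e1, ← e2, e3, sub_self]
  have h2 := (integral_eq_zero_iff_of_nonneg h0 ((C.int_gA hφ).sub (C.int_gAA hφ))).1 h1
  filter_upwards [h2] with x hx
  have hx' : greenEnergy (Ω \ (A (a x) : Set ℂ)) φ -
      greenEnergy (Ω \ ((A (a x) : Set ℂ) ∪ A' (a' x))) φ = 0 := hx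
  linarith

/-- **U-EXT** -/
theorem ext_of (hkey : ∀ (Ω : Set ℂ) {X S S' : Type} [MeasurableSpace X] [MeasurableSpace S]
    [MeasurableSpace S'] (μ : Measure X) (K0 : X → Set ℂ) (a : X → S) (a' : X → S')
    (A : S → NonemptyCompacts ℂ) (A' : S' → NonemptyCompacts ℂ)
    (h : S → (ℂ → ℝ) → ℝ) (h' : S' → (ℂ → ℝ) → ℝ) (Γ Z : (ℂ → ℝ) → X → ℝ),
    Cpl Ω μ K0 a a' A A' h h' Γ Z → Key Ω μ a a' A A' Z) : ExtStmt := by
  intro Ω X S S' _ _ _ μ K0 a a' A A' h h' Γ Z C
  have hp := C.prob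
  have h1 : SmallDisc Ω μ (fun x => A (a x)) :=
    fubini_zero (C.mA.comp C.ma) C.isOpen C.one.null
  have h2 : SmallDisc Ω μ (fun x => A' (a' x)) :=
    fubini_zero (C.mA'.comp C.ma') C.isOpen C.one'.null
  have hk := hkey Ω μ K0 a a' A A' h h' Γ Z C
  have hk' := hkey Ω μ K0 a' a A' A h' h Γ Z C.symm
  have hZ : ∀ φ, IsTest Ω φ → ∀ᵐ x ∂μ, Z φ x = cst * h (a x) φ := fun φ hφ =>
    C.Zeq hk h1 h2 hφ
  have hZ' : ∀ φ, IsTest Ω φ → ∀ᵐ x ∂μ, Z φ x = cst * h' (a' x) φ := fun φ hφ =>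
    C.symm.Zeq hk' h2 h1 hφ
  constructor
  · have g1 : ∀ᵐ x ∂μ, ∀ i, greenEnergy (Ω \ (A (a x) : Set ℂ)) (Vale.Agent.P155.U.fam Ω i) ≤
        greenEnergy (Ω \ ((A (a x) : Set ℂ) ∪ A' (a' x))) (Vale.Agent.P155.U.fam Ω i) :=
      ae_all_iff.2 fun i => C.green_eq (Vale.Agent.P155.U.fam_test Ω i)
        (hZ _ (Vale.Agent.P155.U.fam_test Ω i))
    have g2 : ∀ᵐ x ∂μ, ∀ i, greenEnergy (Ω \ (A' (a' x) : Set ℂ)) (Vale.Agent.P155.U.fam Ω i) ≤
        greenEnergy (Ω \ ((A' (a' x) : Set ℂ) ∪ A (a x))) (Vale.Agent.P155.U.fam Ω i) :=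
      ae_all_iff.2 fun i => C.symm.green_eq (Vale.Agent.P155.U.fam_test Ω i)
        (hZ' _ (Vale.Agent.P155.U.fam_test Ω i))
    filter_upwards [g1, g2, C.one.conn, C.one'.conn, C.one.fr, C.one'.fr, C.one.sub, C.one'.sub]
      with x x1 x2 x3 x4 x5 x6 x7 x8
    apply NonemptyCompacts.ext
    refine Vale.Agent.P155.U.eq_of_union C.isOpen C.bdd C.ne (A (a x)).isCompact.isClosed
      x3.isPreconnected x5 x7.2 (A' (a' x)).isCompact.isClosed x4.isPreconnected x6 x8.2 x1 ?_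
    simpa only [Set.union_comm] using x2
  · intro φ hφ
    filter_upwards [hZ φ hφ, hZ' φ hφ] with x y1 y2
    have : cst * h (a x) φ = cst * h' (a' x) φ := y1.symm.trans y2
    exact mul_left_cancel₀ cst_pos.ne' this

end Vale.Agent.P155.Uq
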