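import Vale.Agent.P155.U.Key
import Vale.Agent.P155.U.ExtC

/-!
# P155, block U (uniqueness): U-EXT from KEY
-/

namespace Vale.Agent.P155.Uq

/-- **U-EXT**: in a coupled pair the two levels agree. -/
theorem extStmt : ExtStmt :=
  ext_of fun _ _ _ _ _ _ _ _ _ _ _ _ _ _ _ _ _ hc _ _ hr hz => Vale.Agent.P155.UK.key hc hr hz

end Vale.Agent.P155.Uq
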