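import Vale.Agent.P155.U.Xex3

/-!
# P155, block U-X, part 4: the coupled pair at level `k + 1`
-/

namespace Vale.Agent.P155.Uq.Xe

open MeasureTheory Filter Topology TopologicalSpace Vale.Agent.P155.U

section

variable {Ω : Set ℂ} {R : (ℂ → ℝ) → HL} {Q Q' : Measure (Sp Ω)} {X : Type} [MeasurableSpace X]
  {μ : Measure X} [IsProbabilityMeasure μ] {a a' : X → Sp Ω} {Wt : GV Ω →ₗᵢ[ℝ] Lp ℝ 2 μ}
  {J : Type} [Countable J] [MeasurableSpace J] [MeasurableSingletonClass J] {k : ℕ}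
  {idx : ℕ → PP Ω (k + 1) → J} {P : J → GV Ω →L[ℝ] GV Ω}

/-- The pair of pasts. -/
def pp (a a' : X → Sp Ω) (k : ℕ) (x : X) : PP Ω (k + 1) := (past (k + 1) (a x), past (k + 1) (a' x))

/-- `E[w (Σ w_i Y φ_i)²]`. -/
theorem Y_two (hR : IsR Ω R)
    (D : YData Wt (pp a a' k) idx P (fun t => PG (Set.sdiff_subset : Ω \ uni t ⊆ Ω)))
    {ι : Type} (t : Finset ι) (w : ι → PP Ω (k + 1) → ℝ) (φ : ι → ℂ → ℝ) (hw : ∀ i ∈ t, BM (w i))
    (hφ : ∀ i ∈ t, IsTest Ω (φ i)) :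
    ∫ x, (∑ i ∈ t, w i (pp a a' k x) * (D.Y ⟨R (φ i), hR.mem _⟩ : X → ℝ) x) ^ 2 ∂μ =
      ∫ x, greenEnergy (Ω \ uni (pp a a' k x))
        (fun z => ∑ i ∈ t, w i (pp a a' k x) * φ i z) ∂μ := by
  rw [int_sq_sum t (fun i x => w i (pp a a' k x))
    (fun i hi => ((hw i hi).1.comp D.mp).aestronglyMeasurable)
    (fun i hi => by
      obtain ⟨C, hC⟩ := (hw i hi).2
      exact ⟨C, fun x => hC _⟩) (fun i x => (D.Y ⟨R (φ i), hR.mem _⟩ : X → ℝ) x)
    (fun i hi => Lp.memLp _)]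
  have e : ∀ x, greenEnergy (Ω \ uni (pp a a' k x))
        (fun z => ∑ i ∈ t, w i (pp a a' k x) * φ i z) =
      ∑ i ∈ t, ∑ j ∈ t, w i (pp a a' k x) * w j (pp a a' k x) *
        inner ℝ (PG (Set.sdiff_subset : Ω \ uni (pp a a' k x) ⊆ Ω) ⟨R (φ i), hR.mem _⟩)
          (PG (Set.sdiff_subset : Ω \ uni (pp a a' k x) ⊆ Ω) ⟨R (φ j), hR.mem _⟩) := fun x =>
    green_sum hR _ t (fun i => w i (pp a a' k x)) φ hφ
  simp_rw [e]
  have hbm : ∀ i ∈ t, ∀ j ∈ t, Measurable (fun s => w i s * w j s) ∧ ∃ C, ∀ s, |w i s * w j s| ≤ C := by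
    intro i hi j hj
    obtain ⟨C, hC⟩ := (hw i hi).2
    obtain ⟨C', hC'⟩ := (hw j hj).2
    refine ⟨(hw i hi).1.mul (hw j hj).1, |C| * |C'|, fun s => ?_⟩
    rw [abs_mul]
    exact mul_le_mul ((hC s).trans (le_abs_self C)) ((hC' s).trans (le_abs_self C')) (abs_nonneg _)
      (abs_nonneg _)
  have hint : ∀ i ∈ t, ∀ j ∈ t, Integrable (fun x => w i (pp a a' k x) * w j (pp a a' k x) *
        inner ℝ (PG (Set.sdiff_subset : Ω \ uni (pp a a' k x) ⊆ Ω) ⟨R (φ i), hR.mem _⟩)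
          (PG (Set.sdiff_subset : Ω \ uni (pp a a' k x) ⊆ Ω) ⟨R (φ j), hR.mem _⟩)) μ := by
    intro i hi j hj
    obtain ⟨hm, C, hC⟩ := hbm i hi j hj
    refine Integrable.mono' (integrable_const (|C| * (‖(⟨R (φ i), hR.mem _⟩ : GV Ω)‖ *
      ‖(⟨R (φ j), hR.mem _⟩ : GV Ω)‖))) ?_ (Eventually.of_forall fun x => ?_)
    · exact ((hm.stronglyMeasurable.mul ((D.smPi _).inner (D.smPi _))).comp_measurable
        D.mp).aestronglyMeasurable
    · rw [Real.norm_eq_abs, abs_mul]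
      refine mul_le_mul ((hC _).trans (le_abs_self C)) ?_ (abs_nonneg _) (abs_nonneg _)
      refine (abs_real_inner_le_norm _ _).trans ?_
      exact mul_le_mul (PG_norm_le _ _) (PG_norm_le _ _) (norm_nonneg _) (norm_nonneg _)
  rw [integral_finsetSum _ fun i hi => integrable_finsetSum _ fun j hj => hint i hi j hj]
  refine Finset.sum_congr rfl fun i hi => ?_
  rw [integral_finsetSum _ fun j hj => hint i hi j hj]
  refine Finset.sum_congr rfl fun j hj => ?_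
  obtain ⟨hm, hC⟩ := hbm i hi j hj
  exact D.YY _ _ (w := fun s => w i s * w j s) hm hC

theorem cpl_level (hO : IsOpen Ω) (hb : Bornology.IsBounded Ω) (hne : Ω.Nonempty) (hR : IsR Ω R)
    (hQ : Canon Ω Q) (hQ' : Canon Ω Q') {W : GV Ω →ₗᵢ[ℝ] Lp ℝ 2 Q} {W' : GV Ω →ₗᵢ[ℝ] Lp ℝ 2 Q'}
    (hch : CondCh Ω R Q W) (hch' : CondCh Ω R Q' W') (ha : Measurable a) (ha' : Measurable a')
    (hmap : μ.map a = Q) (hmap' : μ.map a' = Q')
    (hW : ∀ f, ∀ᵐ x ∂μ, (Wt f : X → ℝ) x = (W f : Sp Ω → ℝ) (a x))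
    (hW' : ∀ f, ∀ᵐ x ∂μ, (Wt f : X → ℝ) x = (W' f : Sp Ω → ℝ) (a' x))
    (D : YData Wt (pp a a' k) idx P (fun t => PG (Set.sdiff_subset : Ω \ uni t ⊆ Ω)))
    (hDe : ∀ (t : PP Ω (k + 1)) (v : ℂ → ℝ), IsTest Ω v → Disjoint (tsupport v) (uni t) →
      ∀ hm : gr v ∈ GV Ω, ∃ n, P (idx n t) ⟨gr v, hm⟩ = ⟨gr v, hm⟩)
    (hk : ∀ᵐ x ∂μ, a x k = a' x k) :
    Cpl Ω μ (fun x => ((a x k).1 : Set ℂ)) (fun x => past (k + 1) (a x))
        (fun x => past (k + 1) (a' x))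
        (fun s => (s (Fin.last (k + 1))).1) (fun s => (s (Fin.last (k + 1))).1)
        (fun s φ => pr (s (Fin.last (k + 1))).2 φ - pr (s (Fin.castSucc (Fin.last k))).2 φ)
        (fun s φ => pr (s (Fin.last (k + 1))).2 φ - pr (s (Fin.castSucc (Fin.last k))).2 φ)
        (Gm hR Wt a k)
        (fun φ x => Gm hR Wt a k φ x - (D.Y ⟨R φ, hR.mem φ⟩ : X → ℝ) x) where
  isOpen := hO
  bdd := hb
  ne := hne
  prob := inferInstance
  ma := (measurable_past _).comp ha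
  ma' := (measurable_past _).comp ha'
  mA := measurable_fst.comp (measurable_pi_apply _)
  mA' := measurable_fst.comp (measurable_pi_apply _)
  mh φ hφ := ((Gam.measurable_pr hφ).comp (measurable_snd.comp (measurable_pi_apply _))).sub
    ((Gam.measurable_pr hφ).comp (measurable_snd.comp (measurable_pi_apply _)))
  mh' φ hφ := ((Gam.measurable_pr hφ).comp (measurable_snd.comp (measurable_pi_apply _))).sub
    ((Gam.measurable_pr hφ).comp (measurable_snd.comp (measurable_pi_apply _)))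
  mK0 φ hφ := (Gam.meas_green hb hφ k).comp ha
  one := lev_map ha hmap (levStmt Ω hO hb hne Q hQ k)
  one' := by
    have h := lev_map ha' hmap' (levStmt Ω hO hb hne Q' hQ' k)
    refine ⟨h.rep, h.fr, ?_, h.conn, h.null, h.sign⟩
    filter_upwards [h.sub, hk] with x hx hkx
    rw [hkx]
    exact hx
  memΓ φ hφ := memLp_Gm hR Wt hQ ha hmap hφ k
  memZ φ hφ := (memLp_Gm hR Wt hQ ha hmap hφ k).sub (Lp.memLp _)
  linΓ φ ψ hφ hψ s t := Gm_lin hR Wt k hφ hψ s t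
  linZ φ ψ hφ hψ s t := by
    have e : (⟨R (fun z => s * φ z + t * ψ z), hR.mem _⟩ : GV Ω) =
      s • ⟨R φ, hR.mem φ⟩ + t • ⟨R ψ, hR.mem ψ⟩ := Subtype.ext (hR.lin φ ψ hφ hψ s t)
    filter_upwards [Gm_lin (a := a) hR Wt k hφ hψ s t,
      Lp.coeFn_add (s • D.Y ⟨R φ, hR.mem φ⟩) (t • D.Y ⟨R ψ, hR.mem ψ⟩),
      Lp.coeFn_smul s (D.Y ⟨R φ, hR.mem φ⟩), Lp.coeFn_smul t (D.Y ⟨R ψ, hR.mem ψ⟩)]
      with x h1 h2 h3 h4
    rw [h1, e, D.Y_lin, h2, Pi.add_apply, h3, h4, Pi.smul_apply, Pi.smul_apply]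
    simp only [smul_eq_mul]
    ring
  tot φ hφ := by
    have h := Gm_two hO hb hne hR hQ hch ha hmap hW k (ι := Unit) Finset.univ (fun _ _ => 1)
      (fun _ => φ) (fun _ _ => ⟨measurable_const, 1, fun _ => by simp⟩) (fun _ _ => hφ)
    simpa using h
  m1 φ hφ w hw := by
    rw [← Gm_one hO hb hne hR hQ hch ha hmap hW (k + 1) hφ hw]
    congr 1
    ext x
    have : Gm hR Wt a k φ x - cst * (pr (past (k + 1) (a x) (Fin.last (k + 1))).2 φ -
        pr (past (k + 1) (a x) (Fin.castSucc (Fin.last k))).2 φ) = Gm hR Wt a (k + 1) φ x := by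
      show (Wt ⟨R φ, hR.mem φ⟩ : X → ℝ) x - cst * pr (a x k).2 φ -
        cst * (pr (a x (k + 1)).2 φ - pr (a x k).2 φ) =
        (Wt ⟨R φ, hR.mem φ⟩ : X → ℝ) x - cst * pr (a x (k + 1)).2 φ
      ring
    rw [this]
  m1' φ hφ w hw := by
    rw [← Gm_one hO hb hne hR hQ' hch' ha' hmap' hW' (k + 1) hφ hw]
    refine integral_congr_ae ?_
    filter_upwards [hk] with x hx
    have : Gm hR Wt a k φ x - cst * (pr (past (k + 1) (a' x) (Fin.last (k + 1))).2 φ -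
        pr (past (k + 1) (a' x) (Fin.castSucc (Fin.last k))).2 φ) = Gm hR Wt a' (k + 1) φ x := by
      show (Wt ⟨R φ, hR.mem φ⟩ : X → ℝ) x - cst * pr (a x k).2 φ -
        cst * (pr (a' x (k + 1)).2 φ - pr (a' x k).2 φ) =
        (Wt ⟨R φ, hR.mem φ⟩ : X → ℝ) x - cst * pr (a' x (k + 1)).2 φ
      rw [hx]
      ring
    rw [this]
  m2 {ι} t w φ hw hφ := by
    refine Eq.trans ?_ (Gm_two hO hb hne hR hQ hch ha hmap hW (k + 1) t w φ hw hφ)
    congr 1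
    ext x
    congr 1
    refine Finset.sum_congr rfl fun i _ => ?_
    have : Gm hR Wt a k (φ i) x - cst * (pr (past (k + 1) (a x) (Fin.last (k + 1))).2 (φ i) -
        pr (past (k + 1) (a x) (Fin.castSucc (Fin.last k))).2 (φ i)) =
        Gm hR Wt a (k + 1) (φ i) x := by
      show (Wt ⟨R (φ i), hR.mem (φ i)⟩ : X → ℝ) x - cst * pr (a x k).2 (φ i) -
        cst * (pr (a x (k + 1)).2 (φ i) - pr (a x k).2 (φ i)) =
        (Wt ⟨R (φ i), hR.mem (φ i)⟩ : X → ℝ) x - cst * pr (a x (k + 1)).2 (φ i)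
      ring
    rw [this]
  m2' {ι} t w φ hw hφ := by
    refine Eq.trans ?_ (Gm_two hO hb hne hR hQ' hch' ha' hmap' hW' (k + 1) t w φ hw hφ)
    refine integral_congr_ae ?_
    filter_upwards [hk] with x hx
    congr 1
    refine Finset.sum_congr rfl fun i _ => ?_
    have : Gm hR Wt a k (φ i) x - cst * (pr (past (k + 1) (a' x) (Fin.last (k + 1))).2 (φ i) -
        pr (past (k + 1) (a' x) (Fin.castSucc (Fin.last k))).2 (φ i)) =
        Gm hR Wt a' (k + 1) (φ i) x := by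
      show (Wt ⟨R (φ i), hR.mem (φ i)⟩ : X → ℝ) x - cst * pr (a x k).2 (φ i) -
        cst * (pr (a' x (k + 1)).2 (φ i) - pr (a' x k).2 (φ i)) =
        (Wt ⟨R (φ i), hR.mem (φ i)⟩ : X → ℝ) x - cst * pr (a' x (k + 1)).2 (φ i)
      rw [hx]
      ring
    rw [this]
  z1 φ hφ w hw := by
    rw [← D.Y1 ⟨R φ, hR.mem φ⟩ hw.1 hw.2]
    congr 1
    ext x
    rw [sub_sub_cancel]
    rfl
  z2 {ι} t w φ hw hφ := by
    refine Eq.trans ?_ (Y_two hR D t w φ hw hφ)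
    congr 1
    ext x
    congr 1
    refine Finset.sum_congr rfl fun i _ => ?_
    rw [sub_sub_cancel]
    rfl
  z3 φ ψ hφ hψ w hw := by
    have hbd := ae_map_of ha hmap (Gam.Mk_bd hQ hψ k)
    obtain ⟨M, hM0, hM⟩ : ∃ M : ℝ, 0 ≤ M ∧ ∀ᵐ x ∂μ, |cst * pr (a x k).2 ψ| ≤ M :=
      ⟨|cst * (k * ∫ z in Ω, |ψ z|)|, abs_nonneg _, by
        filter_upwards [hbd] with x hx
        exact hx.trans (le_abs_self _)⟩
    obtain ⟨C, hC⟩ := hw.2
    set y : X → ℝ := (D.Y ⟨R φ, hR.mem φ⟩ : X → ℝ) with hy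
    have i1 : Integrable (fun x => w (pp a a' k x) * (y x * (Wt ⟨R ψ, hR.mem ψ⟩ : X → ℝ) x)) μ :=
      integrable_wint (hw.1.comp D.mp).aestronglyMeasurable (fun x => hC _) (Lp.memLp _) (Lp.memLp _)
    have i2 : Integrable (fun x => w (pp a a' k x) * (y x * (D.Y ⟨R ψ, hR.mem ψ⟩ : X → ℝ) x)) μ :=
      integrable_wint (hw.1.comp D.mp).aestronglyMeasurable (fun x => hC _) (Lp.memLp _) (Lp.memLp _)
    have i3 : Integrable (fun x => w (pp a a' k x) * (y x * (cst * pr (a x k).2 ψ))) μ :=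
      integrable_wint (hw.1.comp D.mp).aestronglyMeasurable (fun x => hC _) (Lp.memLp _)
        (memLp_pr_a hQ ha hmap hψ k)
    have e : ∀ x, w (past (k + 1) (a x), past (k + 1) (a' x)) *
        (Gm hR Wt a k φ x - (Gm hR Wt a k φ x - y x)) *
        (Gm hR Wt a k ψ x - (D.Y ⟨R ψ, hR.mem ψ⟩ : X → ℝ) x) =
        w (pp a a' k x) * (y x * (Wt ⟨R ψ, hR.mem ψ⟩ : X → ℝ) x) -
        w (pp a a' k x) * (y x * (D.Y ⟨R ψ, hR.mem ψ⟩ : X → ℝ) x) -
        w (pp a a' k x) * (y x * (cst * pr (a x k).2 ψ)) := by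
      intro x
      show w (pp a a' k x) * _ * ((Wt ⟨R ψ, hR.mem ψ⟩ : X → ℝ) x - cst * pr (a x k).2 ψ - _) = _
      ring
    simp_rw [e]
    have gen : ∀ A B C : X → ℝ, Integrable A μ → Integrable B μ → Integrable C μ →
        ∫ x, (A x - B x - C x) ∂μ = ∫ x, A x ∂μ - ∫ x, B x ∂μ - ∫ x, C x ∂μ := by
      intro A B C hA hB hC
      have h1 : ∫ x, (A x - B x - C x) ∂μ = ∫ x, (A x - B x) ∂μ - ∫ x, C x ∂μ :=
        integral_sub (hA.sub hB) hC
      rw [h1, integral_sub hA hB]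
    have eYW := D.YW ⟨R φ, hR.mem φ⟩ ⟨R ψ, hR.mem ψ⟩ hw.1 hw.2
    have eYY := D.YY ⟨R φ, hR.mem φ⟩ ⟨R ψ, hR.mem ψ⟩ hw.1 hw.2
    rw [gen _ _ _ i1 i2 i3]
    have e3 : ∫ x, w (pp a a' k x) * (y x * (cst * pr (a x k).2 ψ)) ∂μ = 0 := by
      set w' : PP Ω (k + 1) → ℝ := fun s => w s *
        clip M (cst * pr (s.1 (Fin.castSucc (Fin.last k))).2 ψ) with hw'
      have hm' : Measurable w' := by
        refine hw.1.mul (measurable_clip (measurable_const.mul ?_))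
        exact (Gam.measurable_pr hψ).comp (measurable_snd.comp ((measurable_pi_apply _).comp
          measurable_fst))
      rw [← D.Y1 ⟨R φ, hR.mem φ⟩ (w := w') hm' ⟨|C| * M, fun s => by
        rw [hw']
        simp only
        rw [abs_mul]
        exact mul_le_mul ((hC s).trans (le_abs_self C)) (abs_clip_le hM0 _) (abs_nonneg _)
          (abs_nonneg _)⟩]
      refine integral_congr_ae ?_
      filter_upwards [hM] with x hx
      have h1 : w' (pp a a' k x) = w (pp a a' k x) * (cst * pr (a x k).2 ψ) := by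
        show w (pp a a' k x) * clip M (cst * pr (a x k).2 ψ) = _
        rw [clip_eq hx]
      rw [h1]
      ring
    rw [e3, sub_zero, sub_eq_zero]
    refine eYW.trans (Eq.trans ?_ eYY.symm)
    congr 1
    ext x
    rw [PG_inner]
  harm v φ hv hφ hn := by
    have hgr : R φ = gr v := hR.lap v φ hv hφ hn
    have hm : gr v ∈ GV Ω := by rw [← hgr]; exact hR.mem φ
    have hmem : (⟨R φ, hR.mem φ⟩ : GV Ω) = ⟨gr v, hm⟩ := Subtype.ext hgr
    have hl := ae_map_of ha hmap (lochStmt Ω hO hb hne Q hQ k)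
    have hmo := ae_map_of ha hmap hQ.mono
    filter_upwards [D.Y_eq ⟨gr v, hm⟩, hl, hmo] with x h1 h2 h3 hd
    have h4 : pr (a x k).2 φ = 0 := by
      refine h2 v φ hv hφ hn (hd.mono_right ?_)
      exact (h3 k).1.trans Set.subset_union_left
    obtain ⟨n, hnn⟩ := hDe (pp a a' k x) v hv hd hm
    have h5 := h1 ⟨n, hnn⟩
    unfold Gm
    rw [hmem, h5, h4]
    ring

end

/-- Block U-X. -/
theorem existsCpl_of (hCL : CplLocStmt) : ExistsCpl := by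
  intro Ω hO hb hne Q Q' hQ hQ'
  obtain ⟨R, hR⟩ := exists_isR hO hb
  obtain ⟨W, W', X, mX, μ, a, a', Wt, prob, ha, ha', hmap, hmap', hW, hW', hch, hch', hpc⟩ :=
    hCL Ω hO hb hne R hR Q Q' hQ hQ'
  refine ⟨X, mX, μ, a, a', prob, ha, ha', hmap, hmap', ?_⟩
  intro k hk
  obtain ⟨J, cJ, msJ, mscJ, K, ix, hix, hKc, hKs, hKm, hKe⟩ := dyaStmt
  have D := ydata ha ha' hpc (k + 1) hix hKc hKs hKm hKe
  refine ⟨_, _, cpl_level hO hb hne hR hQ hQ' hch hch' ha ha' hmap hmap' hW hW' D ?_ hk⟩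
  intro t v hv hd hm
  obtain ⟨n, hn⟩ := hKe (car t) (tsupport v) hv.2.1 hd
  refine ⟨n, (PG_eq_iff _ _).2 ?_⟩
  refine gr_mem ⟨hv.1, hv.2.1, fun z hz => ⟨hv.2.2 hz, fun hz' => ?_⟩⟩
  exact (Set.disjoint_left.1 hn) hz hz'

end Vale.Agent.P155.Uq.Xe
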