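import Vale.Agent.P155.FinalStmt

/-!
# P155, block U (uniqueness of the law in `IsSignedCarpets`): interface

`Canon Ω Q` : the law `Q` of the signed carpets on a canonical (Polish) state space.
`Lev`       : the almost sure properties of one level `(A, h)` over the previous carpet `K0`.
`Cpl`       : two levels (with the same `K0`) coupled through a common field `Γ`; `Z φ` is the part
of `Γ φ` which is determined by `C = A ∪ A'`.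
-/

namespace Vale.Agent.P155.Uq

open MeasureTheory Filter Topology TopologicalSpace

noncomputable instance instMSNC : MeasurableSpace (NonemptyCompacts ℂ) := borel _
instance instBSNC : BorelSpace (NonemptyCompacts ℂ) := ⟨rfl⟩

/-- Fields of bounded functions on `Ω`, as elements of `L²`. -/
abbrev Fld (Ω : Set ℂ) : Type := Lp ℝ 2 (volume.restrict Ω : Measure ℂ)

noncomputable instance instMSFld (Ω : Set ℂ) : MeasurableSpace (Fld Ω) := borel _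
instance instBSFld (Ω : Set ℂ) : BorelSpace (Fld Ω) := ⟨rfl⟩

instance instSCFld (Ω : Set ℂ) : SecondCountableTopology (Fld Ω) :=
  haveI : Fact ((2 : ENNReal) ≠ ⊤) := ⟨by norm_num⟩
  inferInstance

/-- The canonical state space: the sequence of carpets and height functions. -/
abbrev Sp (Ω : Set ℂ) : Type := ℕ → NonemptyCompacts ℂ × Fld Ω

/-- The first `k + 1` levels (`0, …, k`). -/
abbrev Past (Ω : Set ℂ) (k : ℕ) : Type := Fin (k + 1) → NonemptyCompacts ℂ × Fld Ω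

/-- Restriction to the first `k + 1` levels. -/
def past {Ω : Set ℂ} (k : ℕ) (s : Sp Ω) : Past Ω k := fun j => s j

/-- `∫_Ω f φ`. -/
noncomputable def pr {Ω : Set ℂ} (f : Fld Ω) (φ : ℂ → ℝ) : ℝ := ∫ z in Ω, f z * φ z

/-- The constant `√(π/2)`. -/
noncomputable def cst : ℝ := Real.sqrt (Real.pi / 2)

/-- Bounded measurable functions. -/
def BM {S : Type*} [MeasurableSpace S] (Ψ : S → ℝ) : Prop :=
  Measurable Ψ ∧ ∃ C : ℝ, ∀ s, |Ψ s| ≤ C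

/-- `φ = - Δ v`, weakly. -/
def NegLap (v φ : ℂ → ℝ) : Prop :=
  ∀ w, IsTest Set.univ w → ∫ z, φ z * w z =
    ∫ z, (fderiv ℝ v z 1 * fderiv ℝ w z 1 + fderiv ℝ v z Complex.I * fderiv ℝ w z Complex.I)

/-- The laws of signed carpets on the canonical space. -/
structure Canon (Ω : Set ℂ) (Q : Measure (Sp Ω)) : Prop where
  prob : IsProbabilityMeasure Q
  zero : ∀ᵐ s ∂Q, ((s 0).1 : Set ℂ) = frontier Ω ∧ (s 0).2 = 0
  bdd : ∀ᵐ s ∂Q, ∀ k : ℕ, ∀ᵐ z ∂(volume.restrict Ω : Measure ℂ), |(s k).2 z| ≤ (k : ℝ)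
  mono : ∀ᵐ s ∂Q, ∀ k, ((s k).1 : Set ℂ) ⊆ (s (k + 1)).1 ∧ ((s k).1 : Set ℂ) ⊆ closure Ω
  conn : ∀ᵐ s ∂Q, ∀ k, IsConnected ((s k).1 : Set ℂ)
  null : ∀ᵐ s ∂Q, ∀ k, volume (((s k).1 : Set ℂ) ∩ Ω) = 0
  sign : ∀ᵐ s ∂Q, ∀ k, ∀ z r, 0 < r → Metric.closedBall z r ⊆ Ω →
    Disjoint (Metric.closedBall z r) ((s (k + 1)).1 : Set ℂ) → ∃ t : ℝ, (t = 1 ∨ t = -1) ∧
    ∀ᵐ w ∂(volume.restrict Ω : Measure ℂ), w ∈ Metric.ball z r →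
      (s (k + 1)).2 w - (s k).2 w = t
  gff : ∀ (k : ℕ) (φ : ℂ → ℝ), IsTest Ω φ → ∀ Ψ : Past Ω k → ℝ, BM Ψ →
    ∫ s, (Ψ (past k s) : ℂ) * Complex.exp (Complex.I * cst * (pr (s (k + 1)).2 φ - pr (s k).2 φ) -
          greenEnergy (Ω \ (s (k + 1)).1) φ / 2) ∂Q =
      ∫ s, (Ψ (past k s) : ℂ) * Complex.exp (- greenEnergy (Ω \ (s k).1) φ / 2) ∂Q

/-- U-CANON: reduction to the canonical space. -/
def CanonStmt : Prop :=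
  ∀ Ω : Set ℂ, IsOpen Ω → Bornology.IsBounded Ω → Ω.Nonempty →
  ∀ {Θ : Type} [MeasurableSpace Θ] (P : Measure Θ) [IsProbabilityMeasure P]
    (G : ℕ → Θ → NonemptyCompacts ℂ) (H : ℕ → Θ → (ℂ → ℝ) → ℝ), IsSignedCarpets P Ω G H →
  ∃ Q : Measure (Sp Ω), Canon Ω Q ∧ ∀ (k m : ℕ) (χ : Fin m → ℂ → ℝ), (∀ i, IsTest Ω (χ i)) →
    ∀ F : (Fin k → NonemptyCompacts ℂ) × (Fin k → Fin m → ℝ) → ℝ, Continuous F →
    (∃ C, ∀ y, |F y| ≤ C) →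
    ∫ x, F (fun l => G l x, fun l i => H l x (χ i)) ∂P =
      ∫ s, F (fun l => (s l).1, fun l i => pr (s l).2 (χ i)) ∂Q

/-- U-VK: the energies tend to `0`. -/
def VkStmt : Prop :=
  ∀ Ω : Set ℂ, IsOpen Ω → Bornology.IsBounded Ω → Ω.Nonempty → ∀ Q : Measure (Sp Ω), Canon Ω Q →
  ∀ φ, IsTest Ω φ → ∀ᵐ s ∂Q, Tendsto (fun k => greenEnergy (Ω \ (s k).1) φ) atTop (𝓝 0)

/-- The almost sure properties of one level `(A, h)` over the previous carpet `K0`. -/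
structure Lev (Ω : Set ℂ) {X : Type} [MeasurableSpace X] (μ : Measure X) (K0 : X → Set ℂ)
    (A : X → NonemptyCompacts ℂ) (h : X → (ℂ → ℝ) → ℝ) : Prop where
  rep : ∀ᵐ x ∂μ, ∃ g : ℂ → ℝ, Measurable g ∧ (∀ z, |g z| ≤ 1) ∧
    ∀ φ, IsTest Ω φ → h x φ = ∫ z, g z * φ z
  fr : ∀ᵐ x ∂μ, frontier Ω ⊆ (A x : Set ℂ)
  sub : ∀ᵐ x ∂μ, K0 x ⊆ (A x : Set ℂ) ∧ (A x : Set ℂ) ⊆ closure Ω
  conn : ∀ᵐ x ∂μ, IsConnected (A x : Set ℂ)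
  null : ∀ᵐ x ∂μ, volume ((A x : Set ℂ) ∩ Ω) = 0
  sign : ∀ᵐ x ∂μ, ∀ z r, 0 < r → Metric.closedBall z r ⊆ Ω →
    Disjoint (Metric.closedBall z r) (A x : Set ℂ) → ∃ t : ℝ, (t = 1 ∨ t = -1) ∧
    ∀ φ, IsTest (Metric.ball z r) φ → h x φ = t * ∫ w, φ w

/-- The coupled pair.  `Γ φ` = the field, `Z φ` = its part determined by `A ∪ A'`.
All `w`'s are bounded measurable functions of `a` (resp. `a'`, resp. `(a, a')`). -/
structure Cpl (Ω : Set ℂ) {X S S' : Type} [MeasurableSpace X] [MeasurableSpace S]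
    [MeasurableSpace S'] (μ : Measure X) (K0 : X → Set ℂ) (a : X → S) (a' : X → S')
    (A : S → NonemptyCompacts ℂ) (A' : S' → NonemptyCompacts ℂ)
    (h : S → (ℂ → ℝ) → ℝ) (h' : S' → (ℂ → ℝ) → ℝ) (Γ Z : (ℂ → ℝ) → X → ℝ) : Prop where
  isOpen : IsOpen Ω
  bdd : Bornology.IsBounded Ω
  ne : Ω.Nonempty
  prob : IsProbabilityMeasure μ
  ma : Measurable a
  ma' : Measurable a'
  mA : Measurable A
  mA' : Measurable A'
  mh : ∀ φ, IsTest Ω φ → Measurable (fun s => h s φ)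
  mh' : ∀ φ, IsTest Ω φ → Measurable (fun s => h' s φ)
  mK0 : ∀ φ, IsTest Ω φ → Measurable (fun x => greenEnergy (Ω \ K0 x) φ)
  one : Lev Ω μ K0 (fun x => A (a x)) (fun x => h (a x))
  one' : Lev Ω μ K0 (fun x => A' (a' x)) (fun x => h' (a' x))
  memΓ : ∀ φ, IsTest Ω φ → MemLp (Γ φ) 2 μ
  memZ : ∀ φ, IsTest Ω φ → MemLp (Z φ) 2 μ
  linΓ : ∀ φ ψ, IsTest Ω φ → IsTest Ω ψ → ∀ s t : ℝ,
    Γ (fun z => s * φ z + t * ψ z) =ᵐ[μ] fun x => s * Γ φ x + t * Γ ψ x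
  linZ : ∀ φ ψ, IsTest Ω φ → IsTest Ω ψ → ∀ s t : ℝ,
    Z (fun z => s * φ z + t * ψ z) =ᵐ[μ] fun x => s * Z φ x + t * Z ψ x
  tot : ∀ φ, IsTest Ω φ → ∫ x, Γ φ x ^ 2 ∂μ = ∫ x, greenEnergy (Ω \ K0 x) φ ∂μ
  m1 : ∀ φ, IsTest Ω φ → ∀ w : S → ℝ, BM w → ∫ x, w (a x) * (Γ φ x - cst * h (a x) φ) ∂μ = 0
  m1' : ∀ φ, IsTest Ω φ → ∀ w : S' → ℝ, BM w →
    ∫ x, w (a' x) * (Γ φ x - cst * h' (a' x) φ) ∂μ = 0
  m2 : ∀ {ι : Type} (s : Finset ι) (w : ι → S → ℝ) (φ : ι → ℂ → ℝ), (∀ i ∈ s, BM (w i)) →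
    (∀ i ∈ s, IsTest Ω (φ i)) →
    ∫ x, (∑ i ∈ s, w i (a x) * (Γ (φ i) x - cst * h (a x) (φ i))) ^ 2 ∂μ =
      ∫ x, greenEnergy (Ω \ A (a x)) (fun z => ∑ i ∈ s, w i (a x) * φ i z) ∂μ
  m2' : ∀ {ι : Type} (s : Finset ι) (w : ι → S' → ℝ) (φ : ι → ℂ → ℝ), (∀ i ∈ s, BM (w i)) →
    (∀ i ∈ s, IsTest Ω (φ i)) →
    ∫ x, (∑ i ∈ s, w i (a' x) * (Γ (φ i) x - cst * h' (a' x) (φ i))) ^ 2 ∂μ =
      ∫ x, greenEnergy (Ω \ A' (a' x)) (fun z => ∑ i ∈ s, w i (a' x) * φ i z) ∂μ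
  z1 : ∀ φ, IsTest Ω φ → ∀ w : S × S' → ℝ, BM w →
    ∫ x, w (a x, a' x) * (Γ φ x - Z φ x) ∂μ = 0
  z2 : ∀ {ι : Type} (s : Finset ι) (w : ι → S × S' → ℝ) (φ : ι → ℂ → ℝ), (∀ i ∈ s, BM (w i)) →
    (∀ i ∈ s, IsTest Ω (φ i)) →
    ∫ x, (∑ i ∈ s, w i (a x, a' x) * (Γ (φ i) x - Z (φ i) x)) ^ 2 ∂μ =
      ∫ x, greenEnergy (Ω \ (A (a x) ∪ A' (a' x)))
        (fun z => ∑ i ∈ s, w i (a x, a' x) * φ i z) ∂μ
  z3 : ∀ φ ψ, IsTest Ω φ → IsTest Ω ψ → ∀ w : S × S' → ℝ, BM w →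
    ∫ x, w (a x, a' x) * (Γ φ x - Z φ x) * Z ψ x ∂μ = 0
  harm : ∀ v φ, IsTest Ω v → IsTest Ω φ → NegLap v φ → ∀ᵐ x ∂μ,
    Disjoint (tsupport v) ((A (a x) : Set ℂ) ∪ A' (a' x)) → Z φ x = 0

/-- U-EXT (from KEY, SUB, EQ): in a coupled pair the two levels agree. -/
def ExtStmt : Prop :=
  ∀ (Ω : Set ℂ) {X S S' : Type} [MeasurableSpace X] [MeasurableSpace S]
    [MeasurableSpace S'] (μ : Measure X) (K0 : X → Set ℂ) (a : X → S) (a' : X → S')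
    (A : S → NonemptyCompacts ℂ) (A' : S' → NonemptyCompacts ℂ)
    (h : S → (ℂ → ℝ) → ℝ) (h' : S' → (ℂ → ℝ) → ℝ) (Γ Z : (ℂ → ℝ) → X → ℝ),
    Cpl Ω μ K0 a a' A A' h h' Γ Z →
    (∀ᵐ x ∂μ, A (a x) = A' (a' x)) ∧
      ∀ φ, IsTest Ω φ → ∀ᵐ x ∂μ, h (a x) φ = h' (a' x) φ

/-- U-X (from U-CPL, U-HIL, VK): two canonical laws can be coupled so that for each `k`, if the
levels `≤ k` agree a.s., then the levels `k + 1` form a coupled pair `Cpl`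
(with `Γ` replaced by `Γ - c H_k`, `K0` by `G_k`, `h = H_{k+1} - H_k`). -/
def ExistsCpl : Prop :=
  ∀ Ω : Set ℂ, IsOpen Ω → Bornology.IsBounded Ω → Ω.Nonempty → ∀ Q Q' : Measure (Sp Ω),
  Canon Ω Q → Canon Ω Q' →
  ∃ (X : Type) (_ : MeasurableSpace X) (μ : Measure X) (a a' : X → Sp Ω),
    IsProbabilityMeasure μ ∧ Measurable a ∧ Measurable a' ∧ μ.map a = Q ∧ μ.map a' = Q' ∧
    ∀ k, (∀ᵐ x ∂μ, a x k = a' x k) → ∃ Γ Z : (ℂ → ℝ) → X → ℝ,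
      Cpl Ω μ (fun x => ((a x k).1 : Set ℂ)) (fun x => past (k + 1) (a x))
        (fun x => past (k + 1) (a' x))
        (fun s => (s (Fin.last (k + 1))).1) (fun s => (s (Fin.last (k + 1))).1)
        (fun s φ => pr (s (Fin.last (k + 1))).2 φ - pr (s (Fin.castSucc (Fin.last k))).2 φ)
        (fun s φ => pr (s (Fin.last (k + 1))).2 φ - pr (s (Fin.castSucc (Fin.last k))).2 φ) Γ Z

/-- Uniqueness of the law. -/
def Uniqueness : Prop :=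
  ∀ Ω : Set ℂ, IsOpen Ω → Bornology.IsBounded Ω → Ω.Nonempty →
  ∀ {Θ Θ' : Type} [MeasurableSpace Θ] [MeasurableSpace Θ'] (P : Measure Θ)
    [IsProbabilityMeasure P] (P' : Measure Θ') [IsProbabilityMeasure P']
    (G : ℕ → Θ → NonemptyCompacts ℂ) (H : ℕ → Θ → (ℂ → ℝ) → ℝ)
    (G' : ℕ → Θ' → NonemptyCompacts ℂ) (H' : ℕ → Θ' → (ℂ → ℝ) → ℝ),
  IsSignedCarpets P Ω G H → IsSignedCarpets P' Ω G' H' →
  ∀ (k m : ℕ) (χ : Fin m → ℂ → ℝ), (∀ i, IsTest Ω (χ i)) →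
    ∀ F : (Fin k → NonemptyCompacts ℂ) × (Fin k → Fin m → ℝ) → ℝ, Continuous F →
    (∃ C, ∀ y, |F y| ≤ C) →
    ∫ x, F (fun l => G l x, fun l i => H l x (χ i)) ∂P =
      ∫ x, F (fun l => G' l x, fun l i => H' l x (χ i)) ∂P'

/-- The goal: convergence of the full sequence, to the unique law. -/
def FullStatement : Prop :=
  ∀ Ω : Set ℂ, IsOpen Ω → Bornology.IsBounded Ω → Ω.Nonempty → SimplyConnectedSpace Ω →
  ∀ S : TempApprox Ω,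
  (∃ (Θ : Type) (_ : MeasurableSpace Θ) (P : Measure Θ) (G : ℕ → Θ → NonemptyCompacts ℂ)
    (H : ℕ → Θ → (ℂ → ℝ) → ℝ), IsProbabilityMeasure P ∧ IsSignedCarpets P Ω G H) ∧
  ∀ (Θ : Type) (_ : MeasurableSpace Θ) (P : Measure Θ) (G : ℕ → Θ → NonemptyCompacts ℂ)
    (H : ℕ → Θ → (ℂ → ℝ) → ℝ), IsProbabilityMeasure P → IsSignedCarpets P Ω G H →
  ∀ (k m : ℕ) (χ : Fin m → ℂ → ℝ), (∀ i, IsTest Ω (χ i)) →
  ∀ F : (Fin k → NonemptyCompacts ℂ) × (Fin k → Fin m → ℝ) → ℝ, Continuous F →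
    (∃ C, ∀ y, |F y| ≤ C) →
    Tendsto (fun n =>
      Ex (S.T n).V (fun ω => F (fun l => toNC (gasket (S.δ n) (S.a n) (S.T n) l ω),
        fun l i => heightInt (S.δ n) (S.a n) l ω (χ i)))) atTop
      (𝓝 (∫ x, F (fun l => G l x, fun l i => H l x (χ i)) ∂P))

end Vale.Agent.P155.Uq
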