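import Vale.Agent.P155.U.P1

/-!
# P155 uniqueness: (SUB), submodularity of the Green energy, and finiteness of the Green energy

`sub_energy`: for `φ ≥ 0`,
`greenEnergy U φ + greenEnergy U' φ ≤ greenEnergy (U ∩ U') φ + greenEnergy (U ∪ U') φ`.
-/

namespace Vale.Agent.P155.U

open MeasureTheory Set

/-! ### a smooth positive part -/

/-- smooth positive part at scale one -/
noncomputable def th (t : ℝ) : ℝ := ∫ u in (0 : ℝ)..t, Real.smoothTransition (u - 1)

lemma th_hasDerivAt (t : ℝ) : HasDerivAt th (Real.smoothTransition (t - 1)) t := by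
  have hc : Continuous fun u : ℝ => Real.smoothTransition (u - 1) :=
    Real.smoothTransition.continuous.comp (continuous_id.sub continuous_const)
  exact intervalIntegral.integral_hasDerivAt_right (hc.intervalIntegrable _ _)
    (hc.stronglyMeasurableAtFilter _ _) hc.continuousAt

lemma th_contDiff : ContDiff ℝ ((⊤ : ℕ∞) : WithTop ℕ∞) th := by
  have h1 : deriv th = fun t => Real.smoothTransition (t - 1) := by
    funext t
    exact (th_hasDerivAt t).deriv
  rw [contDiff_infty_iff_deriv, h1]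
  exact ⟨fun t => (th_hasDerivAt t).differentiableAt,
    Real.smoothTransition.contDiff.comp (contDiff_id.sub contDiff_const)⟩

lemma th_zero {t : ℝ} (ht : t ≤ 1) : th t = 0 := by
  unfold th
  apply intervalIntegral.integral_zero_ae
  filter_upwards with u hu
  rw [uIoc] at hu
  apply Real.smoothTransition.zero_of_nonpos
  have : u ≤ max 0 t := hu.2
  have : max 0 t ≤ 1 := max_le zero_le_one ht
  linarith

lemma th_nonneg (t : ℝ) : 0 ≤ th t := by
  rcases le_or_gt t 1 with h | h
  · rw [th_zero h]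
  · unfold th
    exact intervalIntegral.integral_nonneg (by linarith) fun u _ =>
      Real.smoothTransition.nonneg _

lemma th_le {t : ℝ} (ht : 0 ≤ t) : th t ≤ t := by
  unfold th
  have hc : Continuous fun u : ℝ => Real.smoothTransition (u - 1) :=
    Real.smoothTransition.continuous.comp (continuous_id.sub continuous_const)
  calc ∫ u in (0 : ℝ)..t, Real.smoothTransition (u - 1) ≤ ∫ _u in (0 : ℝ)..t, (1 : ℝ) :=
        intervalIntegral.integral_mono_on ht (hc.intervalIntegrable _ _)
          (continuous_const.intervalIntegrable _ _) fun u _ => Real.smoothTransition.le_one _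
    _ = t := by simp

lemma th_ge (t : ℝ) : t - 2 ≤ th t := by
  rcases le_or_gt t 2 with h | h
  · have := th_nonneg t
    linarith
  · have hc : Continuous fun u : ℝ => Real.smoothTransition (u - 1) :=
      Real.smoothTransition.continuous.comp (continuous_id.sub continuous_const)
    have h1 : th t = th 2 + ∫ u in (2 : ℝ)..t, Real.smoothTransition (u - 1) := by
      unfold th
      rw [intervalIntegral.integral_add_adjacent_intervals (hc.intervalIntegrable _ _)
        (hc.intervalIntegrable _ _)]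
    have h2 : ∫ u in (2 : ℝ)..t, Real.smoothTransition (u - 1) = t - 2 := by
      rw [← intervalIntegral.integral_const (1 : ℝ) |>.trans (by simp : (t - 2) • (1 : ℝ) = t - 2)]
      apply intervalIntegral.integral_congr
      intro u hu
      rw [uIcc_of_le h.le] at hu
      exact Real.smoothTransition.one_of_one_le (by linarith [hu.1])
    have := th_nonneg 2
    linarith

/-- smooth positive part at scale `ε` -/
noncomputable def T (ε t : ℝ) : ℝ := ε * th (t / ε)

section
variable {ε : ℝ} (hε : 0 < ε)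
include hε

lemma T_hasDerivAt (t : ℝ) : HasDerivAt (T ε) (Real.smoothTransition (t / ε - 1)) t := by
  have h1 : HasDerivAt (fun t : ℝ => t / ε) (1 / ε) t := (hasDerivAt_id t).div_const ε
  have h2 := ((th_hasDerivAt (t / ε)).comp t h1).const_mul ε
  have e : ε * (Real.smoothTransition (t / ε - 1) * (1 / ε)) =
      Real.smoothTransition (t / ε - 1) := by field_simp
  rw [e] at h2
  exact h2

omit hε in
lemma T_contDiff : ContDiff ℝ ((⊤ : ℕ∞) : WithTop ℕ∞) (T ε) :=
  contDiff_const.mul (th_contDiff.comp (contDiff_id.div_const ε))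

lemma T_zero {t : ℝ} (ht : t ≤ ε) : T ε t = 0 := by
  unfold T
  rw [th_zero ((div_le_one hε).2 ht), mul_zero]

lemma T_nonneg (t : ℝ) : 0 ≤ T ε t := mul_nonneg hε.le (th_nonneg _)

lemma T_le {t : ℝ} (ht : 0 ≤ t) : T ε t ≤ t := by
  unfold T
  calc ε * th (t / ε) ≤ ε * (t / ε) := mul_le_mul_of_nonneg_left (th_le (by positivity)) hε.le
    _ = t := by field_simp

lemma T_ge (t : ℝ) : t - 2 * ε ≤ T ε t := by
  unfold T
  calc t - 2 * ε = ε * (t / ε - 2) := by field_simp
    _ ≤ ε * th (t / ε) := mul_le_mul_of_nonneg_left (th_ge _) hε.le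

/-! ### smooth absolute value -/

omit hε in
/-- smooth absolute value at scale `ε` -/
noncomputable def Sa (ε t : ℝ) : ℝ := T ε t + T ε (-t)

omit hε in
lemma Sa_contDiff : ContDiff ℝ ((⊤ : ℕ∞) : WithTop ℕ∞) (Sa ε) :=
  T_contDiff.add (T_contDiff.comp contDiff_neg)

lemma Sa_zero : Sa ε 0 = 0 := by
  unfold Sa
  rw [neg_zero, T_zero hε hε.le, add_zero]

lemma Sa_le (t : ℝ) : Sa ε t ≤ |t| := by
  unfold Sa
  rcases le_total 0 t with h | h
  · rw [T_zero (t := -t) hε (by linarith), add_zero, abs_of_nonneg h]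
    exact T_le hε h
  · rw [T_zero (t := t) hε (by linarith), zero_add, abs_of_nonpos h]
    exact T_le hε (by linarith)

lemma Sa_ge (t : ℝ) : |t| - 2 * ε ≤ Sa ε t := by
  unfold Sa
  rcases le_total 0 t with h | h
  · rw [T_zero (t := -t) hε (by linarith), add_zero, abs_of_nonneg h]
    exact T_ge hε t
  · rw [T_zero (t := t) hε (by linarith), zero_add, abs_of_nonpos h]
    exact T_ge hε (-t)

lemma Sa_nonneg (t : ℝ) : 0 ≤ Sa ε t := add_nonneg (T_nonneg hε _) (T_nonneg hε _)

lemma Sa_hasDerivAt (t : ℝ) : ∃ d : ℝ, |d| ≤ 1 ∧ HasDerivAt (Sa ε) d t := by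
  refine ⟨Real.smoothTransition (t / ε - 1) + Real.smoothTransition (-t / ε - 1) * (-1), ?_,
    (T_hasDerivAt hε t).add ((T_hasDerivAt hε (-t)).comp t (hasDerivAt_neg t))⟩
  have h1 := Real.smoothTransition.nonneg (t / ε - 1)
  have h2 := Real.smoothTransition.le_one (t / ε - 1)
  have h3 := Real.smoothTransition.nonneg (-t / ε - 1)
  have h4 := Real.smoothTransition.le_one (-t / ε - 1)
  rw [abs_le]
  constructor <;> linarith

end

/-! ### norms of real functionals on `ℂ` -/

theorem clm_decomp' (L : ℂ →L[ℝ] ℝ) (z : ℂ) : L z = z.re * L 1 + z.im * L Complex.I := by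
  have e : z = z.re • (1 : ℂ) + z.im • Complex.I := by
    apply Complex.ext <;> simp
  conv_lhs => rw [e]
  rw [map_add, map_smul, map_smul, smul_eq_mul, smul_eq_mul]

theorem norm_sq_clm' (L : ℂ →L[ℝ] ℝ) : ‖L‖ ^ 2 = (L 1) ^ 2 + (L Complex.I) ^ 2 := by
  set s := (L 1) ^ 2 + (L Complex.I) ^ 2 with hs
  have hs0 : 0 ≤ s := by positivity
  have h1 : ‖L‖ ≤ Real.sqrt s := by
    apply ContinuousLinearMap.opNorm_le_bound _ (Real.sqrt_nonneg _)
    intro z
    rw [clm_decomp' L z, Real.norm_eq_abs]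
    apply abs_le_of_sq_le_sq' _ (by positivity) |> abs_le.2
    rw [mul_pow, Real.sq_sqrt hs0, Complex.sq_norm, Complex.normSq_apply, hs]
    nlinarith [sq_nonneg (z.re * L Complex.I - z.im * L 1)]
  have h2 : Real.sqrt s ≤ ‖L‖ := by
    have h3 := L.le_opNorm (⟨L 1, L Complex.I⟩ : ℂ)
    rw [clm_decomp' L ⟨L 1, L Complex.I⟩] at h3
    simp only at h3
    have h4 : ‖(⟨L 1, L Complex.I⟩ : ℂ)‖ = Real.sqrt s := by
      rw [Complex.norm_def, Complex.normSq_apply, hs]
      congr 1
      ring
    rw [h4] at h3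
    have h5 : L 1 * L 1 + L Complex.I * L Complex.I = Real.sqrt s * Real.sqrt s := by
      rw [Real.mul_self_sqrt hs0, hs]
      ring
    rw [h5, Real.norm_of_nonneg (by positivity)] at h3
    rcases eq_or_lt_of_le (Real.sqrt_nonneg s) with h6 | h6
    · rw [← h6]
      exact norm_nonneg _
    · exact le_of_mul_le_mul_right h3 h6
  have h7 : ‖L‖ = Real.sqrt s := le_antisymm h1 h2
  rw [h7, Real.sq_sqrt hs0]

/-! ### smooth minimum and maximum -/

/-- smooth positive part of a test function -/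
lemma T_comp {U : Set ℂ} {v : ℂ → ℝ} {ε : ℝ} (hε : 0 < ε) (hv : IsTest U v) :
    IsTest U (fun z => T ε (v z)) ∧ ∀ z, ‖fderiv ℝ (fun z => T ε (v z)) z‖ ≤ ‖fderiv ℝ v z‖ := by
  have hsupp : Function.support (fun z => T ε (v z)) ⊆ Function.support v := by
    intro z hz
    rw [Function.mem_support] at hz ⊢
    intro h0
    apply hz
    rw [h0, T_zero hε hε.le]
  refine ⟨⟨T_contDiff.comp hv.1, ?_, ?_⟩, ?_⟩
  · exact hv.2.1.mono hsupp
  · exact (closure_mono hsupp).trans hv.2.2
  · intro z
    have h1 : HasFDerivAt v (fderiv ℝ v z) z :=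
      ((test_c1 hv).differentiable (by norm_num) z).hasFDerivAt
    have h2 := (T_hasDerivAt hε (v z)).comp_hasFDerivAt z h1
    have h3 : fderiv ℝ (fun z => T ε (v z)) z =
        Real.smoothTransition (v z / ε - 1) • fderiv ℝ v z := h2.fderiv
    rw [h3, norm_smul, Real.norm_of_nonneg (Real.smoothTransition.nonneg _)]
    calc _ ≤ 1 * ‖fderiv ℝ v z‖ := by
          gcongr
          exact Real.smoothTransition.le_one _
      _ = _ := one_mul _

/-- smooth minimum and maximum of nonnegative test functions -/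
lemma min_max {U U' : Set ℂ} {v v' : ℂ → ℝ} {ε : ℝ} (hε : 0 < ε) (hv : IsTest U v)
    (hv' : IsTest U' v') (h0 : ∀ z, 0 ≤ v z) (h0' : ∀ z, 0 ≤ v' z) :
    ∃ m M : ℂ → ℝ, IsTest (U ∩ U') m ∧ IsTest (U ∪ U') M ∧
      (∀ z, v z + v' z - 2 * ε ≤ m z + M z) ∧ (∀ z, 0 ≤ m z) ∧ (∀ z, 0 ≤ M z) ∧
      (∀ z, ‖fderiv ℝ m z‖ ^ 2 + ‖fderiv ℝ M z‖ ^ 2 ≤
        ‖fderiv ℝ v z‖ ^ 2 + ‖fderiv ℝ v' z‖ ^ 2) := by
  set p : ℂ → ℝ := fun z => (v z + v' z - Sa ε (v z - v' z)) / 2 with hp
  set q : ℂ → ℝ := fun z => (v z + v' z + Sa ε (v z - v' z)) / 2 with hq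
  have hpC : ContDiff ℝ ((⊤ : ℕ∞) : WithTop ℕ∞) p :=
    ((hv.1.add hv'.1).sub (Sa_contDiff.comp (hv.1.sub hv'.1))).div_const 2
  have hqC : ContDiff ℝ ((⊤ : ℕ∞) : WithTop ℕ∞) q :=
    ((hv.1.add hv'.1).add (Sa_contDiff.comp (hv.1.sub hv'.1))).div_const 2
  have hgrad : ∀ z, ‖fderiv ℝ p z‖ ^ 2 + ‖fderiv ℝ q z‖ ^ 2 ≤
      ‖fderiv ℝ v z‖ ^ 2 + ‖fderiv ℝ v' z‖ ^ 2 := by
    intro z
    have h1 : HasFDerivAt v (fderiv ℝ v z) z :=
      ((test_c1 hv).differentiable (by norm_num) z).hasFDerivAt
    have h1' : HasFDerivAt v' (fderiv ℝ v' z) z :=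
      ((test_c1 hv').differentiable (by norm_num) z).hasFDerivAt
    obtain ⟨d, hd, hSd⟩ := Sa_hasDerivAt hε (v z - v' z)
    have h2 := hSd.comp_hasFDerivAt z (h1.sub h1')
    have h3 : fderiv ℝ p z = (2 : ℝ)⁻¹ • (fderiv ℝ v z + fderiv ℝ v' z -
        d • (fderiv ℝ v z - fderiv ℝ v' z)) := by
      have := (((h1.add h1').sub h2).const_smul (2 : ℝ)⁻¹).fderiv
      rw [← this]
      congr 1
      funext w
      simp only [hp, Pi.smul_apply, Pi.sub_apply, Pi.add_apply, smul_eq_mul,
        Function.comp_apply]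
      ring
    have h4 : fderiv ℝ q z = (2 : ℝ)⁻¹ • (fderiv ℝ v z + fderiv ℝ v' z +
        d • (fderiv ℝ v z - fderiv ℝ v' z)) := by
      have := (((h1.add h1').add h2).const_smul (2 : ℝ)⁻¹).fderiv
      rw [← this]
      congr 1
      funext w
      simp only [hq, Pi.smul_apply, Pi.sub_apply, Pi.add_apply, smul_eq_mul,
        Function.comp_apply]
      ring
    rw [h3, h4, norm_sq_clm', norm_sq_clm', norm_sq_clm' (fderiv ℝ v z),
      norm_sq_clm' (fderiv ℝ v' z)]
    simp only [smul_apply, add_apply, sub_apply, smul_eq_mul]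
    have hd2 : d ^ 2 ≤ 1 := by
      rw [← sq_abs]
      exact pow_le_one₀ (abs_nonneg d) hd
    have key : ∀ x y : ℝ, (2⁻¹ * (x + y - d * (x - y))) ^ 2 + (2⁻¹ * (x + y + d * (x - y))) ^ 2 ≤
        x ^ 2 + y ^ 2 := by
      intro x y
      have : d ^ 2 * (x - y) ^ 2 ≤ 1 * (x - y) ^ 2 :=
        mul_le_mul_of_nonneg_right hd2 (sq_nonneg _)
      nlinarith
    have k1 := key (fderiv ℝ v z 1) (fderiv ℝ v' z 1)
    have k2 := key (fderiv ℝ v z Complex.I) (fderiv ℝ v' z Complex.I)
    linarith
  -- values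
  have hple : ∀ z, p z ≤ min (v z) (v' z) + ε := by
    intro z
    have h1 := Sa_ge hε (v z - v' z)
    simp only [hp]
    rcases le_total (v z) (v' z) with h | h
    · rw [min_eq_left h]
      rw [abs_of_nonpos (by linarith)] at h1
      linarith
    · rw [min_eq_right h]
      rw [abs_of_nonneg (by linarith)] at h1
      linarith
  have hqsupp : Function.support q ⊆ Function.support v ∪ Function.support v' := by
    intro z hz
    by_contra hc
    rw [mem_union, not_or, Function.notMem_support, Function.notMem_support] at hc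
    rw [Function.mem_support] at hz
    apply hz
    simp only [hq, hc.1, hc.2, sub_zero, Sa_zero hε]
    norm_num
  have hqcl : tsupport q ⊆ tsupport v ∪ tsupport v' := by
    unfold tsupport
    rw [← closure_union]
    exact closure_mono hqsupp
  have hmsupp : Function.support (fun z => T ε (p z)) ⊆
      Function.support v ∩ Function.support v' := by
    intro z hz
    rw [Function.mem_support] at hz
    have h1 : ε < p z := by
      by_contra hc
      exact hz (T_zero hε (not_lt.1 hc))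
    have h2 : 0 < min (v z) (v' z) := by linarith [hple z]
    rw [lt_min_iff] at h2
    exact ⟨h2.1.ne', h2.2.ne'⟩
  have hmcl : tsupport (fun z => T ε (p z)) ⊆ tsupport v ∩ tsupport v' :=
    (closure_mono hmsupp).trans (closure_inter_subset_inter_closure _ _)
  refine ⟨fun z => T ε (p z), q, ⟨T_contDiff.comp hpC, ?_, ?_⟩, ⟨hqC, ?_, ?_⟩, ?_, ?_, ?_, ?_⟩
  · exact hv.2.1.mono (hmsupp.trans inter_subset_left)
  · exact hmcl.trans (inter_subset_inter hv.2.2 hv'.2.2)
  · have : IsCompact (tsupport v ∪ tsupport v') := hv.2.1.isCompact.union hv'.2.1.isCompact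
    exact this.of_isClosed_subset (isClosed_tsupport q) hqcl
  · exact hqcl.trans (union_subset_union hv.2.2 hv'.2.2)
  · intro z
    have h1 := T_ge hε (p z)
    have h2 : p z + q z = v z + v' z := by simp only [hp, hq]; ring
    linarith
  · intro z
    exact T_nonneg hε _
  · intro z
    have h1 := Sa_nonneg hε (v z - v' z)
    have := h0 z
    have := h0' z
    simp only [hq]
    linarith
  · intro z
    refine le_trans ?_ (hgrad z)
    have h1 : HasFDerivAt p (fderiv ℝ p z) z :=
      ((hpC.of_le (by exact_mod_cast le_top) : ContDiff ℝ 1 p).differentiable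
        (by norm_num) z).hasFDerivAt
    have h2 := (T_hasDerivAt hε (p z)).comp_hasFDerivAt z h1
    have h3 : fderiv ℝ (fun z => T ε (p z)) z =
        Real.smoothTransition (p z / ε - 1) • fderiv ℝ p z := h2.fderiv
    have h4 : ‖fderiv ℝ (fun z => T ε (p z)) z‖ ≤ ‖fderiv ℝ p z‖ := by
      rw [h3, norm_smul, Real.norm_of_nonneg (Real.smoothTransition.nonneg _)]
      calc _ ≤ 1 * ‖fderiv ℝ p z‖ := by
            gcongr
            exact Real.smoothTransition.le_one _
        _ = _ := one_mul _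
    gcongr

/-! ### finiteness -/

/-- the Dirichlet values are bounded above on a bounded set. -/
theorem bddAbove_dval {U : Set ℂ} (hb : Bornology.IsBounded U) {φ : ℂ → ℝ} {B : ℝ}
    (_hφm : AEStronglyMeasurable φ) (hφ : ∀ z, |φ z| ≤ B) :
    BddAbove {x | ∃ v, IsTest U v ∧ x = 2 * (∫ z, φ z * v z) - ∫ z, ‖fderiv ℝ v z‖ ^ 2} := by
  obtain ⟨s0, hs0⟩ := hb.subset_ball 0
  set s : ℝ := max s0 1 with hs
  have hs1 : 0 < s := lt_of_lt_of_le one_pos (le_max_right _ _)
  have hUs : U ⊆ Metric.ball 0 s := hs0.trans (Metric.ball_subset_ball (le_max_left _ _))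
  refine ⟨160 * (B * s ^ 2) ^ 2, ?_⟩
  rintro x ⟨v, hv, rfl⟩
  set ψ : ℂ → ℝ := (Metric.ball (0 : ℂ) s).indicator φ with hψ
  have h1 := poinc_phi (test_c1 hv) 0 hs1 le_rfl (r := s) (φ := ψ) (M := B * s ^ 2)
    (by
      intro x hx
      refine ⟨(x : ℂ), ?_, ?_⟩
      · rw [dist_zero_right, Complex.norm_real, Real.norm_of_nonneg (hs1.le.trans hx.1)]
      · apply test_zero hv
        intro h
        have h2 := hUs h
        rw [Metric.mem_ball, dist_zero_right, Complex.norm_real,
          Real.norm_of_nonneg (hs1.le.trans hx.1)] at h2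
        linarith [hx.1])
    (by
      intro z
      have hB : 0 ≤ B := (abs_nonneg _).trans (hφ 0)
      have e : B * s ^ 2 / s ^ 2 = B := by field_simp
      rw [e, hψ]
      by_cases hz : z ∈ Metric.ball (0 : ℂ) s
      · rw [indicator_of_mem hz]; exact hφ z
      · rw [indicator_of_notMem hz, abs_zero]; exact hB)
    (by
      intro z hz
      rw [hψ, indicator_of_notMem hz])
  have h2 : ∫ z, ψ z * v z = ∫ z, φ z * v z := by
    apply integral_congr_ae
    filter_upwards with z
    by_cases hz : z ∈ Metric.ball (0 : ℂ) s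
    · rw [hψ, indicator_of_mem hz]
    · rw [test_zero hv (fun h => hz (hUs h)), mul_zero, mul_zero]
  have h3 : ∫ z in Metric.ball (0 : ℂ) (2 * s), ‖fderiv ℝ v z‖ ^ 2 ≤
      ∫ z, ‖fderiv ℝ v z‖ ^ 2 :=
    setIntegral_le_integral (test_sq hv) (Filter.Eventually.of_forall fun z => sq_nonneg _)
  rw [h2, div_self hs1.ne', Real.log_one, add_zero, mul_one] at h1
  set I := ∫ z, φ z * v z with hI
  set E := ∫ z, ‖fderiv ℝ v z‖ ^ 2 with hE
  set K : ℝ := 160 * (B * s ^ 2) ^ 2 with hK
  have hK0 : 0 ≤ K := by positivity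
  have h4 : I ^ 2 ≤ K * E := h1.trans (mul_le_mul_of_nonneg_left h3 hK0)
  have hE0 : 0 ≤ E := integral_nonneg fun z => sq_nonneg _
  by_contra hc
  rw [not_le] at hc
  have h5 : 0 < 2 * I := by linarith
  nlinarith [sq_nonneg (K - E)]

/-- values are below the Green energy -/
theorem dval_le {U : Set ℂ} (hb : Bornology.IsBounded U) {φ : ℂ → ℝ} {B : ℝ}
    (hφm : AEStronglyMeasurable φ) (hφ : ∀ z, |φ z| ≤ B) {v : ℂ → ℝ} (hv : IsTest U v) :
    2 * (∫ z, φ z * v z) - ∫ z, ‖fderiv ℝ v z‖ ^ 2 ≤ greenEnergy U φ :=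
  le_csSup (bddAbove_dval hb hφm hφ) ⟨v, hv, rfl⟩

/-! ### submodularity -/

/-- **(SUB).** -/
theorem sub_energy {U U' : Set ℂ} (hb : Bornology.IsBounded U) (hb' : Bornology.IsBounded U')
    {φ : ℂ → ℝ} {B : ℝ} (hφm : AEStronglyMeasurable φ) (hφ : ∀ z, |φ z| ≤ B)
    (hφ0 : ∀ z, 0 ≤ φ z) :
    greenEnergy U φ + greenEnergy U' φ ≤ greenEnergy (U ∩ U') φ + greenEnergy (U ∪ U') φ := by
  have hbi : Bornology.IsBounded (U ∩ U') := hb.subset inter_subset_left
  have hbu : Bornology.IsBounded (U ∪ U') := hb.union hb'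
  have hB0 : 0 ≤ B := (abs_nonneg _).trans (hφ 0)
  have hprod : ∀ {W : Set ℂ} {f : ℂ → ℝ}, IsTest W f → Integrable (fun z => φ z * f z) := by
    intro W f hf
    exact (test_int hf).bdd_mul hφm (c := B) (Filter.Eventually.of_forall fun z => by
      rw [Real.norm_eq_abs]; exact hφ z)
  -- the pointwise inequality
  have key : ∀ v v', IsTest U v → IsTest U' v' →
      (2 * (∫ z, φ z * v z) - ∫ z, ‖fderiv ℝ v z‖ ^ 2) +
        (2 * (∫ z, φ z * v' z) - ∫ z, ‖fderiv ℝ v' z‖ ^ 2) ≤
      greenEnergy (U ∩ U') φ + greenEnergy (U ∪ U') φ := by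
    intro v v' hv hv'
    set Kc : Set ℂ := tsupport v ∪ tsupport v' with hKc
    have hKcpt : IsCompact Kc := hv.2.1.isCompact.union hv'.2.1.isCompact
    have hKm : MeasurableSet Kc := hKcpt.isClosed.measurableSet
    set J : ℝ := ∫ z in Kc, φ z with hJ
    have hJint : IntegrableOn φ Kc := by
      apply Measure.integrableOn_of_bounded (M := B) hKcpt.measure_lt_top.ne hφm
      exact Filter.Eventually.of_forall fun z => by rw [Real.norm_eq_abs]; exact hφ z
    have hJ0 : 0 ≤ J := setIntegral_nonneg hKm fun z _ => hφ0 z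
    -- for every ε
    have hε : ∀ ε : ℝ, 0 < ε →
        (2 * (∫ z, φ z * v z) - ∫ z, ‖fderiv ℝ v z‖ ^ 2) +
          (2 * (∫ z, φ z * v' z) - ∫ z, ‖fderiv ℝ v' z‖ ^ 2) - 12 * ε * J ≤
        greenEnergy (U ∩ U') φ + greenEnergy (U ∪ U') φ := by
      intro ε hε
      obtain ⟨hv1, hg1⟩ := T_comp hε hv
      obtain ⟨hv1', hg1'⟩ := T_comp hε hv'
      obtain ⟨m, M, hm, hM, hmM, hm0, hM0, hgr⟩ := min_max hε hv1 hv1'
        (fun z => T_nonneg hε _) (fun z => T_nonneg hε _)
      have e1 := dval_le hbi hφm hφ hm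
      have e2 := dval_le hbu hφm hφ hM
      -- gradients
      have e3 : (∫ z, ‖fderiv ℝ m z‖ ^ 2) + ∫ z, ‖fderiv ℝ M z‖ ^ 2 ≤
          (∫ z, ‖fderiv ℝ v z‖ ^ 2) + ∫ z, ‖fderiv ℝ v' z‖ ^ 2 := by
        rw [← integral_add (test_sq hm) (test_sq hM), ← integral_add (test_sq hv) (test_sq hv')]
        apply integral_mono ((test_sq hm).add (test_sq hM)) ((test_sq hv).add (test_sq hv'))
        intro z
        refine (hgr z).trans ?_
        have k1 := hg1 z
        have k2 := hg1' z
        simp only [Pi.add_apply]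
        gcongr
      -- values
      have e4 : (∫ z, φ z * v z) + (∫ z, φ z * v' z) - 6 * ε * J ≤
          (∫ z, φ z * m z) + ∫ z, φ z * M z := by
        have e5 : 6 * ε * J = ∫ z, Kc.indicator (fun z => 6 * ε * φ z) z := by
          rw [integral_indicator hKm, integral_const_mul]
        have e60 : IntegrableOn (fun z => 6 * ε * φ z) Kc := Integrable.const_mul hJint (6 * ε)
        have e6 : Integrable (Kc.indicator (fun z => 6 * ε * φ z)) :=
          e60.integrable_indicator hKm
        have e7 : Integrable (fun z => φ z * v z + φ z * v' z) := (hprod hv).add (hprod hv')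
        rw [e5, ← integral_add (hprod hv) (hprod hv'), ← integral_sub e7 e6,
          ← integral_add (hprod hm) (hprod hM)]
        apply integral_mono (e7.sub e6) ((hprod hm).add (hprod hM))
        intro z
        simp only [Pi.add_apply, Pi.sub_apply]
        have hφz := hφ0 z
        by_cases hz : z ∈ Kc
        · rw [indicator_of_mem hz]
          have k1 := T_ge hε (v z)
          have k2 := T_ge hε (v' z)
          have k3 := hmM z
          nlinarith
        · rw [indicator_of_notMem hz]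
          have k1 : v z = 0 := by
            by_contra hne
            exact hz (Or.inl (subset_tsupport v hne))
          have k2 : v' z = 0 := by
            by_contra hne
            exact hz (Or.inr (subset_tsupport v' hne))
          rw [k1, k2]
          have := mul_nonneg hφz (hm0 z)
          have := mul_nonneg hφz (hM0 z)
          linarith
      linarith
    -- limit
    apply le_of_forall_pos_le_add
    intro δ hδ
    have h1 := hε (δ / (12 * (J + 1))) (by positivity)
    have h2 : 12 * (δ / (12 * (J + 1))) * J ≤ δ := by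
      have : 12 * (δ / (12 * (J + 1))) * J = δ * (J / (J + 1)) := by field_simp
      rw [this]
      have h3 : J / (J + 1) ≤ 1 := by
        rw [div_le_one (by linarith)]
        linarith
      nlinarith
    linarith
  have h1 : ∀ v', IsTest U' v' → greenEnergy U φ ≤
      greenEnergy (U ∩ U') φ + greenEnergy (U ∪ U') φ -
        (2 * (∫ z, φ z * v' z) - ∫ z, ‖fderiv ℝ v' z‖ ^ 2) := by
    intro v' hv'
    apply greenEnergy_le
    intro v hv
    have := key v v' hv hv'
    linarith
  have h2 : greenEnergy U' φ ≤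
      greenEnergy (U ∩ U') φ + greenEnergy (U ∪ U') φ - greenEnergy U φ := by
    apply greenEnergy_le
    intro v' hv'
    have := h1 v' hv'
    linarith
  linarith

/-- the Green energy is nonnegative and monotone -/
theorem greenEnergy_nonneg {U : Set ℂ} (hb : Bornology.IsBounded U) {φ : ℂ → ℝ} {B : ℝ}
    (hφm : AEStronglyMeasurable φ) (hφ : ∀ z, |φ z| ≤ B) : 0 ≤ greenEnergy U φ := by
  have := dval_le hb hφm hφ (isTest_zero U)
  simpa using this

theorem greenEnergy_mono {U U' : Set ℂ} (hUU : U ⊆ U') (hb : Bornology.IsBounded U') {φ : ℂ → ℝ}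
    {B : ℝ} (hφm : AEStronglyMeasurable φ) (hφ : ∀ z, |φ z| ≤ B) :
    greenEnergy U φ ≤ greenEnergy U' φ :=
  greenEnergy_le fun _ hv => dval_le hb hφm hφ ⟨hv.1, hv.2.1, hv.2.2.trans hUU⟩

/-- **(SUB)** for complements: the drops of the Green energy are subadditive. -/
theorem drop_sub {D A A' : Set ℂ} (hb : Bornology.IsBounded D) {φ : ℂ → ℝ} {B : ℝ}
    (hφm : AEStronglyMeasurable φ) (hφ : ∀ z, |φ z| ≤ B) (hφ0 : ∀ z, 0 ≤ φ z) :
    greenEnergy D φ - greenEnergy (D \ (A ∪ A')) φ ≤
      (greenEnergy D φ - greenEnergy (D \ A) φ) + (greenEnergy D φ - greenEnergy (D \ A') φ) := by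
  have h1 := sub_energy (hb.subset sdiff_subset : Bornology.IsBounded (D \ A))
    (hb.subset sdiff_subset : Bornology.IsBounded (D \ A')) hφm hφ hφ0
  have e1 : D \ A ∩ (D \ A') = D \ (A ∪ A') := by
    ext z
    simp only [mem_inter_iff, mem_sdiff, mem_union]
    tauto
  rw [e1] at h1
  have h2 : greenEnergy (D \ A ∪ D \ A') φ ≤ greenEnergy D φ :=
    greenEnergy_mono (union_subset sdiff_subset sdiff_subset) hb hφm hφ
  linarith

end Vale.Agent.P155.U
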