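import Vale.Agent.P155.U.Poinc
import Vale.Agent.P155.FinalStmt

/-!
# P155 uniqueness: Green energies of densities close to a connected set
-/

namespace Vale.Agent.P155.U

open MeasureTheory Set

theorem isTest_zero (U : Set ℂ) : IsTest U (fun _ => 0) := by
  refine ⟨contDiff_const, ?_, ?_⟩
  · have : HasCompactSupport (0 : ℂ → ℝ) := HasCompactSupport.zero
    exact this
  · have : tsupport (fun _ : ℂ => (0 : ℝ)) = ∅ := by
      rw [tsupport_eq_empty_iff]
      rfl
    rw [this]
    exact Set.empty_subset _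

theorem test_c1 {U : Set ℂ} {v : ℂ → ℝ} (h : IsTest U v) : ContDiff ℝ 1 v :=
  h.1.of_le (by exact_mod_cast le_top)

theorem test_zero {U : Set ℂ} {v : ℂ → ℝ} (h : IsTest U v) {z : ℂ} (hz : z ∉ U) :
    v z = 0 := by
  by_contra hne
  exact hz (h.2.2 (subset_tsupport v hne))

theorem test_int {U : Set ℂ} {v : ℂ → ℝ} (h : IsTest U v) : Integrable v :=
  h.1.continuous.integrable_of_hasCompactSupport h.2.1

theorem test_sq {U : Set ℂ} {v : ℂ → ℝ} (h : IsTest U v) :
    Integrable (fun z => ‖fderiv ℝ v z‖ ^ 2) := by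
  apply Continuous.integrable_of_hasCompactSupport
  · exact ((test_c1 h).continuous_fderiv (by norm_num)).norm.pow 2
  · have h1 : HasCompactSupport (fderiv ℝ v) := h.2.1.fderiv (𝕜 := ℝ)
    apply h1.mono
    intro z hz
    rw [Function.mem_support] at hz ⊢
    intro h0
    apply hz
    rw [h0]
    simp

/-- upper bounds for the Green energy -/
theorem greenEnergy_le {U : Set ℂ} {φ : ℂ → ℝ} {B : ℝ}
    (h : ∀ v, IsTest U v → 2 * (∫ z, φ z * v z) - ∫ z, ‖fderiv ℝ v z‖ ^ 2 ≤ B) :
    greenEnergy U φ ≤ B := by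
  apply csSup_le
  · exact ⟨_, _, isTest_zero U, rfl⟩
  · rintro x ⟨v, hv, rfl⟩
    exact h v hv

/-- **(P1)** Green energy of a superposition of densities at scale `s` near points `c i` within
`r` of the connected set `A` which is not contained in the discs of radius `2 r` around them. -/
theorem green_near {ι : Type*} (D : Set ℂ) {A : Set ℂ} (hA : IsPreconnected A) (S : Finset ι)
    (c : ι → ℂ) (w : ι → ℝ) (φ : ι → ℂ → ℝ) {r s M B : ℝ} (hs : 0 < s) (hsr : s ≤ r)
    (hw : ∀ i ∈ S, 0 ≤ w i) (hφm : ∀ i ∈ S, AEStronglyMeasurable (φ i))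
    (hφ : ∀ i ∈ S, ∀ z, |φ i z| ≤ M / s ^ 2) (hφ0 : ∀ i ∈ S, ∀ z, z ∉ Metric.ball (c i) s → φ i z = 0)
    (hnear : ∀ i ∈ S, ∃ z ∈ A, dist z (c i) ≤ r) (hfar : ∀ i ∈ S, ∃ z ∈ A, 2 * r ≤ dist z (c i))
    (hB : ∀ x : ℂ, ∑ i ∈ S with dist x (c i) < 2 * r, w i ≤ B) :
    greenEnergy (D \ A) (fun z => ∑ i ∈ S, w i * φ i z) ≤
      160 * M ^ 2 * (1 + Real.log (r / s)) * (∑ i ∈ S, w i) * B := by
  classical
  have hr : 0 < r := hs.trans_le hsr
  have hL0 : 0 ≤ Real.log (r / s) := Real.log_nonneg (by rw [le_div_iff₀ hs]; linarith)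
  set K : ℝ := 160 * M ^ 2 * (1 + Real.log (r / s)) with hK
  have hK0 : 0 ≤ K := by positivity
  have hSw : 0 ≤ ∑ i ∈ S, w i := Finset.sum_nonneg hw
  have hB0 : 0 ≤ B := by
    refine le_trans ?_ (hB 0)
    exact Finset.sum_nonneg fun i hi => hw i (Finset.mem_filter.1 hi).1
  apply greenEnergy_le
  intro v hv
  set Et : ℝ := ∫ z, ‖fderiv ℝ v z‖ ^ 2 with hEt
  set Ei : ι → ℝ := fun i => ∫ z in Metric.ball (c i) (2 * r), ‖fderiv ℝ v z‖ ^ 2 with hEi
  have hEi0 : ∀ i, 0 ≤ Ei i := fun i => setIntegral_nonneg measurableSet_ball fun z _ => sq_nonneg _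
  have hX : ∀ i ∈ S, (∫ z, φ i z * v z) ^ 2 ≤ K * Ei i := by
    intro i hi
    apply poinc_phi (test_c1 hv) (c i) hs hsr _ (hφ i hi) (hφ0 i hi)
    intro x hx
    obtain ⟨z, hz, h⟩ := meets_circles hA (hnear i hi) (hfar i hi) x hx
    exact ⟨z, h, test_zero hv (fun h' => h'.2 hz)⟩
  have hint : ∀ i ∈ S, Integrable (fun z => φ i z * v z) := by
    intro i hi
    exact (test_int hv).bdd_mul (hφm i hi) (c := M / s ^ 2)
      (Filter.Eventually.of_forall fun z => by rw [Real.norm_eq_abs]; exact hφ i hi z)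
  have hlin : ∫ z, (∑ i ∈ S, w i * φ i z) * v z = ∑ i ∈ S, w i * ∫ z, φ i z * v z := by
    have e : (fun z => (∑ i ∈ S, w i * φ i z) * v z) = fun z => ∑ i ∈ S, w i * (φ i z * v z) := by
      funext z
      rw [Finset.sum_mul]
      refine Finset.sum_congr rfl fun i _ => by ring
    rw [e, integral_finsetSum _ (fun i hi => (hint i hi).const_mul _)]
    refine Finset.sum_congr rfl fun i _ => ?_
    rw [integral_const_mul]
  rw [hlin]
  -- overlap of the balls
  have hover : ∑ i ∈ S, w i * Ei i ≤ B * Et := by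
    have h1 : ∀ i ∈ S, w i * Ei i =
        ∫ z, w i * (Metric.ball (c i) (2 * r)).indicator (fun z => ‖fderiv ℝ v z‖ ^ 2) z := by
      intro i _
      rw [integral_const_mul, integral_indicator measurableSet_ball]
    rw [Finset.sum_congr rfl h1, ← integral_finsetSum]
    · rw [hEt, ← integral_const_mul]
      apply integral_mono
      · apply integrable_finsetSum
        intro i _
        exact ((test_sq hv).indicator measurableSet_ball).const_mul _
      · exact (test_sq hv).const_mul _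
      · intro z
        have e : ∑ i ∈ S, w i * (Metric.ball (c i) (2 * r)).indicator
            (fun z => ‖fderiv ℝ v z‖ ^ 2) z =
            (∑ i ∈ S with dist z (c i) < 2 * r, w i) * ‖fderiv ℝ v z‖ ^ 2 := by
          rw [Finset.sum_filter, Finset.sum_mul]
          refine Finset.sum_congr rfl fun i _ => ?_
          by_cases h : dist z (c i) < 2 * r
          · rw [if_pos h, indicator_of_mem (Metric.mem_ball.2 h)]
          · rw [if_neg h, indicator_of_notMem (fun h' => h (Metric.mem_ball.1 h'))]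
            simp
        show ∑ i ∈ S, w i * (Metric.ball (c i) (2 * r)).indicator
            (fun z => ‖fderiv ℝ v z‖ ^ 2) z ≤ B * ‖fderiv ℝ v z‖ ^ 2
        rw [e]
        exact mul_le_mul_of_nonneg_right (hB z) (sq_nonneg _)
    · intro i _
      exact ((test_sq hv).indicator measurableSet_ball).const_mul _
  have hEt0 : 0 ≤ Et := integral_nonneg fun z => sq_nonneg _
  apply le_of_forall_pos_le_add
  intro ε hε
  -- choose the parameter
  set η : ℝ := ε / (1 + ∑ i ∈ S, w i) with hη
  have hη0 : 0 < η := by positivity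
  set lam : ℝ := K * B + η with hlam
  have hlam0 : 0 < lam := by positivity
  have h2 : ∀ i ∈ S, 2 * (w i * ∫ z, φ i z * v z) ≤ lam * w i + K / lam * (w i * Ei i) := by
    intro i hi
    have h3 := hX i hi
    set X := ∫ z, φ i z * v z with hXd
    have h4 : 2 * X ≤ lam + X ^ 2 / lam := by
      have h5 : 0 ≤ (lam - X) ^ 2 / lam := by positivity
      have h6 : (lam - X) ^ 2 / lam = lam + X ^ 2 / lam - 2 * X := by
        field_simp
        ring
      linarith
    have h7 : X ^ 2 / lam ≤ K * Ei i / lam := div_le_div_of_nonneg_right h3 hlam0.le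
    calc 2 * (w i * X) = w i * (2 * X) := by ring
      _ ≤ w i * (lam + K * Ei i / lam) := mul_le_mul_of_nonneg_left (by linarith) (hw i hi)
      _ = _ := by ring
  have h3 : 2 * ∑ i ∈ S, w i * ∫ z, φ i z * v z ≤
      lam * (∑ i ∈ S, w i) + K / lam * (∑ i ∈ S, w i * Ei i) := by
    rw [Finset.mul_sum, Finset.mul_sum, Finset.mul_sum, ← Finset.sum_add_distrib]
    exact Finset.sum_le_sum h2
  have h4 : K / lam * (∑ i ∈ S, w i * Ei i) ≤ Et := by
    calc K / lam * (∑ i ∈ S, w i * Ei i) ≤ K / lam * (B * Et) :=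
          mul_le_mul_of_nonneg_left hover (by positivity)
      _ = (K * B / lam) * Et := by ring
      _ ≤ 1 * Et := by
        apply mul_le_mul_of_nonneg_right _ hEt0
        rw [div_le_one hlam0, hlam]
        linarith
      _ = Et := one_mul _
  have h5 : lam * (∑ i ∈ S, w i) ≤ K * (∑ i ∈ S, w i) * B + ε := by
    rw [hlam, add_mul]
    have h6 : η * (∑ i ∈ S, w i) ≤ ε := by
      rw [hη, div_mul_eq_mul_div, div_le_iff₀ (by positivity)]
      nlinarith
    have h7 : K * B * (∑ i ∈ S, w i) = K * (∑ i ∈ S, w i) * B := by ring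
    linarith
  linarith

end Vale.Agent.P155.U
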