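import Vale.Agent.P155.U.Iface

/-!
# P155, block U: interface of the probabilistic part (blocks HIL, LOCH, GAM)
-/

namespace Vale.Agent.P155.Uq

open MeasureTheory Filter Topology TopologicalSpace

/-- The Hilbert space of (gradient) fields. -/
abbrev HL : Type := Lp ℂ 2 (volume : Measure ℂ)

/-- The gradient as a complex number. -/
noncomputable def grad (v : ℂ → ℝ) (z : ℂ) : ℂ :=
  ⟨fderiv ℝ v z 1, fderiv ℝ v z Complex.I⟩

open Classical in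
/-- The gradient as an element of `L²` (junk value `0`). -/
noncomputable def gr (v : ℂ → ℝ) : HL :=
  if h : MemLp (grad v) 2 (volume : Measure ℂ) then h.toLp _ else 0

/-- `H¹₀(U)`: closure of the gradients of the test functions on `U`. -/
noncomputable def GV (U : Set ℂ) : Submodule ℝ HL :=
  (Submodule.span ℝ {f | ∃ v, IsTest U v ∧ f = gr v}).topologicalClosure

instance instGVcomplete (U : Set ℂ) : CompleteSpace (GV U) :=
  (Submodule.isClosed_topologicalClosure _).completeSpace_coe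

/-- Block HIL: `R φ` = gradient of the Green potential of `φ` in `Ω`. -/
def HilStmt : Prop :=
  ∀ Ω : Set ℂ, IsOpen Ω → Bornology.IsBounded Ω → ∃ R : (ℂ → ℝ) → HL,
    (∀ φ, R φ ∈ GV Ω) ∧
    (∀ φ ψ, IsTest Ω φ → IsTest Ω ψ → ∀ s t : ℝ,
      R (fun z => s * φ z + t * ψ z) = s • R φ + t • R ψ) ∧
    (∀ U, U ⊆ Ω → ∀ φ, IsTest Ω φ → greenEnergy U φ = ‖(GV U).starProjection (R φ)‖ ^ 2) ∧
    (∀ v φ, IsTest Ω v → IsTest Ω φ → NegLap v φ → R φ = gr v) ∧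
    (∀ v, IsTest Ω v → ∃ φ, IsTest Ω φ ∧ tsupport φ ⊆ tsupport v ∧ NegLap v φ)

/-- Block LOCH: the height functions are locally constant off the carpets. -/
def LochStmt : Prop :=
  ∀ Ω : Set ℂ, IsOpen Ω → Bornology.IsBounded Ω → Ω.Nonempty → ∀ Q : Measure (Sp Ω), Canon Ω Q →
  ∀ k : ℕ, ∀ᵐ s ∂Q, ∀ v φ, IsTest Ω v → IsTest Ω φ → NegLap v φ →
    Disjoint (tsupport v) ((s k).1 : Set ℂ) → pr (s k).2 φ = 0

/-- Block GAM: the field `Γ = lim c H_k`. -/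
def GamStmt : Prop :=
  ∀ Ω : Set ℂ, IsOpen Ω → Bornology.IsBounded Ω → Ω.Nonempty → ∀ Q : Measure (Sp Ω), Canon Ω Q →
  ∃ Γ : (ℂ → ℝ) → Sp Ω → ℝ, (∀ φ, IsTest Ω φ → MemLp (Γ φ) 2 Q) ∧
    (∀ φ ψ, IsTest Ω φ → IsTest Ω ψ → ∀ s t : ℝ,
      Γ (fun z => s * φ z + t * ψ z) =ᵐ[Q] fun x => s * Γ φ x + t * Γ ψ x) ∧
    ∀ (k : ℕ) (φ : ℂ → ℝ), IsTest Ω φ → ∀ Ψ : Past Ω k → ℝ, BM Ψ →
    ∫ s, (Ψ (past k s) : ℂ) * Complex.exp (Complex.I * (Γ φ s - cst * pr (s k).2 φ)) ∂Q =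
      ∫ s, (Ψ (past k s) : ℂ) * Complex.exp (- greenEnergy (Ω \ (s k).1) φ / 2) ∂Q

end Vale.Agent.P155.Uq
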