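import Vale.Agent.P155.U.EQ
import Vale.Agent.P155.U.Iface2

/-!
# P155, block U (uniqueness), GAM, part 1: bounds, telescoping, second moments
-/

namespace Vale.Agent.P155.Uq.Gam

open MeasureTheory Filter Topology TopologicalSpace Vale.Agent.P155.U

variable {Ω : Set ℂ} {Q : Measure (Sp Ω)} {φ ψ : ℂ → ℝ}

/-! ### Test functions -/

theorem test_smul {U : Set ℂ} (hφ : IsTest U φ) (t : ℝ) : IsTest U (fun z => t * φ z) := by
  refine ⟨contDiff_const.mul hφ.1, ?_, ?_⟩
  · exact hφ.2.1.mul_left (f := fun _ => t)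
  · refine (closure_mono ?_).trans hφ.2.2
    intro z hz
    rw [Function.mem_support] at hz ⊢
    intro h0
    exact hz (by rw [h0, mul_zero])

theorem test_lin {U : Set ℂ} (hφ : IsTest U φ) (hψ : IsTest U ψ) (s t : ℝ) :
    IsTest U (fun z => s * φ z + t * ψ z) := by
  have h1 := test_smul hφ s
  have h2 := test_smul hψ t
  refine ⟨h1.1.add h2.1, h1.2.1.add h2.2.1, ?_⟩
  exact (tsupport_add _ _).trans (Set.union_subset h1.2.2 h2.2.2)

theorem memLp_test {p : ENNReal} (hφ : IsTest Ω φ) :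
    MemLp φ p (volume.restrict Ω : Measure ℂ) :=
  (hφ.1.continuous.memLp_of_hasCompactSupport hφ.2.1).restrict _

theorem pr_eq (hφ : IsTest Ω φ) (f : Fld Ω) :
    pr f φ = inner ℝ ((memLp_test (p := 2) hφ).toLp φ) f := by
  rw [L2.inner_def]
  unfold pr
  refine integral_congr_ae ?_
  filter_upwards [(memLp_test (p := 2) hφ).coeFn_toLp] with z hz
  rw [hz]
  simp

theorem measurable_pr (hφ : IsTest Ω φ) : Measurable (fun f : Fld Ω => pr f φ) := by
  have h : (fun f : Fld Ω => pr f φ) =
      fun f : Fld Ω => inner ℝ ((memLp_test (p := 2) hφ).toLp φ) f := by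
    funext f
    exact pr_eq hφ f
  rw [h]
  exact (continuous_const.inner continuous_id).measurable

theorem pr_smul (f : Fld Ω) (t : ℝ) : pr f (fun z => t * φ z) = t * pr f φ := by
  unfold pr
  rw [← integral_const_mul]
  refine integral_congr_ae (Eventually.of_forall fun z => ?_)
  ring

theorem pr_int (hφ : IsTest Ω φ) (f : Fld Ω) :
    Integrable (fun z => f z * φ z) (volume.restrict Ω : Measure ℂ) :=
  (Lp.memLp f).integrable_mul (memLp_test (p := 2) hφ)

theorem pr_lin (hφ : IsTest Ω φ) (hψ : IsTest Ω ψ) (f : Fld Ω) (s t : ℝ) :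
    pr f (fun z => s * φ z + t * ψ z) = s * pr f φ + t * pr f ψ := by
  unfold pr
  rw [← integral_const_mul, ← integral_const_mul, ← integral_add
    ((pr_int hφ f).const_mul s) ((pr_int hψ f).const_mul t)]
  refine integral_congr_ae (Eventually.of_forall fun z => ?_)
  simp only
  ring

/-! ### Scaling of the Green energy -/

theorem green_smul_le (hb : Bornology.IsBounded Ω) (hφ : IsTest Ω φ) {U : Set ℂ} (hU : U ⊆ Ω)
    {t : ℝ} (ht : t ≠ 0) : greenEnergy U (fun z => t * φ z) ≤ t ^ 2 * greenEnergy U φ := by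
  obtain ⟨M, hM⟩ := hφ.1.continuous.bounded_above_of_compact_support hφ.2.1
  have hM' : ∀ z, |φ z| ≤ M := fun z => by
    have := hM z
    rwa [Real.norm_eq_abs] at this
  have h0 : ∀ z, z ∉ Ω → φ z = 0 := fun z hz => test_zero hφ hz
  apply greenEnergy_le
  intro v hv
  have hv' : IsTest U (fun z => t⁻¹ * v z) := test_smul hv t⁻¹
  have h1 := le_csSup (bdd_dval hb hM' h0 hU) ⟨_, hv', rfl⟩
  have h2 : ∀ z, fderiv ℝ (fun z => t⁻¹ * v z) z = t⁻¹ • fderiv ℝ v z := fun z => by
    have hd : DifferentiableAt ℝ v z := (hv.1.differentiable (by simp)) z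
    exact fderiv_const_mul hd t⁻¹
  have e1 : ∫ z, φ z * (t⁻¹ * v z) = t⁻¹ * ∫ z, φ z * v z := by
    rw [← integral_const_mul]
    refine integral_congr_ae (Eventually.of_forall fun z => ?_)
    simp only
    ring
  have e2 : ∫ z, ‖fderiv ℝ (fun z => t⁻¹ * v z) z‖ ^ 2 = (t⁻¹) ^ 2 * ∫ z, ‖fderiv ℝ v z‖ ^ 2 := by
    rw [← integral_const_mul]
    refine integral_congr_ae (Eventually.of_forall fun z => ?_)
    simp only
    rw [h2, norm_smul, Real.norm_eq_abs, mul_pow, sq_abs]
  have e3 : ∫ z, (t * φ z) * v z = t * ∫ z, φ z * v z := by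
    rw [← integral_const_mul]
    refine integral_congr_ae (Eventually.of_forall fun z => ?_)
    simp only
    ring
  rw [e1, e2] at h1
  rw [e3]
  have h3 : t ^ 2 * (2 * (t⁻¹ * ∫ z, φ z * v z) - t⁻¹ ^ 2 * ∫ z, ‖fderiv ℝ v z‖ ^ 2) ≤
      t ^ 2 * greenEnergy U φ := mul_le_mul_of_nonneg_left h1 (sq_nonneg t)
  have h4 : t ^ 2 * (2 * (t⁻¹ * ∫ z, φ z * v z) - t⁻¹ ^ 2 * ∫ z, ‖fderiv ℝ v z‖ ^ 2) =
      2 * (t * ∫ z, φ z * v z) - ∫ z, ‖fderiv ℝ v z‖ ^ 2 := by
    field_simp
  linarith

theorem green_smul (hb : Bornology.IsBounded Ω) (hφ : IsTest Ω φ) {U : Set ℂ} (hU : U ⊆ Ω)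
    {t : ℝ} (ht : t ≠ 0) : greenEnergy U (fun z => t * φ z) = t ^ 2 * greenEnergy U φ := by
  apply le_antisymm (green_smul_le hb hφ hU ht)
  have h := green_smul_le hb (test_smul hφ t) hU (inv_ne_zero ht)
  have e : (fun z => t⁻¹ * (t * φ z)) = φ := by
    funext z
    field_simp
  rw [e] at h
  have h2 := mul_le_mul_of_nonneg_left h (sq_nonneg t)
  have h3 : t ^ 2 * (t⁻¹ ^ 2 * greenEnergy U (fun z => t * φ z)) =
      greenEnergy U (fun z => t * φ z) := by
    field_simp
  linarith

/-! ### The basic random variables -/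

theorem meas_pr (hφ : IsTest Ω φ) (k : ℕ) : Measurable (fun s : Sp Ω => pr (s k).2 φ) :=
  (measurable_pr hφ).comp (measurable_snd.comp (measurable_pi_apply k))

theorem meas_green (hb : Bornology.IsBounded Ω) (hφ : IsTest Ω φ) (k : ℕ) :
    Measurable (fun s : Sp Ω => greenEnergy (Ω \ (s k).1) φ) :=
  (measurable_green hb hφ).comp (measurable_fst.comp (measurable_pi_apply k))

theorem green_nn (hb : Bornology.IsBounded Ω) (hφ : IsTest Ω φ) {U : Set ℂ} (hU : U ⊆ Ω) :
    0 ≤ greenEnergy U φ := by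
  obtain ⟨M, hM⟩ := hφ.1.continuous.bounded_above_of_compact_support hφ.2.1
  have hM' : ∀ z, |φ z| ≤ M := fun z => by
    have := hM z
    rwa [Real.norm_eq_abs] at this
  have h0 : ∀ z, z ∉ Ω → φ z = 0 := fun z hz => test_zero hφ hz
  refine le_csSup (bdd_dval hb hM' h0 hU) ⟨fun _ => 0, isTest_zero U, ?_⟩
  simp

theorem green_le (hb : Bornology.IsBounded Ω) (hφ : IsTest Ω φ) {U : Set ℂ} (hU : U ⊆ Ω) :
    greenEnergy U φ ≤ greenEnergy Ω φ :=
  greenEnergy_mono_sub hb hφ hU (Set.Subset.refl _)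

theorem pr_le (hφ : IsTest Ω φ) {f : Fld Ω} {k : ℝ}
    (h : ∀ᵐ z ∂(volume.restrict Ω : Measure ℂ), |f z| ≤ k) :
    |pr f φ| ≤ k * ∫ z in Ω, |φ z| := by
  unfold pr
  rw [← integral_const_mul, ← Real.norm_eq_abs]
  refine (norm_integral_le_integral_norm _).trans ?_
  refine integral_mono_ae (pr_int hφ f).norm
    ((memLp_one_iff_integrable.1 (memLp_test (p := 1) hφ)).abs.const_mul k) ?_
  filter_upwards [h] with z hz
  rw [norm_mul, Real.norm_eq_abs, Real.norm_eq_abs]
  exact mul_le_mul_of_nonneg_right hz (abs_nonneg _)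

theorem pr_bd (hQ : Canon Ω Q) (hφ : IsTest Ω φ) (k : ℕ) :
    ∀ᵐ s ∂Q, |pr (s k).2 φ| ≤ k * ∫ z in Ω, |φ z| := by
  filter_upwards [hQ.bdd] with s hs
  exact pr_le hφ (hs k)

/-! ### Telescoping -/

/-- `gff` for complex valued functions of the past -/
theorem gffC (hb : Bornology.IsBounded Ω) (hQ : Canon Ω Q) (k : ℕ) (hφ : IsTest Ω φ)
    {Ψ : Past Ω k → ℂ} (hΨ : Measurable Ψ) {C : ℝ} (hC : ∀ p, ‖Ψ p‖ ≤ C) :
    ∫ s, Ψ (past k s) * Complex.exp (Complex.I * cst * (pr (s (k + 1)).2 φ - pr (s k).2 φ) -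
          greenEnergy (Ω \ (s (k + 1)).1) φ / 2) ∂Q =
      ∫ s, Ψ (past k s) * Complex.exp (- greenEnergy (Ω \ (s k).1) φ / 2) ∂Q := by
  have := hQ.prob
  have mpast : Measurable (fun s : Sp Ω => past k s) :=
    measurable_pi_lambda _ fun j => measurable_pi_apply _
  set E : Sp Ω → ℂ := fun s => Complex.exp (Complex.I * cst * (pr (s (k + 1)).2 φ -
    pr (s k).2 φ) - greenEnergy (Ω \ (s (k + 1)).1) φ / 2) with hE
  set E' : Sp Ω → ℂ := fun s => Complex.exp (- greenEnergy (Ω \ (s k).1) φ / 2) with hE'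
  have mE : Measurable E := by
    refine Complex.measurable_exp.comp ?_
    refine Measurable.sub ?_ ((Complex.measurable_ofReal.comp (meas_green hb hφ _)).div_const _)
    exact Measurable.mul measurable_const ((Complex.measurable_ofReal.comp (meas_pr hφ _)).sub
      (Complex.measurable_ofReal.comp (meas_pr hφ _)))
  have mE' : Measurable E' := by
    refine Complex.measurable_exp.comp ?_
    exact ((Complex.measurable_ofReal.comp (meas_green hb hφ _)).neg).div_const _
  have bE : ∀ s, ‖E s‖ ≤ 1 := by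
    intro s
    have h0 : 0 ≤ greenEnergy (Ω \ (s (k + 1)).1) φ := green_nn hb hφ Set.sdiff_subset
    have e : (Complex.I * cst * (pr (s (k + 1)).2 φ - pr (s k).2 φ) -
        greenEnergy (Ω \ (s (k + 1)).1) φ / 2 : ℂ).re =
        - (greenEnergy (Ω \ (s (k + 1)).1) φ / 2) := by
      have : (Complex.I * cst * (pr (s (k + 1)).2 φ - pr (s k).2 φ) -
          greenEnergy (Ω \ (s (k + 1)).1) φ / 2 : ℂ) =
          ((- (greenEnergy (Ω \ (s (k + 1)).1) φ / 2) : ℝ) : ℂ) +
            ((cst * (pr (s (k + 1)).2 φ - pr (s k).2 φ) : ℝ) : ℂ) * Complex.I := by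
        push_cast
        ring
      rw [this]
      simp
    rw [hE]
    simp only
    rw [Complex.norm_exp, e, Real.exp_le_one_iff]
    linarith
  have bE' : ∀ s, ‖E' s‖ ≤ 1 := by
    intro s
    have h0 : 0 ≤ greenEnergy (Ω \ (s k).1) φ := green_nn hb hφ Set.sdiff_subset
    have e : (- greenEnergy (Ω \ (s k).1) φ / 2 : ℂ).re = - (greenEnergy (Ω \ (s k).1) φ / 2) := by
      have : (- greenEnergy (Ω \ (s k).1) φ / 2 : ℂ) =
          ((- (greenEnergy (Ω \ (s k).1) φ / 2) : ℝ) : ℂ) := by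
        push_cast
        ring
      rw [this, Complex.ofReal_re]
    rw [hE']
    simp only
    rw [Complex.norm_exp, e, Real.exp_le_one_iff]
    linarith
  have hre : BM (fun p => (Ψ p).re) :=
    ⟨Complex.measurable_re.comp hΨ, C, fun p => (Complex.abs_re_le_norm _).trans (hC p)⟩
  have him : BM (fun p => (Ψ p).im) :=
    ⟨Complex.measurable_im.comp hΨ, C, fun p => (Complex.abs_im_le_norm _).trans (hC p)⟩
  have g1 := hQ.gff k φ hφ _ hre
  have g2 := hQ.gff k φ hφ _ him
  have key : ∀ {F : Sp Ω → ℂ}, Measurable F → (∀ s, ‖F s‖ ≤ 1) →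
      ∫ s, Ψ (past k s) * F s ∂Q = ∫ s, (((Ψ (past k s)).re : ℝ) : ℂ) * F s ∂Q +
        Complex.I * ∫ s, (((Ψ (past k s)).im : ℝ) : ℂ) * F s ∂Q := by
    intro F hF bF
    have i1 : Integrable (fun s => (((Ψ (past k s)).re : ℝ) : ℂ) * F s) Q := by
      refine Integrable.of_bound (C := C * 1) ?_ (Eventually.of_forall fun s => ?_)
      · exact ((Complex.measurable_ofReal.comp (Complex.measurable_re.comp
          (hΨ.comp mpast))).mul hF).aestronglyMeasurable
      · rw [norm_mul]
        refine mul_le_mul ?_ (bF s) (norm_nonneg _) ((norm_nonneg _).trans (hC (past k s)))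
        rw [Complex.norm_real]
        exact (Complex.abs_re_le_norm _).trans (hC _)
    have i2 : Integrable (fun s => (((Ψ (past k s)).im : ℝ) : ℂ) * F s) Q := by
      refine Integrable.of_bound (C := C * 1) ?_ (Eventually.of_forall fun s => ?_)
      · exact ((Complex.measurable_ofReal.comp (Complex.measurable_im.comp
          (hΨ.comp mpast))).mul hF).aestronglyMeasurable
      · rw [norm_mul]
        refine mul_le_mul ?_ (bF s) (norm_nonneg _) ((norm_nonneg _).trans (hC (past k s)))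
        rw [Complex.norm_real]
        exact (Complex.abs_im_le_norm _).trans (hC _)
    rw [← integral_const_mul, ← integral_add i1 (i2.const_mul _)]
    refine integral_congr_ae (Eventually.of_forall fun s => ?_)
    simp only
    conv_lhs => rw [← Complex.re_add_im (Ψ (past k s))]
    ring
  rw [key mE bE, key mE' bE', g1, g2]

/-- telescoped form of `gff` -/
theorem tele (hb : Bornology.IsBounded Ω) (hQ : Canon Ω Q) (hφ : IsTest Ω φ) (k n : ℕ)
    {Ψ : Past Ω k → ℝ} (hΨ : BM Ψ) :
    ∫ s, (Ψ (past k s) : ℂ) * Complex.exp (Complex.I * cst * (pr (s (k + n)).2 φ -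
          pr (s k).2 φ) - greenEnergy (Ω \ (s (k + n)).1) φ / 2) ∂Q =
      ∫ s, (Ψ (past k s) : ℂ) * Complex.exp (- greenEnergy (Ω \ (s k).1) φ / 2) ∂Q := by
  induction n with
  | zero =>
    refine integral_congr_ae (Eventually.of_forall fun s => ?_)
    simp only [add_zero, sub_self, mul_zero]
    congr 2
    ring
  | succ n ih =>
    rw [← ih]
    obtain ⟨hm, C, hC⟩ := hΨ
    set Ψ' : Past Ω (k + n) → ℂ := fun p =>
      (Ψ (fun j => p (Fin.castLE (by omega) j)) : ℂ) *
        Complex.exp (((cst * (pr (p (Fin.last (k + n))).2 φ -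
          pr (p ⟨k, by omega⟩).2 φ) : ℝ) : ℂ) * Complex.I) with hΨ'
    have m' : Measurable Ψ' := by
      refine Measurable.mul ?_ ?_
      · exact Complex.measurable_ofReal.comp (hm.comp
          (measurable_pi_lambda _ fun j => measurable_pi_apply _))
      · refine Complex.measurable_exp.comp (Measurable.mul ?_ measurable_const)
        refine Complex.measurable_ofReal.comp (measurable_const.mul ?_)
        exact ((measurable_pr hφ).comp (measurable_snd.comp (measurable_pi_apply _))).sub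
          ((measurable_pr hφ).comp (measurable_snd.comp (measurable_pi_apply _)))
    have b' : ∀ p, ‖Ψ' p‖ ≤ C := by
      intro p
      rw [hΨ']
      simp only
      rw [norm_mul, Complex.norm_exp_ofReal_mul_I, mul_one, Complex.norm_real]
      exact hC _
    have g := gffC hb hQ (k + n) hφ m' b'
    have e1 : ∀ s : Sp Ω, Ψ' (past (k + n) s) = (Ψ (past k s) : ℂ) *
        Complex.exp (((cst * (pr (s (k + n)).2 φ - pr (s k).2 φ) : ℝ) : ℂ) * Complex.I) := by
      intro s
      rfl
    calc _ = ∫ s, Ψ' (past (k + n) s) * Complex.exp (Complex.I * cst *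
          (pr (s (k + n + 1)).2 φ - pr (s (k + n)).2 φ) -
          greenEnergy (Ω \ (s (k + n + 1)).1) φ / 2) ∂Q := by
          refine integral_congr_ae (Eventually.of_forall fun s => ?_)
          simp only [e1]
          rw [mul_assoc (Ψ (past k s) : ℂ) (Complex.exp _) (Complex.exp _), ← Complex.exp_add]
          congr 2
          push_cast
          rw [← add_assoc]
          ring
      _ = _ := g
      _ = _ := by
          refine integral_congr_ae (Eventually.of_forall fun s => ?_)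
          simp only [e1]
          rw [mul_assoc (Ψ (past k s) : ℂ) (Complex.exp _) (Complex.exp _), ← Complex.exp_add]
          congr 2
          push_cast
          ring

end Vale.Agent.P155.Uq.Gam
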