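import Vale.Agent.P155.U.Iface3

/-!
# P155, block U: the almost sure properties of one level (LevStmt)
-/

namespace Vale.Agent.P155.Uq

open MeasureTheory Filter Topology TopologicalSpace Set

theorem test_bdd {Ω : Set ℂ} {φ : ℂ → ℝ} (h : IsTest Ω φ) : ∃ C, ∀ z, ‖φ z‖ ≤ C :=
  h.2.1.exists_bound_of_continuous h.1.continuous

theorem test_off {Ω : Set ℂ} {φ : ℂ → ℝ} (h : IsTest Ω φ) {z : ℂ} (hz : z ∉ Ω) : φ z = 0 := by
  by_contra hc
  exact hz (h.2.2 (subset_tsupport _ hc))

theorem finite_restrict {Ω : Set ℂ} (hb : Bornology.IsBounded Ω) :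
    IsFiniteMeasure (volume.restrict Ω : Measure ℂ) :=
  ⟨by rw [Measure.restrict_apply_univ]; exact hb.measure_lt_top⟩

theorem test_memLp {Ω : Set ℂ} (hb : Bornology.IsBounded Ω) {Ω' : Set ℂ} {φ : ℂ → ℝ}
    (h : IsTest Ω' φ) : MemLp φ 2 (volume.restrict Ω : Measure ℂ) := by
  have := finite_restrict hb
  obtain ⟨C, hC⟩ := test_bdd h
  exact MemLp.of_bound h.1.continuous.aestronglyMeasurable C (Eventually.of_forall hC)

theorem pr_integrable {Ω : Set ℂ} (hb : Bornology.IsBounded Ω) (f : Fld Ω) {Ω' : Set ℂ}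
    {φ : ℂ → ℝ} (h : IsTest Ω' φ) :
    Integrable (fun z => f z * φ z) (volume.restrict Ω : Measure ℂ) :=
  (Lp.memLp f).integrable_mul (test_memLp hb h)

theorem pr_sub_pr {Ω : Set ℂ} (hb : Bornology.IsBounded Ω) (f g : Fld Ω) {Ω' : Set ℂ}
    {φ : ℂ → ℝ} (h : IsTest Ω' φ) : pr f φ - pr g φ = ∫ z in Ω, (f z - g z) * φ z := by
  unfold pr
  rw [← integral_sub (pr_integrable hb f h) (pr_integrable hb g h)]
  apply integral_congr_ae
  exact Eventually.of_forall (fun z => by ring)

/-- the sign property gives `|f₁ - f₀| = 1` almost everywhere -/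
theorem abs_diff_eq_one {Ω G : Set ℂ} (hΩ : IsOpen Ω) (hG : IsClosed G)
    (hnull : volume (G ∩ Ω) = 0) (f0 f1 : Fld Ω)
    (hs : ∀ z r, 0 < r → Metric.closedBall z r ⊆ Ω → Disjoint (Metric.closedBall z r) G →
      ∃ t : ℝ, (t = 1 ∨ t = -1) ∧ ∀ᵐ w ∂(volume.restrict Ω : Measure ℂ), w ∈ Metric.ball z r →
        f1 w - f0 w = t) :
    ∀ᵐ w ∂(volume.restrict Ω : Measure ℂ), |f1 w - f0 w| = 1 := by
  have h1 : (volume.restrict Ω : Measure ℂ) {w | w ∈ Ω \ G ∧ ¬ |f1 w - f0 w| = 1} = 0 := by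
    apply measure_null_of_locally_null
    rintro x ⟨hx, -⟩
    obtain ⟨ε, hε, hεD⟩ := Metric.isOpen_iff.1 (hΩ.sdiff hG) x hx
    have hsub : Metric.closedBall x (ε / 2) ⊆ Ω \ G :=
      (Metric.closedBall_subset_ball (half_lt_self hε)).trans hεD
    obtain ⟨t, ht, hae⟩ := hs x (ε / 2) (half_pos hε) (hsub.trans sdiff_subset)
      (disjoint_left.2 (fun w hw hwG => (hsub hw).2 hwG))
    refine ⟨{w | w ∈ Ω \ G ∧ ¬ |f1 w - f0 w| = 1} ∩ Metric.ball x (ε / 2), ?_, ?_⟩
    · exact inter_mem self_mem_nhdsWithin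
        (mem_nhdsWithin_of_mem_nhds (Metric.ball_mem_nhds x (half_pos hε)))
    · have : (volume.restrict Ω : Measure ℂ) {w | ¬ (w ∈ Metric.ball x (ε / 2) →
          f1 w - f0 w = t)} = 0 := hae
      apply measure_mono_null _ this
      rintro w ⟨⟨-, h2⟩, h3⟩ h4
      apply h2
      rw [h4 h3]
      rcases ht with rfl | rfl
      · exact abs_one
      · rw [abs_neg, abs_one]
  have h2 : (volume.restrict Ω : Measure ℂ) G = 0 := by
    rw [Measure.restrict_apply hG.measurableSet]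
    exact hnull
  have h3 : ∀ᵐ w ∂(volume.restrict Ω : Measure ℂ), w ∈ Ω := by
    exact ae_restrict_mem hΩ.measurableSet
  have h4 : ∀ᵐ w ∂(volume.restrict Ω : Measure ℂ), w ∉ G := by
    rw [ae_iff]
    simpa using h2
  have h5 : ∀ᵐ w ∂(volume.restrict Ω : Measure ℂ), ¬ (w ∈ Ω \ G ∧ ¬ |f1 w - f0 w| = 1) := by
    rw [ae_iff]
    simp only [not_not]
    exact h1
  filter_upwards [h3, h4, h5] with w a b c
  by_contra hc
  exact c ⟨⟨a, b⟩, hc⟩

theorem levStmt : LevStmt := by
  intro Ω hΩ hb _ Q hQ k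
  have hmono : ∀ᵐ s ∂Q, ∀ j, ((s 0).1 : Set ℂ) ⊆ (s j).1 := by
    filter_upwards [hQ.mono] with s hs j
    induction j with
    | zero => exact subset_refl _
    | succ j ih => exact ih.trans (hs j).1
  have habs : ∀ᵐ s ∂Q, ∀ᵐ w ∂(volume.restrict Ω : Measure ℂ),
      |(s (k + 1)).2 w - (s k).2 w| = 1 := by
    filter_upwards [hQ.null, hQ.sign] with s h1 h2
    exact abs_diff_eq_one hΩ (s (k + 1)).1.isCompact.isClosed (h1 (k + 1)) _ _ (h2 k)
  constructor
  · -- rep
    filter_upwards [habs] with s hs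
    have hm1 : Measurable ((s (k + 1)).2 : ℂ → ℝ) := (Lp.stronglyMeasurable _).measurable
    have hm0 : Measurable ((s k).2 : ℂ → ℝ) := (Lp.stronglyMeasurable _).measurable
    refine ⟨Ω.indicator (fun z => max (-1) (min 1 ((s (k + 1)).2 z - (s k).2 z))), ?_, ?_, ?_⟩
    · exact (measurable_const.max (measurable_const.min (hm1.sub hm0))).indicator
        hΩ.measurableSet
    · intro z
      by_cases hz : z ∈ Ω
      · rw [indicator_of_mem hz, abs_le]
        exact ⟨le_max_left _ _, max_le (by norm_num) (min_le_left _ _)⟩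
      · rw [indicator_of_notMem hz, abs_zero]
        exact zero_le_one
    · intro φ hφ
      rw [pr_sub_pr hb _ _ hφ]
      have h1 : ∀ z, Ω.indicator (fun z => max (-1) (min 1 ((s (k + 1)).2 z - (s k).2 z))) z * φ z =
          Ω.indicator (fun z => max (-1) (min 1 ((s (k + 1)).2 z - (s k).2 z)) * φ z) z := by
        intro z
        by_cases hz : z ∈ Ω
        · rw [indicator_of_mem hz, indicator_of_mem hz]
        · rw [indicator_of_notMem hz, indicator_of_notMem hz, zero_mul]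
      simp_rw [h1]
      rw [integral_indicator hΩ.measurableSet]
      apply integral_congr_ae
      filter_upwards [hs] with w hw
      have h2 := abs_le.1 hw.le
      rw [min_eq_right h2.2, max_eq_right h2.1]
  · filter_upwards [hmono, hQ.zero] with s h1 h2
    rw [← h2.1]
    exact h1 (k + 1)
  · filter_upwards [hQ.mono] with s hs
    exact ⟨(hs k).1, (hs (k + 1)).2⟩
  · filter_upwards [hQ.conn] with s hs
    exact hs (k + 1)
  · filter_upwards [hQ.null] with s hs
    exact hs (k + 1)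
  · filter_upwards [hQ.sign] with s hs z r hr hball hdisj
    obtain ⟨t, ht, hae⟩ := hs k z r hr hball hdisj
    refine ⟨t, ht, fun φ hφ => ?_⟩
    rw [pr_sub_pr hb _ _ hφ]
    have hφ0 : ∀ w, w ∉ Metric.ball z r → φ w = 0 := fun w hw => test_off hφ hw
    have h1 : ∫ w in Ω, ((s (k + 1)).2 w - (s k).2 w) * φ w = ∫ w in Ω, t * φ w := by
      apply integral_congr_ae
      filter_upwards [hae] with w hw
      by_cases hwb : w ∈ Metric.ball z r
      · rw [hw hwb]
      · rw [hφ0 w hwb, mul_zero, mul_zero]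
    rw [h1, integral_const_mul]
    congr 1
    apply setIntegral_eq_integral_of_forall_compl_eq_zero
    intro w hw
    apply hφ0
    intro hwb
    exact hw (hball (Metric.ball_subset_closedBall hwb))

end Vale.Agent.P155.Uq
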