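import Vale.Agent.P155.U.Sweep
import Vale.Agent.P155.U.P1

/-!
# P155, block U (uniqueness), KEY: conditional second moments and averaging
-/

namespace Vale.Agent.P155.UK

open Finset MeasureTheory Vale.Agent.P155.G45

/-- A linear random field `Y` which, given the σ-algebra `m` (for which the random set `A` is
measurable), has conditional second moment at most `greenEnergy (Ω \ A)`. -/
structure CondVar {Θ : Type*} {m0 : MeasurableSpace Θ} (P : Measure Θ) (m : MeasurableSpace Θ)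
    (Ω : Set ℂ) (A : Θ → Set ℂ) (Y : (ℂ → ℝ) → Θ → ℝ) : Prop where
  le : m ≤ m0
  near : ∀ (w : ℂ) (r : ℝ), MeasurableSet[m] {θ | Metric.infDist w (A θ) ≤ r}
  mem : ∀ φ, IsTest Ω φ → MemLp (Y φ) 2 P
  add : ∀ φ ψ (c : ℝ), IsTest Ω φ → IsTest Ω ψ →
    Y (fun z => φ z + c * ψ z) =ᵐ[P] fun θ => Y φ θ + c * Y ψ θ
  var : ∀ φ, IsTest Ω φ → ∀ E, MeasurableSet[m] E → ∀ η : ℝ,
    (∀ᵐ θ ∂P, θ ∈ E → greenEnergy (Ω \ A θ) φ ≤ η) → ∫ θ in E, Y φ θ ^ 2 ∂P ≤ η * P.real E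

theorem IsTest.add_mul {U : Set ℂ} {φ ψ : ℂ → ℝ} (c : ℝ) (h1 : IsTest U φ) (h2 : IsTest U ψ) :
    IsTest U (fun z => φ z + c * ψ z) := by
  refine ⟨h1.1.add (contDiff_const.mul h2.1), h1.2.1.add (h2.2.1.mul_left), ?_⟩
  refine (tsupport_add (f := φ) (g := fun z => c * ψ z)).trans ?_
  apply Set.union_subset h1.2.2
  exact (tsupport_mul_subset_right (f := fun _ => c) (g := ψ)).trans h2.2.2

theorem IsTest.sum {ι : Type*} {U : Set ℂ} (s : Finset ι) (w : ι → ℝ) (φ : ι → ℂ → ℝ)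
    (h : ∀ i ∈ s, w i ≠ 0 → IsTest U (φ i)) : IsTest U (fun z => ∑ i ∈ s, w i * φ i z) := by
  classical
  induction s using Finset.induction_on with
  | empty => simpa using Vale.Agent.P155.U.isTest_zero U
  | insert i s hi ih =>
    have h1 := ih fun j hj => h j (Finset.mem_insert_of_mem hj)
    simp only [Finset.sum_insert hi]
    by_cases hw : w i = 0
    · simpa [hw] using h1
    · have h2 := IsTest.add_mul (w i) h1 (h i (Finset.mem_insert_self _ _) hw)
      refine (iff_of_eq ?_).1 h2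
      congr 1
      funext z
      ring

namespace CondVar

variable {Θ : Type*} {m : MeasurableSpace Θ} {m0 : MeasurableSpace Θ} {P : Measure Θ}
  {Ω : Set ℂ} {A : Θ → Set ℂ} {Y : (ℂ → ℝ) → Θ → ℝ}

theorem zero (h : CondVar P m Ω A Y) : Y (fun _ => 0) =ᵐ[P] fun _ => 0 := by
  have h1 := h.add (fun _ => 0) (fun _ => 0) (-1) (Vale.Agent.P155.U.isTest_zero Ω) (Vale.Agent.P155.U.isTest_zero Ω)
  have h2 : (fun z : ℂ => (0 : ℝ) + -1 * 0) = fun _ => 0 := by funext; ring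
  rw [h2] at h1
  filter_upwards [h1] with θ hθ
  linarith

theorem sum (h : CondVar P m Ω A Y) {ι : Type*} (s : Finset ι) (w : ι → ℝ) (φ : ι → ℂ → ℝ)
    (hφ : ∀ i ∈ s, w i ≠ 0 → IsTest Ω (φ i)) :
    Y (fun z => ∑ i ∈ s, w i * φ i z) =ᵐ[P] fun θ => ∑ i ∈ s, w i * Y (φ i) θ := by
  classical
  induction s using Finset.induction_on with
  | empty => simpa using h.zero
  | insert i s hi ih =>
    have h1 := ih fun j hj => hφ j (Finset.mem_insert_of_mem hj)
    have ht := IsTest.sum s w φ fun j hj => hφ j (Finset.mem_insert_of_mem hj)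
    by_cases hw : w i = 0
    · simp only [Finset.sum_insert hi, hw, zero_mul, zero_add]
      exact h1
    · have h2 := h.add _ _ (w i) ht (hφ i (Finset.mem_insert_self _ _) hw)
      have e : (fun z => ∑ j ∈ insert i s, w j * φ j z) =
          fun z => ∑ j ∈ s, w j * φ j z + w i * φ i z := by
        funext z
        rw [Finset.sum_insert hi]; ring
      rw [e]
      filter_upwards [h1, h2] with θ e1 e2
      rw [e2, e1, Finset.sum_insert hi]; ring

theorem sqint (h : CondVar P m Ω A Y) {φ : ℂ → ℝ} (hφ : IsTest Ω φ) :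
    Integrable (fun θ => Y φ θ ^ 2) P := (h.mem φ hφ).integrable_sq

/-- The averaging lemma: weights and test functions which are functions of a finite-valued
`m`-measurable `F`. -/
theorem avg [IsFiniteMeasure P] (h : CondVar P m Ω A Y) {ι : Type*} [DecidableEq ι] (R : Finset ι)
    (F : Θ → ι) (hF : ∀ i ∈ R, MeasurableSet[m] (F ⁻¹' {i})) (hFR : ∀ θ, F θ ∈ R)
    (B : Finset Pt) (a : ι → Pt → ℝ) (ha0 : ∀ i ∈ R, ∀ x ∈ B, 0 ≤ a i x)
    (ha1 : ∀ i ∈ R, ∑ x ∈ B, a i x ≤ 1) (ψ : ι → Pt → ℂ → ℝ) {D : Set Θ}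
    (hD : MeasurableSet[m] D) {η : ℝ} (hη : 0 ≤ η)
    (hq : ∀ᵐ θ ∂P, θ ∈ D → ∀ x ∈ B, a (F θ) x ≠ 0 → IsTest Ω (ψ (F θ) x) ∧
      greenEnergy (Ω \ A θ) (ψ (F θ) x) ≤ η) :
    IntegrableOn (fun θ => ∑ x ∈ B, a (F θ) x * Y (ψ (F θ) x) θ ^ 2) D P ∧
      ∫ θ in D, ∑ x ∈ B, a (F θ) x * Y (ψ (F θ) x) θ ^ 2 ∂P ≤ η * P.real D := by
  classical
  have hD0 : MeasurableSet D := h.le _ hD
  have hF0 : ∀ i ∈ R, MeasurableSet (F ⁻¹' {i}) := fun i hi => h.le _ (hF i hi)
  -- the truncated integrand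
  let g : ι → Pt → Θ → ℝ := fun i x => (F ⁻¹' {i}).indicator
    (fun θ => if IsTest Ω (ψ i x) then a i x * Y (ψ i x) θ ^ 2 else 0)
  have hg : ∀ i ∈ R, ∀ x ∈ B, Integrable (g i x) P := by
    intro i hi x _
    apply Integrable.indicator _ (hF0 i hi)
    by_cases ht : IsTest Ω (ψ i x)
    · simp only [if_pos ht]
      exact (h.sqint ht).const_mul _
    · simp only [if_neg ht]
      exact integrable_zero _ _ _
  have hsum : (fun θ => ∑ x ∈ B, a (F θ) x * Y (ψ (F θ) x) θ ^ 2) =ᵐ[P.restrict D]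
      fun θ => ∑ i ∈ R, ∑ x ∈ B, g i x θ := by
    rw [Filter.EventuallyEq, ae_restrict_iff' hD0]
    filter_upwards [hq] with θ hθ hθD
    rw [Finset.sum_eq_single (F θ)]
    · apply Finset.sum_congr rfl
      intro x hx
      simp only [g]
      rw [Set.indicator_of_mem (by simp)]
      by_cases ha : a (F θ) x = 0
      · simp [ha]
      · rw [if_pos (hθ hθD x hx ha).1]
    · intro i _ hne
      apply Finset.sum_eq_zero
      intro x _
      simp only [g]
      rw [Set.indicator_of_notMem]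
      intro hmem
      exact hne (by simpa using hmem.symm)
    · intro hn; exact absurd (hFR θ) hn
  have hint : Integrable (fun θ => ∑ i ∈ R, ∑ x ∈ B, g i x θ) P :=
    integrable_finsetSum _ fun i hi => integrable_finsetSum _ fun x hx => hg i hi x hx
  refine ⟨(hint.integrableOn).congr hsum.symm, ?_⟩
  rw [integral_congr_ae hsum, integral_finsetSum _ fun i hi =>
    (integrable_finsetSum _ fun x hx => hg i hi x hx).integrableOn]
  have hterm : ∀ i ∈ R, ∫ θ in D, ∑ x ∈ B, g i x θ ∂P ≤ η * P.real (F ⁻¹' {i} ∩ D) := by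
    intro i hi
    rw [integral_finsetSum _ fun x hx => (hg i hi x hx).integrableOn]
    calc ∑ x ∈ B, ∫ θ in D, g i x θ ∂P ≤ ∑ x ∈ B, a i x * (η * P.real (F ⁻¹' {i} ∩ D)) := by
          apply Finset.sum_le_sum
          intro x hx
          have e1 : ∫ θ in D, g i x θ ∂P = ∫ θ in F ⁻¹' {i} ∩ D,
              (if IsTest Ω (ψ i x) then a i x * Y (ψ i x) θ ^ 2 else 0) ∂P := by
            simp only [g]
            rw [integral_indicator (hF0 i hi), Measure.restrict_restrict (hF0 i hi)]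
          rw [e1]
          by_cases ha : a i x = 0
          · simp [ha]
          by_cases ht : IsTest Ω (ψ i x)
          · simp only [if_pos ht]
            rw [integral_const_mul]
            apply mul_le_mul_of_nonneg_left _ (ha0 i hi x hx)
            apply h.var _ ht _ ((hF i hi).inter hD)
            filter_upwards [hq] with θ hθ hmem
            have hFi : F θ = i := hmem.1
            have := (hθ hmem.2 x hx (by rw [hFi]; exact ha)).2
            rwa [hFi] at this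
          · simp only [if_neg ht, integral_zero]
            exact mul_nonneg (ha0 i hi x hx) (mul_nonneg hη measureReal_nonneg)
      _ = (∑ x ∈ B, a i x) * (η * P.real (F ⁻¹' {i} ∩ D)) := by rw [Finset.sum_mul]
      _ ≤ 1 * (η * P.real (F ⁻¹' {i} ∩ D)) :=
          mul_le_mul_of_nonneg_right (ha1 i hi) (mul_nonneg hη measureReal_nonneg)
      _ = _ := one_mul _
  refine (Finset.sum_le_sum hterm).trans ?_
  rw [← Finset.mul_sum]
  apply mul_le_mul_of_nonneg_left _ hη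
  have hdisj : Set.PairwiseDisjoint (↑R : Set ι) (fun i => F ⁻¹' {i} ∩ D) := by
    intro i _ j _ hij
    apply Set.disjoint_left.2
    rintro θ ⟨h1, _⟩ ⟨h2, _⟩
    exact hij (h1.symm.trans h2)
  rw [← measureReal_biUnion_finset hdisj (fun i hi => (hF0 i hi).inter hD0)]
  apply measureReal_mono _ (measure_ne_top _ _)
  intro θ hθ
  simp only [Set.mem_iUnion] at hθ
  obtain ⟨i, _, hi⟩ := hθ
  exact hi.2

/-- The averaging lemma for linear combinations of given test functions. -/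
theorem avg_lin [IsFiniteMeasure P] (h : CondVar P m Ω A Y) {ι : Type*} [DecidableEq ι]
    (R : Finset ι) (F : Θ → ι) (hF : ∀ i ∈ R, MeasurableSet[m] (F ⁻¹' {i})) (hFR : ∀ θ, F θ ∈ R)
    (B : Finset Pt) (a : ι → Pt → ℝ) (ha0 : ∀ i ∈ R, ∀ x ∈ B, 0 ≤ a i x)
    (ha1 : ∀ i ∈ R, ∑ x ∈ B, a i x ≤ 1) (b : ι → Pt → Pt → ℝ) (φ : Pt → ℂ → ℝ) {D : Set Θ}
    (hD : MeasurableSet[m] D) {η : ℝ} (hη : 0 ≤ η)
    (hq : ∀ᵐ θ ∂P, θ ∈ D → ∀ x ∈ B, a (F θ) x ≠ 0 →
      (∀ y ∈ B, b (F θ) x y ≠ 0 → IsTest Ω (φ y)) ∧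
      greenEnergy (Ω \ A θ) (fun z => ∑ y ∈ B, b (F θ) x y * φ y z) ≤ η) :
    IntegrableOn (fun θ => ∑ x ∈ B, a (F θ) x * (∑ y ∈ B, b (F θ) x y * Y (φ y) θ) ^ 2) D P ∧
      ∫ θ in D, ∑ x ∈ B, a (F θ) x * (∑ y ∈ B, b (F θ) x y * Y (φ y) θ) ^ 2 ∂P ≤
        η * P.real D := by
  classical
  have hD0 : MeasurableSet D := h.le _ hD
  have key := h.avg R F hF hFR B a ha0 ha1 (fun i x z => ∑ y ∈ B, b i x y * φ y z) hD hη (by
    filter_upwards [hq] with θ hθ hθD x hx ha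
    obtain ⟨h1, h2⟩ := hθ hθD x hx ha
    exact ⟨IsTest.sum B _ _ h1, h2⟩)
  have hlin : ∀ᵐ θ ∂P, ∀ i ∈ R, ∀ x ∈ B, (∀ y ∈ B, b i x y ≠ 0 → IsTest Ω (φ y)) →
      Y (fun z => ∑ y ∈ B, b i x y * φ y z) θ = ∑ y ∈ B, b i x y * Y (φ y) θ := by
    rw [Filter.eventually_all_finset]
    intro i _
    rw [Filter.eventually_all_finset]
    intro x _
    by_cases ht : ∀ y ∈ B, b i x y ≠ 0 → IsTest Ω (φ y)
    · filter_upwards [h.sum B (b i x) φ ht] with θ hθ _
      exact hθ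
    · exact Filter.Eventually.of_forall fun θ h' => absurd h' ht
  have hcong : (fun θ => ∑ x ∈ B, a (F θ) x *
        Y (fun z => ∑ y ∈ B, b (F θ) x y * φ y z) θ ^ 2) =ᵐ[P.restrict D]
      fun θ => ∑ x ∈ B, a (F θ) x * (∑ y ∈ B, b (F θ) x y * Y (φ y) θ) ^ 2 := by
    rw [Filter.EventuallyEq, ae_restrict_iff' hD0]
    filter_upwards [hq, hlin] with θ hθ hl hθD
    apply Finset.sum_congr rfl
    intro x hx
    by_cases ha : a (F θ) x = 0
    · rw [ha, zero_mul, zero_mul]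
    · rw [hl (F θ) (hFR θ) x hx (hθ hθD x hx ha).1]
  exact ⟨key.1.congr hcong, by rw [← integral_congr_ae hcong]; exact key.2⟩

end CondVar

theorem le_sqrt_mul {x a b : ℝ} (ha : 0 ≤ a) (hb : 0 ≤ b)
    (h : ∀ t : ℝ, 0 < t → x ≤ (t * a + b / t) / 2) : x ≤ √a * √b := by
  have hlim : Filter.Tendsto (fun ε : ℝ => √(a + ε) * √(b + ε)) (nhdsWithin 0 (Set.Ioi 0))
      (nhds (√(a + 0) * √(b + 0))) := by
    apply Filter.Tendsto.mono_left _ nhdsWithin_le_nhds
    apply ContinuousAt.tendsto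
    fun_prop
  rw [add_zero, add_zero] at hlim
  apply ge_of_tendsto hlim
  filter_upwards [self_mem_nhdsWithin] with ε hε
  have hε' : (0 : ℝ) < ε := hε
  have h1 : 0 < √(a + ε) := Real.sqrt_pos.2 (by linarith)
  have h2 : 0 < √(b + ε) := Real.sqrt_pos.2 (by linarith)
  have h3 := h (√(b + ε) / √(a + ε)) (div_pos h2 h1)
  have e1 : √(a + ε) ^ 2 = a + ε := Real.sq_sqrt (by linarith)
  have e2 : √(b + ε) ^ 2 = b + ε := Real.sq_sqrt (by linarith)
  have h4 : √(b + ε) / √(a + ε) * a ≤ √(a + ε) * √(b + ε) := by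
    rw [div_mul_eq_mul_div, div_le_iff₀ h1]
    have : √(a + ε) * √(b + ε) * √(a + ε) = √(b + ε) * √(a + ε) ^ 2 := by ring
    rw [this, e1]
    exact mul_le_mul_of_nonneg_left (by linarith) h2.le
  have h5 : b / (√(b + ε) / √(a + ε)) ≤ √(a + ε) * √(b + ε) := by
    rw [div_div_eq_mul_div, div_le_iff₀ h2]
    have : √(a + ε) * √(b + ε) * √(b + ε) = √(a + ε) * √(b + ε) ^ 2 := by ring
    rw [this, e2, mul_comm b]
    exact mul_le_mul_of_nonneg_left (by linarith) h1.le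
  linarith

/-- Cauchy-Schwarz for square roots. -/
theorem integral_sqrt_mul_le {Θ : Type*} {m0 : MeasurableSpace Θ} {μ : Measure Θ} {f g : Θ → ℝ}
    (hf : Integrable f μ) (hg : Integrable g μ) (hf0 : 0 ≤ᵐ[μ] f) (hg0 : 0 ≤ᵐ[μ] g) :
    Integrable (fun θ => √(f θ) * √(g θ)) μ ∧
      ∫ θ, √(f θ) * √(g θ) ∂μ ≤ √(∫ θ, f θ ∂μ) * √(∫ θ, g θ ∂μ) := by
  have hb : ∀ t : ℝ, 0 < t → ∀ᵐ θ ∂μ, √(f θ) * √(g θ) ≤ (t * f θ + g θ / t) / 2 := by
    intro t ht
    filter_upwards [hf0, hg0] with θ h1 h2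
    have e1 : √(f θ) ^ 2 = f θ := Real.sq_sqrt h1
    have e2 : √(g θ) ^ 2 = g θ := Real.sq_sqrt h2
    have h3 : 0 ≤ (√t * √(f θ) - √(g θ) / √t) ^ 2 := sq_nonneg _
    have ht' : √t ^ 2 = t := Real.sq_sqrt ht.le
    have htp : 0 < √t := Real.sqrt_pos.2 ht
    have h4 : (√t * √(f θ) - √(g θ) / √t) ^ 2 =
        t * f θ - 2 * (√(f θ) * √(g θ)) + g θ / t := by
      rw [sub_sq, mul_pow, div_pow, ht', e1, e2]
      field_simp
    linarith
  have hm : AEStronglyMeasurable (fun θ => √(f θ) * √(g θ)) μ :=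
    (Real.continuous_sqrt.comp_aestronglyMeasurable hf.1).mul
      (Real.continuous_sqrt.comp_aestronglyMeasurable hg.1)
  have hint : Integrable (fun θ => √(f θ) * √(g θ)) μ := by
    have h1 : Integrable (fun θ => (1 * f θ + g θ / 1) / 2) μ :=
      ((hf.const_mul 1).add (hg.div_const 1)).div_const 2
    apply h1.mono' hm
    filter_upwards [hb 1 one_pos] with θ hθ
    rw [Real.norm_eq_abs, abs_of_nonneg (by positivity)]
    exact hθ
  refine ⟨hint, le_sqrt_mul (integral_nonneg_of_ae hf0) (integral_nonneg_of_ae hg0) ?_⟩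
  intro t ht
  have h1 : Integrable (fun θ => (t * f θ + g θ / t) / 2) μ :=
    ((hf.const_mul t).add (hg.div_const t)).div_const 2
  have h2 := integral_mono_ae hint h1 (hb t ht)
  rw [integral_div, integral_add (hf.const_mul t) (hg.div_const t), integral_const_mul,
    integral_div] at h2
  exact h2

theorem integral_sqrt_le {Θ : Type*} {m0 : MeasurableSpace Θ} {μ : Measure Θ} [IsFiniteMeasure μ]
    {f : Θ → ℝ} (hf : Integrable f μ) (hf0 : 0 ≤ᵐ[μ] f) :
    Integrable (fun θ => √(f θ)) μ ∧ ∫ θ, √(f θ) ∂μ ≤ √(∫ θ, f θ ∂μ) * √(μ.real Set.univ) := by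
  have h := integral_sqrt_mul_le hf (integrable_const (1 : ℝ)) hf0
    (Filter.Eventually.of_forall fun _ => zero_le_one)
  simpa using h

/-- A weighted sum of absolute values. -/
theorem sum_abs_le_sqrt {B : Finset Pt} {a : Pt → ℝ} (ha0 : ∀ x ∈ B, 0 ≤ a x)
    (ha1 : ∑ x ∈ B, a x ≤ 1) (u : Pt → ℝ) :
    ∑ x ∈ B, a x * |u x| ≤ √(∑ x ∈ B, a x * u x ^ 2) := by
  have cs := Real.sum_mul_le_sqrt_mul_sqrt B (fun x => √(a x)) (fun x => √(a x) * |u x|)
  have e1 : ∑ x ∈ B, √(a x) * (√(a x) * |u x|) = ∑ x ∈ B, a x * |u x| := by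
    apply Finset.sum_congr rfl
    intro x hx
    rw [← mul_assoc, Real.mul_self_sqrt (ha0 x hx)]
  have e2 : ∑ x ∈ B, √(a x) ^ 2 = ∑ x ∈ B, a x :=
    Finset.sum_congr rfl fun x hx => Real.sq_sqrt (ha0 x hx)
  have e3 : ∑ x ∈ B, (√(a x) * |u x|) ^ 2 = ∑ x ∈ B, a x * u x ^ 2 := by
    apply Finset.sum_congr rfl
    intro x hx
    rw [mul_pow, Real.sq_sqrt (ha0 x hx), sq_abs]
  rw [e1, e2, e3] at cs
  refine cs.trans ?_
  have h1 : √(∑ x ∈ B, a x) ≤ 1 := by
    rw [Real.sqrt_le_one]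
    exact ha1
  calc _ ≤ 1 * √(∑ x ∈ B, a x * u x ^ 2) := mul_le_mul_of_nonneg_right h1 (Real.sqrt_nonneg _)
    _ = _ := one_mul _

/-- Functions of a finite-valued measurable map are integrable. -/
theorem integrable_comp_finite {Θ : Type*} {m0 : MeasurableSpace Θ} {μ : Measure Θ}
    [IsFiniteMeasure μ] {ι : Type*} [DecidableEq ι] (R : Finset ι) (F : Θ → ι)
    (hF : ∀ i ∈ R, MeasurableSet (F ⁻¹' {i})) (hFR : ∀ θ, F θ ∈ R) (g : ι → ℝ) :
    Integrable (fun θ => g (F θ)) μ := by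
  have e : (fun θ => g (F θ)) = fun θ => ∑ i ∈ R, (F ⁻¹' {i}).indicator (fun _ => g i) θ := by
    funext θ
    rw [Finset.sum_eq_single (F θ)]
    · rw [Set.indicator_of_mem (by simp)]
    · intro i _ hne
      rw [Set.indicator_of_notMem]
      intro hmem
      exact hne (by simpa using hmem.symm)
    · intro hn; exact absurd (hFR θ) hn
  rw [e]
  exact integrable_finsetSum _ fun i hi => (integrable_const _).indicator (hF i hi)

end Vale.Agent.P155.UK
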