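import Vale.Agent.P155.U.Avg
import Vale.Agent.P155.U.Iface

/-!
# P155, block U (uniqueness), KEY: the three fields of a coupled pair
-/

namespace Vale.Agent.P155.UK

open Finset MeasureTheory TopologicalSpace Vale.Agent.P155.G45 Vale.Agent.P155.Uq

theorem greenEnergy_nonneg (U : Set ℂ) (φ : ℂ → ℝ) : 0 ≤ greenEnergy U φ := by
  unfold greenEnergy
  by_cases h : BddAbove {x | ∃ v, IsTest U v ∧ x = 2 * (∫ z, φ z * v z) -
      ∫ z, ‖fderiv ℝ v z‖ ^ 2}
  · apply le_csSup h
    refine ⟨fun _ => 0, Vale.Agent.P155.U.isTest_zero U, ?_⟩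
    simp
  · rw [Real.sSup_of_not_bddAbove h]

theorem greenEnergy_zero_le (U : Set ℂ) : greenEnergy U (fun _ => 0) ≤ 0 := by
  apply Vale.Agent.P155.U.greenEnergy_le
  intro v _
  have : 0 ≤ ∫ z, ‖fderiv ℝ v z‖ ^ 2 := integral_nonneg fun z => sq_nonneg _
  simp only [zero_mul, integral_zero, mul_zero]
  linarith

/-- Sup norm bound of the Green energy. -/
theorem greenEnergy_sup {U : Set ℂ} {R ε : ℝ} (hR : 0 < R) (hU : ∀ z ∈ U, ‖z‖ < R)
    {φ : ℂ → ℝ} (hφ : ∀ z, |φ z| ≤ ε) (hφ0 : ∀ z, R ≤ ‖z‖ → φ z = 0) :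
    greenEnergy U φ ≤ 160 * (R ^ 2 * ε) ^ 2 := by
  apply Vale.Agent.P155.U.greenEnergy_le
  intro v hv
  have h1 := Vale.Agent.P155.U.poinc_phi (Vale.Agent.P155.U.test_c1 hv) 0 hR (le_refl R) (φ := φ)
    (M := R ^ 2 * ε) (fun x hx => ⟨(x : ℂ), by
      have hx0 : 0 ≤ x := hR.le.trans hx.1
      constructor
      · simp [abs_of_nonneg hx0]
      · apply Vale.Agent.P155.U.test_zero hv
        intro h
        have := hU _ h
        rw [Complex.norm_real, Real.norm_eq_abs, abs_of_nonneg hx0] at this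
        linarith [hx.1]⟩)
    (fun z => by
      rw [mul_div_assoc, mul_comm, div_mul_cancel₀ _ (by positivity)]
      exact hφ z)
    (fun z hz => hφ0 z (by simpa using hz))
  rw [div_self hR.ne', Real.log_one, add_zero, mul_one] at h1
  have h2 : ∫ z in Metric.ball (0 : ℂ) (2 * R), ‖fderiv ℝ v z‖ ^ 2 ≤ ∫ z, ‖fderiv ℝ v z‖ ^ 2 :=
    setIntegral_le_integral (Vale.Agent.P155.U.test_sq hv)
      (Filter.Eventually.of_forall fun z => sq_nonneg _)
  set X := ∫ z, φ z * v z
  set E := ∫ z, ‖fderiv ℝ v z‖ ^ 2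
  have hE : 0 ≤ E := integral_nonneg fun z => sq_nonneg _
  set K : ℝ := 160 * (R ^ 2 * ε) ^ 2 with hK
  have hK0 : 0 ≤ K := by positivity
  have h3 : X ^ 2 ≤ K * E := h1.trans (mul_le_mul_of_nonneg_left h2 hK0)
  nlinarith [sq_nonneg (K - E), sq_nonneg (X - K), sq_nonneg (X - E), sq_nonneg (K + E),
    abs_le_of_sq_le_sq' (show X ^ 2 ≤ ((K + E) / 2) ^ 2 by nlinarith [sq_nonneg (K - E)])
      (by positivity)]

theorem continuous_infDist_nc (w : ℂ) :
    Continuous (fun K : NonemptyCompacts ℂ => Metric.infDist w (K : Set ℂ)) := by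
  have hL : LipschitzWith 1 (fun K : NonemptyCompacts ℂ => Metric.infDist w (K : Set ℂ)) := by
    apply LipschitzWith.of_le_add
    intro K K'
    have hfin : Metric.hausdorffEDist (K' : Set ℂ) (K : Set ℂ) ≠ ⊤ :=
      Metric.hausdorffEDist_ne_top_of_nonempty_of_bounded K'.nonempty K.nonempty
        K'.isCompact.isBounded K.isCompact.isBounded
    have h := Metric.infDist_le_infDist_add_hausdorffDist (x := w) hfin
    rw [Metric.NonemptyCompacts.dist_eq, Metric.hausdorffDist_comm]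
    exact h
  exact hL.continuous

/-- Abstract derivation of `CondVar` from second moments of random combinations. -/
theorem condVar_of {X S : Type} {mX : MeasurableSpace X} [mS : MeasurableSpace S]
    {μ : Measure X} [IsFiniteMeasure μ] {a : X → S} (ma : Measurable a) {Ω : Set ℂ}
    {C : S → Set ℂ} (hC : ∀ w r, MeasurableSet {s | Metric.infDist w (C s) ≤ r})
    {Y : (ℂ → ℝ) → X → ℝ} (hmem : ∀ φ, IsTest Ω φ → MemLp (Y φ) 2 μ)
    (hlin : ∀ φ ψ (c : ℝ), IsTest Ω φ → IsTest Ω ψ →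
      Y (fun z => φ z + c * ψ z) =ᵐ[μ] fun θ => Y φ θ + c * Y ψ θ)
    (h2 : ∀ (w : S → ℝ) (φ : ℂ → ℝ), BM w → IsTest Ω φ →
      ∫ x, (w (a x) * Y φ x) ^ 2 ∂μ = ∫ x, greenEnergy (Ω \ C (a x)) (fun z => w (a x) * φ z) ∂μ) :
    CondVar μ (MeasurableSpace.comap a mS) Ω (fun x => C (a x)) Y where
  le := ma.comap_le
  near := fun w r => ⟨_, hC w r, rfl⟩
  mem := hmem
  add := hlin
  var := by
    intro φ hφ E hE η hη
    obtain ⟨E0, hE0, rfl⟩ := hE
    classical
    have hm : MeasurableSet (a ⁻¹' E0) := ma hE0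
    have hw : BM (E0.indicator (fun _ => (1 : ℝ))) := by
      refine ⟨measurable_const.indicator hE0, 1, fun s => ?_⟩
      by_cases hs : s ∈ E0
      · rw [Set.indicator_of_mem hs]; simp
      · rw [Set.indicator_of_notMem hs]; simp
    have key := h2 _ φ hw hφ
    have e1 : ∫ x, (E0.indicator (fun _ => (1 : ℝ)) (a x) * Y φ x) ^ 2 ∂μ =
        ∫ x in a ⁻¹' E0, Y φ x ^ 2 ∂μ := by
      rw [← integral_indicator hm]
      apply integral_congr_ae
      refine Filter.Eventually.of_forall fun x => ?_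
      by_cases hx : a x ∈ E0
      · simp only
        rw [Set.indicator_of_mem hx, Set.indicator_of_mem (show x ∈ a ⁻¹' E0 from hx), one_mul]
      · simp only
        rw [Set.indicator_of_notMem hx, Set.indicator_of_notMem (show x ∉ a ⁻¹' E0 from hx)]
        ring
    rw [← e1, key]
    have hb : ∀ᵐ x ∂μ, greenEnergy (Ω \ C (a x))
        (fun z => E0.indicator (fun _ => (1 : ℝ)) (a x) * φ z) ≤
          (a ⁻¹' E0).indicator (fun _ => η) x := by
      filter_upwards [hη] with x hx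
      by_cases hxE : a x ∈ E0
      · rw [Set.indicator_of_mem hxE, Set.indicator_of_mem (show x ∈ a ⁻¹' E0 from hxE)]
        simp only [one_mul]
        exact hx hxE
      · rw [Set.indicator_of_notMem hxE, Set.indicator_of_notMem (show x ∉ a ⁻¹' E0 from hxE)]
        simp only [zero_mul]
        exact greenEnergy_zero_le _
    have hfin : ∫ x, (a ⁻¹' E0).indicator (fun _ => η) x ∂μ = η * μ.real (a ⁻¹' E0) := by
      rw [integral_indicator hm, setIntegral_const, smul_eq_mul, mul_comm]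
    by_cases hint : Integrable (fun x => greenEnergy (Ω \ C (a x))
        (fun z => E0.indicator (fun _ => (1 : ℝ)) (a x) * φ z)) μ
    · rw [← hfin]
      exact integral_mono_ae hint ((integrable_const η).indicator hm) hb
    · rw [integral_undef hint, ← hfin]
      apply integral_nonneg_of_ae
      filter_upwards [hb] with x hx
      exact (greenEnergy_nonneg _ _).trans hx

/-- `h` is a.s. linear and bounded. -/
theorem Lev_lin {Ω : Set ℂ} {X : Type} [MeasurableSpace X] {μ : Measure X} {K0 : X → Set ℂ}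
    {A : X → NonemptyCompacts ℂ} {h : X → (ℂ → ℝ) → ℝ} (hl : Lev Ω μ K0 A h) :
    ∀ᵐ s ∂μ, ∀ φ ψ (c : ℝ), IsTest Ω φ → IsTest Ω ψ →
      h s (fun z => φ z + c * ψ z) = h s φ + c * h s ψ := by
  filter_upwards [hl.rep] with s hs φ ψ c hφ hψ
  obtain ⟨g, hg, hg1, hgr⟩ := hs
  have i1 : Integrable (fun z => g z * φ z) :=
    (Vale.Agent.P155.U.test_int hφ).bdd_mul hg.aestronglyMeasurable (c := 1)
      (Filter.Eventually.of_forall fun z => by rw [Real.norm_eq_abs]; exact hg1 z)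
  have i2 : Integrable (fun z => g z * ψ z) :=
    (Vale.Agent.P155.U.test_int hψ).bdd_mul hg.aestronglyMeasurable (c := 1)
      (Filter.Eventually.of_forall fun z => by rw [Real.norm_eq_abs]; exact hg1 z)
  rw [hgr _ (IsTest.add_mul c hφ hψ), hgr _ hφ, hgr _ hψ, ← integral_const_mul,
    ← integral_add i1 (i2.const_mul c)]
  apply integral_congr_ae
  exact Filter.Eventually.of_forall fun z => by simp only; ring

theorem Lev_memLp {Ω : Set ℂ} {X : Type} [MeasurableSpace X] {μ : Measure X}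
    [IsFiniteMeasure μ] {K0 : X → Set ℂ} {A : X → NonemptyCompacts ℂ} {h : X → (ℂ → ℝ) → ℝ}
    (hl : Lev Ω μ K0 A h) {φ : ℂ → ℝ} (hφ : IsTest Ω φ) (hm : Measurable (fun s => h s φ)) :
    MemLp (fun s => h s φ) 2 μ := by
  apply MemLp.of_bound hm.aestronglyMeasurable (∫ z, |φ z|)
  filter_upwards [hl.rep] with s hs
  obtain ⟨g, hg, hg1, hgr⟩ := hs
  rw [hgr φ hφ]
  apply norm_integral_le_of_norm_le (Vale.Agent.P155.U.test_int hφ).abs
  refine Filter.Eventually.of_forall fun z => ?_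
  rw [norm_mul, Real.norm_eq_abs, Real.norm_eq_abs]
  calc |g z| * |φ z| ≤ 1 * |φ z| := mul_le_mul_of_nonneg_right (hg1 z) (abs_nonneg _)
    _ = |φ z| := one_mul _

section cpl

variable {Ω : Set ℂ} {X S S' : Type} [mX : MeasurableSpace X] [mS : MeasurableSpace S]
    [mS' : MeasurableSpace S'] {μ : Measure X} {K0 : X → Set ℂ} {a : X → S} {a' : X → S'}
    {A : S → NonemptyCompacts ℂ} {A' : S' → NonemptyCompacts ℂ}
    {h : S → (ℂ → ℝ) → ℝ} {h' : S' → (ℂ → ℝ) → ℝ} {Γ Z : (ℂ → ℝ) → X → ℝ}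

/-- `Γ - c h`. -/
noncomputable def Y1 (a : X → S) (h : S → (ℂ → ℝ) → ℝ) (Γ : (ℂ → ℝ) → X → ℝ) (φ : ℂ → ℝ)
    (x : X) : ℝ := Γ φ x - cst * h (a x) φ

theorem meas_infDist {A : S → NonemptyCompacts ℂ} (hA : Measurable A) (w : ℂ) :
    Measurable (fun s => Metric.infDist w (A s : Set ℂ)) :=
  (continuous_infDist_nc w).measurable.comp hA

theorem condVar1 (hc : Cpl Ω μ K0 a a' A A' h h' Γ Z) :
    CondVar μ (MeasurableSpace.comap a mS) Ω (fun x => (A (a x) : Set ℂ)) (Y1 a h Γ) := by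
  have := hc.prob
  apply condVar_of hc.ma (C := fun s => (A s : Set ℂ))
  · intro w r
    exact measurableSet_le (meas_infDist hc.mA w) measurable_const
  · intro φ hφ
    have h1 := Lev_memLp hc.one hφ ((hc.mh φ hφ).comp hc.ma)
    exact (hc.memΓ φ hφ).sub (h1.const_mul cst)
  · intro φ ψ c hφ hψ
    have h1 := Lev_lin hc.one
    have h2 := hc.linΓ φ ψ hφ hψ 1 c
    simp only [one_mul] at h2
    filter_upwards [h1, h2] with x e1 e2
    simp only [Y1]
    rw [e1 φ ψ c hφ hψ, e2]; ring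
  · intro w φ hw hφ
    have := hc.m2 (ι := Unit) Finset.univ (fun _ => w) (fun _ => φ) (fun _ _ => hw)
      (fun _ _ => hφ)
    simpa [Y1] using this

theorem condVar2 (hc : Cpl Ω μ K0 a a' A A' h h' Γ Z) :
    CondVar μ (MeasurableSpace.comap a' mS') Ω (fun x => (A' (a' x) : Set ℂ)) (Y1 a' h' Γ) := by
  have := hc.prob
  apply condVar_of hc.ma' (C := fun s => (A' s : Set ℂ))
  · intro w r
    exact measurableSet_le (meas_infDist hc.mA' w) measurable_const
  · intro φ hφ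
    have h1 := Lev_memLp hc.one' hφ ((hc.mh' φ hφ).comp hc.ma')
    exact (hc.memΓ φ hφ).sub (h1.const_mul cst)
  · intro φ ψ c hφ hψ
    have h1 := Lev_lin hc.one'
    have h2 := hc.linΓ φ ψ hφ hψ 1 c
    simp only [one_mul] at h2
    filter_upwards [h1, h2] with x e1 e2
    simp only [Y1]
    rw [e1 φ ψ c hφ hψ, e2]; ring
  · intro w φ hw hφ
    have := hc.m2' (ι := Unit) Finset.univ (fun _ => w) (fun _ => φ) (fun _ _ => hw)
      (fun _ _ => hφ)
    simpa [Y1] using this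

theorem infDist_union {E F : Set ℂ} (hE : E.Nonempty) (hF : F.Nonempty) (w : ℂ) :
    Metric.infDist w (E ∪ F) = min (Metric.infDist w E) (Metric.infDist w F) := by
  apply le_antisymm
  · apply le_min
    · exact Metric.infDist_le_infDist_of_subset Set.subset_union_left hE
    · exact Metric.infDist_le_infDist_of_subset Set.subset_union_right hF
  · rw [Metric.le_infDist (hE.mono Set.subset_union_left)]
    rintro y (hy | hy)
    · exact (min_le_left _ _).trans (Metric.infDist_le_dist_of_mem hy)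
    · exact (min_le_right _ _).trans (Metric.infDist_le_dist_of_mem hy)

theorem condVar3 (hc : Cpl Ω μ K0 a a' A A' h h' Γ Z) :
    CondVar μ (MeasurableSpace.comap (fun x => (a x, a' x)) (mS.prod mS')) Ω
      (fun x => (A (a x) : Set ℂ) ∪ A' (a' x)) (fun φ x => Γ φ x - Z φ x) := by
  have := hc.prob
  apply condVar_of (hc.ma.prodMk hc.ma') (C := fun s : S × S' => (A s.1 : Set ℂ) ∪ A' s.2)
  · intro w r
    have e : {s : S × S' | Metric.infDist w ((A s.1 : Set ℂ) ∪ A' s.2) ≤ r} =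
        {s | min (Metric.infDist w (A s.1 : Set ℂ)) (Metric.infDist w (A' s.2 : Set ℂ)) ≤ r} := by
      ext s
      simp only [Set.mem_ofPred_eq]
      rw [infDist_union (A s.1).nonempty (A' s.2).nonempty]
    rw [e]
    exact measurableSet_le (((meas_infDist hc.mA w).comp measurable_fst).min
      ((meas_infDist hc.mA' w).comp measurable_snd)) measurable_const
  · intro φ hφ
    exact (hc.memΓ φ hφ).sub (hc.memZ φ hφ)
  · intro φ ψ c hφ hψ
    have h2 := hc.linΓ φ ψ hφ hψ 1 c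
    have h3 := hc.linZ φ ψ hφ hψ 1 c
    simp only [one_mul] at h2 h3
    filter_upwards [h3, h2] with x e1 e2
    rw [e1, e2]; ring
  · intro w φ hw hφ
    have := hc.z2 (ι := Unit) Finset.univ (fun _ => w) (fun _ => φ) (fun _ _ => hw)
      (fun _ _ => hφ)
    simpa using this

/-- Second moments of `Z` against small test functions. -/
theorem Z_sq_le (hc : Cpl Ω μ K0 a a' A A' h h' Γ Z) {R : ℝ} (hR : 0 < R)
    (hΩ : ∀ z ∈ Ω, ‖z‖ < R) {φ : ℂ → ℝ} (hφ : IsTest Ω φ) {ε : ℝ} (hε : ∀ z, |φ z| ≤ ε) :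
    ∫ x, Z φ x ^ 2 ∂μ ≤ 160 * (R ^ 2 * ε) ^ 2 := by
  have := hc.prob
  have mΓ := hc.memΓ φ hφ
  have mZ := hc.memZ φ hφ
  have h1 := hc.z3 φ φ hφ hφ (fun _ => 1) ⟨measurable_const, 1, fun _ => by simp⟩
  simp only [one_mul] at h1
  have i1 : Integrable (fun x => (Γ φ x - Z φ x) ^ 2) μ := (mΓ.sub mZ).integrable_sq
  have i2 : Integrable (fun x => (Γ φ x - Z φ x) * Z φ x) μ := (mΓ.sub mZ).integrable_mul mZ
  have i3 : Integrable (fun x => Z φ x ^ 2) μ := mZ.integrable_sq
  have h2 := hc.tot φ hφ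
  have e : ∫ x, Γ φ x ^ 2 ∂μ = ∫ x, (Γ φ x - Z φ x) ^ 2 ∂μ +
      (2 * ∫ x, (Γ φ x - Z φ x) * Z φ x ∂μ + ∫ x, Z φ x ^ 2 ∂μ) := by
    rw [← integral_const_mul, ← integral_add (i2.const_mul 2) i3]
    have := integral_add (μ := μ) i1 ((i2.const_mul 2).add i3)
    refine Eq.trans ?_ this
    apply integral_congr_ae
    refine Filter.Eventually.of_forall fun x => ?_
    simp only [Pi.add_apply]
    ring
  have h3 : 0 ≤ ∫ x, (Γ φ x - Z φ x) ^ 2 ∂μ := integral_nonneg fun x => sq_nonneg _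
  have h4 : ∫ x, greenEnergy (Ω \ K0 x) φ ∂μ ≤ 160 * (R ^ 2 * ε) ^ 2 := by
    have hb : ∀ x, greenEnergy (Ω \ K0 x) φ ≤ 160 * (R ^ 2 * ε) ^ 2 := fun x =>
      greenEnergy_sup (U := Ω \ K0 x) hR (fun z hz => hΩ z hz.1) hε
        (fun z hz => Vale.Agent.P155.U.test_zero hφ (fun h => by linarith [hΩ z h]))
    calc ∫ x, greenEnergy (Ω \ K0 x) φ ∂μ ≤ ∫ _, (160 * (R ^ 2 * ε) ^ 2) ∂μ := by
          apply integral_mono_of_nonneg (Filter.Eventually.of_forall fun x => greenEnergy_nonneg _ _)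
            (integrable_const _) (Filter.Eventually.of_forall hb)
      _ = 160 * (R ^ 2 * ε) ^ 2 := by simp
  rw [h1, mul_zero, zero_add] at e
  linarith

end cpl

end Vale.Agent.P155.UK
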