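import Vale.Agent.P155.U.P1

/-!
# P155 uniqueness: the Green energies determine a connected set
-/

namespace Vale.Agent.P155.U

open MeasureTheory Set
open scoped ContDiff

/-- minus the Laplacian -/
noncomputable def nlap (u : ℂ → ℝ) (z : ℂ) : ℝ :=
  -(fderiv ℝ (fun w => fderiv ℝ u w 1) z 1 + fderiv ℝ (fun w => fderiv ℝ u w Complex.I) z Complex.I)

theorem clm_decomp (L : ℂ →L[ℝ] ℝ) (z : ℂ) : L z = z.re * L 1 + z.im * L Complex.I := by
  have e : z = z.re • (1 : ℂ) + z.im • Complex.I := by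
    apply Complex.ext <;> simp
  conv_lhs => rw [e]
  rw [map_add, map_smul, map_smul, smul_eq_mul, smul_eq_mul]

theorem norm_sq_clm (L : ℂ →L[ℝ] ℝ) : ‖L‖ ^ 2 = (L 1) ^ 2 + (L Complex.I) ^ 2 := by
  set s := (L 1) ^ 2 + (L Complex.I) ^ 2 with hs
  have hs0 : 0 ≤ s := by positivity
  have h1 : ‖L‖ ≤ Real.sqrt s := by
    apply ContinuousLinearMap.opNorm_le_bound _ (Real.sqrt_nonneg _)
    intro z
    rw [clm_decomp L z, Real.norm_eq_abs]
    apply abs_le_of_sq_le_sq' _ (by positivity) |> abs_le.2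
    rw [mul_pow, Real.sq_sqrt hs0, Complex.sq_norm, Complex.normSq_apply, hs]
    nlinarith [sq_nonneg (z.re * L Complex.I - z.im * L 1)]
  have h2 : Real.sqrt s ≤ ‖L‖ := by
    have h3 := L.le_opNorm (⟨L 1, L Complex.I⟩ : ℂ)
    rw [clm_decomp L ⟨L 1, L Complex.I⟩] at h3
    simp only at h3
    have h4 : ‖(⟨L 1, L Complex.I⟩ : ℂ)‖ = Real.sqrt s := by
      rw [Complex.norm_def, Complex.normSq_apply, hs]
      congr 1
      ring
    rw [h4] at h3
    have h5 : L 1 * L 1 + L Complex.I * L Complex.I = Real.sqrt s * Real.sqrt s := by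
      rw [Real.mul_self_sqrt hs0, hs]
      ring
    rw [h5, Real.norm_of_nonneg (by positivity)] at h3
    rcases eq_or_lt_of_le (Real.sqrt_nonneg s) with h6 | h6
    · rw [← h6]
      exact norm_nonneg _
    · exact le_of_mul_le_mul_right h3 h6
  have h7 : ‖L‖ = Real.sqrt s := le_antisymm h1 h2
  rw [h7, Real.sq_sqrt hs0]

theorem smooth_dir {u : ℂ → ℝ} (hu : ContDiff ℝ ∞ u) (e : ℂ) :
    ContDiff ℝ ∞ (fun w => fderiv ℝ u w e) :=
  (hu.fderiv_right (m := ∞) (by norm_num)).clm_apply contDiff_const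

theorem smooth_nlap {u : ℂ → ℝ} (hu : ContDiff ℝ ∞ u) : ContDiff ℝ ∞ (nlap u) := by
  unfold nlap
  exact ((smooth_dir (smooth_dir hu 1) 1).add (smooth_dir (smooth_dir hu _) _)).neg

theorem nlap_eq_zero {u : ℂ → ℝ} {z : ℂ} (hz : z ∉ tsupport u) : nlap u z = 0 := by
  have h1 : ∀ e : ℂ, z ∉ tsupport (fun w => fderiv ℝ u w e) := by
    intro e h
    exact hz (closure_minimal (fun w hw => by
      by_contra h'
      have h2 := fderiv_of_notMem_tsupport (𝕜 := ℝ) h'
      apply hw
      show fderiv ℝ u w e = 0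
      rw [h2]
      rfl) (isClosed_tsupport u) h)
  unfold nlap
  rw [fderiv_of_notMem_tsupport (𝕜 := ℝ) (h1 1),
    fderiv_of_notMem_tsupport (𝕜 := ℝ) (h1 Complex.I)]
  simp

theorem isTest_nlap {U : Set ℂ} {u : ℂ → ℝ} (hu : IsTest U u) : IsTest U (nlap u) := by
  have hsub : tsupport (nlap u) ⊆ tsupport u := by
    apply closure_minimal _ (isClosed_tsupport u)
    intro z hz
    by_contra h
    exact hz (nlap_eq_zero h)
  refine ⟨smooth_nlap hu.1, ?_, hsub.trans hu.2.2⟩
  exact hu.2.1.of_isClosed_subset (isClosed_tsupport _) hsub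

theorem ibp {u v : ℂ → ℝ} (hu : ContDiff ℝ ∞ u) (hv : ContDiff ℝ ∞ v) (hvc : HasCompactSupport v)
    (e : ℂ) : ∫ z, fderiv ℝ u z e * fderiv ℝ v z e =
      - ∫ z, fderiv ℝ (fun w => fderiv ℝ u w e) z e * v z := by
  have h1 : ContDiff ℝ ∞ (fun w => fderiv ℝ u w e) := smooth_dir hu e
  have h2 : ContDiff ℝ ∞ (fun w => fderiv ℝ v w e) := smooth_dir hv e
  have h3 : ContDiff ℝ ∞ (fun w => fderiv ℝ (fun w => fderiv ℝ u w e) w e) := smooth_dir h1 e
  have hvc' : HasCompactSupport (fun w => fderiv ℝ v w e) := hvc.fderiv_apply ℝ e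
  apply integral_mul_fderiv_eq_neg_fderiv_mul_of_integrable
  · exact (h3.continuous.mul hv.continuous).integrable_of_hasCompactSupport hvc.mul_left
  · exact (h1.continuous.mul h2.continuous).integrable_of_hasCompactSupport hvc'.mul_left
  · exact (h1.continuous.mul hv.continuous).integrable_of_hasCompactSupport hvc.mul_left
  · intro x _
    exact h1.differentiable (by norm_num) x
  · intro x _
    exact hv.differentiable (by norm_num) x

/-- Green's identity for test functions -/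
theorem energy_identity {u v : ℂ → ℝ} (hu : ContDiff ℝ ∞ u) (huc : HasCompactSupport u)
    (hv : ContDiff ℝ ∞ v) (hvc : HasCompactSupport v) :
    2 * (∫ z, nlap u z * v z) - ∫ z, ‖fderiv ℝ v z‖ ^ 2 =
      (∫ z, ‖fderiv ℝ u z‖ ^ 2) - ∫ z, ‖fderiv ℝ (fun w => u w - v w) z‖ ^ 2 := by
  have hd : ∀ z, fderiv ℝ (fun w => u w - v w) z = fderiv ℝ u z - fderiv ℝ v z := fun z =>
    fderiv_fun_sub (hu.differentiable (by norm_num) z) (hv.differentiable (by norm_num) z)
  have hc : ∀ (f g : ℂ → ℝ), ContDiff ℝ ∞ f → HasCompactSupport f → ContDiff ℝ ∞ g → ∀ e : ℂ,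
      Integrable (fun z => fderiv ℝ f z e * fderiv ℝ g z e) := by
    intro f g hf hfc hg e
    exact ((smooth_dir hf e).continuous.mul
      (smooth_dir hg e).continuous).integrable_of_hasCompactSupport (hfc.fderiv_apply ℝ e).mul_right
  have hU1 := hc u u hu huc hu 1
  have hUI := hc u u hu huc hu Complex.I
  have hV1 := hc v v hv hvc hv 1
  have hVI := hc v v hv hvc hv Complex.I
  have hW1 := hc u v hu huc hv 1
  have hWI := hc u v hu huc hv Complex.I
  have e1 : ∫ z, ‖fderiv ℝ u z‖ ^ 2 = (∫ z, fderiv ℝ u z 1 * fderiv ℝ u z 1) +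
      ∫ z, fderiv ℝ u z Complex.I * fderiv ℝ u z Complex.I := by
    rw [← integral_add hU1 hUI]
    congr 1
    funext z
    rw [norm_sq_clm]
    ring
  have e2 : ∫ z, ‖fderiv ℝ v z‖ ^ 2 = (∫ z, fderiv ℝ v z 1 * fderiv ℝ v z 1) +
      ∫ z, fderiv ℝ v z Complex.I * fderiv ℝ v z Complex.I := by
    rw [← integral_add hV1 hVI]
    congr 1
    funext z
    rw [norm_sq_clm]
    ring
  have e3 : ∫ z, ‖fderiv ℝ (fun w => u w - v w) z‖ ^ 2 =
      ((∫ z, fderiv ℝ u z 1 * fderiv ℝ u z 1) +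
        ∫ z, fderiv ℝ u z Complex.I * fderiv ℝ u z Complex.I) -
      2 * ((∫ z, fderiv ℝ u z 1 * fderiv ℝ v z 1) +
        ∫ z, fderiv ℝ u z Complex.I * fderiv ℝ v z Complex.I) +
      ((∫ z, fderiv ℝ v z 1 * fderiv ℝ v z 1) +
        ∫ z, fderiv ℝ v z Complex.I * fderiv ℝ v z Complex.I) := by
    have i1 : Integrable (fun z => fderiv ℝ u z 1 * fderiv ℝ u z 1 +
        fderiv ℝ u z Complex.I * fderiv ℝ u z Complex.I) := hU1.add hUI
    have i2 : Integrable (fun z => 2 * (fderiv ℝ u z 1 * fderiv ℝ v z 1 +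
        fderiv ℝ u z Complex.I * fderiv ℝ v z Complex.I)) := (hW1.add hWI).const_mul 2
    have i3 : Integrable (fun z => fderiv ℝ v z 1 * fderiv ℝ v z 1 +
        fderiv ℝ v z Complex.I * fderiv ℝ v z Complex.I) := hV1.add hVI
    have i4 : Integrable (fun z => (fderiv ℝ u z 1 * fderiv ℝ u z 1 +
        fderiv ℝ u z Complex.I * fderiv ℝ u z Complex.I) -
        2 * (fderiv ℝ u z 1 * fderiv ℝ v z 1 +
        fderiv ℝ u z Complex.I * fderiv ℝ v z Complex.I)) := i1.sub i2
    rw [← integral_add hU1 hUI, ← integral_add hW1 hWI, ← integral_add hV1 hVI,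
      ← integral_const_mul, ← integral_sub i1 i2, ← integral_add i4 i3]
    congr 1
    funext z
    rw [hd, norm_sq_clm]
    simp only [sub_apply]
    ring
  have e4 : ∫ z, nlap u z * v z = (∫ z, fderiv ℝ u z 1 * fderiv ℝ v z 1) +
      ∫ z, fderiv ℝ u z Complex.I * fderiv ℝ v z Complex.I := by
    rw [ibp hu hv hvc, ibp hu hv hvc, ← neg_add, ← integral_add, ← integral_neg]
    · congr 1
      funext z
      unfold nlap
      ring
    · exact ((smooth_dir (smooth_dir hu _) _).continuous.mul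
        hv.continuous).integrable_of_hasCompactSupport hvc.mul_left
    · exact ((smooth_dir (smooth_dir hu _) _).continuous.mul
        hv.continuous).integrable_of_hasCompactSupport hvc.mul_left
  rw [e1, e2, e3, e4]
  ring

/-- the Green energy of `-Δ u` in a domain containing the support of `u` -/
theorem greenEnergy_nlap {U : Set ℂ} {u : ℂ → ℝ} (hu : IsTest U u) :
    greenEnergy U (nlap u) = ∫ z, ‖fderiv ℝ u z‖ ^ 2 := by
  apply le_antisymm
  · apply greenEnergy_le
    intro v hv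
    rw [energy_identity hu.1 hu.2.1 hv.1 hv.2.1]
    have : 0 ≤ ∫ z, ‖fderiv ℝ (fun w => u w - v w) z‖ ^ 2 := integral_nonneg fun z => sq_nonneg _
    linarith
  · apply le_csSup
    · refine ⟨∫ z, ‖fderiv ℝ u z‖ ^ 2, ?_⟩
      rintro x ⟨v, hv, rfl⟩
      rw [energy_identity hu.1 hu.2.1 hv.1 hv.2.1]
      have : 0 ≤ ∫ z, ‖fderiv ℝ (fun w => u w - v w) z‖ ^ 2 := integral_nonneg fun z => sq_nonneg _
      linarith
    · refine ⟨u, hu, ?_⟩
      rw [energy_identity hu.1 hu.2.1 hu.1 hu.2.1]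
      simp

/-- a nontrivial connected set is seen by the Green energy: quantitative form -/
theorem drop_core {A : Set ℂ} (hA : IsPreconnected A) {p : ℂ} (hp : p ∈ A) {r R : ℝ} (hr : 0 < r)
    (hfar : ∃ z ∈ A, 2 * r ≤ dist z p) {u v : ℂ → ℝ} (hu : ContDiff ℝ ∞ u) (hv : ContDiff ℝ ∞ v)
    (huc : HasCompactSupport u) (hvc : HasCompactSupport v)
    (hu1 : ∀ z ∈ Metric.ball p (2 * r), u z = 1) (hv0 : ∀ z ∈ A, v z = 0) (hrR : r ≤ R)
    (huv : ∀ z, R ≤ dist z p → u z = 0 ∧ v z = 0) :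
    Real.pi ^ 2 / (320 * (2 + Real.log (R / r))) ≤
      ∫ z, ‖fderiv ℝ (fun w => u w - v w) z‖ ^ 2 := by
  have hL0 : 0 ≤ Real.log (R / r) := Real.log_nonneg (by rw [le_div_iff₀ hr]; linarith)
  have hw : ContDiff ℝ ∞ (fun w => u w - v w) := hu.sub hv
  have hw1 : ContDiff ℝ 1 (fun w => u w - v w) := hw.of_le (by exact_mod_cast le_top)
  have hv1 : ContDiff ℝ 1 v := hv.of_le (by exact_mod_cast le_top)
  have hwt : IsTest univ (fun w => u w - v w) := ⟨hw, huc.sub hvc, subset_univ _⟩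
  have hwint := test_sq hwt
  set X : ℝ := ∫ z, ‖fderiv ℝ (fun w => u w - v w) z‖ ^ 2 with hX
  have hX0 : 0 ≤ X := integral_nonneg fun z => sq_nonneg _
  -- estimate for v
  have h1 : (∫ z in Metric.ball p r, |v z|) ^ 2 ≤ 160 * r ^ 4 * X := by
    have h2 := poinc hv1 p hr le_rfl (r := r) (fun x hx => by
      obtain ⟨z, hz, h⟩ := meets_circles hA ⟨p, hp, by rw [dist_self]; exact hr.le⟩ hfar x hx
      exact ⟨z, h, hv0 z hz⟩)
    rw [div_self hr.ne', Real.log_one, add_zero, mul_one] at h2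
    refine h2.trans (mul_le_mul_of_nonneg_left ?_ (by positivity))
    have h3 : ∫ z in Metric.ball p (2 * r), ‖fderiv ℝ v z‖ ^ 2 =
        ∫ z in Metric.ball p (2 * r), ‖fderiv ℝ (fun w => u w - v w) z‖ ^ 2 := by
      apply setIntegral_congr_fun measurableSet_ball
      intro z hz
      have h4 : fderiv ℝ u z = 0 := by
        have : u =ᶠ[nhds z] fun _ => (1 : ℝ) :=
          Filter.eventually_of_mem (Metric.isOpen_ball.mem_nhds hz) hu1
        rw [this.fderiv_eq]
        simp
      have h5 : fderiv ℝ (fun w => u w - v w) z = fderiv ℝ u z - fderiv ℝ v z :=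
        fderiv_fun_sub (hu.differentiable (by norm_num) z) (hv.differentiable (by norm_num) z)
      simp only
      rw [h5, h4, zero_sub, norm_neg]
    rw [h3]
    exact setIntegral_le_integral hwint (Filter.Eventually.of_forall fun z => sq_nonneg _)
  -- estimate for u - v
  have h2 : (∫ z in Metric.ball p r, |u z - v z|) ^ 2 ≤ 160 * r ^ 4 * (1 + Real.log (R / r)) * X := by
    have hR : 0 < R := hr.trans_le hrR
    have h2 := poinc hw1 p hr hrR (r := R) (fun x hx => by
      refine ⟨p + x, ?_, ?_⟩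
      · rw [dist_eq_norm, add_sub_cancel_left, Complex.norm_real,
          Real.norm_of_nonneg (hR.le.trans hx.1)]
      · have h3 : R ≤ dist (p + x) p := by
          rw [dist_eq_norm, add_sub_cancel_left, Complex.norm_real,
            Real.norm_of_nonneg (hR.le.trans hx.1)]
          exact hx.1
        obtain ⟨h4, h5⟩ := huv _ h3
        rw [h4, h5, sub_zero])
    refine h2.trans (mul_le_mul_of_nonneg_left ?_ (by positivity))
    exact setIntegral_le_integral hwint (Filter.Eventually.of_forall fun z => sq_nonneg _)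
  -- sum
  have hiv : IntegrableOn (fun z => |v z|) (Metric.ball p r) :=
    (hv.continuous.abs.continuousOn.integrableOn_compact (isCompact_closedBall p r)).mono_set
      Metric.ball_subset_closedBall
  have hiw : IntegrableOn (fun z => |u z - v z|) (Metric.ball p r) :=
    ((hu.continuous.sub hv.continuous).abs.continuousOn.integrableOn_compact
      (isCompact_closedBall p r)).mono_set Metric.ball_subset_closedBall
  have h3 : Real.pi * r ^ 2 ≤ (∫ z in Metric.ball p r, |v z|) +
      ∫ z in Metric.ball p r, |u z - v z| := by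
    rw [← integral_add hiv hiw]
    have h4 : ∫ _z in Metric.ball p r, (1 : ℝ) = Real.pi * r ^ 2 := by
      rw [setIntegral_const, smul_eq_mul, mul_one, Measure.real, Complex.volume_ball,
        ENNReal.toReal_mul, ENNReal.toReal_pow, ENNReal.toReal_ofReal hr.le]
      simp only [ENNReal.coe_toReal, NNReal.coe_real_pi]
      ring
    rw [← h4]
    apply setIntegral_mono_on
    · exact integrableOn_const (by rw [Complex.volume_ball]; finiteness)
    · exact hiv.add hiw
    · exact measurableSet_ball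
    · intro z hz
      have h5 := hu1 z (Metric.ball_subset_ball (by linarith) hz)
      rw [h5]
      have h6 := abs_add_le (v z) (1 - v z)
      have h7 : v z + (1 - v z) = 1 := by ring
      rw [h7, abs_one] at h6
      exact h6
  set a := ∫ z in Metric.ball p r, |v z| with ha
  set b := ∫ z in Metric.ball p r, |u z - v z| with hb
  have h4 : (Real.pi * r ^ 2) ^ 2 ≤ (a + b) ^ 2 := by
    apply pow_le_pow_left₀ (by positivity) h3
  have h5 : (a + b) ^ 2 ≤ 2 * a ^ 2 + 2 * b ^ 2 := by nlinarith [sq_nonneg (a - b)]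
  rw [div_le_iff₀ (by positivity)]
  have h6 : Real.pi ^ 2 * r ^ 4 ≤ (X * (320 * (2 + Real.log (R / r)))) * r ^ 4 := by
    have e : (Real.pi * r ^ 2) ^ 2 = Real.pi ^ 2 * r ^ 4 := by ring
    rw [e] at h4
    nlinarith
  exact le_of_mul_le_mul_right h6 (by positivity)

/-- **Injectivity, one point**: a connected set `A'` through `p` strictly decreases the Green
energy of `-Δ u` when `u = 1` near `p`. -/
theorem greenEnergy_lt {Ω A A' : Set ℂ} (hΩ : Bornology.IsBounded Ω) (hA' : IsPreconnected A')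
    {p : ℂ} (hp : p ∈ A') (hq : ∃ q ∈ A', q ≠ p) {u : ℂ → ℝ} (hu : IsTest (Ω \ A) u)
    (hu1 : ∀ᶠ z in nhds p, u z = 1) :
    greenEnergy (Ω \ A') (nlap u) < greenEnergy (Ω \ A) (nlap u) := by
  obtain ⟨q, hqA, hqp⟩ := hq
  obtain ⟨ε, hε, hball⟩ := Metric.eventually_nhds_iff_ball.1 hu1
  have hd : 0 < dist q p := dist_pos.2 hqp
  set r : ℝ := min (ε / 2) (dist q p / 2) with hr
  have hr0 : 0 < r := by positivity
  obtain ⟨R0, hR0⟩ := hΩ.subset_ball p
  set R : ℝ := max R0 r with hR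
  have hrR : r ≤ R := le_max_right _ _
  have hL0 : 0 ≤ Real.log (R / r) := Real.log_nonneg (by rw [le_div_iff₀ hr0]; linarith)
  rw [greenEnergy_nlap hu]
  have hc : 0 < Real.pi ^ 2 / (320 * (2 + Real.log (R / r))) := by positivity
  refine lt_of_le_of_lt (b := (∫ z, ‖fderiv ℝ u z‖ ^ 2) -
    Real.pi ^ 2 / (320 * (2 + Real.log (R / r)))) ?_ (by linarith)
  apply greenEnergy_le
  intro v hv
  rw [energy_identity hu.1 hu.2.1 hv.1 hv.2.1]
  have hout : ∀ z, R ≤ dist z p → z ∉ Ω := by
    intro z hz h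
    have h1 := hR0 h
    rw [Metric.mem_ball] at h1
    have := le_max_left R0 r
    linarith
  have := drop_core hA' hp hr0 ⟨q, hqA, by
      have := min_le_right (ε / 2) (dist q p / 2)
      linarith⟩ hu.1 hv.1 hu.2.1 hv.2.1
    (fun z hz => hball z (Metric.ball_subset_ball (by
      have := min_le_left (ε / 2) (dist q p / 2)
      linarith) hz))
    (fun z hz => test_zero hv (fun h' => h'.2 hz)) hrR
    (fun z hz => ⟨test_zero hu (fun h' => hout z hz h'.1), test_zero hv (fun h' => hout z hz h'.1)⟩)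
  linarith

end Vale.Agent.P155.U
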