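import Vale.Agent.P155.K.LogCut
import Vale.Agent.P155.FinalStmt
import Mathlib.Analysis.SpecialFunctions.SmoothTransition
import Mathlib.Analysis.Calculus.MeanValue
import Mathlib.MeasureTheory.Constructions.HaarToSphere
import Mathlib.MeasureTheory.Measure.Lebesgue.VolumeOfBalls
import Mathlib.MeasureTheory.Integral.IntegralEqImproper

/-!
# P155, block U (uniqueness), KEY: bumps

`bump z s` is a radial test function of mass one around `z`, supported in `closedBall z s`; it is
the Laplacian of `pot z s`, which is `log ‖w - z‖ / (2 π)` off the ball.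
-/

namespace Vale.Agent.P155.UK

open MeasureTheory Vale.Agent.P155.K Set Filter Topology
open scoped ContDiff

/-! ## Laplacian -/

noncomputable def dx (f : ℂ → ℝ) (z : ℂ) : ℝ := fderiv ℝ f z 1
noncomputable def dy (f : ℂ → ℝ) (z : ℂ) : ℝ := fderiv ℝ f z Complex.I
/-- the Laplacian -/
noncomputable def lapC (f : ℂ → ℝ) (z : ℂ) : ℝ := dx (dx f) z + dy (dy f) z

theorem contDiff_dx {f : ℂ → ℝ} (hf : ContDiff ℝ ∞ f) : ContDiff ℝ ∞ (dx f) :=
  (hf.fderiv_right (m := ∞) (by simp)).clm_apply contDiff_const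

theorem contDiff_dy {f : ℂ → ℝ} (hf : ContDiff ℝ ∞ f) : ContDiff ℝ ∞ (dy f) :=
  (hf.fderiv_right (m := ∞) (by simp)).clm_apply contDiff_const

theorem contDiff_lapC {f : ℂ → ℝ} (hf : ContDiff ℝ ∞ f) : ContDiff ℝ ∞ (lapC f) :=
  (contDiff_dx (contDiff_dx hf)).add (contDiff_dy (contDiff_dy hf))

theorem dx_radial {g : ℝ → ℝ} (hg : ContDiff ℝ ∞ g) (z w : ℂ) :
    dx (fun w => g (ns z w)) w = deriv g (ns z w) * (2 * (w.re - z.re)) := by
  have h1 : HasDerivAt g (deriv g (ns z w)) (ns z w) :=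
    ((hg.differentiable (by simp)) _).hasDerivAt
  have h2 := h1.comp_hasFDerivAt w (ns_deriv z w)
  unfold dx
  have h3 : HasFDerivAt (fun w => g (ns z w)) _ w := h2
  rw [h3.fderiv]
  simp

theorem dy_radial {g : ℝ → ℝ} (hg : ContDiff ℝ ∞ g) (z w : ℂ) :
    dy (fun w => g (ns z w)) w = deriv g (ns z w) * (2 * (w.im - z.im)) := by
  have h1 : HasDerivAt g (deriv g (ns z w)) (ns z w) :=
    ((hg.differentiable (by simp)) _).hasDerivAt
  have h2 := h1.comp_hasFDerivAt w (ns_deriv z w)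
  unfold dy
  have h3 : HasFDerivAt (fun w => g (ns z w)) _ w := h2
  rw [h3.fderiv]
  simp

theorem contDiff_deriv {g : ℝ → ℝ} (hg : ContDiff ℝ ∞ g) : ContDiff ℝ ∞ (deriv g) :=
  (contDiff_infty_iff_deriv.1 hg).2

theorem lapC_radial {g : ℝ → ℝ} (hg : ContDiff ℝ ∞ g) (z w : ℂ) :
    lapC (fun w => g (ns z w)) w =
      4 * (ns z w * deriv (deriv g) (ns z w)) + 4 * deriv g (ns z w) := by
  have hg' := contDiff_deriv hg
  have h1 : HasDerivAt (deriv g) (deriv (deriv g) (ns z w)) (ns z w) :=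
    ((hg'.differentiable (by simp)) _).hasDerivAt
  have h2 := h1.comp_hasFDerivAt w (ns_deriv z w)
  have h3 : HasFDerivAt (fun w => deriv g (ns z w)) _ w := h2
  have e1 : dx (fun w => g (ns z w)) = fun w => deriv g (ns z w) * (2 * (w.re - z.re)) := by
    funext w; exact dx_radial hg z w
  have e2 : dy (fun w => g (ns z w)) = fun w => deriv g (ns z w) * (2 * (w.im - z.im)) := by
    funext w; exact dy_radial hg z w
  have hx : HasFDerivAt (fun w : ℂ => 2 * (w.re - z.re)) ((2 : ℝ) • Complex.reCLM) w :=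
    (Complex.reCLM.hasFDerivAt.sub_const _).const_mul 2
  have hy : HasFDerivAt (fun w : ℂ => 2 * (w.im - z.im)) ((2 : ℝ) • Complex.imCLM) w :=
    (Complex.imCLM.hasFDerivAt.sub_const _).const_mul 2
  have h4 := h3.fun_mul hx
  have h5 := h3.fun_mul hy
  unfold lapC
  rw [e1, e2]
  have e3 : dx (fun w => deriv g (ns z w) * (2 * (w.re - z.re))) w =
      deriv g (ns z w) * 2 + (2 * (w.re - z.re)) * (deriv (deriv g) (ns z w) *
        (2 * (w.re - z.re))) := by
    unfold dx
    rw [h4.fderiv]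
    simp
  have e4 : dy (fun w => deriv g (ns z w) * (2 * (w.im - z.im))) w =
      deriv g (ns z w) * 2 + (2 * (w.im - z.im)) * (deriv (deriv g) (ns z w) *
        (2 * (w.im - z.im))) := by
    unfold dy
    rw [h5.fderiv]
    simp
  rw [e3, e4, ns]
  ring

/-! ## one-dimensional profile -/

/-- smooth nondecreasing function, `0` up to `1/2`, `1` from `1` on -/
noncomputable def qf (t : ℝ) : ℝ := Real.smoothTransition (2 * t - 1)

theorem qf_zero {t : ℝ} (h : t ≤ 1 / 2) : qf t = 0 :=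
  Real.smoothTransition.zero_of_nonpos (by linarith)

theorem qf_one {t : ℝ} (h : 1 ≤ t) : qf t = 1 :=
  Real.smoothTransition.one_of_one_le (by linarith)

theorem qf_contDiff : ContDiff ℝ ∞ qf :=
  Real.smoothTransition.contDiff.comp ((contDiff_const.mul contDiff_id).sub contDiff_const)

theorem qf_mono : Monotone qf := fun a b h => Real.smoothTransition.monotone (by linarith)

theorem dq_nonneg (t : ℝ) : 0 ≤ deriv qf t := qf_mono.deriv_nonneg

theorem dq_zero {t : ℝ} (h : t < 1 / 2 ∨ 1 < t) : deriv qf t = 0 := by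
  rcases h with h | h
  · have : qf =ᶠ[𝓝 t] fun _ => 0 := by
      filter_upwards [Iio_mem_nhds h] with x hx
      exact qf_zero (le_of_lt hx)
    rw [this.deriv_eq]
    simp
  · have : qf =ᶠ[𝓝 t] fun _ => 1 := by
      filter_upwards [Ioi_mem_nhds h] with x hx
      exact qf_one (le_of_lt hx)
    rw [this.deriv_eq]
    simp

theorem dq_bound : ∃ M : ℝ, 0 ≤ M ∧ ∀ t, deriv qf t ≤ M := by
  have h1 : HasCompactSupport (deriv qf) := by
    apply HasCompactSupport.intro (isCompact_Icc (a := (1 / 2 : ℝ)) (b := 1))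
    intro t ht
    rw [mem_Icc, not_and_or, not_le, not_le] at ht
    exact dq_zero ht
  obtain ⟨M, hM⟩ := h1.exists_bound_of_continuous (contDiff_deriv qf_contDiff).continuous
  exact ⟨M, (norm_nonneg _).trans (hM 0), fun t => (le_abs_self _).trans (hM t)⟩

/-- derivative of the smoothed logarithm -/
noncomputable def lam (t : ℝ) : ℝ := qf t / (2 * t)

theorem lam_contDiff : ContDiff ℝ ∞ lam := by
  rw [contDiff_iff_contDiffAt]
  intro t
  by_cases h : t < 1 / 2
  · have : lam =ᶠ[𝓝 t] fun _ => 0 := by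
      filter_upwards [Iio_mem_nhds h] with x hx
      unfold lam
      rw [qf_zero (le_of_lt hx), zero_div]
    exact contDiffAt_const.congr_of_eventuallyEq this
  · have h0 : 2 * t ≠ 0 := by
      push Not at h
      have : 0 < t := by linarith
      positivity
    exact qf_contDiff.contDiffAt.div (contDiffAt_const.mul contDiffAt_id) h0

theorem mul_lam (t : ℝ) : t * lam t = qf t / 2 := by
  by_cases h : t = 0
  · subst h
    rw [zero_mul, qf_zero (by norm_num), zero_div]
  · unfold lam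
    field_simp

theorem lam_deriv (t : ℝ) : t * deriv lam t + lam t = deriv qf t / 2 := by
  have h1 : HasDerivAt lam (deriv lam t) t := ((lam_contDiff.differentiable (by simp)) t).hasDerivAt
  have h2 := (hasDerivAt_id t).fun_mul h1
  have h3 : HasDerivAt (fun t => qf t / 2) (deriv qf t / 2) t :=
    (((qf_contDiff.differentiable (by simp)) t).hasDerivAt).div_const 2
  have e : (fun y => id y * lam y) = fun t => qf t / 2 := by
    funext t; exact mul_lam t
  rw [e] at h2
  have := h2.unique h3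
  simp only [id, one_mul] at this
  linarith

/-- the smoothed logarithm, `log t / 2` for `t ≥ 1` -/
noncomputable def Lam (t : ℝ) : ℝ := ∫ x in (1 : ℝ)..t, lam x

theorem Lam_hasDerivAt (t : ℝ) : HasDerivAt Lam (lam t) t :=
  intervalIntegral.integral_hasDerivAt_right (lam_contDiff.continuous.intervalIntegrable _ _)
    (lam_contDiff.continuous.stronglyMeasurableAtFilter _ _) lam_contDiff.continuous.continuousAt

theorem Lam_contDiff : ContDiff ℝ ∞ Lam := by
  rw [contDiff_infty_iff_deriv]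
  refine ⟨fun t => (Lam_hasDerivAt t).differentiableAt, ?_⟩
  have : deriv Lam = lam := funext fun t => (Lam_hasDerivAt t).deriv
  rw [this]
  exact lam_contDiff

theorem Lam_eq {t : ℝ} (ht : 1 ≤ t) : Lam t = Real.log t / 2 := by
  unfold Lam
  have h1 : ∫ x in (1 : ℝ)..t, lam x = ∫ x in (1 : ℝ)..t, (1 / 2 : ℝ) * x⁻¹ := by
    apply intervalIntegral.integral_congr
    intro x hx
    rw [uIcc_of_le ht] at hx
    have hx0 : x ≠ 0 := by
      have := hx.1
      intro h; linarith
    simp only [lam]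
    rw [qf_one hx.1]
    field_simp
  rw [h1, intervalIntegral.integral_const_mul, integral_inv_of_pos one_pos (by linarith), div_one]
  ring

/-! ## the bump and its potential -/

/-- radial profile of the potential -/
noncomputable def tp (s t : ℝ) : ℝ := (2 * Real.pi)⁻¹ * (Lam (t / s ^ 2) + Real.log s)

/-- the potential: `log ‖w - z‖ / (2 π)` off the ball of radius `s` -/
noncomputable def pot (z : ℂ) (s : ℝ) (w : ℂ) : ℝ := tp s (ns z w)

/-- the bump: radial, nonnegative, of mass one, supported in `closedBall z s` -/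
noncomputable def bump (z : ℂ) (s : ℝ) (w : ℂ) : ℝ :=
  (Real.pi * s ^ 2)⁻¹ * deriv qf (ns z w / s ^ 2)

theorem tp_contDiff (s : ℝ) : ContDiff ℝ ∞ (tp s) :=
  contDiff_const.mul ((Lam_contDiff.comp (contDiff_id.div_const _)).add contDiff_const)

theorem tp_deriv (s t : ℝ) : deriv (tp s) t = (2 * Real.pi)⁻¹ * (lam (t / s ^ 2) * (1 / s ^ 2)) := by
  have h1 : HasDerivAt (fun t : ℝ => t / s ^ 2) (1 / s ^ 2) t := (hasDerivAt_id t).div_const _
  have h2 := (Lam_hasDerivAt (t / s ^ 2)).comp t h1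
  exact ((h2.add_const _).const_mul _).deriv

theorem tp_deriv2 (s t : ℝ) : deriv (deriv (tp s)) t =
    (2 * Real.pi)⁻¹ * (deriv lam (t / s ^ 2) * (1 / s ^ 2) * (1 / s ^ 2)) := by
  have e : deriv (tp s) = fun t => (2 * Real.pi)⁻¹ * (lam (t / s ^ 2) * (1 / s ^ 2)) :=
    funext (tp_deriv s)
  rw [e]
  have h1 : HasDerivAt (fun t : ℝ => t / s ^ 2) (1 / s ^ 2) t := (hasDerivAt_id t).div_const _
  have h3 : HasDerivAt lam (deriv lam (t / s ^ 2)) (t / s ^ 2) :=
    ((lam_contDiff.differentiable (by simp)) _).hasDerivAt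
  have h2 := h3.comp t h1
  exact ((h2.mul_const _).const_mul _).deriv

theorem pot_contDiff (z : ℂ) (s : ℝ) : ContDiff ℝ ∞ (pot z s) := (tp_contDiff s).comp (ns_contDiff z)

theorem bump_contDiff (z : ℂ) (s : ℝ) : ContDiff ℝ ∞ (bump z s) :=
  contDiff_const.mul ((contDiff_deriv qf_contDiff).comp ((ns_contDiff z).div_const _))

/-- the bump is the Laplacian of the potential -/
theorem lapC_pot (z : ℂ) {s : ℝ} (hs : 0 < s) (w : ℂ) : lapC (pot z s) w = bump z s w := by
  have h := lapC_radial (tp_contDiff s) z w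
  have e : (fun w => tp s (ns z w)) = pot z s := rfl
  rw [e] at h
  rw [h, tp_deriv, tp_deriv2]
  have h1 := lam_deriv (ns z w / s ^ 2)
  unfold bump
  have hpi := Real.pi_pos
  have h2 : deriv qf (ns z w / s ^ 2) =
      2 * (ns z w / s ^ 2 * deriv lam (ns z w / s ^ 2) + lam (ns z w / s ^ 2)) := by linarith
  rw [h2]
  field_simp
  ring

theorem bump_nonneg (z : ℂ) (s : ℝ) (w : ℂ) : 0 ≤ bump z s w :=
  mul_nonneg (by positivity) (dq_nonneg _)

theorem bump_bound : ∃ M : ℝ, 0 ≤ M ∧ ∀ (z : ℂ) (s : ℝ) (w : ℂ), 0 < s → bump z s w ≤ M / s ^ 2 := by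
  obtain ⟨M, hM0, hM⟩ := dq_bound
  refine ⟨Real.pi⁻¹ * M, by positivity, fun z s w hs => ?_⟩
  unfold bump
  calc (Real.pi * s ^ 2)⁻¹ * deriv qf (ns z w / s ^ 2) ≤ (Real.pi * s ^ 2)⁻¹ * M :=
        mul_le_mul_of_nonneg_left (hM _) (by positivity)
    _ = Real.pi⁻¹ * M / s ^ 2 := by
        rw [mul_inv]; ring

theorem bump_zero {z : ℂ} {s : ℝ} (hs : 0 < s) {w : ℂ} (h : s < dist w z) : bump z s w = 0 := by
  unfold bump
  rw [dq_zero, mul_zero]
  right
  rw [ns_eq, lt_div_iff₀ (by positivity), one_mul]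
  rw [dist_eq_norm] at h
  nlinarith [norm_nonneg (w - z)]

theorem bump_tsupport {z : ℂ} {s : ℝ} (hs : 0 < s) :
    tsupport (bump z s) ⊆ Metric.closedBall z s := by
  apply closure_minimal _ Metric.isClosed_closedBall
  intro w hw
  rw [Metric.mem_closedBall]
  by_contra hc
  exact hw (bump_zero hs (not_le.1 hc))

theorem hasCompactSupport_of {f : ℂ → ℝ} {z : ℂ} {s : ℝ}
    (h : tsupport f ⊆ Metric.closedBall z s) : HasCompactSupport f :=
  (isCompact_closedBall z s).of_isClosed_subset (isClosed_tsupport f) h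

theorem bump_test {Ω : Set ℂ} {z : ℂ} {s : ℝ} (hs : 0 < s) (h : Metric.closedBall z s ⊆ Ω) :
    Vale.Agent.P155.IsTest Ω (bump z s) :=
  ⟨bump_contDiff z s, hasCompactSupport_of (bump_tsupport hs), (bump_tsupport hs).trans h⟩

theorem pot_eq {z : ℂ} {s : ℝ} (hs : 0 < s) {w : ℂ} (h : s ≤ dist w z) :
    pot z s w = (2 * Real.pi)⁻¹ * Real.log (dist w z) := by
  unfold pot tp
  have h0 : 0 < dist w z := hs.trans_le h
  have h1 : ns z w / s ^ 2 = (dist w z / s) ^ 2 := by
    rw [ns_eq, div_pow, dist_eq_norm]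
  rw [h1, Lam_eq, Real.log_pow, Real.log_div h0.ne' hs.ne']
  · push_cast
    ring
  · rw [one_le_sq_iff₀ (by positivity), one_le_div hs]
    exact h

/-- two bumps around the same point differ by the Laplacian of a test function -/
noncomputable def pdiff (z : ℂ) (s r : ℝ) (w : ℂ) : ℝ := pot z s w - pot z r w

theorem pdiff_contDiff (z : ℂ) (s r : ℝ) : ContDiff ℝ ∞ (pdiff z s r) :=
  (pot_contDiff z s).sub (pot_contDiff z r)

theorem pdiff_tsupport {z : ℂ} {s r : ℝ} (hs : 0 < s) (hr : 0 < r) :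
    tsupport (pdiff z s r) ⊆ Metric.closedBall z (max s r) := by
  apply closure_minimal _ Metric.isClosed_closedBall
  intro w hw
  rw [Metric.mem_closedBall]
  by_contra hc
  push Not at hc
  apply hw
  unfold pdiff
  rw [pot_eq hs ((le_max_left _ _).trans hc.le), pot_eq hr ((le_max_right _ _).trans hc.le),
    sub_self]

theorem pdiff_test {Ω : Set ℂ} {z : ℂ} {s r : ℝ} (hs : 0 < s) (hr : 0 < r)
    (h : Metric.closedBall z (max s r) ⊆ Ω) : Vale.Agent.P155.IsTest Ω (pdiff z s r) :=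
  ⟨pdiff_contDiff z s r, hasCompactSupport_of (pdiff_tsupport hs hr),
    (pdiff_tsupport hs hr).trans h⟩

theorem dx_sub {f g : ℂ → ℝ} (hf : ContDiff ℝ ∞ f) (hg : ContDiff ℝ ∞ g) :
    dx (fun w => f w - g w) = fun w => dx f w - dx g w := by
  funext w
  unfold dx
  rw [fderiv_fun_sub ((hf.differentiable (by simp)) w) ((hg.differentiable (by simp)) w)]
  simp

theorem dy_sub {f g : ℂ → ℝ} (hf : ContDiff ℝ ∞ f) (hg : ContDiff ℝ ∞ g) :
    dy (fun w => f w - g w) = fun w => dy f w - dy g w := by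
  funext w
  unfold dy
  rw [fderiv_fun_sub ((hf.differentiable (by simp)) w) ((hg.differentiable (by simp)) w)]
  simp

theorem lapC_sub {f g : ℂ → ℝ} (hf : ContDiff ℝ ∞ f) (hg : ContDiff ℝ ∞ g) (w : ℂ) :
    lapC (fun w => f w - g w) w = lapC f w - lapC g w := by
  unfold lapC
  rw [dx_sub hf hg, dx_sub (contDiff_dx hf) (contDiff_dx hg), dy_sub hf hg,
    dy_sub (contDiff_dy hf) (contDiff_dy hg)]
  ring

theorem lapC_pdiff (z : ℂ) {s r : ℝ} (hs : 0 < s) (hr : 0 < r) (w : ℂ) :
    lapC (pdiff z s r) w = bump z s w - bump z r w := by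
  rw [← lapC_pot z hs, ← lapC_pot z hr]
  exact lapC_sub (pot_contDiff z s) (pot_contDiff z r) w

/-- the mass of the bump is one -/
theorem integral_bump (z : ℂ) {s : ℝ} (hs : 0 < s) : ∫ w, bump z s w = 1 := by
  have e1 : ∀ w, bump z s w = (fun t : ℝ => (Real.pi * s ^ 2)⁻¹ * deriv qf (t ^ 2 / s ^ 2)) ‖w - z‖ := by
    intro w
    simp only [bump, ns_eq]
  simp_rw [e1]
  rw [integral_sub_right_eq_self (μ := volume) (fun w : ℂ =>
    (fun t : ℝ => (Real.pi * s ^ 2)⁻¹ * deriv qf (t ^ 2 / s ^ 2)) ‖w‖) z]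
  rw [integral_fun_norm_addHaar volume (fun t : ℝ => (Real.pi * s ^ 2)⁻¹ * deriv qf (t ^ 2 / s ^ 2))]
  rw [Complex.finrank_real_complex]
  have hv : volume.real (Metric.ball (0 : ℂ) 1) = Real.pi := by
    rw [Measure.real, Complex.volume_ball]
    simp
  rw [hv]
  have h1 : ∫ y in Ioi (0 : ℝ), y ^ (2 - 1) • ((Real.pi * s ^ 2)⁻¹ * deriv qf (y ^ 2 / s ^ 2)) =
      (2 * Real.pi)⁻¹ := by
    have h2 : ∀ y : ℝ, HasDerivAt (fun y => (2 * Real.pi)⁻¹ * qf (y ^ 2 / s ^ 2))
        (y ^ (2 - 1) • ((Real.pi * s ^ 2)⁻¹ * deriv qf (y ^ 2 / s ^ 2))) y := by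
      intro y
      have h3 : HasDerivAt (fun y : ℝ => y ^ 2 / s ^ 2) (((2 : ℕ) : ℝ) * y ^ (2 - 1) / s ^ 2) y :=
        (hasDerivAt_pow 2 y).div_const _
      have h4 : HasDerivAt qf (deriv qf (y ^ 2 / s ^ 2)) (y ^ 2 / s ^ 2) :=
        ((qf_contDiff.differentiable (by simp)) _).hasDerivAt
      have h5 := (h4.comp y h3).const_mul (2 * Real.pi)⁻¹
      refine h5.congr_deriv ?_
      have hpi := Real.pi_pos
      rw [smul_eq_mul]
      field_simp
      push_cast
      ring
    have h6 : Tendsto (fun y => (2 * Real.pi)⁻¹ * qf (y ^ 2 / s ^ 2)) atTop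
        (𝓝 ((2 * Real.pi)⁻¹ * 1)) := by
      apply tendsto_const_nhds.congr'
      filter_upwards [eventually_ge_atTop s] with y hy
      rw [qf_one]
      rw [le_div_iff₀ (by positivity), one_mul]
      exact pow_le_pow_left₀ hs.le hy 2
    rw [integral_Ioi_of_hasDerivAt_of_nonneg (h2 0).continuousAt.continuousWithinAt
      (fun y _ => h2 y) _ h6]
    · rw [mul_one]
      have : qf (0 ^ 2 / s ^ 2) = 0 := by
        apply qf_zero
        norm_num
      rw [this]
      ring
    · intro y hy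
      have hy' : (0 : ℝ) < y := hy
      have := dq_nonneg (y ^ 2 / s ^ 2)
      rw [smul_eq_mul]
      positivity
  rw [h1]
  have hpi := Real.pi_pos
  rw [nsmul_eq_mul, smul_eq_mul]
  push_cast
  field_simp

end Vale.Agent.P155.UK
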