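import Vale.Agent.P155.U.Bump
import Vale.Agent.P155.U.Iface
import Mathlib.Analysis.Calculus.LineDeriv.IntegrationByParts

/-!
# P155, block U (uniqueness), KEY: discrete Laplacian of a bump, integration by parts
-/

namespace Vale.Agent.P155.UK

open MeasureTheory Vale.Agent.P155.K Set Filter Topology
open scoped ContDiff

/-- directional derivative -/
noncomputable def pe (e : ℂ) (f : ℂ → ℝ) (z : ℂ) : ℝ := fderiv ℝ f z e

theorem contDiff_pe {f : ℂ → ℝ} (hf : ContDiff ℝ ∞ f) (e : ℂ) : ContDiff ℝ ∞ (pe e f) :=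
  (hf.fderiv_right (m := ∞) (by simp)).clm_apply contDiff_const

theorem cpt_pe {f : ℂ → ℝ} (hf : HasCompactSupport f) (e : ℂ) : HasCompactSupport (pe e f) :=
  (hf.fderiv ℝ).comp_left (g := fun L : ℂ →L[ℝ] ℝ => L e) (by simp)

theorem line_deriv {f : ℂ → ℝ} (hf : ContDiff ℝ ∞ f) (w e : ℂ) (t : ℝ) :
    HasDerivAt (fun t : ℝ => f (w + t • e)) (pe e f (w + t • e)) t := by
  have h1 : HasFDerivAt f (fderiv ℝ f (w + t • e)) (w + t • e) :=
    ((hf.differentiable (by simp)) _).hasFDerivAt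
  have h2 : HasDerivAt (fun t : ℝ => w + t • e) e t := by
    have := (hasDerivAt_id t).smul_const e
    simpa using this.const_add w
  exact h1.comp_hasDerivAt t h2

theorem second_diff {f : ℂ → ℝ} (hf : ContDiff ℝ ∞ f) (hc : HasCompactSupport f) (e : ℂ) :
    ∃ M : ℝ, 0 ≤ M ∧ ∀ (w : ℂ) (δ : ℝ), 0 ≤ δ →
      |f (w + δ • e) + f (w - δ • e) - 2 * f w - δ ^ 2 * pe e (pe e f) w| ≤ M * δ ^ 3 := by
  have h1 := contDiff_pe hf e
  have h2 := contDiff_pe h1 e
  have h3 := contDiff_pe h2 e
  obtain ⟨M, hM⟩ := (cpt_pe (cpt_pe (cpt_pe hc e) e) e).exists_bound_of_continuous h3.continuous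
  have hM0 : 0 ≤ M := (norm_nonneg _).trans (hM 0)
  refine ⟨2 * M, by positivity, fun w δ hδ => ?_⟩
  -- third order: |g''(t) - g''(0)| ≤ M t on both sides
  have hneg : ∀ (k : ℂ → ℝ), ContDiff ℝ ∞ k → ∀ t : ℝ,
      HasDerivAt (fun t : ℝ => k (w - t • e)) (-(pe e k (w - t • e))) t := by
    intro k hk t
    have := (line_deriv hk w e (-t)).comp t (hasDerivAt_neg t)
    have e1 : (fun t : ℝ => k (w - t • e)) = (fun t : ℝ => k (w + t • e)) ∘ Neg.neg := by
      funext t
      simp [sub_eq_add_neg]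
    rw [e1]
    refine this.congr_deriv ?_
    rw [mul_neg_one, neg_smul, sub_eq_add_neg]
  have b2 : ∀ t : ℝ, 0 ≤ t →
      |pe e (pe e f) (w + t • e) + pe e (pe e f) (w - t • e) - 2 * pe e (pe e f) w| ≤ 2 * M * t := by
    intro t ht
    have key := norm_image_sub_le_of_norm_deriv_le_segment'
      (f := fun t : ℝ => pe e (pe e f) (w + t • e) + pe e (pe e f) (w - t • e))
      (f' := fun t : ℝ => pe e (pe e (pe e f)) (w + t • e) + -(pe e (pe e (pe e f)) (w - t • e)))
      (C := 2 * M) (a := 0) (b := t)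
      (fun x _ => ((line_deriv h2 w e x).fun_add (hneg _ h2 x)).hasDerivWithinAt)
      (fun x _ => by
        refine (norm_add_le _ _).trans ?_
        rw [norm_neg]
        linarith [hM (w + x • e), hM (w - x • e)])
      t ⟨ht, le_rfl⟩
    simp only [zero_smul, add_zero, sub_zero, Real.norm_eq_abs] at key
    have e1 : pe e (pe e f) (w + t • e) + pe e (pe e f) (w - t • e) - 2 * pe e (pe e f) w =
        pe e (pe e f) (w + t • e) + pe e (pe e f) (w - t • e) -
          (pe e (pe e f) w + pe e (pe e f) w) := by ring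
    rw [e1]
    exact key
  have b1 : ∀ t : ℝ, 0 ≤ t →
      |pe e f (w + t • e) - pe e f (w - t • e) - 2 * t * pe e (pe e f) w| ≤ 2 * M * t * t := by
    intro t ht
    have key := norm_image_sub_le_of_norm_deriv_le_segment'
      (f := fun t : ℝ => pe e f (w + t • e) - pe e f (w - t • e) - 2 * t * pe e (pe e f) w)
      (f' := fun t : ℝ => pe e (pe e f) (w + t • e) - -(pe e (pe e f) (w - t • e)) -
        2 * pe e (pe e f) w)
      (C := 2 * M * t) (a := 0) (b := t)
      (fun x _ => (((line_deriv h1 w e x).fun_sub (hneg _ h1 x)).fun_sub (by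
        have := ((hasDerivAt_id x).const_mul 2).mul_const (pe e (pe e f) w)
        simpa using this)).hasDerivWithinAt)
      (fun x hx => by
        rw [sub_neg_eq_add, Real.norm_eq_abs]
        exact (b2 x hx.1).trans (mul_le_mul_of_nonneg_left hx.2.le (by positivity)))
      t ⟨ht, le_rfl⟩
    simp only [zero_smul, add_zero, sub_zero, Real.norm_eq_abs, sub_self, mul_zero, zero_mul] at key
    exact key
  have key := norm_image_sub_le_of_norm_deriv_le_segment'
      (f := fun t : ℝ => f (w + t • e) + f (w - t • e) - 2 * f w - t ^ 2 * pe e (pe e f) w)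
      (f' := fun t : ℝ => pe e f (w + t • e) + -(pe e f (w - t • e)) - 0 -
        2 * t * pe e (pe e f) w)
      (C := 2 * M * δ * δ) (a := 0) (b := δ)
      (fun x _ => ((((line_deriv hf w e x).fun_add (hneg _ hf x)).fun_sub (hasDerivAt_const x _)).fun_sub (by
        have := (hasDerivAt_pow 2 x).mul_const (pe e (pe e f) w)
        simpa using this)).hasDerivWithinAt)
      (fun x hx => by
        have hb := b1 x hx.1
        have e2 : pe e f (w + x • e) + -(pe e f (w - x • e)) - 0 - 2 * x * pe e (pe e f) w =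
          pe e f (w + x • e) - pe e f (w - x • e) - 2 * x * pe e (pe e f) w := by ring
        rw [e2, Real.norm_eq_abs]
        refine hb.trans ?_
        have hx1 : x ≤ δ := hx.2.le
        have hx0 : 0 ≤ x := hx.1
        have : x * x ≤ δ * δ := mul_le_mul hx1 hx1 hx0 hδ
        nlinarith)
      δ ⟨hδ, le_rfl⟩
  simp only [zero_smul, add_zero, sub_zero, Real.norm_eq_abs] at key
  have e0 : f w + f w - 2 * f w - 0 ^ 2 * pe e (pe e f) w = 0 := by ring
  rw [e0, sub_zero] at key
  refine key.trans (le_of_eq ?_)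
  ring

/-- error of the discrete Laplacian -/
noncomputable def psi (f : ℂ → ℝ) (δ : ℝ) (w : ℂ) : ℝ :=
  f (w + δ) + f (w - δ) + f (w + δ * Complex.I) + f (w - δ * Complex.I) - 4 * f w - δ ^ 2 * lapC f w

theorem psi_bound {f : ℂ → ℝ} (hf : ContDiff ℝ ∞ f) (hc : HasCompactSupport f) :
    ∃ M : ℝ, 0 ≤ M ∧ ∀ (w : ℂ) (δ : ℝ), 0 ≤ δ → |psi f δ w| ≤ M * δ ^ 3 := by
  obtain ⟨M1, h1, b1⟩ := second_diff hf hc 1
  obtain ⟨M2, h2, b2⟩ := second_diff hf hc Complex.I
  refine ⟨M1 + M2, by positivity, fun w δ hδ => ?_⟩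
  have e1 := b1 w δ hδ
  have e2 := b2 w δ hδ
  have e3 : (δ • (1 : ℂ)) = (δ : ℂ) := by simp
  have e4 : (δ • Complex.I) = (δ : ℂ) * Complex.I := by simp
  rw [e3] at e1
  rw [e4] at e2
  have e5 : psi f δ w = (f (w + δ) + f (w - δ) - 2 * f w - δ ^ 2 * pe 1 (pe 1 f) w) +
      (f (w + δ * Complex.I) + f (w - δ * Complex.I) - 2 * f w -
        δ ^ 2 * pe Complex.I (pe Complex.I f) w) := by
    have a1 : dx (dx f) w = pe 1 (pe 1 f) w := rfl
    have a2 : dy (dy f) w = pe Complex.I (pe Complex.I f) w := rfl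
    unfold psi lapC
    rw [a1, a2]
    ring
  rw [e5]
  refine (abs_add_le _ _).trans ?_
  linarith

/-! ## scaling -/

theorem ns_scale (z : ℂ) (s : ℝ) (w : ℂ) : ns 0 ((w - z) / s) = ns z w / s ^ 2 := by
  rw [ns_eq, ns_eq, sub_zero, norm_div, div_pow]
  simp

theorem bump_scale (z : ℂ) {s : ℝ} (hs : 0 < s) (w : ℂ) :
    bump z s w = (s ^ 2)⁻¹ * bump 0 1 ((w - z) / s) := by
  unfold bump
  rw [ns_scale z s, one_pow, mul_one, div_one, mul_inv]
  ring

theorem lapC_bump_scale (z : ℂ) {s : ℝ} (hs : 0 < s) (w : ℂ) :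
    lapC (bump z s) w = (s ^ 4)⁻¹ * lapC (bump 0 1) ((w - z) / s) := by
  -- both sides by the radial formula
  have hg : ∀ s : ℝ, ContDiff ℝ ∞ (fun t : ℝ => (Real.pi * s ^ 2)⁻¹ * deriv qf (t / s ^ 2)) :=
    fun s => contDiff_const.mul ((contDiff_deriv qf_contDiff).comp (contDiff_id.div_const _))
  have hq1 := contDiff_deriv qf_contDiff
  have hq2 := contDiff_deriv hq1
  have d1 : ∀ s t : ℝ, deriv (fun t : ℝ => (Real.pi * s ^ 2)⁻¹ * deriv qf (t / s ^ 2)) t =
      (Real.pi * s ^ 2)⁻¹ * (deriv (deriv qf) (t / s ^ 2) * (1 / s ^ 2)) := by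
    intro s t
    have h1 : HasDerivAt (fun t : ℝ => t / s ^ 2) (1 / s ^ 2) t := (hasDerivAt_id t).div_const _
    have h3 : HasDerivAt (deriv qf) (deriv (deriv qf) (t / s ^ 2)) (t / s ^ 2) :=
      ((hq1.differentiable (by simp)) _).hasDerivAt
    exact ((h3.comp t h1).const_mul _).deriv
  have d2 : ∀ s t : ℝ, deriv (deriv (fun t : ℝ => (Real.pi * s ^ 2)⁻¹ * deriv qf (t / s ^ 2))) t =
      (Real.pi * s ^ 2)⁻¹ * (deriv (deriv (deriv qf)) (t / s ^ 2) * (1 / s ^ 2) * (1 / s ^ 2)) := by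
    intro s t
    rw [funext (d1 s)]
    have h1 : HasDerivAt (fun t : ℝ => t / s ^ 2) (1 / s ^ 2) t := (hasDerivAt_id t).div_const _
    have h3 : HasDerivAt (deriv (deriv qf)) (deriv (deriv (deriv qf)) (t / s ^ 2)) (t / s ^ 2) :=
      ((hq2.differentiable (by simp)) _).hasDerivAt
    exact (((h3.comp t h1).mul_const _).const_mul _).deriv
  have f1 : lapC (bump z s) w = _ := lapC_radial (hg s) z w
  have f2 : lapC (bump 0 1) ((w - z) / s) = _ := lapC_radial (hg 1) 0 ((w - z) / s)
  rw [f1, f2, d1, d2, d1, d2, ns_scale z s]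
  simp only [one_pow, mul_one, div_one]
  field_simp

theorem psi_bump_bound : ∃ M : ℝ, 0 ≤ M ∧ ∀ (z : ℂ) (s : ℝ) (w : ℂ) (δ : ℝ), 0 < s → 0 ≤ δ →
    |psi (bump z s) δ w| ≤ M * δ ^ 3 / s ^ 5 := by
  obtain ⟨M, hM0, hM⟩ := psi_bound (bump_contDiff 0 1)
    (hasCompactSupport_of (bump_tsupport (z := 0) one_pos))
  refine ⟨M, hM0, fun z s w δ hs hδ => ?_⟩
  have hs' : (s : ℂ) ≠ 0 := by exact_mod_cast hs.ne'
  have e : psi (bump z s) δ w = (s ^ 2)⁻¹ * psi (bump 0 1) (δ / s) ((w - z) / s) := by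
    unfold psi
    rw [lapC_bump_scale z hs, bump_scale z hs, bump_scale z hs, bump_scale z hs, bump_scale z hs,
      bump_scale z hs]
    have a1 : (w + δ - z) / s = (w - z) / s + ((δ / s : ℝ) : ℂ) := by
      push_cast; field_simp; ring
    have a2 : (w - δ - z) / s = (w - z) / s - ((δ / s : ℝ) : ℂ) := by
      push_cast; field_simp; ring
    have a3 : (w + δ * Complex.I - z) / s = (w - z) / s + ((δ / s : ℝ) : ℂ) * Complex.I := by
      push_cast; field_simp; ring
    have a4 : (w - δ * Complex.I - z) / s = (w - z) / s - ((δ / s : ℝ) : ℂ) * Complex.I := by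
      push_cast; field_simp; ring
    rw [a1, a2, a3, a4]
    have b : (s ^ 4)⁻¹ = (s ^ 2)⁻¹ * (s ^ 2)⁻¹ := by rw [← mul_inv]; ring_nf
    rw [b, div_pow]
    ring
  rw [e, abs_mul, abs_of_nonneg (by positivity)]
  calc (s ^ 2)⁻¹ * |psi (bump 0 1) (δ / s) ((w - z) / s)| ≤ (s ^ 2)⁻¹ * (M * (δ / s) ^ 3) :=
        mul_le_mul_of_nonneg_left (hM _ _ (by positivity)) (by positivity)
    _ = M * δ ^ 3 / s ^ 5 := by
        rw [div_pow]
        field_simp

/-! ## shifts and supports -/

theorem bump_shift (z c : ℂ) (s : ℝ) (w : ℂ) : bump (z + c) s w = bump z s (w - c) := by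
  unfold bump
  rw [ns_eq, ns_eq, show w - (z + c) = w - c - z by ring]

/-- `psi` of a bump in terms of the four neighbouring bumps -/
theorem psi_bump (z : ℂ) (s δ : ℝ) (w : ℂ) : psi (bump z s) δ w =
    bump (z + δ) s w + bump (z - δ) s w + bump (z + δ * Complex.I) s w +
      bump (z - δ * Complex.I) s w - 4 * bump z s w - δ ^ 2 * lapC (bump z s) w := by
  have h1 := bump_shift z δ s w
  have h2 := bump_shift z (-δ) s w
  have h3 := bump_shift z (δ * Complex.I) s w
  have h4 := bump_shift z (-(δ * Complex.I)) s w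
  rw [← sub_eq_add_neg, sub_neg_eq_add] at h2 h4
  rw [h1, h2, h3, h4, psi]
  ring

theorem psi_contDiff {f : ℂ → ℝ} (hf : ContDiff ℝ ∞ f) (δ : ℝ) : ContDiff ℝ ∞ (psi f δ) := by
  have hs : ∀ c : ℂ, ContDiff ℝ ∞ (fun w => f (w + c)) := fun c =>
    hf.comp (contDiff_id.add contDiff_const)
  have hs' : ∀ c : ℂ, ContDiff ℝ ∞ (fun w => f (w - c)) := fun c =>
    hf.comp (contDiff_id.sub contDiff_const)
  exact (((((hs _).add (hs' _)).add (hs _)).add (hs' _)).sub (contDiff_const.mul hf)).sub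
    (contDiff_const.mul (contDiff_lapC hf))

theorem tsupport_pe (f : ℂ → ℝ) (e : ℂ) : tsupport (pe e f) ⊆ tsupport f := by
  apply closure_minimal _ (isClosed_tsupport f)
  intro w hw
  apply support_fderiv_subset ℝ (f := f)
  intro h
  apply hw
  unfold pe
  rw [h]
  rfl

theorem tsupport_lapC (f : ℂ → ℝ) : tsupport (lapC f) ⊆ tsupport f := by
  apply closure_minimal _ (isClosed_tsupport f)
  intro w hw
  by_contra hc
  apply hw
  have h1 : pe 1 (pe 1 f) w = 0 := by
    by_contra h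
    exact hc (tsupport_pe f 1 (tsupport_pe (pe 1 f) 1 (subset_tsupport _ h)))
  have h2 : pe Complex.I (pe Complex.I f) w = 0 := by
    by_contra h
    exact hc (tsupport_pe f _ (tsupport_pe (pe _ f) _ (subset_tsupport _ h)))
  have a1 : dx (dx f) w = pe 1 (pe 1 f) w := rfl
  have a2 : dy (dy f) w = pe Complex.I (pe Complex.I f) w := rfl
  unfold lapC
  rw [a1, a2, h1, h2, add_zero]

theorem lapC_test {Ω : Set ℂ} {f : ℂ → ℝ} (h : Vale.Agent.P155.IsTest Ω f) :
    Vale.Agent.P155.IsTest Ω (lapC f) :=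
  ⟨contDiff_lapC h.1, h.2.1.of_isClosed_subset (isClosed_tsupport _) (tsupport_lapC f),
    (tsupport_lapC f).trans h.2.2⟩

theorem psi_tsupport {z : ℂ} {s δ : ℝ} (hs : 0 < s) (hδ : 0 ≤ δ) :
    tsupport (psi (bump z s) δ) ⊆ Metric.closedBall z (s + δ) := by
  apply closure_minimal _ Metric.isClosed_closedBall
  intro w hw
  rw [Metric.mem_closedBall]
  by_contra hc
  push Not at hc
  apply hw
  have hn : ∀ c : ℂ, ‖c‖ ≤ δ → bump z s (w - c) = 0 := by
    intro c hcδ
    apply bump_zero hs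
    have h1 : dist w z ≤ dist (w - c) z + ‖c‖ := by
      rw [dist_eq_norm, dist_eq_norm]
      have : w - z = (w - c - z) + c := by ring
      rw [this]
      exact norm_add_le _ _
    linarith
  have e1 : bump z s (w + δ) = 0 := by
    have := hn (-δ) (by rw [norm_neg, Complex.norm_real, Real.norm_of_nonneg hδ])
    rwa [sub_neg_eq_add] at this
  have e2 : bump z s (w - δ) = 0 := hn _ (by rw [Complex.norm_real, Real.norm_of_nonneg hδ])
  have e3 : bump z s (w + δ * Complex.I) = 0 := by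
    have := hn (-(δ * Complex.I)) (by
      rw [norm_neg, norm_mul, Complex.norm_I, mul_one, Complex.norm_real, Real.norm_of_nonneg hδ])
    rwa [sub_neg_eq_add] at this
  have e4 : bump z s (w - δ * Complex.I) = 0 := hn _ (by
      rw [norm_mul, Complex.norm_I, mul_one, Complex.norm_real, Real.norm_of_nonneg hδ])
  have e5 : bump z s w = 0 := bump_zero hs (by linarith)
  have e6 : lapC (bump z s) w = 0 := by
    by_contra h
    have h1 := bump_tsupport hs (tsupport_lapC (bump z s) (subset_tsupport _ h))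
    rw [Metric.mem_closedBall] at h1
    linarith
  unfold psi
  rw [e1, e2, e3, e4, e5, e6]
  ring

theorem psi_test {Ω : Set ℂ} {z : ℂ} {s δ : ℝ} (hs : 0 < s) (hδ : 0 ≤ δ)
    (h : Metric.closedBall z (s + δ) ⊆ Ω) : Vale.Agent.P155.IsTest Ω (psi (bump z s) δ) :=
  ⟨psi_contDiff (bump_contDiff z s) δ, hasCompactSupport_of (psi_tsupport hs hδ),
    (psi_tsupport hs hδ).trans h⟩

/-! ## integration by parts -/

theorem parts {f g : ℂ → ℝ} (hf : ContDiff ℝ ∞ f) (hc : HasCompactSupport f)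
    (hg : ContDiff ℝ ∞ g) (e : ℂ) : ∫ w, pe e (pe e f) w * g w = - ∫ w, pe e f w * pe e g w := by
  have h1 := contDiff_pe hf e
  have h2 := contDiff_pe h1 e
  have h3 := contDiff_pe hg e
  have c1 := cpt_pe hc e
  have c2 := cpt_pe c1 e
  have key := integral_mul_fderiv_eq_neg_fderiv_mul_of_integrable (μ := volume) (f := g)
    (g := pe e f) (v := e)
    (((h3.continuous.mul h1.continuous)).integrable_of_hasCompactSupport c1.mul_left)
    (((hg.continuous.mul h2.continuous)).integrable_of_hasCompactSupport c2.mul_left)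
    (((hg.continuous.mul h1.continuous)).integrable_of_hasCompactSupport c1.mul_left)
    (fun x _ => (hg.differentiable (by simp)) x) (fun x _ => (h1.differentiable (by simp)) x)
  have e1 : ∀ w, pe e (pe e f) w * g w = g w * fderiv ℝ (pe e f) w e := fun w => by
    rw [mul_comm]; rfl
  have e2 : ∀ w, pe e f w * pe e g w = fderiv ℝ g w e * pe e f w := fun w => by
    rw [mul_comm]; rfl
  simp_rw [e1, e2]
  exact key

theorem integral_lapC_mul {f g : ℂ → ℝ} (hf : ContDiff ℝ ∞ f) (hc : HasCompactSupport f)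
    (hg : ContDiff ℝ ∞ g) : ∫ w, lapC f w * g w =
      - ∫ w, (fderiv ℝ f w 1 * fderiv ℝ g w 1 + fderiv ℝ f w Complex.I * fderiv ℝ g w Complex.I) := by
  have i1 : Integrable (fun w => pe 1 (pe 1 f) w * g w) :=
    ((contDiff_pe (contDiff_pe hf 1) 1).continuous.mul hg.continuous).integrable_of_hasCompactSupport
      (cpt_pe (cpt_pe hc 1) 1).mul_right
  have i2 : Integrable (fun w => pe Complex.I (pe Complex.I f) w * g w) :=
    ((contDiff_pe (contDiff_pe hf _) _).continuous.mul hg.continuous).integrable_of_hasCompactSupport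
      (cpt_pe (cpt_pe hc _) _).mul_right
  have i3 : Integrable (fun w => pe 1 f w * pe 1 g w) :=
    ((contDiff_pe hf 1).continuous.mul (contDiff_pe hg 1).continuous).integrable_of_hasCompactSupport
      (cpt_pe hc 1).mul_right
  have i4 : Integrable (fun w => pe Complex.I f w * pe Complex.I g w) :=
    ((contDiff_pe hf _).continuous.mul (contDiff_pe hg _).continuous).integrable_of_hasCompactSupport
      (cpt_pe hc _).mul_right
  have e1 : ∀ w, lapC f w * g w = pe 1 (pe 1 f) w * g w +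
      pe Complex.I (pe Complex.I f) w * g w := fun w => by
    rw [← add_mul]; rfl
  simp_rw [e1]
  rw [integral_add i1 i2, parts hf hc hg, parts hf hc hg, ← neg_add, ← integral_add i3 i4]
  rfl

/-- the Laplacian in the weak form of the interface -/
theorem negLap_lapC {v : ℂ → ℝ} (hv : ContDiff ℝ ∞ v) (hc : HasCompactSupport v) :
    Uq.NegLap v (fun z => - lapC v z) := by
  intro w hw
  have h := integral_lapC_mul hv hc hw.1
  have e : ∀ z, - lapC v z * w z = - (lapC v z * w z) := fun z => by ring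
  simp_rw [e]
  rw [integral_neg, h, neg_neg]

/-- bumps of different radii: `bump z s - bump z r = - Δ (pot z r - pot z s)` -/
theorem negLap_pdiff (z : ℂ) {s r : ℝ} (hs : 0 < s) (hr : 0 < r) :
    Uq.NegLap (pdiff z r s) (fun w => bump z s w - bump z r w) := by
  have h := negLap_lapC (pdiff_contDiff z r s) (hasCompactSupport_of (pdiff_tsupport hr hs))
  have e : (fun w => - lapC (pdiff z r s) w) = fun w => bump z s w - bump z r w := by
    funext w
    rw [lapC_pdiff z hr hs]
    ring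
  rwa [e] at h

end Vale.Agent.P155.UK
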