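import Mathlib

/-!
# P155 uniqueness: arithmetic-geometric mean estimates for iterated integrals
-/

namespace Vale.Agent.P155.U
open MeasureTheory Set

/-- interchange of two interval integrals of a continuous function -/
theorem swap_int {g : ℝ → ℝ → ℝ} (hg : Continuous (fun p : ℝ × ℝ => g p.1 p.2)) {a b c d : ℝ}
    (hab : a ≤ b) (hcd : c ≤ d) :
    ∫ x in a..b, ∫ y in c..d, g x y = ∫ y in c..d, ∫ x in a..b, g x y := by
  simp only [intervalIntegral.integral_of_le hab, intervalIntegral.integral_of_le hcd]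
  apply MeasureTheory.integral_integral_swap
  rw [Measure.prod_restrict]
  have : IntegrableOn (fun p : ℝ × ℝ => g p.1 p.2) (Icc a b ×ˢ Icc c d) (volume.prod volume) :=
    hg.continuousOn.integrableOn_compact (isCompact_Icc.prod isCompact_Icc)
  exact this.mono_set (Set.prod_mono Ioc_subset_Icc_self Ioc_subset_Icc_self)

theorem continuous_inner {g : ℝ → ℝ → ℝ} (hg : Continuous (fun p : ℝ × ℝ => g p.1 p.2))
    (a b : ℝ) : Continuous (fun t => ∫ α in a..b, g t α) :=
  intervalIntegral.continuous_parametric_intervalIntegral_of_continuous' (f := g) hg a b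

theorem amgm1 {g : ℝ → ℝ} (hg : Continuous g) {a b c x : ℝ} (hab : a ≤ b) (hc : 0 < c)
    (hx : 0 ≤ x) :
    ∫ α in a..b, x * g α ≤ c / 2 * (∫ α in a..b, x * g α ^ 2) + (b - a) * (x / (2 * c)) := by
  have e : c / 2 * (∫ α in a..b, x * g α ^ 2) + (b - a) * (x / (2 * c)) =
      ∫ α in a..b, (c / 2 * (x * g α ^ 2) + x / (2 * c)) := by
    have i1 : IntervalIntegrable (fun α => c / 2 * (x * g α ^ 2)) volume a b :=
      Continuous.intervalIntegrable (by fun_prop) _ _
    rw [intervalIntegral.integral_add i1 intervalIntegrable_const,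
      intervalIntegral.integral_const, smul_eq_mul]
    simp only [intervalIntegral.integral_const_mul]
  rw [e]
  apply intervalIntegral.integral_mono_on hab
  · exact Continuous.intervalIntegrable (by fun_prop) _ _
  · exact Continuous.intervalIntegrable (by fun_prop) _ _
  intro α _
  have h11 : 0 ≤ x * (c * g α - 1) ^ 2 / (2 * c) := by positivity
  have h12 : x * (c * g α - 1) ^ 2 / (2 * c)
      = c / 2 * (x * g α ^ 2) + x / (2 * c) - x * g α := by
    field_simp
    ring
  linarith

theorem amgm2 {g : ℝ → ℝ → ℝ} (hg : Continuous (fun p : ℝ × ℝ => g p.1 p.2)) {a b c r R : ℝ} (hab : a ≤ b)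
    (hc : 0 < c) (hr : 0 ≤ r) (hR : r ≤ R) :
    (∫ x in r..R, ∫ α in a..b, x * g x α) ≤
      c / 2 * (∫ x in r..R, ∫ α in a..b, x * g x α ^ 2) + (b - a) / (2 * c) * ((R ^ 2 - r ^ 2) / 2) := by
  have hg1 : Continuous (fun x => ∫ α in a..b, x * g x α) :=
    continuous_inner (by fun_prop) a b
  have hg2 : Continuous (fun x => ∫ α in a..b, x * g x α ^ 2) :=
    continuous_inner (by fun_prop) a b
  have e : c / 2 * (∫ x in r..R, ∫ α in a..b, x * g x α ^ 2) +
      (b - a) / (2 * c) * ((R ^ 2 - r ^ 2) / 2) =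
      ∫ x in r..R, (c / 2 * (∫ α in a..b, x * g x α ^ 2) + (b - a) / (2 * c) * x) := by
    rw [intervalIntegral.integral_add, intervalIntegral.integral_const_mul,
      intervalIntegral.integral_const_mul, integral_id]
    · exact Continuous.intervalIntegrable (by fun_prop) _ _
    · exact Continuous.intervalIntegrable (by fun_prop) _ _
  rw [e]
  apply intervalIntegral.integral_mono_on hR
  · exact Continuous.intervalIntegrable (by fun_prop) _ _
  · exact Continuous.intervalIntegrable (by fun_prop) _ _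
  intro x hx
  have hgx : Continuous (g x) := hg.comp (Continuous.prodMk_right x)
  have := amgm1 hgx hab hc (hr.trans hx.1)
  have e2 : (b - a) / (2 * c) * x = (b - a) * (x / (2 * c)) := by ring
  rw [e2]
  exact this

theorem amgm3 {g : ℝ → ℝ → ℝ} (hg : Continuous (fun p : ℝ × ℝ => g p.1 p.2)) {a b c r R : ℝ} (hab : a ≤ b)
    (hc : 0 < c) (hr : 0 < r) (hR : r ≤ R) :
    (∫ x in r..R, ∫ α in a..b, g x α) ≤
      c / 2 * (∫ x in r..R, ∫ α in a..b, x * g x α ^ 2) + (b - a) / (2 * c) * Real.log (R / r) := by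
  have hg1 : Continuous (fun x => ∫ α in a..b, g x α) :=
    continuous_inner hg a b
  have hg2 : Continuous (fun x => ∫ α in a..b, x * g x α ^ 2) :=
    continuous_inner (by fun_prop) a b
  have hne : ∀ t ∈ uIcc r R, t ≠ 0 := by
    intro t ht
    rw [uIcc_of_le hR] at ht
    exact (hr.trans_le ht.1).ne'
  have hinvc : IntervalIntegrable (fun t : ℝ => (b - a) / (2 * c) * t⁻¹) volume r R := by
    apply ContinuousOn.intervalIntegrable
    exact continuousOn_const.mul (continuousOn_id.inv₀ hne)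
  have e : c / 2 * (∫ x in r..R, ∫ α in a..b, x * g x α ^ 2) +
      (b - a) / (2 * c) * Real.log (R / r) =
      ∫ x in r..R, (c / 2 * (∫ α in a..b, x * g x α ^ 2) + (b - a) / (2 * c) * x⁻¹) := by
    rw [intervalIntegral.integral_add, intervalIntegral.integral_const_mul,
      intervalIntegral.integral_const_mul, integral_inv_of_pos hr (hr.trans_le hR)]
    · exact Continuous.intervalIntegrable (by fun_prop) _ _
    · exact hinvc
  rw [e]
  apply intervalIntegral.integral_mono_on hR
  · exact Continuous.intervalIntegrable (by fun_prop) _ _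
  · exact (Continuous.intervalIntegrable (by fun_prop) _ _).add hinvc
  intro x hx
  have hx0 : 0 < x := hr.trans_le hx.1
  have hgx : Continuous (g x) := hg.comp (Continuous.prodMk_right x)
  have h4 := amgm1 hgx hab (mul_pos hc hx0) hx0.le
  rw [intervalIntegral.integral_const_mul] at h4
  have e : c * x / 2 * (∫ α in a..b, x * g x α ^ 2) + (b - a) * (x / (2 * (c * x)))
      = x * (c / 2 * (∫ α in a..b, x * g x α ^ 2) + (b - a) / (2 * c) * x⁻¹) := by
    field_simp
  rw [e] at h4
  exact le_of_mul_le_mul_left h4 hx0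

/-- the abstract form of the Poincare inequality in polar coordinates -/
theorem polar_avg {F G : ℝ → ℝ → ℝ} (hF : Continuous (fun p : ℝ × ℝ => F p.1 p.2))
    (hG : Continuous (fun p : ℝ × ℝ => G p.1 p.2)) (hG0 : ∀ t α, 0 ≤ G t α) {A r : ℝ} (hr : 0 < r)
    (hA : 0 ≤ A) (h1 : ∀ θ a b, a ≤ b → |F b θ - F a θ| ≤ ∫ t in a..b, G t θ)
    (h2 : ∀ x ∈ Icc r (2 * r), ∀ θ ∈ Icc (-A) A, |F x θ| ≤ ∫ α in (-A)..A, x * G x α)
    {lam E : ℝ} (hlam : 0 < lam)
    (hE : ∀ a b, 0 ≤ a → a ≤ b → b ≤ 2 * r → ∫ x in a..b, ∫ α in (-A)..A, x * G x α ^ 2 ≤ E)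
    {ρ : ℝ} (hρ : 0 < ρ) (hρr : ρ ≤ r) :
    ∫ θ in (-A)..A, |F ρ θ| ≤ 2 * A * (lam / 2 * E + 3 * A / (2 * lam)) +
      (lam / 2 * E + A / lam * Real.log (2 * r / ρ)) := by
  have hAA : -A ≤ A := by linarith
  have hr2 : r ≤ 2 * r := by linarith
  have hρ2 : ρ ≤ 2 * r := by linarith
  have hFρ : Continuous (fun θ => |F ρ θ|) := (hF.comp (Continuous.prodMk_right ρ)).abs
  have hxG : Continuous (fun x => ∫ α in (-A)..A, x * G x α) :=
    continuous_inner (by fun_prop) _ _
  have hsw : Continuous (fun p : ℝ × ℝ => G p.2 p.1) := hG.comp continuous_swap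
  have hin : Continuous (fun θ => ∫ t in ρ..(2 * r), G t θ) :=
    continuous_inner (g := fun θ t => G t θ) hsw ρ (2 * r)
  have hK := amgm2 hG hAA (mul_pos hlam hr) hr.le hr2
  set K : ℝ := ∫ x in r..(2 * r), ∫ α in (-A)..A, x * G x α with hKd
  have hK2 : K ≤ r * (lam / 2 * E + 3 * A / (2 * lam)) := by
    have h3 := mul_le_mul_of_nonneg_left (hE r (2 * r) hr.le hr2 le_rfl)
      (show 0 ≤ lam * r / 2 by positivity)
    have e : (A - -A) / (2 * (lam * r)) * (((2 * r) ^ 2 - r ^ 2) / 2)
        = r * (3 * A / (2 * lam)) := by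
      field_simp
      ring
    rw [e] at hK
    calc K ≤ lam * r / 2 * E + r * (3 * A / (2 * lam)) := by linarith
      _ = _ := by ring
  -- pointwise
  have h3 : ∀ θ ∈ Icc (-A) A, |F ρ θ| ≤ (lam / 2 * E + 3 * A / (2 * lam)) +
      ∫ t in ρ..(2 * r), G t θ := by
    intro θ hθ
    have hGθ : Continuous (fun t => G t θ) := hG.comp (Continuous.prodMk_left θ)
    have h4 : ∀ x ∈ Icc r (2 * r), |F ρ θ| ≤
        (∫ α in (-A)..A, x * G x α) + ∫ t in ρ..(2 * r), G t θ := by
      intro x hx
      have h5 := h1 θ ρ x (hρr.trans hx.1)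
      have h6 : ∫ t in ρ..x, G t θ ≤ ∫ t in ρ..(2 * r), G t θ :=
        intervalIntegral.integral_mono_interval le_rfl (hρr.trans hx.1) hx.2
          (Filter.Eventually.of_forall fun t => hG0 _ _) (hGθ.intervalIntegrable _ _)
      have h7 := h2 x hx θ hθ
      have h8 := abs_sub_abs_le_abs_sub (F ρ θ) (F x θ)
      rw [abs_sub_comm] at h8
      linarith
    have h9 : ∫ _x in r..(2 * r), |F ρ θ| ≤
        ∫ x in r..(2 * r), ((∫ α in (-A)..A, x * G x α) + ∫ t in ρ..(2 * r), G t θ) :=
      intervalIntegral.integral_mono_on hr2 (continuous_const.intervalIntegrable _ _)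
        ((hxG.add continuous_const).intervalIntegrable _ _) h4
    rw [intervalIntegral.integral_add (hxG.intervalIntegrable _ _)
      (continuous_const.intervalIntegrable _ _), intervalIntegral.integral_const,
      intervalIntegral.integral_const, ← hKd] at h9
    have e : (2 * r - r) = r := by ring
    rw [e, smul_eq_mul, smul_eq_mul] at h9
    have h10 : r * |F ρ θ| ≤ r * ((lam / 2 * E + 3 * A / (2 * lam)) +
        ∫ t in ρ..(2 * r), G t θ) := by
      rw [mul_add]
      linarith
    exact le_of_mul_le_mul_left h10 hr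
  have h4 : ∫ θ in (-A)..A, |F ρ θ| ≤
      ∫ θ in (-A)..A, ((lam / 2 * E + 3 * A / (2 * lam)) + ∫ t in ρ..(2 * r), G t θ) :=
    intervalIntegral.integral_mono_on hAA (hFρ.intervalIntegrable _ _)
      ((continuous_const.add hin).intervalIntegrable _ _) h3
  rw [intervalIntegral.integral_add (continuous_const.intervalIntegrable _ _)
    (hin.intervalIntegrable _ _), intervalIntegral.integral_const, smul_eq_mul,
    swap_int (g := fun θ t => G t θ) hsw hAA hρ2] at h4
  have h5 := amgm3 hG hAA hlam hρ hρ2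
  have h6 := mul_le_mul_of_nonneg_left (hE ρ (2 * r) hρ.le hρ2 le_rfl)
    (show 0 ≤ lam / 2 by positivity)
  have e : (A - -A) / (2 * lam) = A / lam := by
    field_simp
    ring
  rw [e] at h5
  have e2 : (A - -A) * (lam / 2 * E + 3 * A / (2 * lam)) =
      2 * A * (lam / 2 * E + 3 * A / (2 * lam)) := by ring
  rw [e2] at h4
  linarith

/-- integration over the radius -/
theorem polar_total {F : ℝ → ℝ → ℝ} (hF : Continuous (fun p : ℝ × ℝ => F p.1 p.2))
    {A r s K B : ℝ} (hs : 0 < s) (hsr : s ≤ r) (hB : 0 ≤ B)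
    (h : ∀ ρ, 0 < ρ → ρ ≤ r → ∫ θ in (-A)..A, |F ρ θ| ≤ K + B * Real.log (2 * r / ρ)) :
    ∫ ρ in (0 : ℝ)..s, ∫ θ in (-A)..A, ρ * |F ρ θ| ≤
      s ^ 2 * (K / 2 + B * (Real.log (2 * r / s) / 2 + 1)) := by
  have hr : 0 < r := hs.trans_le hsr
  have hc : Continuous (fun ρ => ∫ θ in (-A)..A, ρ * |F ρ θ|) :=
    continuous_inner (by fun_prop) _ _
  have h1 : ∀ ρ ∈ Icc 0 s, ∫ θ in (-A)..A, ρ * |F ρ θ| ≤
      (K + B * Real.log (2 * r / s)) * ρ + B * s := by
    intro ρ hρ
    rcases eq_or_lt_of_le hρ.1 with h0 | h0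
    · rw [← h0]
      simp only [zero_mul, intervalIntegral.integral_zero, mul_zero, zero_add]
      positivity
    · have h2 := h ρ h0 (hρ.2.trans hsr)
      rw [intervalIntegral.integral_const_mul]
      have h3 : Real.log (2 * r / ρ) ≤ Real.log (2 * r / s) + s / ρ := by
        have e : 2 * r / ρ = 2 * r / s * (s / ρ) := by field_simp
        rw [e, Real.log_mul (by positivity) (by positivity)]
        have := Real.log_le_sub_one_of_pos (show 0 < s / ρ by positivity)
        linarith
      have h4 : B * Real.log (2 * r / ρ) ≤ B * (Real.log (2 * r / s) + s / ρ) :=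
        mul_le_mul_of_nonneg_left h3 hB
      calc ρ * ∫ θ in (-A)..A, |F ρ θ| ≤ ρ * (K + B * (Real.log (2 * r / s) + s / ρ)) :=
            mul_le_mul_of_nonneg_left (h2.trans (by linarith)) h0.le
        _ = _ := by
          field_simp
          ring
  have h2 : ∫ ρ in (0 : ℝ)..s, ∫ θ in (-A)..A, ρ * |F ρ θ| ≤
      ∫ ρ in (0 : ℝ)..s, ((K + B * Real.log (2 * r / s)) * ρ + B * s) :=
    intervalIntegral.integral_mono_on hs.le (hc.intervalIntegrable _ _)
      (Continuous.intervalIntegrable (by fun_prop) _ _) h1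
  refine h2.trans (le_of_eq ?_)
  rw [intervalIntegral.integral_add (Continuous.intervalIntegrable (by fun_prop) _ _)
    (continuous_const.intervalIntegrable _ _), intervalIntegral.integral_const_mul, integral_id,
    intervalIntegral.integral_const, smul_eq_mul]
  ring

end Vale.Agent.P155.U
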