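import Mathlib

/-!
# P155, block U: moments from conditional characteristic functions
-/

namespace Vale.Agent.P155.Uq

open MeasureTheory Filter Topology

theorem norm_exp_I_sub_one_le (x : ℝ) : ‖Complex.exp (Complex.I * x) - 1‖ ≤ |x| := by
  simpa using Real.norm_exp_I_mul_ofReal_sub_one_le (x := x)

theorem tendsto_quot (x : ℝ) {t : ℕ → ℝ} (ht : Tendsto t atTop (𝓝 0)) (ht0 : ∀ n, t n ≠ 0) :
    Tendsto (fun n => (Complex.exp (Complex.I * (t n * x : ℝ)) - 1) / (t n : ℂ)) atTop
      (𝓝 (Complex.I * x)) := by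
  have h1 : HasDerivAt (fun y : ℝ => Complex.exp (Complex.I * (y * x : ℝ))) (Complex.I * x) 0 := by
    have h2 : HasDerivAt (fun y : ℝ => Complex.I * ((y * x : ℝ) : ℂ)) (Complex.I * x) 0 := by
      have h3 : HasDerivAt (fun y : ℝ => y * x) x 0 := by
        simpa using (hasDerivAt_id (0 : ℝ)).mul_const x
      have h4 := (h3.ofReal_comp).const_mul Complex.I
      exact h4
    have h5 := h2.cexp
    simpa using h5
  have h6 := h1.tendsto_slope
  have h7 : Tendsto t atTop (𝓝[≠] 0) :=
    tendsto_nhdsWithin_iff.2 ⟨ht, Eventually.of_forall ht0⟩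
  refine (h6.comp h7).congr fun n => ?_
  simp only [Function.comp, slope_def_module]
  rw [Complex.real_smul]
  push_cast
  simp only [zero_mul, mul_zero, Complex.exp_zero, sub_zero]
  rw [div_eq_inv_mul]

variable {X : Type*} [MeasurableSpace X] {μ : Measure X} [IsFiniteMeasure μ]
  {w U V v : X → ℝ}

omit [IsFiniteMeasure μ] in
theorem aesm_exp {U : X → ℝ} (hU : AEStronglyMeasurable U μ) :
    AEStronglyMeasurable (fun x => Complex.exp (Complex.I * (U x : ℂ))) μ := by
  have h1 : AEMeasurable (fun x => (U x : ℂ)) μ := Complex.measurable_ofReal.comp_aemeasurable hU.aemeasurable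
  exact (Complex.measurable_exp.comp_aemeasurable (h1.const_mul _)).aestronglyMeasurable

theorem norm_exp_I (x : ℝ) : ‖Complex.exp (Complex.I * x)‖ = 1 := by
  rw [mul_comm]; exact Complex.norm_exp_ofReal_mul_I x

/-- First order: `∫ w U e^{i s V} = 0`. -/
theorem mom1 {C : ℝ} (hw : AEStronglyMeasurable w μ) (hwb : ∀ x, |w x| ≤ C)
    (hU : MemLp U 2 μ) (hV : MemLp V 2 μ) (hv : AEStronglyMeasurable v μ) {D : ℝ}
    (hv0 : ∀ x, 0 ≤ v x) (hvb : ∀ x, v x ≤ D)
    (H : ∀ s t : ℝ, ∫ x, (w x : ℂ) * Complex.exp (Complex.I * (s * V x + t * U x : ℝ)) ∂μ =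
      ∫ x, (w x : ℂ) * Complex.exp (Complex.I * (s * V x : ℝ)) *
        Complex.exp (-(t ^ 2 * v x / 2 : ℝ)) ∂μ) (s : ℝ) :
    ∫ x, (w x : ℂ) * U x * Complex.exp (Complex.I * (s * V x : ℝ)) ∂μ = 0 := by
  have hC : 0 ≤ C ∨ IsEmpty X := by
    by_cases h : IsEmpty X
    · exact Or.inr h
    · rw [not_isEmpty_iff] at h
      obtain ⟨x⟩ := h
      exact Or.inl ((abs_nonneg _).trans (hwb x))
  rcases hC with hC | hC
  swap
  · have : μ = 0 := Measure.eq_zero_of_isEmpty μ
    simp [this]
  set t : ℕ → ℝ := fun n => 1 / ((n : ℝ) + 1) with htdef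
  have ht : Tendsto t atTop (𝓝 0) := tendsto_one_div_add_atTop_nhds_zero_nat
  have ht0 : ∀ n, t n ≠ 0 := fun n => by
    simp only [htdef]; positivity
  have htp : ∀ n, 0 < t n := fun n => by
    simp only [htdef]; positivity
  have ht1 : ∀ n, t n ≤ 1 := fun n => by
    simp only [htdef]
    rw [div_le_one (by positivity)]
    linarith [Nat.cast_nonneg (α := ℝ) n]
  have hwc : AEStronglyMeasurable (fun x => (w x : ℂ)) μ :=
    (Complex.measurable_ofReal.comp_aemeasurable hw.aemeasurable).aestronglyMeasurable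
  have hE : AEStronglyMeasurable (fun x => Complex.exp (Complex.I * (s * V x : ℝ))) μ :=
    aesm_exp (hV.1.const_mul s)
  have hUi : Integrable U μ := hU.integrable (by norm_num)
  have hb1 : ∀ x, ‖(w x : ℂ)‖ ≤ C := fun x => by
    rw [Complex.norm_real]; exact hwb x
  have hnt : ∀ n, ‖(t n : ℂ)‖ = t n := fun n => by
    rw [Complex.norm_real, Real.norm_eq_abs, abs_of_pos (htp n)]
  -- the left quotient
  have L : Tendsto (fun n => ∫ x, (w x : ℂ) * Complex.exp (Complex.I * (s * V x : ℝ)) *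
      ((Complex.exp (Complex.I * (t n * U x : ℝ)) - 1) / (t n : ℂ)) ∂μ) atTop
      (𝓝 (∫ x, (w x : ℂ) * Complex.exp (Complex.I * (s * V x : ℝ)) * (Complex.I * U x) ∂μ)) := by
    apply tendsto_integral_of_dominated_convergence (fun x => C * |U x|)
    · intro n
      refine (hwc.mul hE).mul ?_
      have h1 : AEStronglyMeasurable (fun x => Complex.exp (Complex.I * (t n * U x : ℝ)) - 1) μ :=
        (aesm_exp (hU.1.const_mul (t n))).sub aestronglyMeasurable_const
      exact (h1.mul_const ((t n : ℂ)⁻¹)).congr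
        (Eventually.of_forall fun x => (div_eq_mul_inv _ _).symm)
    · exact hUi.norm.const_mul C
    · intro n
      refine Eventually.of_forall fun x => ?_
      rw [norm_mul, norm_mul, norm_exp_I, mul_one, norm_div, hnt n]
      refine mul_le_mul (hb1 x) ?_ (by positivity) hC
      rw [div_le_iff₀ (htp n)]
      refine (norm_exp_I_sub_one_le _).trans ?_
      rw [abs_mul, abs_of_pos (htp n), mul_comm]
    · exact Eventually.of_forall fun x => (tendsto_quot _ ht ht0).const_mul _
  -- the right quotient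
  have R : Tendsto (fun n => ∫ x, (w x : ℂ) * Complex.exp (Complex.I * (s * V x : ℝ)) *
      ((Complex.exp (-(t n ^ 2 * v x / 2 : ℝ)) - 1) / (t n : ℂ)) ∂μ) atTop (𝓝 (∫ x, (0 : ℂ) ∂μ)) := by
    have hkey : ∀ n x, ‖(Complex.exp (-(t n ^ 2 * v x / 2 : ℝ)) - 1) / (t n : ℂ)‖ ≤ t n * D := by
      intro n x
      rw [norm_div, hnt n, div_le_iff₀ (htp n)]
      have h0 : 0 ≤ t n ^ 2 * v x / 2 := by have := hv0 x; positivity
      have h1 : Complex.exp (-(t n ^ 2 * v x / 2 : ℝ)) - 1 =
          ((Real.exp (-(t n ^ 2 * v x / 2)) - 1 : ℝ) : ℂ) := by push_cast; rfl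
      rw [h1, Complex.norm_real, Real.norm_eq_abs, abs_sub_comm, abs_of_nonneg]
      · have h2 := Real.add_one_le_exp (-(t n ^ 2 * v x / 2))
        have h3 : t n ^ 2 * v x / 2 ≤ t n * D * t n := by
          have h4 : t n ^ 2 * v x ≤ t n ^ 2 * D := by gcongr; exact hvb x
          have h5 : 0 ≤ t n ^ 2 * v x := by have := hv0 x; positivity
          nlinarith
        linarith
      · have := Real.exp_le_one_iff.2 (neg_nonpos.2 h0)
        linarith
    apply tendsto_integral_of_dominated_convergence (fun _ => C * D)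
    · intro n
      refine (hwc.mul hE).mul ?_
      have h1 : AEStronglyMeasurable (fun x => Complex.exp (-(t n ^ 2 * v x / 2 : ℝ)) - 1) μ := by
        refine AEStronglyMeasurable.sub ?_ aestronglyMeasurable_const
        have h2 : AEMeasurable (fun x => (-(t n ^ 2 * v x / 2 : ℝ) : ℂ)) μ := by
          have h3 : AEMeasurable (fun x => (t n ^ 2 * v x / 2 : ℝ)) μ :=
            (hv.aemeasurable.const_mul _).div_const _
          exact (Complex.measurable_ofReal.comp_aemeasurable h3).neg
        exact (Complex.measurable_exp.comp_aemeasurable h2).aestronglyMeasurable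
      exact (h1.mul_const ((t n : ℂ)⁻¹)).congr
        (Eventually.of_forall fun x => (div_eq_mul_inv _ _).symm)
    · exact integrable_const _
    · intro n
      refine Eventually.of_forall fun x => ?_
      rw [norm_mul, norm_mul, norm_exp_I, mul_one]
      refine mul_le_mul (hb1 x) ((hkey n x).trans ?_) (by positivity) hC
      have hD : 0 ≤ D := (hv0 x).trans (hvb x)
      nlinarith [ht1 n]
    · refine Eventually.of_forall fun x => ?_
      apply squeeze_zero_norm (a := fun n => C * (t n * D))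
      · intro n
        rw [norm_mul, norm_mul, norm_exp_I, mul_one]
        exact mul_le_mul (hb1 x) (hkey n x) (by positivity) hC
      · have := (ht.mul_const D).const_mul C
        simpa using this
  have hint1 : ∀ r : ℝ, Integrable (fun x => (w x : ℂ) * Complex.exp (Complex.I * (s * V x + r * U x : ℝ))) μ := by
    intro r
    refine Integrable.mono' (integrable_const C) (hwc.mul (aesm_exp ((hV.1.const_mul s).add (hU.1.const_mul r)))) ?_
    refine Eventually.of_forall fun x => ?_
    rw [norm_mul, norm_exp_I, mul_one]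
    exact hb1 x
  have hint2 : ∀ r : ℝ, Integrable (fun x => (w x : ℂ) * Complex.exp (Complex.I * (s * V x : ℝ)) *
        Complex.exp (-(r ^ 2 * v x / 2 : ℝ))) μ := by
    intro r
    refine Integrable.mono' (integrable_const C) ((hwc.mul hE).mul ?_) ?_
    · have h2 : AEMeasurable (fun x => (-(r ^ 2 * v x / 2 : ℝ) : ℂ)) μ := by
        have h3 : AEMeasurable (fun x => (r ^ 2 * v x / 2 : ℝ)) μ :=
          (hv.aemeasurable.const_mul _).div_const _
        exact (Complex.measurable_ofReal.comp_aemeasurable h3).neg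
      exact (Complex.measurable_exp.comp_aemeasurable h2).aestronglyMeasurable
    · refine Eventually.of_forall fun x => ?_
      rw [norm_mul, norm_mul, norm_exp_I, mul_one]
      have h1 : Complex.exp (-(r ^ 2 * v x / 2 : ℝ)) = ((Real.exp (-(r ^ 2 * v x / 2)) : ℝ) : ℂ) := by
        push_cast; rfl
      have h3 : ‖((Real.exp (-(r ^ 2 * v x / 2)) : ℝ) : ℂ)‖ = Real.exp (-(r ^ 2 * v x / 2)) := by
        rw [Complex.norm_real, Real.norm_eq_abs, abs_of_pos (Real.exp_pos _)]
      rw [h1, h3]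
      have h2 : Real.exp (-(r ^ 2 * v x / 2)) ≤ 1 :=
        Real.exp_le_one_iff.2 (by have := hv0 x; have : 0 ≤ r ^ 2 * v x / 2 := by positivity
                                  linarith)
      calc ‖(w x : ℂ)‖ * Real.exp (-(r ^ 2 * v x / 2)) ≤ C * 1 :=
            mul_le_mul (hb1 x) h2 (Real.exp_pos _).le hC
        _ = C := mul_one C
  have heq : ∀ n, ∫ x, (w x : ℂ) * Complex.exp (Complex.I * (s * V x : ℝ)) *
      ((Complex.exp (Complex.I * (t n * U x : ℝ)) - 1) / (t n : ℂ)) ∂μ =
      ∫ x, (w x : ℂ) * Complex.exp (Complex.I * (s * V x : ℝ)) *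
      ((Complex.exp (-(t n ^ 2 * v x / 2 : ℝ)) - 1) / (t n : ℂ)) ∂μ := by
    intro n
    have e1 : ∀ x, (w x : ℂ) * Complex.exp (Complex.I * (s * V x : ℝ)) *
      ((Complex.exp (Complex.I * (t n * U x : ℝ)) - 1) / (t n : ℂ)) = (1 / (t n : ℂ)) *
      ((w x : ℂ) * Complex.exp (Complex.I * (s * V x + t n * U x : ℝ)) -
        (w x : ℂ) * Complex.exp (Complex.I * (s * V x + 0 * U x : ℝ))) := by
      intro x
      have : Complex.exp (Complex.I * (s * V x + t n * U x : ℝ)) =
          Complex.exp (Complex.I * (s * V x : ℝ)) * Complex.exp (Complex.I * (t n * U x : ℝ)) := by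
        rw [← Complex.exp_add]; congr 1; push_cast; ring
      rw [this]
      simp only [zero_mul, add_zero]
      ring
    have e2 : ∀ x, (w x : ℂ) * Complex.exp (Complex.I * (s * V x : ℝ)) *
      ((Complex.exp (-(t n ^ 2 * v x / 2 : ℝ)) - 1) / (t n : ℂ)) = (1 / (t n : ℂ)) *
      ((w x : ℂ) * Complex.exp (Complex.I * (s * V x : ℝ)) * Complex.exp (-(t n ^ 2 * v x / 2 : ℝ)) -
        (w x : ℂ) * Complex.exp (Complex.I * (s * V x : ℝ)) * Complex.exp (-((0 : ℝ) ^ 2 * v x / 2 : ℝ))) := by
      intro x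
      simp only [ne_eq, OfNat.ofNat_ne_zero, not_false_eq_true, zero_pow, zero_mul, zero_div,
        Complex.ofReal_zero, neg_zero, Complex.exp_zero, mul_one]
      ring
    simp_rw [e1, e2]
    rw [integral_const_mul, integral_const_mul, integral_sub (hint1 _) (hint1 _),
      integral_sub (hint2 _) (hint2 _), H s (t n), H s 0]
  have h0 := tendsto_nhds_unique (L.congr heq) R
  simp only [integral_zero] at h0
  have h1 : ∫ x, (w x : ℂ) * Complex.exp (Complex.I * (s * V x : ℝ)) * (Complex.I * U x) ∂μ =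
      Complex.I * ∫ x, (w x : ℂ) * U x * Complex.exp (Complex.I * (s * V x : ℝ)) ∂μ := by
    rw [← integral_const_mul]
    congr 1
    ext x
    ring
  rw [h1] at h0
  exact (mul_eq_zero.1 h0).resolve_left Complex.I_ne_zero

omit [IsFiniteMeasure μ] in
theorem ofReal_integral_eq {f : X → ℝ} : ((∫ x, f x ∂μ : ℝ) : ℂ) = ∫ x, (f x : ℂ) ∂μ :=
  (integral_ofReal (f := f) (μ := μ) (𝕜 := ℂ)).symm

/-- `∫ w U = 0`. -/
theorem mom_one {C : ℝ} (hw : AEStronglyMeasurable w μ) (hwb : ∀ x, |w x| ≤ C)
    (hU : MemLp U 2 μ) (hv : AEStronglyMeasurable v μ) {D : ℝ}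
    (hv0 : ∀ x, 0 ≤ v x) (hvb : ∀ x, v x ≤ D)
    (H : ∀ t : ℝ, ∫ x, (w x : ℂ) * Complex.exp (Complex.I * (t * U x : ℝ)) ∂μ =
      ∫ x, (w x : ℂ) * Complex.exp (-(t ^ 2 * v x / 2 : ℝ)) ∂μ) :
    ∫ x, w x * U x ∂μ = 0 := by
  have h := mom1 (μ := μ) (w := w) (U := U) (V := fun _ => 0) hw hwb hU (memLp_const 0) hv hv0 hvb
    (by
      intro s t
      have := H t
      simpa using this) 0
  have h2 : ((∫ x, w x * U x ∂μ : ℝ) : ℂ) = 0 := by
    rw [ofReal_integral_eq, ← h]
    congr 1
    ext x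
    simp
  exact_mod_cast h2

/-- `∫ w U V = 0`. -/
theorem mom_cross {C : ℝ} (hw : AEStronglyMeasurable w μ) (hwb : ∀ x, |w x| ≤ C)
    (hU : MemLp U 2 μ) (hV : MemLp V 2 μ) (hv : AEStronglyMeasurable v μ) {D : ℝ}
    (hv0 : ∀ x, 0 ≤ v x) (hvb : ∀ x, v x ≤ D)
    (H : ∀ s t : ℝ, ∫ x, (w x : ℂ) * Complex.exp (Complex.I * (s * V x + t * U x : ℝ)) ∂μ =
      ∫ x, (w x : ℂ) * Complex.exp (Complex.I * (s * V x : ℝ)) *
        Complex.exp (-(t ^ 2 * v x / 2 : ℝ)) ∂μ) :
    ∫ x, w x * (U x * V x) ∂μ = 0 := by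
  have h := mom1 (μ := μ) hw hwb hU hV hv hv0 hvb H
  set t : ℕ → ℝ := fun n => 1 / ((n : ℝ) + 1) with htdef
  have ht : Tendsto t atTop (𝓝 0) := tendsto_one_div_add_atTop_nhds_zero_nat
  have htp : ∀ n, 0 < t n := fun n => by
    simp only [htdef]; positivity
  have ht0 : ∀ n, t n ≠ 0 := fun n => (htp n).ne'
  have hnt : ∀ n, ‖(t n : ℂ)‖ = t n := fun n => by
    rw [Complex.norm_real, Real.norm_eq_abs, abs_of_pos (htp n)]
  have hwc : AEStronglyMeasurable (fun x => (w x : ℂ)) μ :=
    (Complex.measurable_ofReal.comp_aemeasurable hw.aemeasurable).aestronglyMeasurable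
  have hUc : AEStronglyMeasurable (fun x => (U x : ℂ)) μ :=
    (Complex.measurable_ofReal.comp_aemeasurable hU.1.aemeasurable).aestronglyMeasurable
  have hb1 : ∀ x, ‖(w x : ℂ)‖ ≤ C := fun x => by
    rw [Complex.norm_real]; exact hwb x
  have hUi : Integrable U μ := hU.integrable (by norm_num)
  have hUV : Integrable (fun x => U x * V x) μ := hU.integrable_mul hV
  have L : Tendsto (fun n => ∫ x, (w x : ℂ) * U x *
      ((Complex.exp (Complex.I * (t n * V x : ℝ)) - 1) / (t n : ℂ)) ∂μ) atTop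
      (𝓝 (∫ x, (w x : ℂ) * U x * (Complex.I * V x) ∂μ)) := by
    apply tendsto_integral_of_dominated_convergence (fun x => C * |U x * V x|)
    · intro n
      refine (hwc.mul hUc).mul ?_
      have h1 : AEStronglyMeasurable (fun x => Complex.exp (Complex.I * (t n * V x : ℝ)) - 1) μ :=
        (aesm_exp (hV.1.const_mul (t n))).sub aestronglyMeasurable_const
      exact (h1.mul_const ((t n : ℂ)⁻¹)).congr
        (Eventually.of_forall fun x => (div_eq_mul_inv _ _).symm)
    · exact hUV.norm.const_mul C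
    · intro n
      refine Eventually.of_forall fun x => ?_
      have h1 : ‖(Complex.exp (Complex.I * (t n * V x : ℝ)) - 1) / (t n : ℂ)‖ ≤ |V x| := by
        rw [norm_div, hnt n, div_le_iff₀ (htp n)]
        refine (norm_exp_I_sub_one_le _).trans ?_
        rw [abs_mul, abs_of_pos (htp n), mul_comm]
      have h2 : ‖(U x : ℂ)‖ = |U x| := by rw [Complex.norm_real, Real.norm_eq_abs]
      rw [norm_mul, norm_mul, h2, abs_mul, mul_assoc]
      exact mul_le_mul (hb1 x) (mul_le_mul_of_nonneg_left h1 (abs_nonneg _)) (by positivity)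
        ((norm_nonneg _).trans (hb1 x))
    · exact Eventually.of_forall fun x => (tendsto_quot _ ht ht0).const_mul _
  have hint : ∀ s : ℝ, Integrable (fun x => (w x : ℂ) * U x *
      Complex.exp (Complex.I * (s * V x : ℝ))) μ := by
    intro s
    refine Integrable.mono' (hUi.norm.const_mul C)
      ((hwc.mul hUc).mul (aesm_exp (hV.1.const_mul s))) (Eventually.of_forall fun x => ?_)
    have h2 : ‖(U x : ℂ)‖ = ‖U x‖ := by rw [Complex.norm_real]
    rw [norm_mul, norm_exp_I, mul_one, norm_mul, h2]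
    exact mul_le_mul_of_nonneg_right (hb1 x) (norm_nonneg _)
  have heq : ∀ n, ∫ x, (w x : ℂ) * U x *
      ((Complex.exp (Complex.I * (t n * V x : ℝ)) - 1) / (t n : ℂ)) ∂μ = 0 := by
    intro n
    have e1 : ∀ x, (w x : ℂ) * U x *
      ((Complex.exp (Complex.I * (t n * V x : ℝ)) - 1) / (t n : ℂ)) = (1 / (t n : ℂ)) *
      ((w x : ℂ) * U x * Complex.exp (Complex.I * (t n * V x : ℝ)) -
        (w x : ℂ) * U x * Complex.exp (Complex.I * ((0 : ℝ) * V x : ℝ))) := by
      intro x
      simp only [zero_mul, Complex.ofReal_zero, mul_zero, Complex.exp_zero, mul_one]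
      ring
    simp_rw [e1]
    rw [integral_const_mul, integral_sub (hint _) (hint _), h (t n), h 0]
    simp
  have h0 : ∫ x, (w x : ℂ) * U x * (Complex.I * V x) ∂μ = 0 :=
    tendsto_nhds_unique L (by simp_rw [heq]; exact tendsto_const_nhds)
  have h1 : ∫ x, (w x : ℂ) * U x * (Complex.I * V x) ∂μ =
      Complex.I * ((∫ x, w x * (U x * V x) ∂μ : ℝ) : ℂ) := by
    rw [ofReal_integral_eq, ← integral_const_mul]
    congr 1
    ext x
    push_cast
    ring
  rw [h1] at h0
  exact_mod_cast (mul_eq_zero.1 h0).resolve_left Complex.I_ne_zero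

theorem two_cos_bound (x : ℝ) : |2 * Real.cos x - 2| ≤ x ^ 2 := by
  have h1 := Real.one_sub_sq_div_two_le_cos (x := x)
  have h2 := Real.cos_le_one x
  rw [abs_le]
  constructor <;> nlinarith [sq_nonneg x]

theorem tendsto_cos_quot (x : ℝ) {t : ℕ → ℝ} (ht : Tendsto t atTop (𝓝 0)) (ht0 : ∀ n, t n ≠ 0) :
    Tendsto (fun n => (2 * Real.cos (t n * x) - 2) / t n ^ 2) atTop (𝓝 (-x ^ 2)) := by
  -- `1 - cos y = 2 sin² (y/2)`
  have h1 : ∀ n, (2 * Real.cos (t n * x) - 2) / t n ^ 2 = -(Real.sin (t n * x / 2) / (t n / 2)) ^ 2 := by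
    intro n
    have h2 : Real.cos (t n * x) = 1 - 2 * Real.sin (t n * x / 2) ^ 2 := by
      have := Real.cos_sq_add_sin_sq (t n * x / 2)
      have h3 := Real.cos_two_mul (t n * x / 2)
      rw [show 2 * (t n * x / 2) = t n * x by ring] at h3
      linarith
    rw [h2]
    have := ht0 n
    field_simp
    ring
  simp_rw [h1]
  have h4 : HasDerivAt (fun y : ℝ => Real.sin (y * x)) x 0 := by
    have h5 : HasDerivAt (fun y : ℝ => y * x) x 0 := by
      simpa using (hasDerivAt_id (0 : ℝ)).mul_const x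
    have := h5.sin
    simpa using this
  have h6 := h4.tendsto_slope
  have h7 : Tendsto (fun n => t n / 2) atTop (𝓝[≠] 0) :=
    tendsto_nhdsWithin_iff.2 ⟨by simpa using ht.div_const 2,
      Eventually.of_forall fun n => div_ne_zero (ht0 n) two_ne_zero⟩
  have h8 := (h6.comp h7).pow 2
  refine (h8.neg).congr fun n => ?_
  simp only [Function.comp, slope_def_field, zero_mul, Real.sin_zero, sub_zero]
  congr 3
  ring_nf

/-- `∫ w U² = ∫ w v`. -/
theorem mom_two {C : ℝ} (hw : AEStronglyMeasurable w μ) (hwb : ∀ x, |w x| ≤ C)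
    (hU : MemLp U 2 μ) (hv : AEStronglyMeasurable v μ) {D : ℝ}
    (hv0 : ∀ x, 0 ≤ v x) (hvb : ∀ x, v x ≤ D)
    (H : ∀ t : ℝ, ∫ x, (w x : ℂ) * Complex.exp (Complex.I * (t * U x : ℝ)) ∂μ =
      ∫ x, (w x : ℂ) * Complex.exp (-(t ^ 2 * v x / 2 : ℝ)) ∂μ) :
    ∫ x, w x * U x ^ 2 ∂μ = ∫ x, w x * v x ∂μ := by
  set t : ℕ → ℝ := fun n => 1 / ((n : ℝ) + 1) with htdef
  have ht : Tendsto t atTop (𝓝 0) := tendsto_one_div_add_atTop_nhds_zero_nat
  have htp : ∀ n, 0 < t n := fun n => by
    simp only [htdef]; positivity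
  have ht0 : ∀ n, t n ≠ 0 := fun n => (htp n).ne'
  have hwc : AEStronglyMeasurable (fun x => (w x : ℂ)) μ :=
    (Complex.measurable_ofReal.comp_aemeasurable hw.aemeasurable).aestronglyMeasurable
  have hb1 : ∀ x, ‖(w x : ℂ)‖ ≤ C := fun x => by
    rw [Complex.norm_real]; exact hwb x
  have hU2 : Integrable (fun x => U x ^ 2) μ := hU.integrable_sq
  -- real form of `H`
  have hint1 : ∀ r : ℝ, Integrable (fun x => (w x : ℂ) * Complex.exp (Complex.I * (r * U x : ℝ))) μ := by
    intro r
    refine Integrable.mono' (integrable_const C) (hwc.mul (aesm_exp (hU.1.const_mul r))) ?_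
    refine Eventually.of_forall fun x => ?_
    rw [norm_mul, norm_exp_I, mul_one]
    exact hb1 x
  have Hre : ∀ t : ℝ, ∫ x, w x * (2 * Real.cos (t * U x) - 2) ∂μ =
      ∫ x, w x * (2 * (Real.exp (-(t ^ 2 * v x / 2)) - 1)) ∂μ := by
    intro t
    have h1 : ((∫ x, w x * (2 * Real.cos (t * U x) - 2) ∂μ : ℝ) : ℂ) =
        ((∫ x, w x * (2 * (Real.exp (-(t ^ 2 * v x / 2)) - 1)) ∂μ : ℝ) : ℂ) := by
      rw [ofReal_integral_eq, ofReal_integral_eq]
      have e1 : ∀ x, ((w x * (2 * Real.cos (t * U x) - 2) : ℝ) : ℂ) =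
          ((w x : ℂ) * Complex.exp (Complex.I * (t * U x : ℝ)) +
          (w x : ℂ) * Complex.exp (Complex.I * ((-t) * U x : ℝ))) -
            2 * ((w x : ℂ) * Complex.exp (Complex.I * ((0 : ℝ) * U x : ℝ))) := by
        intro x
        push_cast
        rw [Complex.two_cos]
        simp only [zero_mul, mul_zero, Complex.exp_zero]
        rw [show Complex.I * ((t : ℂ) * (U x : ℂ)) = (t : ℂ) * (U x : ℂ) * Complex.I by ring,
          show Complex.I * (-(t : ℂ) * (U x : ℂ)) = -((t : ℂ) * (U x : ℂ)) * Complex.I by ring]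
        ring
      have hint2 : ∀ r : ℝ, Integrable (fun x => (w x : ℂ) *
            Complex.exp (-(r ^ 2 * v x / 2 : ℝ))) μ := by
        intro r
        refine Integrable.mono' (integrable_const C) (hwc.mul ?_) ?_
        · have h2 : AEMeasurable (fun x => (-(r ^ 2 * v x / 2 : ℝ) : ℂ)) μ := by
            have h3 : AEMeasurable (fun x => (r ^ 2 * v x / 2 : ℝ)) μ :=
              (hv.aemeasurable.const_mul _).div_const _
            exact (Complex.measurable_ofReal.comp_aemeasurable h3).neg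
          exact (Complex.measurable_exp.comp_aemeasurable h2).aestronglyMeasurable
        · refine Eventually.of_forall fun x => ?_
          have h1 : Complex.exp (-(r ^ 2 * v x / 2 : ℝ)) = ((Real.exp (-(r ^ 2 * v x / 2)) : ℝ) : ℂ) := by
            push_cast; rfl
          have h3 : ‖((Real.exp (-(r ^ 2 * v x / 2)) : ℝ) : ℂ)‖ = Real.exp (-(r ^ 2 * v x / 2)) := by
            rw [Complex.norm_real, Real.norm_eq_abs, abs_of_pos (Real.exp_pos _)]
          rw [norm_mul, h1, h3]
          have h2 : Real.exp (-(r ^ 2 * v x / 2)) ≤ 1 :=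
            Real.exp_le_one_iff.2 (by have := hv0 x; have : 0 ≤ r ^ 2 * v x / 2 := by positivity
                                      linarith)
          calc ‖(w x : ℂ)‖ * Real.exp (-(r ^ 2 * v x / 2)) ≤ C * 1 :=
                mul_le_mul (hb1 x) h2 (Real.exp_pos _).le ((norm_nonneg _).trans (hb1 x))
            _ = C := mul_one C
      have e2 : ∀ x, ((w x * (2 * (Real.exp (-(t ^ 2 * v x / 2)) - 1)) : ℝ) : ℂ) =
          ((w x : ℂ) * Complex.exp (-(t ^ 2 * v x / 2 : ℝ)) +
          (w x : ℂ) * Complex.exp (-((-t) ^ 2 * v x / 2 : ℝ))) -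
            2 * ((w x : ℂ) * Complex.exp (-((0 : ℝ) ^ 2 * v x / 2 : ℝ))) := by
        intro x
        push_cast
        simp only [ne_eq, OfNat.ofNat_ne_zero, not_false_eq_true, zero_pow, zero_mul, zero_div,
          neg_zero, Complex.exp_zero, neg_sq]
        ring
      simp_rw [e1, e2]
      have gen : ∀ a b c : X → ℂ, Integrable a μ → Integrable b μ → Integrable c μ →
          ∫ x, (a x + b x - 2 * c x) ∂μ = ∫ x, a x ∂μ + ∫ x, b x ∂μ - 2 * ∫ x, c x ∂μ := by
        intro a b c ha hb hc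
        have h1 : ∫ x, (a x + b x - 2 * c x) ∂μ = ∫ x, (a x + b x) ∂μ - ∫ x, 2 * c x ∂μ :=
          integral_sub (ha.add hb) (hc.const_mul 2)
        rw [h1, integral_add ha hb, integral_const_mul]
      rw [gen _ _ _ (hint1 _) (hint1 _) (hint1 _), gen _ _ _ (hint2 _) (hint2 _) (hint2 _),
        H t, H (-t), H 0]
    exact_mod_cast h1
  have L : Tendsto (fun n => ∫ x, w x * ((2 * Real.cos (t n * U x) - 2) / t n ^ 2) ∂μ) atTop
      (𝓝 (∫ x, w x * (-(U x) ^ 2) ∂μ)) := by
    apply tendsto_integral_of_dominated_convergence (fun x => C * U x ^ 2)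
    · intro n
      refine hw.mul ?_
      have h1 : AEMeasurable (fun x => (2 * Real.cos (t n * U x) - 2) / t n ^ 2) μ :=
        (((Real.measurable_cos.comp_aemeasurable (hU.1.aemeasurable.const_mul _)).const_mul _).sub_const
          _).div_const _
      exact h1.aestronglyMeasurable
    · exact hU2.const_mul C
    · intro n
      refine Eventually.of_forall fun x => ?_
      rw [norm_mul, Real.norm_eq_abs, Real.norm_eq_abs]
      refine mul_le_mul (hwb x) ?_ (abs_nonneg _) ((abs_nonneg _).trans (hwb x))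
      rw [abs_div, abs_of_pos (pow_pos (htp n) 2), div_le_iff₀ (pow_pos (htp n) 2)]
      refine (two_cos_bound _).trans (le_of_eq ?_)
      ring
    · exact Eventually.of_forall fun x => (tendsto_cos_quot _ ht ht0).const_mul _
  have R : Tendsto (fun n => ∫ x, w x * ((2 * (Real.exp (-(t n ^ 2 * v x / 2)) - 1)) / t n ^ 2) ∂μ)
      atTop (𝓝 (∫ x, w x * (-(v x)) ∂μ)) := by
    apply tendsto_integral_of_dominated_convergence (fun x => C * D)
    · intro n
      refine hw.mul ?_
      have h1 : AEMeasurable (fun x => (2 * (Real.exp (-(t n ^ 2 * v x / 2)) - 1)) / t n ^ 2) μ :=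
        (((Real.measurable_exp.comp_aemeasurable
          (((hv.aemeasurable.const_mul _).div_const _).neg)).sub_const _).const_mul _).div_const _
      exact h1.aestronglyMeasurable
    · exact integrable_const _
    · intro n
      refine Eventually.of_forall fun x => ?_
      rw [norm_mul, Real.norm_eq_abs, Real.norm_eq_abs]
      refine mul_le_mul (hwb x) ?_ (abs_nonneg _) ((abs_nonneg _).trans (hwb x))
      rw [abs_div, abs_of_pos (pow_pos (htp n) 2), div_le_iff₀ (pow_pos (htp n) 2)]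
      have h0 : 0 ≤ t n ^ 2 * v x := mul_nonneg (sq_nonneg _) (hv0 x)
      have h1 := Real.add_one_le_exp (-(t n ^ 2 * v x / 2))
      have h2 := Real.exp_le_one_iff.2 (neg_nonpos.2 (by positivity : 0 ≤ t n ^ 2 * v x / 2))
      have h3 : t n ^ 2 * v x ≤ t n ^ 2 * D := mul_le_mul_of_nonneg_left (hvb x) (sq_nonneg _)
      rw [abs_le]
      constructor <;> nlinarith
    · refine Eventually.of_forall fun x => Tendsto.const_mul _ ?_
      have h1 : HasDerivAt (fun y : ℝ => 2 * Real.exp (-(y * v x / 2))) (-(v x)) 0 := by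
        have h2 : HasDerivAt (fun y : ℝ => -(y * v x / 2)) (-(v x / 2)) 0 := by
          have := (((hasDerivAt_id (0 : ℝ)).mul_const (v x)).div_const 2).fun_neg
          simpa using this
        have h3 := h2.exp.const_mul 2
        have h4 : 2 * (Real.exp (-(0 * v x / 2)) * -(v x / 2)) = -(v x) := by
          simp only [zero_mul, zero_div, neg_zero, Real.exp_zero]
          ring
        rw [h4] at h3
        exact h3
      have h6 := h1.tendsto_slope
      have h7 : Tendsto (fun n => t n ^ 2) atTop (𝓝[≠] 0) :=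
        tendsto_nhdsWithin_iff.2 ⟨by simpa using ht.pow 2,
          Eventually.of_forall fun n => pow_ne_zero _ (ht0 n)⟩
      refine (h6.comp h7).congr fun n => ?_
      simp only [Function.comp, slope_def_field, zero_mul, zero_div, neg_zero, Real.exp_zero,
        sub_zero]
      ring
  have heq : ∀ n, ∫ x, w x * ((2 * Real.cos (t n * U x) - 2) / t n ^ 2) ∂μ =
      ∫ x, w x * ((2 * (Real.exp (-(t n ^ 2 * v x / 2)) - 1)) / t n ^ 2) ∂μ := by
    intro n
    have := Hre (t n)
    have e : ∀ f : X → ℝ, ∫ x, w x * (f x / t n ^ 2) ∂μ = (∫ x, w x * f x ∂μ) / t n ^ 2 := by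
      intro f
      rw [← integral_div]
      congr 1
      ext x
      ring
    rw [e, e, this]
  have h0 := tendsto_nhds_unique (L.congr heq) R
  simp only [mul_neg, integral_neg] at h0
  linarith

end Vale.Agent.P155.Uq
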