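import Vale.Agent.P155.U.Iface5
import Vale.Agent.P155.U.Mom
import Vale.Agent.P155.U.Mea
import Vale.Agent.P155.U.Vk

/-!
# P155, block U (CM): conditional second moments with random weights
-/

namespace Vale.Agent.P155.Uq

open MeasureTheory Filter Topology TopologicalSpace

section
variable {Ω : Set ℂ}

theorem abs_pr_le {f : Fld Ω} {k : ℝ}
    (hf : ∀ᵐ z ∂(volume.restrict Ω : Measure ℂ), |f z| ≤ k) {φ : ℂ → ℝ} (hφ : IsTest Ω φ) :
    |pr f φ| ≤ k * ∫ z in Ω, |φ z| := by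
  have hi : IntegrableOn (fun z => |φ z|) Ω :=
    (hφ.1.continuous.integrable_of_hasCompactSupport hφ.2.1).abs.integrableOn
  have h := norm_integral_le_of_norm_le (hi.const_mul k) (f := fun z => f z * φ z) (by
    filter_upwards [hf] with z hz
    rw [Real.norm_eq_abs, abs_mul]
    exact mul_le_mul_of_nonneg_right hz (abs_nonneg _))
  rw [integral_const_mul] at h
  exact h

theorem memLp_pr {Q : Measure (Sp Ω)} (hQ : Canon Ω Q) (k : ℕ) {φ : ℂ → ℝ} (hφ : IsTest Ω φ) :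
    MemLp (fun s : Sp Ω => pr (s k).2 φ) 2 Q := by
  have := hQ.prob
  apply MemLp.of_bound ((measurable_pr hφ).comp (measurable_field k)).aestronglyMeasurable
    (k * ∫ z in Ω, |φ z|)
  filter_upwards [hQ.bdd] with s hs
  exact abs_pr_le (hs k) hφ

theorem pr_lin (f : Fld Ω) {φ ψ : ℂ → ℝ} (hφ : IsTest Ω φ) (hψ : IsTest Ω ψ) (a b : ℝ) :
    pr f (fun z => a * φ z + b * ψ z) = a * pr f φ + b * pr f ψ := by
  unfold pr
  rw [← integral_const_mul, ← integral_const_mul,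
    ← integral_add ((integrable_pr f hφ).const_mul a) ((integrable_pr f hψ).const_mul b)]
  congr 1
  funext z
  ring

/-- The bilinear form of the covariance. -/
noncomputable def bil (R : (ℂ → ℝ) → HL) (K : Set ℂ) (φ ψ : ℂ → ℝ) : ℝ :=
  inner ℝ ((GV (Ω \ K)).starProjection (R φ)) (R ψ)

theorem inner_proj (V : Submodule ℝ HL) [V.HasOrthogonalProjection] (f g : HL) :
    inner ℝ (V.starProjection f) g = inner ℝ (V.starProjection f) (V.starProjection g) := by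
  rw [U.polar_proj]
  have h := U.polar_proj V f (V.starProjection g)
  have hp : V.starProjection (V.starProjection g) = V.starProjection g :=
    Submodule.starProjection_eq_self_iff.2 (Submodule.starProjection_apply_mem V g)
  rw [h, map_add, map_sub, map_add, map_sub, hp]

theorem bil_self {R : (ℂ → ℝ) → HL} (hR : IsR Ω R) (K : Set ℂ) {φ : ℂ → ℝ} (hφ : IsTest Ω φ) :
    bil (Ω := Ω) R K φ φ = greenEnergy (Ω \ K) φ := by
  rw [hR.energy _ Set.sdiff_subset φ hφ, bil, inner_proj, real_inner_self_eq_norm_sq]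

theorem abs_bil_le (R : (ℂ → ℝ) → HL) (K : Set ℂ) (φ ψ : ℂ → ℝ) :
    |bil (Ω := Ω) R K φ ψ| ≤ ‖R φ‖ * ‖R ψ‖ := by
  unfold bil
  refine (abs_real_inner_le_norm _ _).trans ?_
  exact mul_le_mul_of_nonneg_right (Submodule.norm_starProjection_apply_le _ _) (norm_nonneg _)

theorem bil_symm (R : (ℂ → ℝ) → HL) (K : Set ℂ) (φ ψ : ℂ → ℝ) :
    bil (Ω := Ω) R K φ ψ = bil (Ω := Ω) R K ψ φ := by
  unfold bil
  rw [inner_proj, real_inner_comm, ← inner_proj]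

theorem bil_lin {R : (ℂ → ℝ) → HL} (hR : IsR Ω R) (K : Set ℂ) {φ ψ χ : ℂ → ℝ} (hφ : IsTest Ω φ)
    (hψ : IsTest Ω ψ) (a b : ℝ) :
    bil (Ω := Ω) R K (fun z => a * φ z + b * ψ z) χ =
      a * bil (Ω := Ω) R K φ χ + b * bil (Ω := Ω) R K ψ χ := by
  unfold bil
  rw [hR.lin φ ψ hφ hψ, map_add, map_smul, map_smul, inner_add_left, real_inner_smul_left,
    real_inner_smul_left]

theorem meas_bil {R : (ℂ → ℝ) → HL} (hΩ : IsOpen Ω) (hb : Bornology.IsBounded Ω) (hR : IsR Ω R)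
    (k : ℕ) (φ ψ : ℂ → ℝ) :
    Measurable (fun s : Sp Ω => bil (Ω := Ω) R ((s k).1 : Set ℂ) φ ψ) :=
  (U.meaStmt Ω hΩ hb (R φ) (R ψ) (hR.mem φ) (hR.mem ψ)).comp (measurable_carpet k)

/-- Finite linear combinations. -/
theorem R_sum {R : (ℂ → ℝ) → HL} (hR : IsR Ω R) {ι : Type*} (t : Finset ι) (c : ι → ℝ)
    (φ : ι → ℂ → ℝ) (hφ : ∀ i ∈ t, IsTest Ω (φ i)) :
    IsTest Ω (fun z => ∑ i ∈ t, c i * φ i z) ∧
      R (fun z => ∑ i ∈ t, c i * φ i z) = ∑ i ∈ t, c i • R (φ i) := by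
  classical
  have h0 : IsTest Ω (fun _ : ℂ => (0 : ℝ)) := U.isTest_zero Ω
  induction t using Finset.induction_on with
  | empty =>
    simp only [Finset.sum_empty]
    refine ⟨h0, ?_⟩
    have := hR.lin _ _ h0 h0 0 0
    simpa using this
  | insert a t ha ih =>
    obtain ⟨h1, h2⟩ := ih (fun i hi => hφ i (Finset.mem_insert_of_mem hi))
    have h3 := hφ a (Finset.mem_insert_self _ _)
    have e : (fun z => ∑ i ∈ insert a t, c i * φ i z) =
        fun z => c a * φ a z + 1 * ∑ i ∈ t, c i * φ i z := by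
      funext z
      rw [Finset.sum_insert ha, one_mul]
    rw [e, Finset.sum_insert ha]
    refine ⟨U.test_comb h3 h1 _ _, ?_⟩
    rw [hR.lin _ _ h3 h1, h2, one_smul]

theorem green_sum {R : (ℂ → ℝ) → HL} (hR : IsR Ω R) (K : Set ℂ) {ι : Type*} (t : Finset ι)
    (c : ι → ℝ) (φ : ι → ℂ → ℝ) (hφ : ∀ i ∈ t, IsTest Ω (φ i)) :
    greenEnergy (Ω \ K) (fun z => ∑ i ∈ t, c i * φ i z) =
      ∑ i ∈ t, ∑ j ∈ t, c i * c j * bil (Ω := Ω) R K (φ i) (φ j) := by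
  obtain ⟨h1, h2⟩ := R_sum hR t c φ hφ
  rw [← bil_self hR K h1, bil, h2, map_sum, sum_inner]
  apply Finset.sum_congr rfl
  intro i _
  rw [inner_sum]
  apply Finset.sum_congr rfl
  intro j _
  rw [map_smul, real_inner_smul_left, real_inner_smul_right, bil]
  ring

end

/-- The centred field. -/
noncomputable def Uc {Ω : Set ℂ} {R : (ℂ → ℝ) → HL} (hR : IsR Ω R) {Q : Measure (Sp Ω)}
    (W : GV Ω →ₗᵢ[ℝ] Lp ℝ 2 Q) (k : ℕ) (φ : ℂ → ℝ) (s : Sp Ω) : ℝ :=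
  (W ⟨R φ, hR.mem φ⟩ : Sp Ω → ℝ) s - cst * pr (s k).2 φ

section
variable {Ω : Set ℂ} {R : (ℂ → ℝ) → HL} (hR : IsR Ω R) {Q : Measure (Sp Ω)}
  (W : GV Ω →ₗᵢ[ℝ] Lp ℝ 2 Q) (k : ℕ)

theorem Uc_memLp (hQ : Canon Ω Q) {φ : ℂ → ℝ} (hφ : IsTest Ω φ) : MemLp (Uc hR W k φ) 2 Q :=
  (Lp.memLp _).sub ((memLp_pr hQ k hφ).const_mul cst)

theorem Uc_lin {φ ψ : ℂ → ℝ} (hφ : IsTest Ω φ) (hψ : IsTest Ω ψ) (a b : ℝ) :
    Uc hR W k (fun z => a * φ z + b * ψ z) =ᵐ[Q]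
      fun s => a * Uc hR W k φ s + b * Uc hR W k ψ s := by
  have e : (⟨R (fun z => a * φ z + b * ψ z), hR.mem _⟩ : GV Ω) =
      a • ⟨R φ, hR.mem φ⟩ + b • ⟨R ψ, hR.mem ψ⟩ := by
    apply Subtype.ext
    exact hR.lin φ ψ hφ hψ a b
  have e2 : W ⟨R (fun z => a * φ z + b * ψ z), hR.mem _⟩ =
      a • W ⟨R φ, hR.mem φ⟩ + b • W ⟨R ψ, hR.mem ψ⟩ := by
    rw [e, map_add, map_smul, map_smul]
  have h1 := Lp.coeFn_add (a • W ⟨R φ, hR.mem φ⟩) (b • W ⟨R ψ, hR.mem ψ⟩)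
  have h2 := Lp.coeFn_smul a (W ⟨R φ, hR.mem φ⟩)
  have h3 := Lp.coeFn_smul b (W ⟨R ψ, hR.mem ψ⟩)
  filter_upwards [h1, h2, h3] with s h1 h2 h3
  unfold Uc
  rw [e2, h1, Pi.add_apply, h2, h3, Pi.smul_apply, Pi.smul_apply, smul_eq_mul, smul_eq_mul,
    pr_lin _ hφ hψ]
  ring

/-- The hypothesis of `CmStmt`. -/
def CharHyp : Prop :=
  ∀ (φ : ℂ → ℝ) (hR' : R φ ∈ GV Ω), IsTest Ω φ → ∀ Ψ : Past Ω k → ℝ, BM Ψ →
      ∫ s, (Ψ (past k s) : ℂ) *
          Complex.exp (Complex.I * ((W ⟨R φ, hR'⟩ s - cst * pr (s k).2 φ : ℝ) : ℂ)) ∂Q =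
        ∫ s, (Ψ (past k s) : ℂ) * Complex.exp (-(greenEnergy (Ω \ (s k).1) φ / 2 : ℝ)) ∂Q

theorem char_scaled (hW : CharHyp (Ω := Ω) (R := R) W k) {φ : ℂ → ℝ} (hφ : IsTest Ω φ)
    {w : Past Ω k → ℝ} (hw : BM w) (t : ℝ) :
    ∫ s, (w (past k s) : ℂ) * Complex.exp (Complex.I * (t * Uc hR W k φ s : ℝ)) ∂Q =
      ∫ s, (w (past k s) : ℂ) *
        Complex.exp (-(t ^ 2 * bil (Ω := Ω) R ((s k).1 : Set ℂ) φ φ / 2 : ℝ)) ∂Q := by
  have ht := U.test_comb hφ hφ t 0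
  have h := hW _ (hR.mem _) ht w hw
  have e1 : ∫ s, (w (past k s) : ℂ) *
      Complex.exp (Complex.I * ((W ⟨R (fun z => t * φ z + 0 * φ z), hR.mem _⟩ s -
        cst * pr (s k).2 (fun z => t * φ z + 0 * φ z) : ℝ) : ℂ)) ∂Q =
      ∫ s, (w (past k s) : ℂ) * Complex.exp (Complex.I * (t * Uc hR W k φ s : ℝ)) ∂Q := by
    apply integral_congr_ae
    filter_upwards [Uc_lin hR W k hφ hφ t 0] with s hs
    have : (W ⟨R (fun z => t * φ z + 0 * φ z), hR.mem _⟩ : Sp Ω → ℝ) s -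
        cst * pr (s k).2 (fun z => t * φ z + 0 * φ z) = t * Uc hR W k φ s := by
      have h2 : (W ⟨R (fun z => t * φ z + 0 * φ z), hR.mem _⟩ : Sp Ω → ℝ) s -
        cst * pr (s k).2 (fun z => t * φ z + 0 * φ z) =
        Uc hR W k (fun z => t * φ z + 0 * φ z) s := rfl
      rw [h2, hs]
      ring
    rw [this]
  have e2 : ∫ s, (w (past k s) : ℂ) *
      Complex.exp (-(greenEnergy (Ω \ (s k).1) (fun z => t * φ z + 0 * φ z) / 2 : ℝ)) ∂Q =
      ∫ s, (w (past k s) : ℂ) *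
        Complex.exp (-(t ^ 2 * bil (Ω := Ω) R ((s k).1 : Set ℂ) φ φ / 2 : ℝ)) ∂Q := by
    congr 1
    funext s
    have : greenEnergy (Ω \ (s k).1) (fun z => t * φ z + 0 * φ z) =
        t ^ 2 * bil (Ω := Ω) R ((s k).1 : Set ℂ) φ φ := by
      rw [← bil_self hR _ ht, bil_lin hR _ hφ hφ, bil_symm R _ φ, bil_lin hR _ hφ hφ]
      ring
    rw [this]
  rw [← e1, h, e2]

theorem meas_w {w : Past Ω k → ℝ} (hw : BM w) : Measurable (fun s : Sp Ω => w (past k s)) := by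
  apply hw.1.comp
  exact measurable_pi_lambda _ fun j => measurable_pi_apply _

theorem second (hΩ : IsOpen Ω) (hb : Bornology.IsBounded Ω) (hQ : Canon Ω Q)
    (hW : CharHyp (Ω := Ω) (R := R) W k) {φ : ℂ → ℝ} (hφ : IsTest Ω φ)
    {w : Past Ω k → ℝ} (hw : BM w) :
    ∫ s, w (past k s) * Uc hR W k φ s ^ 2 ∂Q =
      ∫ s, w (past k s) * bil (Ω := Ω) R ((s k).1 : Set ℂ) φ φ ∂Q := by
  have := hQ.prob
  obtain ⟨C, hC⟩ := hw.2
  exact mom_two (μ := Q) (w := fun s => w (past k s)) (meas_w k hw).aestronglyMeasurable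
    (fun s => hC _) (Uc_memLp hR W k hQ hφ) (meas_bil hΩ hb hR k φ φ).aestronglyMeasurable
    (D := ‖R φ‖ * ‖R φ‖)
    (fun s => by
      rw [bil_self hR _ hφ, hR.energy _ Set.sdiff_subset φ hφ]
      positivity)
    (fun s => (le_abs_self _).trans (abs_bil_le R _ φ φ))
    (fun t => char_scaled hR W k hW hφ hw t)

theorem int_wUU (hQ : Canon Ω Q) {φ ψ : ℂ → ℝ} (hφ : IsTest Ω φ) (hψ : IsTest Ω ψ)
    {w : Past Ω k → ℝ} (hw : BM w) :
    Integrable (fun s => w (past k s) * (Uc hR W k φ s * Uc hR W k ψ s)) Q := by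
  obtain ⟨C, hC⟩ := hw.2
  have h := (Uc_memLp hR W k hQ hφ).integrable_mul (Uc_memLp hR W k hQ hψ)
  exact h.bdd_mul (meas_w k hw).aestronglyMeasurable (Eventually.of_forall fun s => hC _)

omit hR in
theorem int_three {f g h : Sp Ω → ℝ} (hf : Integrable f Q) (hg : Integrable g Q)
    (hh : Integrable h Q) :
    ∫ s, (f s + 2 * g s + h s) ∂Q = ∫ s, f s ∂Q + 2 * ∫ s, g s ∂Q + ∫ s, h s ∂Q := by
  have e1 := integral_add (hf.add (hg.const_mul 2)) hh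
  have e2 := integral_add hf (hg.const_mul 2)
  rw [integral_const_mul] at e2
  simp only [Pi.add_apply] at e1
  rw [e1, e2]

include hR in
theorem int_wB (hΩ : IsOpen Ω) (hb : Bornology.IsBounded Ω) (hQ : Canon Ω Q) (φ ψ : ℂ → ℝ)
    {w : Past Ω k → ℝ} (hw : BM w) :
    Integrable (fun s => w (past k s) * bil (Ω := Ω) R ((s k).1 : Set ℂ) φ ψ) Q := by
  have := hQ.prob
  obtain ⟨C, hC⟩ := hw.2
  have h : Integrable (fun s : Sp Ω => bil (Ω := Ω) R ((s k).1 : Set ℂ) φ ψ) Q :=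
    Integrable.of_bound (meas_bil hΩ hb hR k φ ψ).aestronglyMeasurable (‖R φ‖ * ‖R ψ‖)
      (Eventually.of_forall fun s => abs_bil_le R _ φ ψ)
  exact h.bdd_mul (meas_w k hw).aestronglyMeasurable (Eventually.of_forall fun s => hC _)

theorem cross (hΩ : IsOpen Ω) (hb : Bornology.IsBounded Ω) (hQ : Canon Ω Q)
    (hW : CharHyp (Ω := Ω) (R := R) W k) {φ ψ : ℂ → ℝ} (hφ : IsTest Ω φ) (hψ : IsTest Ω ψ)
    {w : Past Ω k → ℝ} (hw : BM w) :
    ∫ s, w (past k s) * (Uc hR W k φ s * Uc hR W k ψ s) ∂Q =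
      ∫ s, w (past k s) * bil (Ω := Ω) R ((s k).1 : Set ℂ) φ ψ ∂Q := by
  have i11 := int_wUU hR W k hQ hφ hφ hw
  have i12 := int_wUU hR W k hQ hφ hψ hw
  have i22 := int_wUU hR W k hQ hψ hψ hw
  have j11 := int_wB hR k hΩ hb hQ φ φ hw
  have j12 := int_wB hR k hΩ hb hQ φ ψ hw
  have j22 := int_wB hR k hΩ hb hQ ψ ψ hw
  have h1 := second hR W k hΩ hb hQ hW hφ hw
  have h2 := second hR W k hΩ hb hQ hW hψ hw
  have h3 := second hR W k hΩ hb hQ hW (U.test_comb hφ hψ 1 1) hw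
  have e1 : ∫ s, w (past k s) * Uc hR W k (fun z => 1 * φ z + 1 * ψ z) s ^ 2 ∂Q =
      ∫ s, w (past k s) * (Uc hR W k φ s * Uc hR W k φ s) ∂Q +
      2 * ∫ s, w (past k s) * (Uc hR W k φ s * Uc hR W k ψ s) ∂Q +
      ∫ s, w (past k s) * (Uc hR W k ψ s * Uc hR W k ψ s) ∂Q := by
    rw [← int_three i11 i12 i22]
    apply integral_congr_ae
    filter_upwards [Uc_lin hR W k hφ hψ 1 1] with s hs
    rw [hs]
    ring
  have e2 : ∫ s, w (past k s) *
      bil (Ω := Ω) R ((s k).1 : Set ℂ) (fun z => 1 * φ z + 1 * ψ z) (fun z => 1 * φ z + 1 * ψ z) ∂Q =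
      ∫ s, w (past k s) * bil (Ω := Ω) R ((s k).1 : Set ℂ) φ φ ∂Q +
      2 * ∫ s, w (past k s) * bil (Ω := Ω) R ((s k).1 : Set ℂ) φ ψ ∂Q +
      ∫ s, w (past k s) * bil (Ω := Ω) R ((s k).1 : Set ℂ) ψ ψ ∂Q := by
    rw [← int_three j11 j12 j22]
    congr 1
    funext s
    rw [bil_lin hR _ hφ hψ, bil_symm R _ φ, bil_symm R _ ψ, bil_lin hR _ hφ hψ,
      bil_lin hR _ hφ hψ, bil_symm R _ ψ φ]
    ring
  rw [e1, e2] at h3
  simp only [sq] at h1 h2
  linarith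

end

theorem cmStmt : CmStmt := by
  intro Ω hΩ hb _ R hR Q hQ W hW k
  have := hQ.prob
  have hWk : CharHyp (Ω := Ω) (R := R) W k := fun φ hR' hφ Ψ hΨ => hW k φ hR' hφ Ψ hΨ
  constructor
  · intro φ hR' hφ w hw
    obtain ⟨C, hC⟩ := hw.2
    exact mom_one (μ := Q) (w := fun s => w (past k s)) (U := Uc hR W k φ)
      (meas_w k hw).aestronglyMeasurable (fun s => hC _) (Uc_memLp hR W k hQ hφ)
      (meas_bil hΩ hb hR k φ φ).aestronglyMeasurable (D := ‖R φ‖ * ‖R φ‖)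
      (fun s => by
        rw [bil_self hR _ hφ, hR.energy _ Set.sdiff_subset φ hφ]
        positivity)
      (fun s => (le_abs_self _).trans (abs_bil_le R _ φ φ))
      (fun t => char_scaled hR W k hWk hφ hw t)
  · intro ι t w φ hR' hw hφ
    have hBM : ∀ i ∈ t, ∀ j ∈ t, BM (fun p => w i p * w j p) := by
      intro i hi j hj
      obtain ⟨C, hC⟩ := (hw i hi).2
      obtain ⟨D, hD⟩ := (hw j hj).2
      refine ⟨(hw i hi).1.mul (hw j hj).1, |C| * |D|, fun p => ?_⟩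
      rw [abs_mul]
      exact mul_le_mul ((hC p).trans (le_abs_self C)) ((hD p).trans (le_abs_self D))
        (abs_nonneg _) (abs_nonneg _)
    have e1 : ∀ s, (∑ i ∈ t, w i (past k s) *
        ((W ⟨R (φ i), hR' i⟩ : Sp Ω → ℝ) s - cst * pr (s k).2 (φ i))) ^ 2 =
        ∑ i ∈ t, ∑ j ∈ t, (fun p => w i p * w j p) (past k s) *
          (Uc hR W k (φ i) s * Uc hR W k (φ j) s) := by
      intro s
      rw [sq, Finset.sum_mul_sum]
      apply Finset.sum_congr rfl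
      intro i _
      apply Finset.sum_congr rfl
      intro j _
      unfold Uc
      ring
    have e2 : ∀ s : Sp Ω, greenEnergy (Ω \ (s k).1) (fun z => ∑ i ∈ t, w i (past k s) * φ i z) =
        ∑ i ∈ t, ∑ j ∈ t, (fun p => w i p * w j p) (past k s) *
          bil (Ω := Ω) R ((s k).1 : Set ℂ) (φ i) (φ j) := by
      intro s
      rw [green_sum hR _ t (fun i => w i (past k s)) φ hφ]
    simp only [e1, e2]
    rw [integral_finsetSum _ (fun i hi => integrable_finsetSum _ fun j hj =>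
        int_wUU hR W k hQ (hφ i hi) (hφ j hj) (hBM i hi j hj)),
      integral_finsetSum _ (fun i hi => integrable_finsetSum _ fun j hj =>
        int_wB hR k hΩ hb hQ (φ i) (φ j) (hBM i hi j hj))]
    apply Finset.sum_congr rfl
    intro i hi
    rw [integral_finsetSum _ (fun j hj => int_wUU hR W k hQ (hφ i hi) (hφ j hj) (hBM i hi j hj)),
      integral_finsetSum _ (fun j hj => int_wB hR k hΩ hb hQ (φ i) (φ j) (hBM i hi j hj))]
    apply Finset.sum_congr rfl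
    intro j hj
    exact cross hR W k hΩ hb hQ hWk (hφ i hi) (hφ j hj) (hBM i hi j hj)

end Vale.Agent.P155.Uq
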