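import Vale.Agent.P155.U.Iface3

/-!
# P155 uniqueness: block DYA, dyadic outer approximations
-/

namespace Vale.Agent.P155.U

open MeasureTheory Set TopologicalSpace Vale.Agent.P155.Uq

/-- closed dyadic squares -/
def dsq (n : ℕ) (i : ℤ × ℤ) : Set ℂ :=
  {z | (i.1 : ℝ) ≤ 2 ^ n * z.re ∧ 2 ^ n * z.re ≤ i.1 + 1 ∧
    (i.2 : ℝ) ≤ 2 ^ n * z.im ∧ 2 ^ n * z.im ≤ i.2 + 1}

theorem isClosed_dsq (n : ℕ) (i : ℤ × ℤ) : IsClosed (dsq n i) := by
  have h1 : Continuous (fun z : ℂ => (2 : ℝ) ^ n * z.re) := continuous_const.mul Complex.continuous_re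
  have h2 : Continuous (fun z : ℂ => (2 : ℝ) ^ n * z.im) := continuous_const.mul Complex.continuous_im
  exact (isClosed_le continuous_const h1).inter ((isClosed_le h1 continuous_const).inter
    ((isClosed_le continuous_const h2).inter (isClosed_le h2 continuous_const)))

/-- the square of `z` -/
noncomputable def sqi (n : ℕ) (z : ℂ) : ℤ × ℤ := (⌊2 ^ n * z.re⌋, ⌊2 ^ n * z.im⌋)

theorem mem_sqi (n : ℕ) (z : ℂ) : z ∈ dsq n (sqi n z) :=
  ⟨Int.floor_le _, (Int.lt_floor_add_one _).le, Int.floor_le _, (Int.lt_floor_add_one _).le⟩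

/-- dyadic squares are nested -/
theorem dsq_parent (n : ℕ) (i : ℤ × ℤ) : dsq (n + 1) i ⊆ dsq n (i.1 / 2, i.2 / 2) := by
  rintro z ⟨h1, h2, h3, h4⟩
  have e1 := Int.mul_ediv_add_emod i.1 2
  have e2 := Int.mul_ediv_add_emod i.2 2
  have r1 := Int.emod_nonneg i.1 (show (2 : ℤ) ≠ 0 by norm_num)
  have r2 := Int.emod_nonneg i.2 (show (2 : ℤ) ≠ 0 by norm_num)
  have s1 := Int.emod_lt_of_pos i.1 (show (0 : ℤ) < 2 by norm_num)
  have s2 := Int.emod_lt_of_pos i.2 (show (0 : ℤ) < 2 by norm_num)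
  have a1 : 2 * (i.1 / 2) ≤ i.1 := by omega
  have a2 : i.1 + 1 ≤ 2 * (i.1 / 2) + 2 := by omega
  have b1 : 2 * (i.2 / 2) ≤ i.2 := by omega
  have b2 : i.2 + 1 ≤ 2 * (i.2 / 2) + 2 := by omega
  have a1' : 2 * ((i.1 / 2 : ℤ) : ℝ) ≤ i.1 := by exact_mod_cast a1
  have a2' : (i.1 : ℝ) + 1 ≤ 2 * ((i.1 / 2 : ℤ) : ℝ) + 2 := by exact_mod_cast a2
  have b1' : 2 * ((i.2 / 2 : ℤ) : ℝ) ≤ i.2 := by exact_mod_cast b1
  have b2' : (i.2 : ℝ) + 1 ≤ 2 * ((i.2 / 2 : ℤ) : ℝ) + 2 := by exact_mod_cast b2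
  rw [pow_succ] at h1 h2 h3 h4
  refine ⟨?_, ?_, ?_, ?_⟩ <;> dsimp only <;> nlinarith

theorem dsq_diam {n : ℕ} {i : ℤ × ℤ} {z w : ℂ} (hz : z ∈ dsq n i) (hw : w ∈ dsq n i) :
    dist z w ≤ 2 / 2 ^ n := by
  obtain ⟨h1, h2, h3, h4⟩ := hz
  obtain ⟨k1, k2, k3, k4⟩ := hw
  have hp : (0 : ℝ) < 2 ^ n := by positivity
  rw [Complex.dist_eq]
  have ha : |(z - w).re| ≤ 1 / 2 ^ n := by
    rw [abs_le, Complex.sub_re, ← neg_div, div_le_iff₀ hp, le_div_iff₀ hp]
    constructor <;> nlinarith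
  have hb : |(z - w).im| ≤ 1 / 2 ^ n := by
    rw [abs_le, Complex.sub_im, ← neg_div, div_le_iff₀ hp, le_div_iff₀ hp]
    constructor <;> nlinarith
  have := Complex.norm_le_abs_re_add_abs_im (z - w)
  have e : (2 : ℝ) / 2 ^ n = 1 / 2 ^ n + 1 / 2 ^ n := by ring
  rw [e]
  linarith

theorem finite_meet (n : ℕ) {A : Set ℂ} (hA : Bornology.IsBounded A) :
    {i : ℤ × ℤ | (A ∩ dsq n i).Nonempty}.Finite := by
  obtain ⟨R, hR⟩ := hA.subset_closedBall 0
  have hp : (0 : ℝ) < 2 ^ n := by positivity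
  set N : ℤ := ⌈2 ^ n * |R|⌉ + 1 with hN
  have hNR : 2 ^ n * |R| ≤ (N : ℝ) - 1 := by
    rw [hN]
    push_cast
    have := Int.le_ceil (2 ^ n * |R|)
    linarith
  apply ((Set.finite_Icc (-N) N).prod (Set.finite_Icc (-N) N)).subset
  rintro ⟨a, b⟩ ⟨z, hzA, h1, h2, h3, h4⟩
  have hz := hR hzA
  rw [mem_closedBall_zero_iff] at hz
  have hz' : ‖z‖ ≤ |R| := hz.trans (le_abs_self R)
  have hre := abs_le.1 ((Complex.abs_re_le_norm z).trans hz')
  have him := abs_le.1 ((Complex.abs_im_le_norm z).trans hz')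
  have c1 : 2 ^ n * z.re ≤ 2 ^ n * |R| := mul_le_mul_of_nonneg_left hre.2 hp.le
  have c2 : -(2 ^ n * |R|) ≤ 2 ^ n * z.re := by
    have := mul_le_mul_of_nonneg_left hre.1 hp.le
    linarith
  have c3 : 2 ^ n * z.im ≤ 2 ^ n * |R| := mul_le_mul_of_nonneg_left him.2 hp.le
  have c4 : -(2 ^ n * |R|) ≤ 2 ^ n * z.im := by
    have := mul_le_mul_of_nonneg_left him.1 hp.le
    linarith
  dsimp only at h1 h2 h3 h4
  have d1 : (a : ℝ) ≤ N := by linarith
  have d2 : -(N : ℝ) ≤ a := by linarith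
  have d3 : (b : ℝ) ≤ N := by linarith
  have d4 : -(N : ℝ) ≤ b := by linarith
  rw [Set.mem_prod, Set.mem_Icc, Set.mem_Icc]
  refine ⟨⟨?_, ?_⟩, ?_, ?_⟩
  · exact_mod_cast d2
  · exact_mod_cast d1
  · exact_mod_cast d4
  · exact_mod_cast d3

/-- the squares which meet the two sets -/
noncomputable def msq (n : ℕ) (p : NonemptyCompacts ℂ × NonemptyCompacts ℂ) : Finset (ℤ × ℤ) :=
  (finite_meet n (p.1.isCompact.union p.2.isCompact).isBounded).toFinset

theorem mem_msq {n : ℕ} {p : NonemptyCompacts ℂ × NonemptyCompacts ℂ} {i : ℤ × ℤ} :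
    i ∈ msq n p ↔ (((p.1 : Set ℂ) ∪ p.2) ∩ dsq n i).Nonempty := by
  unfold msq
  rw [Set.Finite.mem_toFinset]
  rfl

theorem measurable_msq (n : ℕ) (S : Finset (ℤ × ℤ)) :
    MeasurableSet {p : NonemptyCompacts ℂ × NonemptyCompacts ℂ | msq n p = S} := by
  have h1 : ∀ i : ℤ × ℤ, MeasurableSet {p : NonemptyCompacts ℂ × NonemptyCompacts ℂ |
      i ∈ msq n p} := by
    intro i
    have hc : IsClosed {K : NonemptyCompacts ℂ | ((K : Set ℂ) ∩ dsq n i).Nonempty} :=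
      NonemptyCompacts.isClosed_inter_nonempty_of_isClosed (isClosed_dsq n i)
    have e : {p : NonemptyCompacts ℂ × NonemptyCompacts ℂ | i ∈ msq n p} =
        (Prod.fst ⁻¹' {K : NonemptyCompacts ℂ | ((K : Set ℂ) ∩ dsq n i).Nonempty}) ∪
        (Prod.snd ⁻¹' {K : NonemptyCompacts ℂ | ((K : Set ℂ) ∩ dsq n i).Nonempty}) := by
      ext p
      rw [mem_ofPred_eq, mem_msq, union_inter_distrib_right, union_nonempty]
      rfl
    rw [e]
    exact (measurable_fst hc.measurableSet).union (measurable_snd hc.measurableSet)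
  have e : {p : NonemptyCompacts ℂ × NonemptyCompacts ℂ | msq n p = S} =
      ⋂ i : ℤ × ℤ, {p : NonemptyCompacts ℂ × NonemptyCompacts ℂ | i ∈ msq n p ↔ i ∈ S} := by
    ext p
    simp only [mem_ofPred_eq, mem_iInter]
    exact Finset.ext_iff
  rw [e]
  refine MeasurableSet.iInter fun i => ?_
  by_cases h : i ∈ S
  · have : {p : NonemptyCompacts ℂ × NonemptyCompacts ℂ | i ∈ msq n p ↔ i ∈ S} =
        {p | i ∈ msq n p} := by
      ext p
      simp [h]
    rw [this]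
    exact h1 i
  · have : {p : NonemptyCompacts ℂ × NonemptyCompacts ℂ | i ∈ msq n p ↔ i ∈ S} =
        {p | i ∈ msq n p}ᶜ := by
      ext p
      simp [h]
    rw [this]
    exact (h1 i).compl

/-- the index set -/
def DJ : Type := ℕ × Finset (ℤ × ℤ)

instance instCountableDJ : Countable DJ := inferInstanceAs (Countable (ℕ × Finset (ℤ × ℤ)))
instance instMSDJ : MeasurableSpace DJ := ⊤
instance instMSCDJ : MeasurableSingletonClass DJ := ⟨fun _ => trivial⟩

/-- the pair as an index -/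
noncomputable def ixj (n : ℕ) (p : NonemptyCompacts ℂ × NonemptyCompacts ℂ) : DJ := (n, msq n p)

/-- the union of squares -/
def Kj (j : DJ) : Set ℂ := ⋃ i ∈ j.2, dsq j.1 i

theorem mem_Kj {n : ℕ} {p : NonemptyCompacts ℂ × NonemptyCompacts ℂ} {z : ℂ} :
    z ∈ Kj (ixj n p) ↔ ∃ i ∈ msq n p, z ∈ dsq n i := by
  unfold Kj
  rw [mem_iUnion₂]
  simp only [exists_prop]
  rfl

theorem measurable_ixj (n : ℕ) : Measurable (ixj n) := by
  have hpre : ∀ m (S : Finset (ℤ × ℤ)), MeasurableSet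
      {p : NonemptyCompacts ℂ × NonemptyCompacts ℂ | n = m ∧ msq n p = S} := by
    intro m S
    by_cases h : n = m
    · simp only [h, true_and]
      exact measurable_msq m S
    · simp only [h, false_and]
      exact MeasurableSet.empty
  apply measurable_to_countable'
  intro j
  have e : (ixj n) ⁻¹' {j} =
      {p : NonemptyCompacts ℂ × NonemptyCompacts ℂ | n = j.1 ∧ msq n p = j.2} := by
    ext p
    constructor
    · intro hp
      have hp' : ixj n p = j := hp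
      exact ⟨congrArg Prod.fst hp', congrArg Prod.snd hp'⟩
    · rintro ⟨h1, h2⟩
      exact Prod.ext h1 h2
  rw [e]
  exact hpre _ _

theorem dyaStmt : DyaStmt := by
  refine ⟨DJ, inferInstance, inferInstance, inferInstance, Kj, ixj, ?_, ?_, ?_, ?_, ?_⟩
  · exact measurable_ixj
  · intro j
    exact Set.Finite.isClosed_biUnion j.2.finite_toSet fun i _ => isClosed_dsq j.1 i
  · intro n p z hz
    exact mem_Kj.2 ⟨sqi n z, mem_msq.2 ⟨z, hz, mem_sqi n z⟩, mem_sqi n z⟩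
  · intro n p z hz
    obtain ⟨i, hi, hzi⟩ := mem_Kj.1 hz
    obtain ⟨w, hw, hwi⟩ := mem_msq.1 hi
    exact mem_Kj.2 ⟨(i.1 / 2, i.2 / 2), mem_msq.2 ⟨w, hw, dsq_parent n i hwi⟩,
      dsq_parent n i hzi⟩
  · intro p F hF hdis
    have hA : IsCompact ((p.1 : Set ℂ) ∪ p.2) := p.1.isCompact.union p.2.isCompact
    obtain ⟨d, hd, hsep⟩ := Metric.exists_pos_forall_lt_edist hF hA.isClosed hdis
    obtain ⟨n, hn⟩ : ∃ n : ℕ, (2 : ℝ) / 2 ^ n < d := by
      have h1 : Filter.Tendsto (fun n : ℕ => (2 : ℝ) / 2 ^ n) Filter.atTop (nhds 0) := by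
        have := (tendsto_pow_atTop_nhds_zero_of_lt_one (show (0 : ℝ) ≤ 1 / 2 by norm_num)
          (by norm_num)).const_mul (2 : ℝ)
        rw [mul_zero] at this
        refine this.congr fun n => ?_
        rw [one_div, inv_pow]
        rfl
      exact ((tendsto_order.1 h1).2 d (by exact_mod_cast hd)).exists
    refine ⟨n, Set.disjoint_left.2 fun z hzF hz => ?_⟩
    obtain ⟨i, hi, hzi⟩ := mem_Kj.1 hz
    obtain ⟨w, hw, hwi⟩ := mem_msq.1 hi
    have h1 := hsep z hzF w hw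
    have h2 := dsq_diam hzi hwi
    rw [edist_dist] at h1
    have h3 : (d : ℝ) < dist z w := by
      have h4 : ENNReal.ofReal d < ENNReal.ofReal (dist z w) := by
        rw [ENNReal.ofReal_coe_nnreal]
        exact h1
      exact (ENNReal.ofReal_lt_ofReal_iff_of_nonneg d.2).1 h4
    linarith

end Vale.Agent.P155.U
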