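import Vale.Agent.P155.G45.Basic

/-!
# P155, block U (uniqueness), KEY: exit weights of simple random walk
-/

namespace Vale.Agent.P155.UK

open Finset Vale.Agent.P155.G45

/-- `B` contains `O` and all the neighbours of points of `O`. -/
def Inn (B : Finset Pt) (O : Set Pt) : Prop := ∀ x ∈ O, x ∈ B ∧ (x.1 + 1, x.2) ∈ B ∧
  (x.1 - 1, x.2) ∈ B ∧ (x.1, x.2 + 1) ∈ B ∧ (x.1, x.2 - 1) ∈ B

theorem Inn.finite {B : Finset Pt} {O : Set Pt} (h : Inn B O) : O.Finite :=
  B.finite_toSet.subset (fun x hx => (h x hx).1)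

theorem Inn.mono {B : Finset Pt} {O O' : Set Pt} (h : Inn B O) (hs : O' ⊆ O) : Inn B O' :=
  fun x hx => h x (hs hx)

open Classical in
/-- The solution of the Dirichlet problem (harmonic on `O`, equal to `f` off `O`). -/
noncomputable def dir (O : Set Pt) (f : Pt → ℝ) : Pt → ℝ :=
  if h : O.Finite then Classical.choose (exists_dirichlet h (fun _ => 0) f) else f

theorem dir_off {O : Set Pt} (f : Pt → ℝ) {x : Pt} (hx : x ∉ O) : dir O f x = f x := by
  unfold dir
  split_ifs with h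
  · exact (Classical.choose_spec (exists_dirichlet h (fun _ => 0) f)).1 x hx
  · rfl

theorem dir_lap {O : Set Pt} (hO : O.Finite) (f : Pt → ℝ) {x : Pt} (hx : x ∈ O) :
    lap (dir O f) x = 0 := by
  unfold dir
  rw [dif_pos hO]
  have := (Classical.choose_spec (exists_dirichlet hO (fun _ => 0) f)).2 x hx
  linarith

theorem dir_le {O : Set Pt} (hO : O.Finite) {f u : Pt → ℝ} (h1 : ∀ x ∈ O, lap u x ≤ 0)
    (h2 : ∀ x, x ∉ O → f x ≤ u x) (x : Pt) : dir O f x ≤ u x :=
  comparison hO (fun y hy => by rw [dir_lap hO f hy]; exact h1 y hy)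
    (fun y hy => by rw [dir_off f hy]; exact h2 y hy) x

theorem le_dir {O : Set Pt} (hO : O.Finite) {f u : Pt → ℝ} (h1 : ∀ x ∈ O, 0 ≤ lap u x)
    (h2 : ∀ x, x ∉ O → u x ≤ f x) (x : Pt) : u x ≤ dir O f x :=
  comparison hO (fun y hy => by rw [dir_lap hO f hy]; exact h1 y hy)
    (fun y hy => by rw [dir_off f hy]; exact h2 y hy) x

theorem dir_mono {O : Set Pt} (hO : O.Finite) {f g : Pt → ℝ} (h : ∀ x, x ∉ O → f x ≤ g x)
    (x : Pt) : dir O f x ≤ dir O g x :=
  dir_le hO (fun y hy => (dir_lap hO g hy).le) (fun y hy => by rw [dir_off g hy]; exact h y hy) x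

theorem dir_congr {O : Set Pt} (hO : O.Finite) {f g : Pt → ℝ} (h : ∀ x, x ∉ O → f x = g x)
    (x : Pt) : dir O f x = dir O g x :=
  le_antisymm (dir_mono hO (fun y hy => (h y hy).le) x) (dir_mono hO (fun y hy => (h y hy).ge) x)

theorem dir_nonneg {O : Set Pt} (hO : O.Finite) {f : Pt → ℝ} (h : ∀ x, x ∉ O → 0 ≤ f x)
    (x : Pt) : 0 ≤ dir O f x :=
  le_dir hO (u := fun _ => 0) (fun y _ => by rw [lap_const]) h x

theorem dir_le_one {O : Set Pt} (hO : O.Finite) {f : Pt → ℝ} (h : ∀ x, x ∉ O → f x ≤ 1)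
    (x : Pt) : dir O f x ≤ 1 :=
  dir_le hO (u := fun _ => 1) (fun y _ => by rw [lap_const]) h x

open Classical in
/-- Indicator of a set of lattice points. -/
noncomputable def ch (S : Set Pt) (x : Pt) : ℝ := if x ∈ S then 1 else 0

theorem ch_mem {S : Set Pt} {x : Pt} (h : x ∈ S) : ch S x = 1 := if_pos h
theorem ch_not {S : Set Pt} {x : Pt} (h : x ∉ S) : ch S x = 0 := if_neg h
theorem ch_nonneg (S : Set Pt) (x : Pt) : 0 ≤ ch S x := by unfold ch; split_ifs <;> norm_num
theorem ch_le_one (S : Set Pt) (x : Pt) : ch S x ≤ 1 := by unfold ch; split_ifs <;> norm_num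
theorem ch_mono {S T : Set Pt} (h : S ⊆ T) (x : Pt) : ch S x ≤ ch T x := by
  unfold ch
  by_cases h1 : x ∈ S
  · rw [if_pos h1, if_pos (h h1)]
  · rw [if_neg h1]; split_ifs <;> norm_num

open Classical in
/-- Exit weights: `W O z y` = probability that simple random walk from `z` leaves `O` at `y`. -/
noncomputable def W (O : Set Pt) (z y : Pt) : ℝ := dir O (fun x => if x = y then 1 else 0) z

theorem W_nonneg {O : Set Pt} (hO : O.Finite) (z y : Pt) : 0 ≤ W O z y :=
  dir_nonneg hO (fun x _ => by split_ifs <;> norm_num) z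

open Classical in
theorem W_off {O : Set Pt} {z : Pt} (hz : z ∉ O) (y : Pt) : W O z y = if z = y then 1 else 0 :=
  dir_off _ hz

theorem W_mem {O : Set Pt} (hO : O.Finite) (z : Pt) {y : Pt} (hy : y ∈ O) : W O z y = 0 := by
  classical
  have h1 : W O z y = dir O (fun _ => 0) z := by
    unfold W
    apply dir_congr hO
    intro x hx
    rw [if_neg]
    rintro rfl
    exact hx hy
  rw [h1]
  apply le_antisymm
  · exact dir_le hO (u := fun _ => 0) (fun y _ => by rw [lap_const]) (fun _ _ => le_rfl) z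
  · exact dir_nonneg hO (fun _ _ => le_rfl) z

theorem lap_sum {ι : Type*} (s : Finset ι) (u : ι → Pt → ℝ) (x : Pt) :
    lap (fun z => ∑ i ∈ s, u i z) x = ∑ i ∈ s, lap (u i) x := by
  unfold lap
  rw [Finset.sum_sub_distrib, ← Finset.mul_sum, Finset.sum_add_distrib, Finset.sum_add_distrib,
    Finset.sum_add_distrib]

/-- A function which is harmonic on `O` is determined on `B` by its values on `B \ O`. -/
theorem Inn.le_on {B : Finset Pt} {O : Set Pt} (h : Inn B O) {u v : Pt → ℝ}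
    (h1 : ∀ x ∈ O, lap v x ≤ lap u x) (h2 : ∀ x ∈ B, x ∉ O → u x ≤ v x) {x : Pt} (hx : x ∈ B) :
    u x ≤ v x := by
  classical
  have key := comparison h.finite (u := fun y => if y ∈ B then u y else 0)
    (v := fun y => if y ∈ B then v y else 0) ?_ ?_ x
  · rw [if_pos hx, if_pos hx] at key
    exact key
  · intro y hy
    obtain ⟨b0, b1, b2, b3, b4⟩ := h y hy
    have := h1 y hy
    unfold lap at this ⊢
    simp only [if_pos b0, if_pos b1, if_pos b2, if_pos b3, if_pos b4]
    exact this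
  · intro y hy
    by_cases hyB : y ∈ B
    · rw [if_pos hyB, if_pos hyB]
      exact h2 y hyB hy
    · rw [if_neg hyB, if_neg hyB]

theorem Inn.eq_on {B : Finset Pt} {O : Set Pt} (h : Inn B O) {u v : Pt → ℝ}
    (h1 : ∀ x ∈ O, lap v x = lap u x) (h2 : ∀ x ∈ B, x ∉ O → u x = v x) {x : Pt} (hx : x ∈ B) :
    u x = v x :=
  le_antisymm (h.le_on (fun y hy => (h1 y hy).le) (fun y hy hy' => (h2 y hy hy').le) hx)
    (h.le_on (fun y hy => (h1 y hy).ge) (fun y hy hy' => (h2 y hy hy').ge) hx)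

/-- Representation by exit weights. -/
theorem dir_eq_sum {B : Finset Pt} {O : Set Pt} (h : Inn B O) (f : Pt → ℝ) {z : Pt} (hz : z ∈ B) :
    dir O f z = ∑ y ∈ B, W O z y * f y := by
  classical
  refine h.eq_on (u := dir O f) (v := fun z => ∑ y ∈ B, W O z y * f y) ?_ ?_ hz
  · intro x hx
    rw [dir_lap h.finite f hx, lap_sum]
    apply Finset.sum_eq_zero
    intro y _
    have : (fun z => W O z y * f y) = fun z => f y * W O z y := by funext z; ring
    rw [this, lap_smul]
    unfold W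
    rw [dir_lap h.finite _ hx, mul_zero]
  · intro x hxB hx
    rw [dir_off f hx]
    simp only [W_off hx]
    rw [Finset.sum_eq_single x]
    · simp
    · intro b _ hb
      rw [if_neg (fun h => hb h.symm)]; ring
    · intro h; exact absurd hxB h

theorem sum_W {B : Finset Pt} {O : Set Pt} (h : Inn B O) {z : Pt} (hz : z ∈ B) :
    ∑ y ∈ B, W O z y = 1 := by
  have h1 := dir_eq_sum h (fun _ => 1) hz
  simp only [mul_one] at h1
  rw [← h1]
  apply h.eq_on (u := dir O (fun _ => 1)) (v := fun _ => 1) _ _ hz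
  · intro x hx
    rw [lap_const, dir_lap h.finite _ hx]
  · intro x _ hx
    rw [dir_off _ hx]

/-- Tower property: leaving a smaller domain first. -/
theorem dir_tower {B : Finset Pt} {O D : Set Pt} (h : Inn B O) (hD : D ⊆ O) (f : Pt → ℝ) {z : Pt}
    (hz : z ∈ B) : dir O f z = ∑ x ∈ B, W D z x * dir O f x := by
  have hDI := h.mono hD
  rw [← dir_eq_sum hDI _ hz]
  apply hDI.eq_on (u := dir O f) (v := dir D (dir O f)) _ _ hz
  · intro x hx
    rw [dir_lap hDI.finite _ hx, dir_lap h.finite _ (hD hx)]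
  · intro x _ hx
    rw [dir_off _ hx]

theorem W_tower {B : Finset Pt} {O D : Set Pt} (h : Inn B O) (hD : D ⊆ O) {z : Pt} (hz : z ∈ B)
    (y : Pt) : W O z y = ∑ x ∈ B, W D z x * W O x y :=
  dir_tower h hD _ hz

end Vale.Agent.P155.UK
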