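import Vale.Agent.P155.U.ExtGreen
import Vale.Agent.P155.U.Sub

/-!
# P155, block U-EXT: second moments in a coupled pair
-/

namespace Vale.Agent.P155.Uq

open MeasureTheory Filter Topology TopologicalSpace

variable {Ω : Set ℂ} {X S S' : Type} [MeasurableSpace X] [MeasurableSpace S]
    [MeasurableSpace S'] {μ : Measure X} {K0 : X → Set ℂ} {a : X → S} {a' : X → S'}
    {A : S → NonemptyCompacts ℂ} {A' : S' → NonemptyCompacts ℂ}
    {h : S → (ℂ → ℝ) → ℝ} {h' : S' → (ℂ → ℝ) → ℝ} {Γ Z : (ℂ → ℝ) → X → ℝ}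

theorem BM.swap {w : S × S' → ℝ} (hw : BM w) : BM (fun p : S' × S => w (p.2, p.1)) :=
  ⟨hw.1.comp measurable_swap, hw.2.imp fun _ hC _ => hC _⟩

/-- A coupled pair is symmetric. -/
theorem Cpl.symm (C : Cpl Ω μ K0 a a' A A' h h' Γ Z) : Cpl Ω μ K0 a' a A' A h' h Γ Z where
  isOpen := C.isOpen
  bdd := C.bdd
  ne := C.ne
  prob := C.prob
  ma := C.ma'
  ma' := C.ma
  mA := C.mA'
  mA' := C.mA
  mK0 := C.mK0
  mh := C.mh'
  mh' := C.mh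
  one := C.one'
  one' := C.one
  memΓ := C.memΓ
  memZ := C.memZ
  linΓ := C.linΓ
  linZ := C.linZ
  tot := C.tot
  m1 := C.m1'
  m1' := C.m1
  m2 := C.m2'
  m2' := C.m2
  z1 := fun φ hφ w hw => C.z1 φ hφ (fun p => w (p.2, p.1)) hw.swap
  z2 := fun s w φ hw hφ => by
    have h := C.z2 s (fun i p => w i (p.2, p.1)) φ (fun i hi => (hw i hi).swap) hφ
    simpa only [Set.union_comm] using h
  z3 := fun φ ψ hφ hψ w hw => C.z3 φ ψ hφ hψ (fun p => w (p.2, p.1)) hw.swap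
  harm := fun v φ hv hφ hl => by
    simpa only [Set.union_comm] using C.harm v φ hv hφ hl

theorem test_bound {U : Set ℂ} {φ : ℂ → ℝ} (hφ : IsTest U φ) : ∃ M : ℝ, ∀ z, |φ z| ≤ M := by
  obtain ⟨M, hM⟩ := hφ.1.continuous.bounded_above_of_compact_support hφ.2.1
  exact ⟨M, fun z => by simpa [Real.norm_eq_abs] using hM z⟩

theorem Cpl.h_le (C : Cpl Ω μ K0 a a' A A' h h' Γ Z) {φ : ℂ → ℝ} (hφ : IsTest Ω φ) :
    ∀ᵐ x ∂μ, |h (a x) φ| ≤ ∫ z, |φ z| := by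
  filter_upwards [C.one.rep] with s hs
  obtain ⟨g, _, hg1, hg⟩ := hs
  rw [hg φ hφ]
  have := abs_int_le hg1 (Vale.Agent.P155.U.test_int hφ)
  simpa using this

/-- the field of one level, clamped -/
noncomputable def clh (h : S → (ℂ → ℝ) → ℝ) (φ : ℂ → ℝ) (s : S) : ℝ :=
  max (-∫ z, |φ z|) (min (∫ z, |φ z|) (h s φ))

omit [MeasurableSpace S] in
theorem clh_le (φ : ℂ → ℝ) (s : S) : |clh h φ s| ≤ ∫ z, |φ z| := by
  have h0 : 0 ≤ ∫ z, |φ z| := integral_nonneg fun z => abs_nonneg _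
  unfold clh
  rw [abs_le]
  exact ⟨le_max_left _ _, max_le (by linarith) (min_le_left _ _)⟩

theorem Cpl.BM_clh (C : Cpl Ω μ K0 a a' A A' h h' Γ Z) {φ : ℂ → ℝ} (hφ : IsTest Ω φ) :
    BM (clh h φ) :=
  ⟨measurable_const.max (measurable_const.min (C.mh φ hφ)), _, clh_le φ⟩

theorem Cpl.memh (C : Cpl Ω μ K0 a a' A A' h h' Γ Z) {φ : ℂ → ℝ} (hφ : IsTest Ω φ) :
    MemLp (fun x => h (a x) φ) 2 μ := by
  have := C.prob
  exact MemLp.of_bound ((C.mh φ hφ).comp C.ma).aestronglyMeasurable (∫ z, |φ z|) (C.h_le hφ)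

theorem Cpl.hclh (C : Cpl Ω μ K0 a a' A A' h h' Γ Z) {φ : ℂ → ℝ} (hφ : IsTest Ω φ) :
    (fun x => clh h φ (a x)) =ᵐ[μ] fun x => h (a x) φ := by
  filter_upwards [C.h_le hφ] with s hs
  rw [abs_le] at hs
  unfold clh
  rw [min_eq_right hs.2, max_eq_right hs.1]

theorem BM_const (c : ℝ) : BM (fun _ : S => c) := ⟨measurable_const, |c|, fun _ => le_rfl⟩

/-- variance of `Γ - Z` -/
theorem Cpl.varGZ (C : Cpl Ω μ K0 a a' A A' h h' Γ Z) {φ : ℂ → ℝ} (hφ : IsTest Ω φ) :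
    ∫ x, (Γ φ x - Z φ x) ^ 2 ∂μ =
      ∫ x, greenEnergy (Ω \ ((A (a x) : Set ℂ) ∪ A' (a' x))) φ ∂μ := by
  have h := C.z2 (ι := Unit) {()} (fun _ _ => 1) (fun _ => φ) (fun _ _ => BM_const 1)
    (fun _ _ => hφ)
  simpa using h

/-- variance of `Γ - c h` -/
theorem Cpl.varGh (C : Cpl Ω μ K0 a a' A A' h h' Γ Z) {φ : ℂ → ℝ} (hφ : IsTest Ω φ) :
    ∫ x, (Γ φ x - cst * h (a x) φ) ^ 2 ∂μ =
      ∫ x, greenEnergy (Ω \ (A (a x) : Set ℂ)) φ ∂μ := by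
  have h := C.m2 (ι := Unit) {()} (fun _ _ => 1) (fun _ => φ) (fun _ _ => BM_const 1)
    (fun _ _ => hφ)
  simpa using h

theorem sq_split {f g : X → ℝ} (hf : MemLp f 2 μ) (hg : MemLp g 2 μ)
    (h0 : ∫ x, f x * g x ∂μ = 0) :
    ∫ x, (f x + g x) ^ 2 ∂μ = ∫ x, f x ^ 2 ∂μ + ∫ x, g x ^ 2 ∂μ := by
  have h1 : (fun x => (f x + g x) ^ 2) = fun x => (f x ^ 2 + g x ^ 2) + 2 * (f x * g x) := by
    funext x; ring
  have hfg : Integrable (fun x => f x * g x) μ := hf.integrable_mul hg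
  have h2 : ∫ x, ((f x ^ 2 + g x ^ 2) + 2 * (f x * g x)) ∂μ =
      ∫ x, (f x ^ 2 + g x ^ 2) ∂μ + ∫ x, 2 * (f x * g x) ∂μ :=
    integral_add (hf.integrable_sq.add hg.integrable_sq) (hfg.const_mul 2)
  rw [h1, h2, integral_add hf.integrable_sq hg.integrable_sq, integral_const_mul, h0]
  ring

/-- `E Z² = E Γ² - E Gr(Ω \ (A ∪ A'))` -/
theorem Cpl.EZ (C : Cpl Ω μ K0 a a' A A' h h' Γ Z) {φ : ℂ → ℝ} (hφ : IsTest Ω φ) :
    ∫ x, Z φ x ^ 2 ∂μ = ∫ x, Γ φ x ^ 2 ∂μ -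
      ∫ x, greenEnergy (Ω \ ((A (a x) : Set ℂ) ∪ A' (a' x))) φ ∂μ := by
  have h3 := C.z3 φ φ hφ hφ (fun _ => 1) (BM_const 1)
  have hs := sq_split (f := fun x => Γ φ x - Z φ x) (g := Z φ)
    ((C.memΓ φ hφ).sub (C.memZ φ hφ)) (C.memZ φ hφ) (by simpa using h3)
  have h4 : ∫ x, (Γ φ x - Z φ x + Z φ x) ^ 2 ∂μ = ∫ x, Γ φ x ^ 2 ∂μ := by
    simp
  rw [h4, C.varGZ hφ] at hs
  linarith

/-- `c² E h² = E Γ² - E Gr(Ω \ A)` -/
theorem Cpl.Eh (C : Cpl Ω μ K0 a a' A A' h h' Γ Z) {φ : ℂ → ℝ} (hφ : IsTest Ω φ) :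
    ∫ x, (cst * h (a x) φ) ^ 2 ∂μ = ∫ x, Γ φ x ^ 2 ∂μ -
      ∫ x, greenEnergy (Ω \ (A (a x) : Set ℂ)) φ ∂μ := by
  have h3 := C.m1 φ hφ (clh h φ) (C.BM_clh hφ)
  have h3' : ∫ x, (Γ φ x - cst * h (a x) φ) * (cst * h (a x) φ) ∂μ = 0 := by
    have : ∫ x, (Γ φ x - cst * h (a x) φ) * (cst * h (a x) φ) ∂μ =
        ∫ x, cst * (clh h φ (a x) * (Γ φ x - cst * h (a x) φ)) ∂μ := by
      apply integral_congr_ae
      filter_upwards [C.hclh hφ] with x hx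
      rw [hx]
      ring
    rw [this, integral_const_mul, h3, mul_zero]
  have hm := (C.memh hφ).const_mul cst
  have hs := sq_split (f := fun x => Γ φ x - cst * h (a x) φ) (g := fun x => cst * h (a x) φ)
    ((C.memΓ φ hφ).sub hm) hm h3'
  have h4 : ∫ x, (Γ φ x - cst * h (a x) φ + cst * h (a x) φ) ^ 2 ∂μ = ∫ x, Γ φ x ^ 2 ∂μ := by
    simp
  rw [h4, C.varGh hφ] at hs
  linarith

theorem cst_nonneg : 0 ≤ cst := Real.sqrt_nonneg _

theorem cst_pos : 0 < cst := Real.sqrt_pos.2 (by positivity)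

theorem Cpl.Eh_le (C : Cpl Ω μ K0 a a' A A' h h' Γ Z) {φ : ℂ → ℝ} (hφ : IsTest Ω φ) :
    ∫ x, (cst * h (a x) φ) ^ 2 ∂μ ≤ (cst * ∫ z, |φ z|) ^ 2 := by
  have := C.prob
  have h1 : ∫ x, (cst * h (a x) φ) ^ 2 ∂μ ≤ ∫ _, (cst * ∫ z, |φ z|) ^ 2 ∂μ := by
    apply integral_mono_ae
    · exact ((C.memh hφ).const_mul cst).integrable_sq
    · exact integrable_const _
    · filter_upwards [C.h_le hφ] with x hx
      have h2 : |cst * h (a x) φ| ≤ cst * ∫ z, |φ z| := by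
        rw [abs_mul, abs_of_nonneg cst_nonneg]
        exact mul_le_mul_of_nonneg_left hx cst_nonneg
      exact sq_le_sq' (by linarith [neg_abs_le (cst * h (a x) φ)]) ((le_abs_self _).trans h2)
  simpa using h1

theorem Cpl.meas_gA (C : Cpl Ω μ K0 a a' A A' h h' Γ Z) {φ : ℂ → ℝ} (hφ : IsTest Ω φ) :
    Measurable (fun x => greenEnergy (Ω \ (A (a x) : Set ℂ)) φ) := by
  obtain ⟨M, hM⟩ := test_bound hφ
  exact meas_green (A := fun x => A (a x)) C.bdd hM (C.mA.comp C.ma)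

theorem Cpl.meas_gAA (C : Cpl Ω μ K0 a a' A A' h h' Γ Z) {φ : ℂ → ℝ} (hφ : IsTest Ω φ) :
    Measurable (fun x => greenEnergy (Ω \ ((A (a x) : Set ℂ) ∪ A' (a' x))) φ) := by
  obtain ⟨M, hM⟩ := test_bound hφ
  exact meas_green_union (A := fun x => A (a x)) (A' := fun x => A' (a' x)) C.bdd hM
    (C.mA.comp C.ma) (C.mA'.comp C.ma')

theorem int_of_bdd [IsProbabilityMeasure μ] {f : X → ℝ} (hf : Measurable f) {b : ℝ}
    (hb : ∀ x, |f x| ≤ b) : Integrable f μ :=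
  Integrable.of_bound hf.aestronglyMeasurable b (Eventually.of_forall fun x => by
    rw [Real.norm_eq_abs]; exact hb x)

theorem abs_green_le {U V : Set ℂ} (hb : Bornology.IsBounded V) (hU : U ⊆ V) {φ : ℂ → ℝ} {M : ℝ}
    (hφ : ∀ z, |φ z| ≤ M) : |greenEnergy U φ| ≤ greenEnergy V φ := by
  rw [abs_of_nonneg (green_nonneg (hb.subset hU) hφ)]
  exact green_mono hU hb hφ

theorem Cpl.int_gA (C : Cpl Ω μ K0 a a' A A' h h' Γ Z) {φ : ℂ → ℝ} (hφ : IsTest Ω φ) :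
    Integrable (fun x => greenEnergy (Ω \ (A (a x) : Set ℂ)) φ) μ := by
  have := C.prob
  obtain ⟨M, hM⟩ := test_bound hφ
  exact int_of_bdd (C.meas_gA hφ) fun x => abs_green_le C.bdd Set.sdiff_subset hM

theorem Cpl.int_gAA (C : Cpl Ω μ K0 a a' A A' h h' Γ Z) {φ : ℂ → ℝ} (hφ : IsTest Ω φ) :
    Integrable (fun x => greenEnergy (Ω \ ((A (a x) : Set ℂ) ∪ A' (a' x))) φ) μ := by
  have := C.prob
  obtain ⟨M, hM⟩ := test_bound hφ
  exact int_of_bdd (C.meas_gAA hφ) fun x => abs_green_le C.bdd Set.sdiff_subset hM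

/-- **second moment of `Z`** on nonnegative tests -/
theorem Cpl.EZ_le (C : Cpl Ω μ K0 a a' A A' h h' Γ Z) {φ : ℂ → ℝ}
    (hφ : IsTest Ω φ) (h0 : ∀ z, 0 ≤ φ z) :
    ∫ x, Z φ x ^ 2 ∂μ ≤ 2 * (cst * ∫ z, |φ z|) ^ 2 := by
  have := C.prob
  obtain ⟨M, hM⟩ := test_bound hφ
  have e1 := C.EZ hφ
  have e2 := C.Eh hφ
  have e3 := C.symm.Eh hφ
  have e4 := C.tot φ hφ
  have i2 := C.Eh_le hφ
  have i3 := C.symm.Eh_le hφ
  have i4 : Integrable (fun x => greenEnergy (Ω \ K0 x) φ) μ :=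
    int_of_bdd (C.mK0 φ hφ) fun x => abs_green_le C.bdd Set.sdiff_subset hM
  have h1 : ∫ x, (greenEnergy (Ω \ (A (a x) : Set ℂ)) φ +
      greenEnergy (Ω \ (A' (a' x) : Set ℂ)) φ) ∂μ ≤
      ∫ x, (greenEnergy (Ω \ ((A (a x) : Set ℂ) ∪ A' (a' x))) φ +
        greenEnergy (Ω \ K0 x) φ) ∂μ := by
    apply integral_mono_ae ((C.int_gA hφ).add (C.symm.int_gA hφ)) ((C.int_gAA hφ).add i4)
    filter_upwards [C.one.sub, C.one'.sub] with x hx hx'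
    have hb := C.bdd
    have h2 := Vale.Agent.P155.U.sub_energy (U := Ω \ (A (a x) : Set ℂ))
      (U' := Ω \ (A' (a' x) : Set ℂ)) (hb.subset Set.sdiff_subset) (hb.subset Set.sdiff_subset)
      hφ.1.continuous.aestronglyMeasurable hM h0
    have h3 : (Ω \ (A (a x) : Set ℂ)) ∩ (Ω \ (A' (a' x) : Set ℂ)) =
        Ω \ ((A (a x) : Set ℂ) ∪ A' (a' x)) := by
      ext z
      simp only [Set.mem_inter_iff, Set.mem_sdiff, Set.mem_union]
      tauto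
    have h4 : (Ω \ (A (a x) : Set ℂ)) ∪ (Ω \ (A' (a' x) : Set ℂ)) ⊆ Ω \ K0 x := by
      rintro z (hz | hz)
      · exact ⟨hz.1, fun hK => hz.2 (hx.1 hK)⟩
      · exact ⟨hz.1, fun hK => hz.2 (hx'.1 hK)⟩
    rw [h3] at h2
    have h5 := green_mono h4 (hb.subset Set.sdiff_subset) hM
    simp only [Pi.add_apply]
    linarith
  rw [integral_add (C.int_gA hφ) (C.symm.int_gA hφ), integral_add (C.int_gAA hφ) i4] at h1
  linarith

/-- second moment of `Z`, all tests -/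
theorem Cpl.EZ_le' (C : Cpl Ω μ K0 a a' A A' h h' Γ Z) {φ : ℂ → ℝ}
    (hφ : IsTest Ω φ) :
    ∫ x, Z φ x ^ 2 ∂μ ≤ greenEnergy Ω φ := by
  have := C.prob
  obtain ⟨M, hM⟩ := test_bound hφ
  rw [C.EZ hφ, C.tot φ hφ]
  have h1 : 0 ≤ ∫ x, greenEnergy (Ω \ ((A (a x) : Set ℂ) ∪ A' (a' x))) φ ∂μ :=
    integral_nonneg fun x => green_nonneg (C.bdd.subset Set.sdiff_subset) hM
  have i4 : Integrable (fun x => greenEnergy (Ω \ K0 x) φ) μ :=
    int_of_bdd (C.mK0 φ hφ) fun x => abs_green_le C.bdd Set.sdiff_subset hM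
  have h2 : ∫ x, greenEnergy (Ω \ K0 x) φ ∂μ ≤ ∫ _, greenEnergy Ω φ ∂μ :=
    integral_mono i4 (integrable_const _) fun x => green_mono Set.sdiff_subset C.bdd hM
  simp only [integral_const, probReal_univ, one_smul] at h2
  linarith

theorem Cpl.EΓ_le (C : Cpl Ω μ K0 a a' A A' h h' Γ Z) {φ : ℂ → ℝ}
    (hφ : IsTest Ω φ) : ∫ x, Γ φ x ^ 2 ∂μ ≤ greenEnergy Ω φ := by
  have := C.prob
  obtain ⟨M, hM⟩ := test_bound hφ
  rw [C.tot φ hφ]
  have i4 : Integrable (fun x => greenEnergy (Ω \ K0 x) φ) μ :=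
    int_of_bdd (C.mK0 φ hφ) fun x => abs_green_le C.bdd Set.sdiff_subset hM
  have h2 : ∫ x, greenEnergy (Ω \ K0 x) φ ∂μ ≤ ∫ _, greenEnergy Ω φ ∂μ :=
    integral_mono i4 (integrable_const _) fun x => green_mono Set.sdiff_subset C.bdd hM
  simpa only [integral_const, probReal_univ, one_smul] using h2

theorem Cpl.Eh_le' (C : Cpl Ω μ K0 a a' A A' h h' Γ Z) {φ : ℂ → ℝ}
    (hφ : IsTest Ω φ) : ∫ x, (cst * h (a x) φ) ^ 2 ∂μ ≤ greenEnergy Ω φ := by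
  obtain ⟨M, hM⟩ := test_bound hφ
  have h1 := C.Eh hφ
  have h2 := C.EΓ_le hφ
  have h3 : 0 ≤ ∫ x, greenEnergy (Ω \ (A (a x) : Set ℂ)) φ ∂μ :=
    integral_nonneg fun x => green_nonneg (C.bdd.subset Set.sdiff_subset) hM
  linarith

theorem Cpl.memD (C : Cpl Ω μ K0 a a' A A' h h' Γ Z) {φ : ℂ → ℝ} (hφ : IsTest Ω φ) :
    MemLp (fun x => Z φ x - cst * h (a x) φ) 2 μ :=
  (C.memZ φ hφ).sub ((C.memh hφ).const_mul cst)

theorem Cpl.ED_le (C : Cpl Ω μ K0 a a' A A' h h' Γ Z) {φ : ℂ → ℝ} (hφ : IsTest Ω φ) {b1 b2 : ℝ}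
    (h1 : ∫ x, Z φ x ^ 2 ∂μ ≤ b1) (h2 : ∫ x, (cst * h (a x) φ) ^ 2 ∂μ ≤ b2) :
    ∫ x, (Z φ x - cst * h (a x) φ) ^ 2 ∂μ ≤ 2 * b1 + 2 * b2 := by
  have i1 := (C.memZ φ hφ).integrable_sq
  have i2 := ((C.memh hφ).const_mul cst).integrable_sq
  have h3 : ∫ x, (Z φ x - cst * h (a x) φ) ^ 2 ∂μ ≤
      ∫ x, (2 * Z φ x ^ 2 + 2 * (cst * h (a x) φ) ^ 2) ∂μ := by
    apply integral_mono (C.memD hφ).integrable_sq ((i1.const_mul 2).add (i2.const_mul 2))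
    intro x
    simp only [Pi.add_apply]
    nlinarith [sq_nonneg (Z φ x + cst * h (a x) φ)]
  have h4 : ∫ x, (2 * Z φ x ^ 2 + 2 * (cst * h (a x) φ) ^ 2) ∂μ =
      2 * ∫ x, Z φ x ^ 2 ∂μ + 2 * ∫ x, (cst * h (a x) φ) ^ 2 ∂μ := by
    rw [integral_add (i1.const_mul 2) (i2.const_mul 2), integral_const_mul, integral_const_mul]
  rw [h4] at h3
  linarith

/-- first moments of `Z - c h` -/
theorem Cpl.mZ (C : Cpl Ω μ K0 a a' A A' h h' Γ Z) {φ : ℂ → ℝ} (hφ : IsTest Ω φ) {w : S → ℝ}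
    (hw : BM w) : ∫ x, w (a x) * (Z φ x - cst * h (a x) φ) ∂μ = 0 := by
  have := C.prob
  obtain ⟨K, hK⟩ := hw.2
  have h1 := C.m1 φ hφ w hw
  have h2 := C.z1 φ hφ (fun p => w p.1) ⟨hw.1.comp measurable_fst, K, fun p => hK _⟩
  have hm : AEStronglyMeasurable (fun x => w (a x)) μ := (hw.1.comp C.ma).aestronglyMeasurable
  have hb : ∀ᵐ x ∂μ, ‖w (a x)‖ ≤ K :=
    Eventually.of_forall fun x => by rw [Real.norm_eq_abs]; exact hK _
  have i1 : Integrable (fun x => w (a x) * (Γ φ x - cst * h (a x) φ)) μ := by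
    have : Integrable (fun x => Γ φ x - cst * h (a x) φ) μ :=
      ((C.memΓ φ hφ).sub ((C.memh hφ).const_mul cst)).integrable (by norm_num)
    exact this.bdd_mul hm (c := K) hb
  have i2 : Integrable (fun x => w (a x) * (Γ φ x - Z φ x)) μ := by
    have : Integrable (fun x => Γ φ x - Z φ x) μ :=
      ((C.memΓ φ hφ).sub (C.memZ φ hφ)).integrable (by norm_num)
    exact this.bdd_mul hm (c := K) hb
  have h3 : (fun x => w (a x) * (Z φ x - cst * h (a x) φ)) =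
      fun x => w (a x) * (Γ φ x - cst * h (a x) φ) - w (a x) * (Γ φ x - Z φ x) := by
    funext x; ring
  rw [h3, integral_sub i1 i2, h1, h2, sub_zero]

end Vale.Agent.P155.Uq
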