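import Vale.Agent.P155.U.Iface
import Vale.Agent.P155.U.Bump

/-!
# P155, block U, U-EXT: a bounded functional of test functions which vanishes on small bumps is zero
-/

namespace Vale.Agent.P155.Uq

open MeasureTheory Filter Topology

/-! ## the space of test functions -/

theorem tadd {Ω : Set ℂ} {φ ψ : ℂ → ℝ} (hφ : IsTest Ω φ) (hψ : IsTest Ω ψ) :
    IsTest Ω (fun z => φ z + ψ z) := by
  refine ⟨hφ.1.add hψ.1, hφ.2.1.add hψ.2.1, ?_⟩
  refine (tsupport_add φ ψ).trans (Set.union_subset hφ.2.2 hψ.2.2)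

theorem tmul {Ω : Set ℂ} {φ : ℂ → ℝ} (hφ : IsTest Ω φ) (c : ℝ) :
    IsTest Ω (fun z => c * φ z) := by
  refine ⟨contDiff_const.mul hφ.1, hφ.2.1.mul_left (f := fun _ => c), ?_⟩
  refine Set.Subset.trans ?_ hφ.2.2
  apply closure_mono
  intro z hz
  rw [Function.mem_support] at hz ⊢
  intro h
  apply hz
  rw [h, mul_zero]

theorem tzero (Ω : Set ℂ) : IsTest Ω (fun _ => 0) := by
  refine ⟨contDiff_const, ?_, ?_⟩
  · have : HasCompactSupport (0 : ℂ → ℝ) := HasCompactSupport.zero
    exact this
  · have : tsupport (fun _ : ℂ => (0 : ℝ)) = ∅ := by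
      rw [tsupport_eq_empty_iff]
      rfl
    rw [this]
    exact Set.empty_subset _

theorem tlin {Ω : Set ℂ} {φ ψ : ℂ → ℝ} (hφ : IsTest Ω φ) (hψ : IsTest Ω ψ) (s t : ℝ) :
    IsTest Ω (fun z => s * φ z + t * ψ z) := tadd (tmul hφ s) (tmul hψ t)

theorem tcont {Ω : Set ℂ} {φ : ℂ → ℝ} (hφ : IsTest Ω φ) : Continuous φ := hφ.1.continuous

theorem tmemLp {Ω : Set ℂ} {φ : ℂ → ℝ} (hφ : IsTest Ω φ) : MemLp φ 2 volume :=
  (tcont hφ).memLp_of_hasCompactSupport hφ.2.1

/-- Test functions as a subspace. -/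
def testMod (Ω : Set ℂ) : Submodule ℝ (ℂ → ℝ) where
  carrier := {φ | IsTest Ω φ}
  add_mem' := fun hφ hψ => tadd hφ hψ
  zero_mem' := tzero Ω
  smul_mem' := fun c _ hφ => tmul hφ c

/-- Test functions in `L²`. -/
noncomputable def toL2 (Ω : Set ℂ) : testMod Ω →ₗ[ℝ] Lp ℝ 2 (volume : Measure ℂ) where
  toFun φ := (tmemLp (Ω := Ω) (φ := φ) φ.2).toLp φ
  map_add' φ ψ := by
    rw [← MemLp.toLp_add]
    rfl
  map_smul' c φ := by
    rw [RingHom.id_apply, ← MemLp.toLp_const_smul]
    rfl

theorem toL2_inj (Ω : Set ℂ) : Function.Injective (toL2 Ω) := by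
  intro φ ψ h
  have h1 : (φ : ℂ → ℝ) =ᵐ[volume] ψ := by
    have := (MemLp.toLp_eq_toLp_iff (tmemLp φ.2) (tmemLp ψ.2)).1 h
    exact this
  have h2 : (φ : ℂ → ℝ) = ψ := (Continuous.ae_eq_iff_eq volume (tcont φ.2) (tcont ψ.2)).1 h1
  exact Subtype.ext h2

theorem norm_toL2 (Ω : Set ℂ) (φ : testMod Ω) : ‖toL2 Ω φ‖ = √(∫ z, (φ : ℂ → ℝ) z ^ 2) := by
  have h : inner ℝ (toL2 Ω φ) (toL2 Ω φ) = ∫ z, (φ : ℂ → ℝ) z ^ 2 := by
    rw [L2.inner_def]
    apply integral_congr_ae
    filter_upwards [(tmemLp φ.2).coeFn_toLp] with z hz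
    have : (toL2 Ω φ : ℂ → ℝ) z = (φ : ℂ → ℝ) z := hz
    rw [this]
    simp [sq]
  rw [← h, real_inner_self_eq_norm_sq, Real.sqrt_sq (norm_nonneg _)]

/-- Riesz representation of a functional of test functions. -/
theorem exists_L2 {Ω : Set ℂ} {ℓ : (ℂ → ℝ) → ℝ}
    (hlin : ∀ φ ψ, IsTest Ω φ → IsTest Ω ψ → ∀ s t : ℝ,
      ℓ (fun z => s * φ z + t * ψ z) = s * ℓ φ + t * ℓ ψ) {C : ℝ}
    (hC : ∀ ψ, IsTest Ω ψ → |ℓ ψ| ≤ C * √(∫ z, ψ z ^ 2)) :
    ∃ k : ℂ → ℝ, MemLp k 2 volume ∧ ∀ ψ, IsTest Ω ψ → ℓ ψ = ∫ z, k z * ψ z := by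
  let L : testMod Ω →ₗ[ℝ] ℝ :=
    { toFun := fun φ => ℓ φ
      map_add' := fun φ ψ => by
        have := hlin φ ψ φ.2 ψ.2 1 1
        simp only [one_mul] at this
        exact this
      map_smul' := fun c φ => by
        have := hlin φ φ φ.2 φ.2 c 0
        simp only [zero_mul, add_zero] at this
        exact this }
  let e := LinearEquiv.ofInjective (toL2 Ω) (toL2_inj Ω)
  let f0 : LinearMap.range (toL2 Ω) →ₗ[ℝ] ℝ := L.comp e.symm.toLinearMap
  have hb : ∀ x, ‖f0 x‖ ≤ C * ‖x‖ := by
    intro x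
    obtain ⟨φ, rfl⟩ := e.surjective x
    have h1 : f0 (e φ) = ℓ φ := by
      simp only [f0, LinearMap.comp_apply, LinearEquiv.coe_coe, LinearEquiv.symm_apply_apply]
      rfl
    have h2 : ‖e φ‖ = ‖toL2 Ω φ‖ := rfl
    rw [h1, h2, norm_toL2, Real.norm_eq_abs]
    exact hC φ φ.2
  let f : StrongDual ℝ (LinearMap.range (toL2 Ω)) := f0.mkContinuous C hb
  obtain ⟨g, hg, -⟩ := exists_extension_norm_eq _ f
  set k := (InnerProductSpace.toDual ℝ (Lp ℝ 2 (volume : Measure ℂ))).symm g with hk
  refine ⟨k, Lp.memLp k, ?_⟩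
  intro ψ hψ
  let φ : testMod Ω := ⟨ψ, hψ⟩
  have h1 : g (toL2 Ω φ) = ℓ ψ := by
    have := hg (e φ)
    have h2 : f (e φ) = ℓ ψ := by
      show f0 (e φ) = ℓ ψ
      simp only [f0, LinearMap.comp_apply, LinearEquiv.coe_coe, LinearEquiv.symm_apply_apply]
      rfl
    rw [← h2, ← this]
    rfl
  rw [← h1]
  have h3 : g (toL2 Ω φ) = inner ℝ k (toL2 Ω φ) := by
    rw [hk, InnerProductSpace.toDual_symm_apply]
  rw [h3, L2.inner_def]
  apply integral_congr_ae
  filter_upwards [(tmemLp hψ).coeFn_toLp] with z hz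
  have : (toL2 Ω φ : ℂ → ℝ) z = ψ z := hz
  rw [this]
  simp [mul_comm]

/-! ## averaging bumps -/

open UK
open K (ns ns_eq)

theorem ns_symm (z w : ℂ) : ns z w = ns w z := by
  rw [ns_eq, ns_eq, norm_sub_rev]

theorem bump_symm (z : ℂ) (s : ℝ) (w : ℂ) : bump z s w = bump w s z := by
  unfold bump
  rw [ns_symm]

theorem ns_cont2 : Continuous (fun p : ℂ × ℂ => ns p.1 p.2) := by
  have : (fun p : ℂ × ℂ => ns p.1 p.2) = fun p => ‖p.2 - p.1‖ ^ 2 := by
    funext p; rw [ns_eq]
  rw [this]
  fun_prop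

theorem bump_cont2 (s : ℝ) : Continuous (fun p : ℂ × ℂ => bump p.1 s p.2) := by
  unfold bump
  apply continuous_const.mul
  exact (contDiff_deriv qf_contDiff).continuous.comp (ns_cont2.div_const _)

theorem bump_integrable (z : ℂ) {s : ℝ} (hs : 0 < s) : Integrable (bump z s) :=
  (bump_contDiff z s).continuous.integrable_of_hasCompactSupport
    (hasCompactSupport_of (bump_tsupport hs))

/-- The mollified function. -/
noncomputable def moll (φ : ℂ → ℝ) (r : ℝ) (w : ℂ) : ℝ := ∫ z, φ z * bump z r w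

theorem moll_integrable {φ : ℂ → ℝ} (hφ : Continuous φ) (hc : HasCompactSupport φ) {r : ℝ}
    (w : ℂ) : Integrable (fun z => φ z * bump z r w) := by
  apply Continuous.integrable_of_hasCompactSupport
  · exact hφ.mul ((bump_cont2 r).comp (by fun_prop : Continuous fun z : ℂ => (z, w)))
  · exact hc.mul_right

theorem moll_close {φ : ℂ → ℝ} (hφ : Continuous φ) (hc : HasCompactSupport φ) {r ε : ℝ}
    (hr : 0 < r) {w : ℂ} (h : ∀ z, dist z w ≤ r → |φ z - φ w| ≤ ε) : |moll φ r w - φ w| ≤ ε := by
  have h1 : moll φ r w - φ w = ∫ z, (φ z - φ w) * bump z r w := by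
    have e : (fun z => (φ z - φ w) * bump z r w) =
        fun z => φ z * bump z r w - φ w * bump w r z := by
      funext z
      rw [bump_symm w r z]; ring
    rw [e, integral_sub (moll_integrable hφ hc w) ((bump_integrable w hr).const_mul _),
      integral_const_mul, integral_bump w hr, mul_one]
    rfl
  rw [h1]
  have h2 : ∀ z, ‖(φ z - φ w) * bump z r w‖ ≤ ε * bump w r z := by
    intro z
    rw [Real.norm_eq_abs, abs_mul, abs_of_nonneg (bump_nonneg _ _ _), bump_symm z r w]
    by_cases hz : dist z w ≤ r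
    · exact mul_le_mul_of_nonneg_right (h z hz) (bump_nonneg _ _ _)
    · rw [bump_zero hr (not_le.1 hz), mul_zero, mul_zero]
  have h3 := norm_integral_le_of_norm_le ((bump_integrable w hr).const_mul ε)
    (Filter.Eventually.of_forall h2)
  rw [integral_const_mul, integral_bump w hr, mul_one, Real.norm_eq_abs] at h3
  exact h3

theorem moll_tendsto {φ : ℂ → ℝ} (hφ : Continuous φ) (hc : HasCompactSupport φ) {r : ℕ → ℝ}
    (hr : ∀ n, 0 < r n) (hr0 : Tendsto r atTop (𝓝 0)) (w : ℂ) :
    Tendsto (fun n => moll φ (r n) w) atTop (𝓝 (φ w)) := by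
  rw [Metric.tendsto_atTop]
  intro ε hε
  obtain ⟨δ, hδ, hd⟩ := Metric.continuous_iff.1 hφ w (ε / 2) (by positivity)
  obtain ⟨N, hN⟩ := (hr0.eventually (gt_mem_nhds hδ)).exists_forall_of_atTop
  refine ⟨N, fun n hn => ?_⟩
  rw [Real.dist_eq]
  have := moll_close hφ hc (hr n) (w := w) (ε := ε / 2) (fun z hz => by
    have := hd z (hz.trans_lt (hN n hn))
    rw [Real.dist_eq] at this
    exact this.le)
  linarith

theorem moll_bound {φ : ℂ → ℝ} {M : ℝ} (hM : ∀ z, |φ z| ≤ M) {r : ℝ} (hr : 0 < r) (w : ℂ) :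
    |moll φ r w| ≤ M := by
  have h2 : ∀ z, ‖φ z * bump z r w‖ ≤ M * bump w r z := by
    intro z
    rw [Real.norm_eq_abs, abs_mul, abs_of_nonneg (bump_nonneg _ _ _), bump_symm z r w]
    exact mul_le_mul_of_nonneg_right (hM z) (bump_nonneg _ _ _)
  have h3 := norm_integral_le_of_norm_le ((bump_integrable w hr).const_mul M)
    (Filter.Eventually.of_forall h2)
  rw [integral_const_mul, integral_bump w hr, mul_one, Real.norm_eq_abs] at h3
  exact h3

theorem moll_zero {φ : ℂ → ℝ} {R : ℝ} (hR : ∀ z, R < ‖z‖ → φ z = 0) {r : ℝ} (hr : 0 < r)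
    {w : ℂ} (hw : R + r < ‖w‖) : moll φ r w = 0 := by
  unfold moll
  rw [show (fun z => φ z * bump z r w) = fun _ => 0 from ?_, integral_zero]
  funext z
  by_cases hz : R < ‖z‖
  · rw [hR z hz, zero_mul]
  · rw [bump_symm z r w, bump_zero hr, mul_zero]
    push Not at hz
    have h1 : ‖w‖ ≤ dist z w + ‖z‖ := by
      have := norm_sub_norm_le w z
      rw [dist_eq_norm, norm_sub_rev]
      linarith
    linarith

/-- **Functionals which vanish on small bumps**: a functional of test functions which is bounded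
in `L²` and tends to `0` on the bumps around almost every point vanishes. -/
theorem abs_zero {Ω : Set ℂ} (hΩ : IsOpen Ω) {ℓ : (ℂ → ℝ) → ℝ}
    (hlin : ∀ φ ψ, IsTest Ω φ → IsTest Ω ψ → ∀ s t : ℝ,
      ℓ (fun z => s * φ z + t * ψ z) = s * ℓ φ + t * ℓ ψ) {C : ℝ}
    (hC : ∀ ψ, IsTest Ω ψ → |ℓ ψ| ≤ C * √(∫ z, ψ z ^ 2)) {B : ℝ}
    (hB : ∀ z r, 0 < r → Metric.closedBall z r ⊆ Ω → |ℓ (bump z r)| ≤ B)
    (hlim : ∀ᵐ z, z ∈ Ω → Tendsto (fun r => ℓ (bump z r)) (𝓝[>] 0) (𝓝 0)) :
    ∀ φ, IsTest Ω φ → ℓ φ = 0 := by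
  intro φ hφ
  obtain ⟨k, hk, hℓ⟩ := exists_L2 hlin hC
  have hφc := tcont hφ
  -- radii
  obtain ⟨r0, hr0, hr0'⟩ := hφ.2.1.isCompact.exists_cthickening_subset_open hΩ hφ.2.2
  set r : ℕ → ℝ := fun n => min r0 1 / ((n : ℝ) + 1) with hrdef
  have hm : 0 < min r0 1 := lt_min hr0 one_pos
  have hr : ∀ n, 0 < r n := fun n => by positivity
  have hrle : ∀ n, r n ≤ min r0 1 := fun n => by
    rw [hrdef]
    apply div_le_self hm.le
    have : (0 : ℝ) ≤ n := Nat.cast_nonneg n
    linarith
  have hrt : Tendsto r atTop (𝓝 0) := by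
    have := tendsto_one_div_add_atTop_nhds_zero_nat (𝕜 := ℝ)
    have h2 := this.const_mul (min r0 1)
    rw [mul_zero] at h2
    refine h2.congr (fun n => ?_)
    rw [hrdef]; ring
  have hball : ∀ n, ∀ z ∈ tsupport φ, Metric.closedBall z (r n) ⊆ Ω := by
    intro n z hz
    refine Set.Subset.trans ?_ hr0'
    refine (Metric.closedBall_subset_closedBall ((hrle n).trans (min_le_left _ _))).trans ?_
    exact Metric.closedBall_subset_cthickening hz r0
  -- bounds for `φ`
  obtain ⟨M, hM⟩ := hφc.bounded_above_of_compact_support hφ.2.1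
  have hM' : ∀ z, |φ z| ≤ M := fun z => by simpa using hM z
  have hM0 : 0 ≤ M := (abs_nonneg _).trans (hM' 0)
  obtain ⟨R, hR⟩ := hφ.2.1.isCompact.isBounded.exists_norm_le
  have hR' : ∀ z, R < ‖z‖ → φ z = 0 := by
    intro z hz
    by_contra hne
    have := hR z (subset_tsupport φ hne)
    linarith
  -- `k` is locally integrable
  have hkI : Integrable (fun w => |k w| * (Metric.closedBall (0 : ℂ) (R + 1)).indicator 1 w) := by
    have h1 : Integrable ((Metric.closedBall (0 : ℂ) (R + 1)).indicator (fun w => |k w|)) := by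
      rw [integrable_indicator_iff Metric.isClosed_closedBall.measurableSet]
      have h2 : MemLp k 2 (volume.restrict (Metric.closedBall (0 : ℂ) (R + 1))) := hk.restrict _
      have : IsFiniteMeasure (volume.restrict (Metric.closedBall (0 : ℂ) (R + 1))) :=
        ⟨by rw [Measure.restrict_apply_univ]; exact measure_closedBall_lt_top⟩
      have h3 : MemLp k 1 (volume.restrict (Metric.closedBall (0 : ℂ) (R + 1))) :=
        h2.mono_exponent (by norm_num)
      exact (memLp_one_iff_integrable.1 h3).abs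
    refine h1.congr (Filter.Eventually.of_forall fun w => ?_)
    by_cases hw : w ∈ Metric.closedBall (0 : ℂ) (R + 1)
    · simp [Set.indicator_of_mem hw]
    · simp [Set.indicator_of_notMem hw]
  -- Fubini
  have hfub : ∀ n, ∫ z, φ z * ∫ w, k w * bump z (r n) w = ∫ w, k w * moll φ (r n) w := by
    intro n
    obtain ⟨Mb, hMb0, hMb⟩ := bump_bound
    have hint : Integrable (Function.uncurry fun z w => φ z * (k w * bump z (r n) w))
        (volume.prod volume) := by
      have hdom : Integrable (fun p : ℂ × ℂ => |φ p.1| *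
          (Mb / r n ^ 2 * (|k p.2| * (Metric.closedBall (0 : ℂ) (R + 1)).indicator 1 p.2)))
          (volume.prod volume) :=
        Integrable.mul_prod (f := fun z => |φ z|)
          (g := fun w => Mb / r n ^ 2 *
            (|k w| * (Metric.closedBall (0 : ℂ) (R + 1)).indicator 1 w))
          (hφc.integrable_of_hasCompactSupport hφ.2.1).abs (hkI.const_mul _)
      refine hdom.mono' ?_ (Filter.Eventually.of_forall ?_)
      · apply AEStronglyMeasurable.mul
        · exact hφc.aestronglyMeasurable.comp_fst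
        · apply AEStronglyMeasurable.mul
          · exact hk.1.comp_snd
          · exact (bump_cont2 (r n)).aestronglyMeasurable
      · rintro ⟨z, w⟩
        simp only [Function.uncurry, Real.norm_eq_abs, abs_mul]
        by_cases hz : R < ‖z‖
        · rw [hR' z hz]; simp
        push Not at hz
        apply mul_le_mul_of_nonneg_left _ (abs_nonneg _)
        by_cases hw : w ∈ Metric.closedBall (0 : ℂ) (R + 1)
        · rw [Set.indicator_of_mem hw, Pi.one_apply, mul_one,
            abs_of_nonneg (bump_nonneg _ _ _), mul_comm]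
          exact mul_le_mul_of_nonneg_right (hMb z (r n) w (hr n)) (abs_nonneg _)
        · have h0 : bump z (r n) w = 0 := by
            apply bump_zero (hr n)
            rw [Metric.mem_closedBall, dist_zero_right] at hw
            push Not at hw
            have h1 : ‖w‖ ≤ dist w z + ‖z‖ := by
              have := norm_sub_norm_le w z
              rw [dist_eq_norm]
              linarith
            have := (hrle n).trans (min_le_right _ _)
            linarith
          rw [h0, Set.indicator_of_notMem hw]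
          simp
    have h := integral_integral_swap hint
    have e1 : ∀ z, ∫ w, φ z * (k w * bump z (r n) w) = φ z * ∫ w, k w * bump z (r n) w :=
      fun z => integral_const_mul _ _
    have e2 : ∀ w, ∫ z, φ z * (k w * bump z (r n) w) = k w * moll φ (r n) w := by
      intro w
      unfold moll
      rw [← integral_const_mul]
      congr 1
      funext z
      ring
    simp only [e1, e2] at h
    exact h
  -- first limit
  have hlim1 : Tendsto (fun n => ∫ w, k w * moll φ (r n) w) atTop (𝓝 (∫ w, k w * φ w)) := by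
    apply tendsto_integral_of_dominated_convergence
      (fun w => M * (|k w| * (Metric.closedBall (0 : ℂ) (R + 1)).indicator 1 w))
    · intro n
      apply hk.1.mul
      have : StronglyMeasurable (moll φ (r n)) := by
        unfold moll
        have hc2 : Continuous (Function.uncurry fun w z : ℂ => φ z * bump z (r n) w) := by
          apply Continuous.mul
          · exact hφc.comp continuous_snd
          · exact (bump_cont2 (r n)).comp (by fun_prop : Continuous fun p : ℂ × ℂ => (p.2, p.1))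
        exact hc2.stronglyMeasurable.integral_prod_right
      exact this.aestronglyMeasurable
    · exact hkI.const_mul M
    · intro n
      refine Filter.Eventually.of_forall fun w => ?_
      rw [Real.norm_eq_abs, abs_mul]
      by_cases hw : w ∈ Metric.closedBall (0 : ℂ) (R + 1)
      · rw [Set.indicator_of_mem hw, Pi.one_apply, mul_one, mul_comm]
        exact mul_le_mul_of_nonneg_right (moll_bound hM' (hr n) w) (abs_nonneg _)
      · rw [moll_zero hR' (hr n), Set.indicator_of_notMem hw]
        · simp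
        · rw [Metric.mem_closedBall, dist_zero_right] at hw
          push Not at hw
          have := (hrle n).trans (min_le_right _ _)
          linarith
    · exact Filter.Eventually.of_forall fun w => (moll_tendsto hφc hφ.2.1 hr hrt w).const_mul _
  -- second limit
  have hlim2 : Tendsto (fun n => ∫ z, φ z * ∫ w, k w * bump z (r n) w) atTop (𝓝 0) := by
    have h0 : ∫ _ : ℂ, (0 : ℝ) = 0 := integral_zero _ _
    rw [← h0]
    apply tendsto_integral_of_dominated_convergence (fun z => |φ z| * B)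
    · intro n
      apply hφc.aestronglyMeasurable.mul
      have : AEStronglyMeasurable (fun z => ∫ w, k w * bump z (r n) w) volume := by
        have hc2 : AEStronglyMeasurable (Function.uncurry fun z w : ℂ => k w * bump z (r n) w)
            (volume.prod volume) :=
          hk.1.comp_snd.mul (bump_cont2 (r n)).aestronglyMeasurable
        exact hc2.integral_prod_right'
      exact this
    · exact (hφc.integrable_of_hasCompactSupport hφ.2.1).abs.mul_const B
    · intro n
      refine Filter.Eventually.of_forall fun z => ?_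
      rw [Real.norm_eq_abs, abs_mul]
      by_cases hz : z ∈ tsupport φ
      · apply mul_le_mul_of_nonneg_left _ (abs_nonneg _)
        rw [← hℓ _ (bump_test (hr n) (hball n z hz))]
        exact hB z (r n) (hr n) (hball n z hz)
      · rw [image_eq_zero_of_notMem_tsupport hz]; simp
    · filter_upwards [hlim] with z hz
      by_cases hzt : z ∈ tsupport φ
      · have h1 := (hz (hφ.2.2 hzt)).comp (tendsto_nhdsWithin_iff.2
          ⟨hrt, Filter.Eventually.of_forall hr⟩)
        have h2 := h1.const_mul (φ z)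
        rw [mul_zero] at h2
        refine h2.congr (fun n => ?_)
        simp only [Function.comp]
        rw [hℓ _ (bump_test (hr n) (hball n z hzt))]
      · have : φ z = 0 := image_eq_zero_of_notMem_tsupport hzt
        simp [this]
  rw [hℓ φ hφ]
  have h3 : (fun n => ∫ z, φ z * ∫ w, k w * bump z (r n) w) =
      fun n => ∫ w, k w * moll φ (r n) w := funext hfub
  rw [h3] at hlim2
  exact tendsto_nhds_unique hlim1 hlim2

end Vale.Agent.P155.Uq
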