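import Vale.Agent.P155.U.ExtA
import Vale.Agent.P155.U.Bump

/-!
# P155, block U-EXT: extremality on bumps
-/

namespace Vale.Agent.P155.Uq

open MeasureTheory Filter Topology TopologicalSpace
open Vale.Agent.P155.UK (bump bump_test bump_nonneg integral_bump bump_tsupport)

variable {Ω : Set ℂ} {X S S' : Type} [MeasurableSpace X] [MeasurableSpace S]
    [MeasurableSpace S'] {μ : Measure X} {K0 : X → Set ℂ} {a : X → S} {a' : X → S'}
    {A : S → NonemptyCompacts ℂ} {A' : S' → NonemptyCompacts ℂ}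
    {h : S → (ℂ → ℝ) → ℝ} {h' : S' → (ℂ → ℝ) → ℝ} {Γ Z : (ℂ → ℝ) → X → ℝ}

/-- KEY for one coupled pair. -/
def Key (Ω : Set ℂ) (μ : Measure X) (a : X → S) (a' : X → S')
    (A : S → NonemptyCompacts ℂ) (A' : S' → NonemptyCompacts ℂ) (Z : (ℂ → ℝ) → X → ℝ) : Prop :=
  ∀ z r, 0 < r → Metric.closedBall z r ⊆ Ω → ∀ᵐ x ∂μ,
    Disjoint (Metric.closedBall z r) ((A (a x) : Set ℂ) ∪ A' (a' x)) → |Z (bump z r) x| ≤ cst

theorem int_abs_bump {z : ℂ} {r : ℝ} (hr : 0 < r) : ∫ w, |bump z r w| = 1 := by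
  rw [← integral_bump z hr]
  refine integral_congr_ae (Eventually.of_forall fun w => ?_)
  exact abs_of_nonneg (bump_nonneg z r w)

/-- second moment of `Z - c h` on bumps -/
theorem Cpl.ED_bump (C : Cpl Ω μ K0 a a' A A' h h' Γ Z) {z : ℂ} {r : ℝ} (hr : 0 < r)
    (hz : Metric.closedBall z r ⊆ Ω) :
    ∫ x, (Z (bump z r) x - cst * h (a x) (bump z r)) ^ 2 ∂μ ≤ 6 * cst ^ 2 := by
  have hb := bump_test hr hz
  have h1 := C.EZ_le hb (bump_nonneg z r)
  have h2 := C.Eh_le hb
  rw [int_abs_bump hr, mul_one] at h1 h2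
  have := C.ED_le hb h1 h2
  linarith

theorem Cpl.sgn (C : Cpl Ω μ K0 a a' A A' h h' Γ Z) {z : ℂ} {r : ℝ} (hr : 0 < r)
    (hz : Metric.closedBall z (2 * r) ⊆ Ω) : ∀ᵐ x ∂μ,
    Disjoint (Metric.closedBall z (2 * r)) (A (a x) : Set ℂ) →
    h (a x) (bump z r) = 1 ∨ h (a x) (bump z r) = -1 := by
  filter_upwards [C.one.sign] with x hx hd
  obtain ⟨t, ht, hall⟩ := hx z (2 * r) (by positivity) hz hd
  have hb : IsTest (Metric.ball z (2 * r)) (bump z r) :=
    bump_test hr (Metric.closedBall_subset_ball (by linarith))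
  rw [hall _ hb, integral_bump z hr, mul_one]
  exact ht

theorem int_mul_sqrt [IsProbabilityMeasure μ] {f : X → ℝ} (hf : MemLp f 2 μ) {B : Set X}
    {c : ℝ} (hc : ∫ x, f x ^ 2 ∂μ ≤ c ^ 2) (hc0 : 0 ≤ c) :
    ∫ x in B, |f x| ∂μ ≤ c * √(μ.real B) := by
  have h1 : Integrable (fun x => |f x|) μ := (hf.integrable (by norm_num)).abs
  set p := μ.real B with hp
  have hp0 : 0 ≤ p := measureReal_nonneg
  have hs : √p ^ 2 = p := Real.sq_sqrt hp0
  -- for every t: ∫_B |f| ≤ t c² / 2 + p / (2 t)
  have h2 : ∀ t : ℝ, 0 < t → ∫ x in B, |f x| ∂μ ≤ t * c ^ 2 / 2 + p / (2 * t) := by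
    intro t ht
    have h3 : ∫ x in B, |f x| ∂μ ≤ ∫ x in B, (t / 2 * f x ^ 2 + 1 / (2 * t)) ∂μ := by
      apply integral_mono h1.integrableOn
      · exact (hf.integrable_sq.const_mul _).integrableOn.add (integrable_const _)
      · intro x
        simp only
        have h4 : 0 ≤ (t * |f x| - 1) ^ 2 / (2 * t) := by positivity
        have h5 : (t * |f x| - 1) ^ 2 / (2 * t) = t / 2 * f x ^ 2 + 1 / (2 * t) - |f x| := by
          rw [← sq_abs (f x)]
          field_simp
          ring
        linarith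
    have h6 : ∫ x in B, (t / 2 * f x ^ 2 + 1 / (2 * t)) ∂μ =
        t / 2 * ∫ x in B, f x ^ 2 ∂μ + p * (1 / (2 * t)) := by
      rw [integral_add (hf.integrable_sq.const_mul _).integrableOn (integrable_const _),
        integral_const_mul, setIntegral_const, smul_eq_mul]
    have h7 : ∫ x in B, f x ^ 2 ∂μ ≤ c ^ 2 :=
      (setIntegral_le_integral hf.integrable_sq
        (Eventually.of_forall fun x => sq_nonneg _)).trans hc
    have h8 : t / 2 * ∫ x in B, f x ^ 2 ∂μ ≤ t / 2 * c ^ 2 :=
      mul_le_mul_of_nonneg_left h7 (by positivity)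
    calc _ ≤ _ := h3
      _ = _ := h6
      _ ≤ t / 2 * c ^ 2 + p * (1 / (2 * t)) := by linarith
      _ = _ := by ring
  rcases eq_or_lt_of_le hp0 with hp1 | hp1
  · have h9 : μ B = 0 := by
      rw [hp] at hp1
      exact (measureReal_eq_zero_iff).1 hp1.symm
    rw [Measure.restrict_eq_zero.2 h9, integral_zero_measure]
    positivity
  rcases eq_or_lt_of_le hc0 with hc1 | hc1
  · -- c = 0
    rw [← hc1, zero_mul]
    apply le_of_forall_pos_le_add
    intro ε hε
    have := h2 (p / (2 * ε)) (by positivity)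
    rw [← hc1] at this
    have e : p / (2 * (p / (2 * ε))) = ε := by field_simp
    rw [e] at this
    linarith
  · have hsp : 0 < √p := Real.sqrt_pos.2 hp1
    have h10 := h2 (√p / c) (by positivity)
    have e : √p / c * c ^ 2 / 2 + p / (2 * (√p / c)) = c * √p := by
      have e1 : p / (2 * (√p / c)) = √p ^ 2 / (2 * (√p / c)) := by rw [hs]
      rw [e1]
      field_simp
      ring
    rwa [e] at h10

/-- **extremality**: the `L¹` distance of `Z` and `c h` on a bump is small if the bump is small -/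
theorem Cpl.ext_bump (C : Cpl Ω μ K0 a a' A A' h h' Γ Z) (hkey : Key Ω μ a a' A A' Z)
    {z : ℂ} {r : ℝ} (hr : 0 < r) (hz : Metric.closedBall z (2 * r) ⊆ Ω) :
    ∫ x, |Z (bump z r) x - cst * h (a x) (bump z r)| ∂μ ≤
      2 * (3 * cst * √(μ.real ({x | Disjoint (Metric.closedBall z (2 * r)) (A (a x) : Set ℂ)} ∩
        {x | Disjoint (Metric.closedBall z (2 * r)) (A' (a' x) : Set ℂ)})ᶜ)) := by
  have := C.prob
  have hz' : Metric.closedBall z r ⊆ Ω :=
    (Metric.closedBall_subset_closedBall (by linarith)).trans hz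
  have hb := bump_test hr hz'
  set b := bump z r with hbd
  set E : Set X := {x | Disjoint (Metric.closedBall z (2 * r)) (A (a x) : Set ℂ)} with hE
  set E' : Set X := {x | Disjoint (Metric.closedBall z (2 * r)) (A' (a' x) : Set ℂ)} with hE'
  have mE : MeasurableSet E :=
    meas_disjoint (A := fun x => A (a x)) (C.mA.comp C.ma) Metric.isClosed_closedBall
  have mE' : MeasurableSet E' :=
    meas_disjoint (A := fun x => A' (a' x)) (C.mA'.comp C.ma') Metric.isClosed_closedBall
  set D : X → ℝ := fun x => Z b x - cst * h (a x) b with hD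
  have mD : MemLp D 2 μ := C.memD hb
  have iD : Integrable D μ := mD.integrable (by norm_num)
  have hD2 : ∫ x, D x ^ 2 ∂μ ≤ (3 * cst) ^ 2 := by
    have := C.ED_bump hr hz'
    have h0 := sq_nonneg cst
    calc _ ≤ 6 * cst ^ 2 := this
      _ ≤ _ := by nlinarith
  -- the orthogonality
  have hsgn : MeasurableSet {s : S | Disjoint (Metric.closedBall z (2 * r)) (A s : Set ℂ)} :=
    meas_disjoint C.mA Metric.isClosed_closedBall
  have hw : BM (fun s : S => ({s : S | Disjoint (Metric.closedBall z (2 * r))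
      (A s : Set ℂ)}).indicator (clh h b) s) := by
    obtain ⟨h1, K, hK⟩ := C.BM_clh hb
    refine ⟨h1.indicator hsgn, |K|, fun s => ?_⟩
    show |Set.indicator {s : S | Disjoint (Metric.closedBall z (2 * r)) (A s : Set ℂ)}
      (clh h b) s| ≤ |K|
    by_cases hs : s ∈ {s : S | Disjoint (Metric.closedBall z (2 * r)) (A s : Set ℂ)}
    · rw [Set.indicator_of_mem hs]
      exact (hK s).trans (le_abs_self K)
    · rw [Set.indicator_of_notMem hs, abs_zero]
      exact abs_nonneg _
  have horth := C.mZ hb hw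
  have h1 : ∫ x in E, h (a x) b * D x ∂μ = 0 := by
    rw [← horth, ← integral_indicator mE]
    apply integral_congr_ae
    filter_upwards [C.hclh hb] with x hx
    by_cases hxE : x ∈ E
    · have hxs : a x ∈ {s : S | Disjoint (Metric.closedBall z (2 * r)) (A s : Set ℂ)} := hxE
      simp only [Set.indicator_of_mem hxE, Set.indicator_of_mem hxs, hx, hD]
    · have hxs : a x ∉ {s : S | Disjoint (Metric.closedBall z (2 * r)) (A s : Set ℂ)} := hxE
      simp only [Set.indicator_of_notMem hxE, Set.indicator_of_notMem hxs, zero_mul]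
  -- on `E ∩ E'` the integrand has a sign
  have h2 : ∀ᵐ x ∂μ, x ∈ E ∩ E' → |D x| = - (h (a x) b * D x) := by
    filter_upwards [C.sgn hr hz, hkey z r hr hz'] with x hs hk hx
    have hd : Disjoint (Metric.closedBall z r) ((A (a x) : Set ℂ) ∪ A' (a' x)) := by
      rw [Set.disjoint_union_right]
      exact ⟨hx.1.mono_left (Metric.closedBall_subset_closedBall (by linarith)),
        hx.2.mono_left (Metric.closedBall_subset_closedBall (by linarith))⟩
    have hk' := abs_le.1 (hk hd)
    rw [← hbd] at hk'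
    rcases hs hx.1 with hs1 | hs1
    · rw [← hbd] at hs1
      simp only [hD, hs1]
      rw [abs_of_nonpos (by linarith [hk'.2])]
      ring
    · rw [← hbd] at hs1
      simp only [hD, hs1]
      rw [abs_of_nonneg (by linarith [hk'.1])]
      ring
  have ihD : Integrable (fun x => h (a x) b * D x) μ := by
    apply iD.bdd_mul ((C.mh b hb).comp C.ma).aestronglyMeasurable (c := ∫ z, |b z|)
    filter_upwards [C.h_le hb] with x hx
    rw [Real.norm_eq_abs]
    exact hx
  have h3 : ∫ x in E ∩ E', |D x| ∂μ ≤ ∫ x in E \ E', |D x| ∂μ := by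
    have e1 : ∫ x in E ∩ E', |D x| ∂μ = - ∫ x in E ∩ E', h (a x) b * D x ∂μ := by
      rw [← integral_neg]
      exact setIntegral_congr_ae (mE.inter mE') h2
    have e2 : ∫ x in E ∩ E', h (a x) b * D x ∂μ + ∫ x in E \ E', h (a x) b * D x ∂μ = 0 := by
      rw [integral_inter_add_sdiff mE' ihD.integrableOn, h1]
    have e3 : ∫ x in E \ E', h (a x) b * D x ∂μ ≤ ∫ x in E \ E', |D x| ∂μ := by
      apply setIntegral_mono_on_ae ihD.integrableOn iD.abs.integrableOn (mE.diff mE')
      filter_upwards [C.sgn hr hz] with x hs hx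
      rcases hs hx.1 with hs1 | hs1
      · rw [← hbd] at hs1
        rw [hs1, one_mul]
        exact le_abs_self _
      · rw [← hbd] at hs1
        rw [hs1]
        linarith [neg_abs_le (D x)]
    linarith
  have h4 : ∫ x in E \ E', |D x| ∂μ ≤ ∫ x in (E ∩ E')ᶜ, |D x| ∂μ := by
    apply setIntegral_mono_set iD.abs.integrableOn
    · exact Eventually.of_forall fun x => abs_nonneg _
    · refine Eventually.of_forall fun x hx => ?_
      exact fun hx' => hx.2 hx'.2
  have h5 := integral_add_compl (mE.inter mE') iD.abs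
  have h6 := int_mul_sqrt (B := (E ∩ E')ᶜ) mD hD2
    (mul_nonneg (by norm_num) cst_nonneg)
  linarith

end Vale.Agent.P155.Uq
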