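import Vale.Agent.P155.U.Iface
import Vale.Agent.P155.U.P1

/-!
# P155, block U-EXT: the Green energy on bounded open sets
-/

namespace Vale.Agent.P155.Uq

open MeasureTheory Filter Topology TopologicalSpace
open Vale.Agent.P155.U (test_c1 test_zero test_int test_sq poinc)

/-- The functional of the Dirichlet principle. -/
noncomputable def gval (φ v : ℂ → ℝ) : ℝ := 2 * (∫ z, φ z * v z) - ∫ z, ‖fderiv ℝ v z‖ ^ 2

theorem l1_sq_le {U : Set ℂ} {r : ℝ} (hr : 0 < r) (hU : U ⊆ Metric.ball 0 r) {v : ℂ → ℝ}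
    (hv : IsTest U v) : (∫ z, |v z|) ^ 2 ≤ 160 * r ^ 4 * ∫ z, ‖fderiv ℝ v z‖ ^ 2 := by
  have h := poinc (test_c1 hv) 0 hr le_rfl (fun x hx => by
    refine ⟨(x : ℂ), ?_, ?_⟩
    · rw [dist_zero_right, Complex.norm_real, Real.norm_of_nonneg (hr.le.trans hx.1)]
    · apply test_zero hv
      intro h
      have := hU h
      rw [Metric.mem_ball, dist_zero_right, Complex.norm_real,
        Real.norm_of_nonneg (hr.le.trans hx.1)] at this
      exact absurd hx.1 (not_le.2 this))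
  have h1 : ∫ z in Metric.ball (0 : ℂ) r, |v z| = ∫ z, |v z| := by
    apply setIntegral_eq_integral_of_forall_compl_eq_zero
    intro z hz
    rw [test_zero hv (fun h => hz (hU h)), abs_zero]
  rw [h1, div_self hr.ne', Real.log_one, add_zero, mul_one] at h
  refine h.trans ?_
  have h2 : ∫ z in Metric.ball (0 : ℂ) (2 * r), ‖fderiv ℝ v z‖ ^ 2 ≤ ∫ z, ‖fderiv ℝ v z‖ ^ 2 :=
    setIntegral_le_integral (test_sq hv) (Eventually.of_forall fun z => sq_nonneg _)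
  exact mul_le_mul_of_nonneg_left h2 (by positivity)

theorem abs_int_le {φ v : ℂ → ℝ} {M : ℝ} (hφ : ∀ z, |φ z| ≤ M) (hv : Integrable v) :
    |∫ z, φ z * v z| ≤ M * ∫ z, |v z| := by
  have h0 : 0 ≤ M := (abs_nonneg _).trans (hφ 0)
  rw [← Real.norm_eq_abs, ← integral_const_mul]
  apply norm_integral_le_of_norm_le (hv.abs.const_mul M)
  refine Eventually.of_forall fun z => ?_
  rw [Real.norm_eq_abs, abs_mul]
  exact mul_le_mul_of_nonneg_right (hφ z) (abs_nonneg _)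

theorem gval_le {U : Set ℂ} {r M : ℝ} (hr : 0 < r) (hU : U ⊆ Metric.ball 0 r) {φ v : ℂ → ℝ}
    (hφ : ∀ z, |φ z| ≤ M) (hv : IsTest U v) : gval φ v ≤ 160 * r ^ 4 * M ^ 2 := by
  unfold gval
  have h1 := l1_sq_le hr hU hv
  have h2 := (le_abs_self _).trans (abs_int_le hφ (test_int hv))
  set X := ∫ z, |v z|
  set E := ∫ z, ‖fderiv ℝ v z‖ ^ 2
  have hk : 0 < 160 * r ^ 4 := by positivity
  have h3 : X ^ 2 / (160 * r ^ 4) ≤ E := by
    rw [div_le_iff₀ hk]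
    linarith
  have h4 : 0 ≤ (X / (160 * r ^ 4) - M) ^ 2 * (160 * r ^ 4) := by positivity
  have h5 : (X / (160 * r ^ 4) - M) ^ 2 * (160 * r ^ 4) =
      X ^ 2 / (160 * r ^ 4) - 2 * (M * X) + 160 * r ^ 4 * M ^ 2 := by
    field_simp
    ring
  linarith

theorem bdd_gval {U : Set ℂ} (hb : Bornology.IsBounded U) {φ : ℂ → ℝ} {M : ℝ}
    (hφ : ∀ z, |φ z| ≤ M) : BddAbove {x | ∃ v, IsTest U v ∧ x = gval φ v} := by
  obtain ⟨r, hr⟩ := hb.subset_ball (0 : ℂ)
  refine ⟨160 * (max r 1) ^ 4 * M ^ 2, ?_⟩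
  rintro x ⟨v, hv, rfl⟩
  exact gval_le (lt_max_of_lt_right one_pos)
    (hr.trans (Metric.ball_subset_ball (le_max_left _ _))) hφ hv

theorem gval_le_green {U : Set ℂ} (hb : Bornology.IsBounded U) {φ v : ℂ → ℝ} {M : ℝ}
    (hφ : ∀ z, |φ z| ≤ M) (hv : IsTest U v) : gval φ v ≤ greenEnergy U φ :=
  le_csSup (bdd_gval hb hφ) ⟨v, hv, rfl⟩

theorem green_le {U : Set ℂ} {r M : ℝ} (hr : 0 < r) (hU : U ⊆ Metric.ball 0 r) {φ : ℂ → ℝ}
    (hφ : ∀ z, |φ z| ≤ M) : greenEnergy U φ ≤ 160 * r ^ 4 * M ^ 2 :=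
  Vale.Agent.P155.U.greenEnergy_le fun _ hv => gval_le hr hU hφ hv

theorem green_nonneg {U : Set ℂ} (hb : Bornology.IsBounded U) {φ : ℂ → ℝ} {M : ℝ}
    (hφ : ∀ z, |φ z| ≤ M) : 0 ≤ greenEnergy U φ := by
  have h := gval_le_green hb hφ (Vale.Agent.P155.U.isTest_zero U)
  have h0 : gval φ (fun _ => 0) = 0 := by simp [gval]
  rwa [h0] at h

theorem green_mono {U U' : Set ℂ} (h : U ⊆ U') (hb : Bornology.IsBounded U') {φ : ℂ → ℝ} {M : ℝ}
    (hφ : ∀ z, |φ z| ≤ M) : greenEnergy U φ ≤ greenEnergy U' φ :=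
  Vale.Agent.P155.U.greenEnergy_le fun _ hv =>
    gval_le_green hb hφ ⟨hv.1, hv.2.1, hv.2.2.trans h⟩

theorem isOpen_test (Ω : Set ℂ) (v : ℂ → ℝ) :
    IsOpen {C : NonemptyCompacts ℂ | IsTest (Ω \ (C : Set ℂ)) v} := by
  by_cases hv : IsTest Ω v
  · have h : {C : NonemptyCompacts ℂ | IsTest (Ω \ (C : Set ℂ)) v} =
        {C : NonemptyCompacts ℂ | (C : Set ℂ) ⊆ (tsupport v)ᶜ} := by
      ext C
      constructor
      · intro h z hz hzv
        exact (h.2.2 hzv).2 hz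
      · intro h
        exact ⟨hv.1, hv.2.1, fun z hz => ⟨hv.2.2 hz, fun hzC => h hzC hz⟩⟩
    rw [h]
    exact NonemptyCompacts.isOpen_subsets_of_isOpen (isClosed_tsupport v).isOpen_compl
  · have h : {C : NonemptyCompacts ℂ | IsTest (Ω \ (C : Set ℂ)) v} = ∅ := by
      ext C
      simp only [Set.mem_ofPred_eq, Set.mem_empty_iff_false, iff_false]
      intro h
      exact hv ⟨h.1, h.2.1, h.2.2.trans Set.sdiff_subset⟩
    rw [h]
    exact isOpen_empty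

theorem lsc_green {Ω : Set ℂ} (hb : Bornology.IsBounded Ω) {φ : ℂ → ℝ} {M : ℝ}
    (hφ : ∀ z, |φ z| ≤ M) :
    LowerSemicontinuous (fun C : NonemptyCompacts ℂ => greenEnergy (Ω \ (C : Set ℂ)) φ) := by
  intro C y hy
  have hne : {x | ∃ v, IsTest (Ω \ (C : Set ℂ)) v ∧ x = gval φ v}.Nonempty :=
    ⟨_, _, Vale.Agent.P155.U.isTest_zero _, rfl⟩
  obtain ⟨x, ⟨v, hv, rfl⟩, hyv⟩ := exists_lt_of_lt_csSup hne hy
  filter_upwards [(isOpen_test Ω v).mem_nhds hv] with C' hC'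
  exact hyv.trans_le (gval_le_green (hb.subset Set.sdiff_subset) hφ hC')

theorem meas_green {Ω : Set ℂ} (hb : Bornology.IsBounded Ω) {φ : ℂ → ℝ} {M : ℝ}
    (hφ : ∀ z, |φ z| ≤ M) {X : Type*} [MeasurableSpace X] {A : X → NonemptyCompacts ℂ}
    (hA : Measurable A) : Measurable (fun x => greenEnergy (Ω \ (A x : Set ℂ)) φ) :=
  (lsc_green hb hφ).measurable.comp hA

theorem meas_sup {X : Type*} [MeasurableSpace X] {A A' : X → NonemptyCompacts ℂ}
    (hA : Measurable A) (hA' : Measurable A') : Measurable (fun x => A x ⊔ A' x) := by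
  have h : Continuous (fun p : NonemptyCompacts ℂ × NonemptyCompacts ℂ => p.1 ⊔ p.2) :=
    continuous_sup
  exact h.measurable.comp (hA.prodMk hA')

theorem meas_green_union {Ω : Set ℂ} (hb : Bornology.IsBounded Ω) {φ : ℂ → ℝ} {M : ℝ}
    (hφ : ∀ z, |φ z| ≤ M) {X : Type*} [MeasurableSpace X] {A A' : X → NonemptyCompacts ℂ}
    (hA : Measurable A) (hA' : Measurable A') :
    Measurable (fun x => greenEnergy (Ω \ ((A x : Set ℂ) ∪ A' x)) φ) := by
  have h := meas_green hb hφ (meas_sup hA hA')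
  simpa using h

theorem meas_disjoint {X : Type*} [MeasurableSpace X] {A : X → NonemptyCompacts ℂ}
    (hA : Measurable A) {L : Set ℂ} (hL : IsClosed L) :
    MeasurableSet {x | Disjoint L (A x : Set ℂ)} := by
  have h : {x | Disjoint L (A x : Set ℂ)} =
      A ⁻¹' {C : NonemptyCompacts ℂ | (C : Set ℂ) ⊆ Lᶜ} := by
    ext x
    show Disjoint L (A x : Set ℂ) ↔ (A x : Set ℂ) ⊆ Lᶜ
    rw [Set.subset_compl_iff_disjoint_left]
  rw [h]
  exact hA (NonemptyCompacts.isOpen_subsets_of_isOpen hL.isOpen_compl).measurableSet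

end Vale.Agent.P155.Uq
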