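import Mathlib

/-!
# P155, block U: random elements of a Gaussian Hilbert space with countably many values
-/

namespace Vale.Agent.P155.Uq

open MeasureTheory Filter Topology

section fiber

variable {X I : Type*} [MeasurableSpace X] {μ : Measure X} [MeasurableSpace I] [Countable I]
  [MeasurableSingletonClass I] {K : X → I}

theorem meas_fiber (hK : Measurable K) {F : I → X → ℝ} (hF : ∀ i, Measurable (F i)) :
    Measurable (fun x => F (K x) x) := by
  have h : Measurable (fun q : I × X => F q.1 q.2) := measurable_from_prod_countable_right hF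
  exact h.comp (hK.prodMk measurable_id)

omit [MeasurableSpace X] [MeasurableSpace I] [Countable I] [MeasurableSingletonClass I] in
theorem iUnion_fiber : (⋃ i, K ⁻¹' {i}) = Set.univ := by
  ext x; simp

omit [MeasurableSpace X] [MeasurableSpace I] [Countable I] [MeasurableSingletonClass I] in
theorem disj_fiber : Pairwise (Function.onFun Disjoint (fun i => K ⁻¹' {i})) := by
  intro i j hij
  rw [Function.onFun, Set.disjoint_left]
  intro x hx hx'
  exact hij (by rw [← (hx : K x = i), ← (hx' : K x = j)])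

theorem lintegral_fiber (hK : Measurable K) (F : I → X → ENNReal) :
    ∫⁻ x, F (K x) x ∂μ = ∑' i, ∫⁻ x in K ⁻¹' {i}, F i x ∂μ := by
  rw [← setLIntegral_univ, ← iUnion_fiber (K := K),
    lintegral_iUnion (fun i => hK (measurableSet_singleton i)) disj_fiber]
  congr 1
  ext i
  refine setLIntegral_congr_fun (hK (measurableSet_singleton i)) fun x hx => ?_
  rw [show K x = i from hx]

theorem integral_fiber (hK : Measurable K) (F : I → X → ℝ)
    (hi : Integrable (fun x => F (K x) x) μ) :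
    ∫ x, F (K x) x ∂μ = ∑' i, ∫ x in K ⁻¹' {i}, F i x ∂μ := by
  rw [← setIntegral_univ, ← iUnion_fiber (K := K),
    integral_iUnion (fun i => hK (measurableSet_singleton i)) disj_fiber (by
      rw [iUnion_fiber]; exact hi.integrableOn)]
  congr 1
  ext i
  refine setIntegral_congr_fun (hK (measurableSet_singleton i)) fun x hx => ?_
  rw [show K x = i from hx]

end fiber

section sumJ

variable {X T I : Type*} [MeasurableSpace X] {μ : Measure X} [IsProbabilityMeasure μ]
  [MeasurableSpace T] [MeasurableSpace I] [Countable I] [MeasurableSingletonClass I]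
  {𝓓 : Type*} [NormedAddCommGroup 𝓓] [InnerProductSpace ℝ 𝓓]
  {W : 𝓓 →ₗᵢ[ℝ] Lp ℝ 2 μ} {p : X → T} {K : T → I} {A B : I → 𝓓}

/-- The second moment identity on the pieces `{K = i}`. -/
def Piece (W : 𝓓 →ₗᵢ[ℝ] Lp ℝ 2 μ) (p : X → T) (K : T → I) (A B : I → 𝓓) : Prop :=
  ∀ i, ∀ w : T → ℝ, Measurable w → (∃ C, ∀ t, |w t| ≤ C) → (∀ t, w t ≠ 0 → K t = i) →
    ∫ x, w (p x) * ((W (A i) : X → ℝ) x * (W (B i) : X → ℝ) x) ∂μ =
      inner ℝ (A i) (B i) * ∫ x, w (p x) ∂μ

omit [IsProbabilityMeasure μ] [Countable I] in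
theorem Piece.set (h : Piece W p K A B) (hp : Measurable p) (hK : Measurable K) (i : I)
    {w : T → ℝ} (hw : Measurable w) (hwb : ∃ C, ∀ t, |w t| ≤ C) :
    ∫ x in (fun x => K (p x)) ⁻¹' {i}, w (p x) * ((W (A i) : X → ℝ) x * (W (B i) : X → ℝ) x) ∂μ =
      inner ℝ (A i) (B i) * ∫ x in (fun x => K (p x)) ⁻¹' {i}, w (p x) ∂μ := by
  have hm : MeasurableSet ((fun x => K (p x)) ⁻¹' {i}) := (hK.comp hp) (measurableSet_singleton i)
  have hm' : MeasurableSet (K ⁻¹' {i}) := hK (measurableSet_singleton i)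
  rw [← integral_indicator hm, ← integral_indicator hm]
  have h1 := h i ((K ⁻¹' {i}).indicator w) (hw.indicator hm') (by
    obtain ⟨C, hC⟩ := hwb
    refine ⟨|C|, fun t => ?_⟩
    unfold Set.indicator
    split_ifs
    · exact (hC t).trans (le_abs_self C)
    · rw [abs_zero]; exact abs_nonneg C) (fun t ht => by
      by_contra h'
      exact ht (Set.indicator_of_notMem (by simpa using h') _))
  have e1 : ∀ (g : X → ℝ) (x : X), (K ⁻¹' {i}).indicator w (p x) * g x =
      ((fun x => K (p x)) ⁻¹' {i}).indicator (fun x => w (p x) * g x) x := by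
    intro g x
    by_cases hx : K (p x) = i
    · rw [Set.indicator_of_mem (by exact hx), Set.indicator_of_mem (by exact hx)]
    · rw [Set.indicator_of_notMem (by exact hx), Set.indicator_of_notMem (by exact hx), zero_mul]
  have e2 : ∀ x : X, (K ⁻¹' {i}).indicator w (p x) =
      ((fun x => K (p x)) ⁻¹' {i}).indicator (fun x => w (p x)) x := by
    intro x
    by_cases hx : K (p x) = i
    · rw [Set.indicator_of_mem (by exact hx), Set.indicator_of_mem (by exact hx)]
    · rw [Set.indicator_of_notMem (by exact hx), Set.indicator_of_notMem (by exact hx)]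
  simp_rw [e1 (fun x => (W (A i) : X → ℝ) x * (W (B i) : X → ℝ) x), e2] at h1
  exact h1

/-- The random variable `W(A_{K})`. -/
noncomputable def UA (W : 𝓓 →ₗᵢ[ℝ] Lp ℝ 2 μ) (p : X → T) (K : T → I) (A : I → 𝓓) (x : X) : ℝ :=
  (W (A (K (p x))) : X → ℝ) x

omit [IsProbabilityMeasure μ] in
theorem measurable_UA (hp : Measurable p) (hK : Measurable K) : Measurable (UA W p K A) :=
  meas_fiber (K := fun x => K (p x)) (hK.comp hp)
    (F := fun i x => (W (A i) : X → ℝ) x) (fun _ => (Lp.stronglyMeasurable _).measurable)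

theorem memLp_UA (hA : Piece W p K A A) (hp : Measurable p) (hK : Measurable K) {a : ℝ}
    (ha : ∀ i, ‖A i‖ ≤ a) : MemLp (UA W p K A) 2 μ := by
  rw [memLp_two_iff_integrable_sq (measurable_UA hp hK).aestronglyMeasurable]
  refine ⟨((measurable_UA hp hK).pow_const 2).aestronglyMeasurable, ?_⟩
  have hfib : ∫⁻ x, ‖UA W p K A x ^ 2‖ₑ ∂μ = ∑' i, ∫⁻ x in (fun x => K (p x)) ⁻¹' {i},
      ‖((W (A i) : X → ℝ) x) ^ 2‖ₑ ∂μ :=
    lintegral_fiber (K := fun x => K (p x)) (hK.comp hp) (fun i x => ‖((W (A i) : X → ℝ) x) ^ 2‖ₑ)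
  rw [HasFiniteIntegral, hfib]
  have hle : ∀ i, ∫⁻ x in (fun x => K (p x)) ⁻¹' {i}, ‖((W (A i) : X → ℝ) x) ^ 2‖ₑ ∂μ ≤
      ENNReal.ofReal (a ^ 2) * μ ((fun x => K (p x)) ⁻¹' {i}) := by
    intro i
    have hint : Integrable (fun x => ((W (A i) : X → ℝ) x) ^ 2)
        (μ.restrict ((fun x => K (p x)) ⁻¹' {i})) :=
      ((Lp.memLp (W (A i))).integrable_sq).restrict
    have h0 := hA.set hp hK i (w := fun _ => 1) measurable_const ⟨1, fun _ => by simp⟩
    simp only [one_mul, integral_const, smul_eq_mul, mul_one, real_inner_self_eq_norm_sq] at h0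
    have h1 : ∫⁻ x in (fun x => K (p x)) ⁻¹' {i}, ‖((W (A i) : X → ℝ) x) ^ 2‖ₑ ∂μ =
        ENNReal.ofReal (∫ x in (fun x => K (p x)) ⁻¹' {i}, ((W (A i) : X → ℝ) x) ^ 2 ∂μ) := by
      rw [ofReal_integral_eq_lintegral_ofReal hint (Eventually.of_forall fun x => sq_nonneg _)]
      refine lintegral_congr fun x => ?_
      rw [Real.enorm_eq_ofReal (sq_nonneg _)]
    rw [h1]
    have h2 : ∫ x in (fun x => K (p x)) ⁻¹' {i}, ((W (A i) : X → ℝ) x) ^ 2 ∂μ =
        ‖A i‖ ^ 2 * μ.real ((fun x => K (p x)) ⁻¹' {i}) := by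
      have h3 : ∀ x, ((W (A i) : X → ℝ) x) ^ 2 = (W (A i) : X → ℝ) x * (W (A i) : X → ℝ) x :=
        fun x => sq _
      simp_rw [h3]
      rw [h0]
      simp [Measure.real]
    rw [h2, ENNReal.ofReal_mul (sq_nonneg _), Measure.real, ENNReal.ofReal_toReal (measure_ne_top _ _)]
    gcongr
    exact ha i
  have hsum : ∑' i, μ ((fun x => K (p x)) ⁻¹' {i}) = μ Set.univ := by
    have hmK : Measurable (fun x => K (p x)) := hK.comp hp
    rw [← iUnion_fiber (K := fun x => K (p x)),
      measure_iUnion disj_fiber (fun i => hmK (measurableSet_singleton i))]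
  calc ∑' i, ∫⁻ x in (fun x => K (p x)) ⁻¹' {i}, ‖((W (A i) : X → ℝ) x) ^ 2‖ₑ ∂μ
      ≤ ∑' i, ENNReal.ofReal (a ^ 2) * μ ((fun x => K (p x)) ⁻¹' {i}) := ENNReal.tsum_le_tsum hle
    _ = ENNReal.ofReal (a ^ 2) * ∑' i, μ ((fun x => K (p x)) ⁻¹' {i}) := ENNReal.tsum_mul_left
    _ = ENNReal.ofReal (a ^ 2) * μ Set.univ := by rw [hsum]
    _ < ⊤ := ENNReal.mul_lt_top ENNReal.ofReal_lt_top (measure_lt_top _ _)

theorem sumJ (hA : Piece W p K A A) (hB : Piece W p K B B) (hAB : Piece W p K A B)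
    (hp : Measurable p) (hK : Measurable K) {a b : ℝ} (ha : ∀ i, ‖A i‖ ≤ a) (hb : ∀ i, ‖B i‖ ≤ b)
    {w : T → ℝ} (hw : Measurable w) (hwb : ∃ C, ∀ t, |w t| ≤ C) :
    ∫ x, w (p x) * (UA W p K A x * UA W p K B x) ∂μ =
      ∫ x, w (p x) * inner ℝ (A (K (p x))) (B (K (p x))) ∂μ := by
  obtain ⟨C, hC⟩ := hwb
  have hi1 : Integrable (fun x => w (p x) * (UA W p K A x * UA W p K B x)) μ :=
    ((memLp_UA hA hp hK ha).integrable_mul (memLp_UA hB hp hK hb)).bdd_mul
      (c := C) (hw.comp hp).aestronglyMeasurable (Eventually.of_forall fun x => hC _)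
  have hi2 : Integrable (fun x => w (p x) * inner ℝ (A (K (p x))) (B (K (p x)))) μ := by
    refine Integrable.mono' (integrable_const (|C| * (|a| * |b|))) ?_ (Eventually.of_forall fun x => ?_)
    · refine ((hw.comp hp).mul ?_).aestronglyMeasurable
      exact meas_fiber (K := fun x => K (p x)) (hK.comp hp)
        (F := fun i _ => inner ℝ (A i) (B i)) (fun _ => measurable_const)
    · rw [Real.norm_eq_abs, abs_mul]
      refine mul_le_mul ((hC _).trans (le_abs_self C)) ?_ (abs_nonneg _) (abs_nonneg _)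
      refine (abs_real_inner_le_norm _ _).trans ?_
      exact mul_le_mul ((ha _).trans (le_abs_self a)) ((hb _).trans (le_abs_self b))
        (norm_nonneg _) (abs_nonneg _)
  have e1 := integral_fiber (μ := μ) (K := fun x => K (p x)) (hK.comp hp)
    (fun i x => w (p x) * ((W (A i) : X → ℝ) x * (W (B i) : X → ℝ) x)) hi1
  have e2 := integral_fiber (μ := μ) (K := fun x => K (p x)) (hK.comp hp)
    (fun i x => w (p x) * inner ℝ (A i) (B i)) hi2
  refine e1.trans (Eq.trans ?_ e2.symm)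
  congr 1
  ext i
  rw [hAB.set hp hK i hw ⟨C, hC⟩, integral_mul_const, mul_comm]

end sumJ

end Vale.Agent.P155.Uq
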