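import Vale.Agent.P155.U613.Asm
import Vale.Agent.P155.U613.Canon
import Vale.Agent.P155.U.Ext
import Vale.Agent.P155.U.CplLoc
import Vale.Agent.P155.U.Xex4

/-!
# P155: uniqueness of the law of the signed carpets, convergence of the full sequence
-/

namespace Vale.Agent.P155.Uq

/-- The law of the signed carpets is unique. -/
theorem uniqueness : Uniqueness :=
  U613.uniqueness_of U613.canonStmt (Xe.existsCpl_of cplLocStmt) extStmt

/-- The full sequence converges, to the unique law of signed carpets. -/
theorem fullStatement : FullStatement := U613.full_of_uniqueness uniqueness K.main

end Vale.Agent.P155.Uq
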