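import Vale.Agent.P155.U.Grid
import Vale.Agent.P155.G1.Decay

/-!
# P155, block U (uniqueness), KEY: geometry of the absorbing sets and decay estimates

* `Geo.cpr` : the complement of `near Ω z δ A r` has the crossing property `CPr`;
* `Geo.exit_spec` : the exit points;
* `P3` : a walk started near `A'` hits `A'` before it comes near `A`;
* `P2` : the exit distribution from far away is spread out.
-/

namespace Vale.Agent.P155.UK

open Finset Vale.Agent.P155.G45 Metric

/-- `A` is a continuum which contains the boundary of the bounded open set `Ω`. -/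
structure Geo (Ω A : Set ℂ) : Prop where
  op : IsOpen Ω
  bd : Bornology.IsBounded Ω
  cp : IsCompact A
  cn : IsConnected A
  fr : frontier Ω ⊆ A

variable {Ω A A' : Set ℂ} {z : ℂ} {δ r : ℝ}

/-! ## grid points -/

theorem gp_sub_re (z : ℂ) (δ : ℝ) (x y : Pt) :
    (gp z δ x - gp z δ y).re = δ * ((x.1 : ℝ) - y.1) := by
  unfold gp; simp; ring

theorem gp_sub_im (z : ℂ) (δ : ℝ) (x y : Pt) :
    (gp z δ x - gp z δ y).im = δ * ((x.2 : ℝ) - y.2) := by
  unfold gp; simp; ring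

theorem gp_dist_le (hδ : 0 ≤ δ) (x y : Pt) : ‖gp z δ x - gp z δ y‖ ≤ 2 * (δ * dn x y) := by
  refine (Complex.norm_le_abs_re_add_abs_im _).trans ?_
  rw [gp_sub_re, gp_sub_im, abs_mul, abs_mul, abs_of_nonneg hδ]
  have h1 := abs_le_dn1 y x
  have h2 := abs_le_dn2 y x
  rw [dn_comm y x] at h1 h2
  nlinarith

theorem le_gp_dist (hδ : 0 ≤ δ) (x y : Pt) : δ * dn x y ≤ ‖gp z δ x - gp z δ y‖ := by
  have h : (dn x y : ℤ) = |x.1 - y.1| ∨ (dn x y : ℤ) = |x.2 - y.2| := by
    rw [dn_eq, Int.abs_eq_natAbs, Int.abs_eq_natAbs]; omega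
  rcases h with h | h
  · have h' : (dn x y : ℝ) = |(x.1 : ℝ) - y.1| := by
      have := congrArg (fun z : ℤ => (z : ℝ)) h
      push_cast at this
      exact this
    have := Complex.abs_re_le_norm (gp z δ x - gp z δ y)
    rw [gp_sub_re, abs_mul, abs_of_nonneg hδ] at this
    rw [h']; exact this
  · have h' : (dn x y : ℝ) = |(x.2 : ℝ) - y.2| := by
      have := congrArg (fun z : ℤ => (z : ℝ)) h
      push_cast at this
      exact this
    have := Complex.abs_im_le_norm (gp z δ x - gp z δ y)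
    rw [gp_sub_im, abs_mul, abs_of_nonneg hδ] at this
    rw [h']; exact this

theorem gp_nbr (hδ : 0 ≤ δ) {x y : Pt} (h : dn x y ≤ 1) : ‖gp z δ x - gp z δ y‖ ≤ 2 * δ := by
  have h1 := gp_dist_le (z := z) hδ x y
  have h2 : (dn x y : ℝ) ≤ 1 := by exact_mod_cast h
  nlinarith

/-- The nearest lattice coordinate. -/
theorem exists_round (hδ : 0 < δ) (t : ℝ) : ∃ n : ℤ, |δ * n - t| ≤ δ / 2 := by
  refine ⟨round (t / δ), ?_⟩
  have h := abs_sub_round (t / δ)
  have e : δ * (round (t / δ) : ℝ) - t = - (δ * (t / δ - round (t / δ))) := by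
    field_simp
    ring
  rw [e, abs_neg, abs_mul, abs_of_pos hδ]
  nlinarith

/-- Every point is within `δ` of a grid point. -/
theorem exists_gp (hδ : 0 < δ) (z w : ℂ) : ∃ y : Pt, ‖gp z δ y - w‖ ≤ δ := by
  obtain ⟨m, hm⟩ := exists_round hδ (w - z).re
  obtain ⟨n, hn⟩ := exists_round hδ (w - z).im
  refine ⟨(m, n), ?_⟩
  refine (Complex.norm_le_abs_re_add_abs_im _).trans ?_
  have e1 : (gp z δ (m, n) - w).re = δ * m - (w - z).re := by unfold gp; simp; ring
  have e2 : (gp z δ (m, n) - w).im = δ * n - (w - z).im := by unfold gp; simp; ring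
  rw [e1, e2]
  linarith

/-! ## topology -/

theorem Geo.sub_of_conn (g : Geo Ω A) {s : Set ℂ} (hs : IsPreconnected s)
    (hne : (s ∩ Ω).Nonempty) (hd : ∀ w ∈ s, w ∉ A) : s ⊆ Ω := by
  apply hs.subset_of_closure_inter_subset g.op hne
  rintro w ⟨hw, hws⟩
  rw [closure_eq_self_union_frontier] at hw
  rcases hw with hw | hw
  · exact hw
  · exact absurd (g.fr hw) (hd w hws)

/-- A segment which does not meet `A` stays inside `Ω`. -/
theorem Geo.seg (g : Geo Ω A) {v w : ℂ} (hv : v ∈ Ω) (hd : ∀ t : ℝ, 0 ≤ t → t ≤ 1 →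
    v + t * (w - v) ∉ A) : w ∈ Ω := by
  have hs : IsPreconnected ((fun t : ℝ => v + t * (w - v)) '' Set.Icc 0 1) := by
    apply isPreconnected_Icc.image
    fun_prop
  have h := g.sub_of_conn hs ⟨v, ⟨0, by simp, by simp⟩, hv⟩ (by
    rintro _ ⟨t, ht, rfl⟩
    exact hd t ht.1 ht.2)
  exact h ⟨1, by simp, by simp⟩

/-- Points closer to `v ∈ Ω` than `A` belong to `Ω`. -/
theorem Geo.mem_of_lt (g : Geo Ω A) {v w : ℂ} (hv : v ∈ Ω) (h : ‖v - w‖ < infDist v A) :
    w ∈ Ω := by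
  apply g.seg hv
  intro t ht0 ht1 hA
  have h1 := infDist_le_dist_of_mem (x := v) hA
  rw [dist_eq_norm] at h1
  have h2 : v - (v + (t : ℂ) * (w - v)) = (t : ℂ) * (v - w) := by ring
  rw [h2, norm_mul, Complex.norm_real, Real.norm_eq_abs, abs_of_nonneg ht0] at h1
  nlinarith [norm_nonneg (v - w)]

theorem Geo.exists_dist (g : Geo Ω A) (v : ℂ) : ∃ a ∈ A, infDist v A = ‖v - a‖ := by
  obtain ⟨a, ha, h⟩ := g.cp.exists_infDist_eq_dist g.cn.nonempty v
  exact ⟨a, ha, by rw [h, dist_eq_norm]⟩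

/-! ## finiteness -/

theorem Geo.exists_box (g : Geo Ω A) (hδ : 0 < δ) (z : ℂ) :
    ∃ N : ℕ, ∀ x : Pt, gp z δ x ∈ Ω → dn (0, 0) x + 1 ≤ N := by
  obtain ⟨R, hR⟩ := g.bd.exists_norm_le
  refine ⟨⌈(R + ‖z‖) / δ⌉₊ + 1, ?_⟩
  intro x hx
  have h1 := hR _ hx
  have h2 := le_gp_dist (z := z) hδ.le x (0, 0)
  have h3 : gp z δ (0, 0) = z := by unfold gp; simp [Complex.ext_iff]
  rw [h3] at h2
  have h4 : ‖gp z δ x - z‖ ≤ R + ‖z‖ := (norm_sub_le _ _).trans (by linarith)
  have h5 : (dn (0, 0) x : ℝ) ≤ (R + ‖z‖) / δ := by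
    rw [le_div_iff₀ hδ, dn_comm]
    linarith
  have h6 := Nat.le_ceil ((R + ‖z‖) / δ)
  have h7 : (dn (0, 0) x : ℝ) ≤ (⌈(R + ‖z‖) / δ⌉₊ : ℝ) := h5.trans h6
  have : dn (0, 0) x ≤ ⌈(R + ‖z‖) / δ⌉₊ := by exact_mod_cast h7
  omega

theorem dn_nbrs {p x : Pt} {N : ℕ} (h : dn p x + 1 ≤ N) : dn p x ≤ N ∧
    dn p (x.1 + 1, x.2) ≤ N ∧ dn p (x.1 - 1, x.2) ≤ N ∧ dn p (x.1, x.2 + 1) ≤ N ∧
    dn p (x.1, x.2 - 1) ≤ N := by
  simp only [dn_eq] at *
  omega

/-- A box which contains all the grid points inside `Ω` and their neighbours (uniform in `A`). -/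
theorem exists_inn (hb : Bornology.IsBounded Ω) (hδ : 0 < δ) (z : ℂ) : ∃ N : ℕ,
    ∀ (A : Set ℂ) (r : ℝ), Inn (box (0, 0) N) (near Ω z δ A r)ᶜ := by
  obtain ⟨R, hR⟩ := hb.exists_norm_le
  refine ⟨⌈(R + ‖z‖) / δ⌉₊ + 1, ?_⟩
  intro A r x hx
  have hx' := (notMem_near.1 hx).1
  have h1 := hR _ hx'
  have h2 := le_gp_dist (z := z) hδ.le x (0, 0)
  have h3 : gp z δ (0, 0) = z := by unfold gp; simp [Complex.ext_iff]
  rw [h3] at h2
  have h4 : ‖gp z δ x - z‖ ≤ R + ‖z‖ := (norm_sub_le _ _).trans (by linarith)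
  have h5 : (dn (0, 0) x : ℝ) ≤ (R + ‖z‖) / δ := by
    rw [le_div_iff₀ hδ, dn_comm]
    linarith
  have h6 := Nat.le_ceil ((R + ‖z‖) / δ)
  have h7 : (dn (0, 0) x : ℝ) ≤ (⌈(R + ‖z‖) / δ⌉₊ : ℝ) := h5.trans h6
  have h8 : dn (0, 0) x ≤ ⌈(R + ‖z‖) / δ⌉₊ := by exact_mod_cast h7
  have := dn_nbrs (p := (0, 0)) (x := x) (N := ⌈(R + ‖z‖) / δ⌉₊ + 1) (by omega)
  simpa [mem_box] using this

/-! ## the crossing property -/

/-- The sup norm distance to the grid point `p`. -/
noncomputable def supd (z : ℂ) (δ : ℝ) (p : Pt) (w : ℂ) : ℝ :=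
  max |(w - gp z δ p).re| |(w - gp z δ p).im|

theorem continuous_supd (z : ℂ) (δ : ℝ) (p : Pt) : Continuous (supd z δ p) := by
  unfold supd
  fun_prop

theorem supd_le_norm (z : ℂ) (δ : ℝ) (p : Pt) (w : ℂ) : supd z δ p w ≤ ‖w - gp z δ p‖ :=
  max_le (Complex.abs_re_le_norm _) (Complex.abs_im_le_norm _)

/-- A point at sup distance `δ n` from `p` is within `δ / 2` of a grid point at distance `n`. -/
theorem exists_contour (hδ : 0 < δ) {p : Pt} {n : ℕ} {w : ℂ} (h : supd z δ p w = δ * n) :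
    ∃ y : Pt, dn p y = n ∧ ‖gp z δ y - w‖ ≤ δ := by
  have hn0 : (0 : ℝ) ≤ n := Nat.cast_nonneg n
  -- the rounding of a coordinate of absolute value `≤ δ n`
  have key : ∀ t : ℝ, |t| ≤ δ * n → ∃ m : ℤ, m.natAbs ≤ n ∧ |δ * m - t| ≤ δ := by
    intro t ht
    obtain ⟨m, hm⟩ := exists_round hδ t
    rcases le_or_gt m.natAbs n with h1 | h1
    · exact ⟨m, h1, hm.trans (by linarith)⟩
    · exfalso
      have h2 : ((n : ℝ) + 1) ≤ |(m : ℝ)| := by
        have : (n : ℤ) + 1 ≤ |m| := by rw [Int.abs_eq_natAbs]; omega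
        exact_mod_cast this
      have h3 : δ * ((n : ℝ) + 1) ≤ |δ * (m : ℝ)| := by
        rw [abs_mul, abs_of_pos hδ]
        exact mul_le_mul_of_nonneg_left h2 hδ.le
      have h4 : |δ * (m : ℝ)| ≤ |δ * m - t| + |t| := by
        have := abs_add_le (δ * (m : ℝ) - t) t
        simpa using this
      nlinarith
  have ext : ∀ t : ℝ, |t| = δ * n → ∃ m : ℤ, m.natAbs = n ∧ δ * (m : ℝ) = t := by
    intro t ht
    rcases abs_cases t with ⟨h1, _⟩ | ⟨h1, _⟩
    · exact ⟨n, by simp, by push_cast; linarith⟩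
    · exact ⟨-n, by simp, by push_cast; linarith⟩
  have hre : |(w - gp z δ p).re| ≤ δ * n := h ▸ le_max_left _ _
  have him : |(w - gp z δ p).im| ≤ δ * n := h ▸ le_max_right _ _
  have hcase : |(w - gp z δ p).re| = δ * n ∨ |(w - gp z δ p).im| = δ * n := by
    rcases le_total |(w - gp z δ p).re| |(w - gp z δ p).im| with h1 | h1
    · right; rw [← h]; unfold supd; rw [max_eq_right h1]
    · left; rw [← h]; unfold supd; rw [max_eq_left h1]
  have fin : ∀ m1 m2 : ℤ, ‖gp z δ (p.1 + m1, p.2 + m2) - w‖ ≤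
      |δ * m1 - (w - gp z δ p).re| + |δ * m2 - (w - gp z δ p).im| := by
    intro m1 m2
    refine (Complex.norm_le_abs_re_add_abs_im _).trans (le_of_eq ?_)
    congr 2
    · unfold gp; simp; ring
    · unfold gp; simp; ring
  rcases hcase with h1 | h1
  · obtain ⟨m1, hm1, hm1'⟩ := ext _ h1
    obtain ⟨m2, hm2, hm2'⟩ := key _ him
    refine ⟨(p.1 + m1, p.2 + m2), ?_, (fin m1 m2).trans ?_⟩
    · rw [dn_eq]; simp only; omega
    · rw [hm1', sub_self, abs_zero, zero_add]; exact hm2'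
  · obtain ⟨m1, hm1, hm1'⟩ := key _ hre
    obtain ⟨m2, hm2, hm2'⟩ := ext _ h1
    refine ⟨(p.1 + m1, p.2 + m2), ?_, (fin m1 m2).trans ?_⟩
    · rw [dn_eq]; simp only; omega
    · rw [hm2', sub_self, abs_zero, add_zero]; exact hm1'

/-- The complement of the absorbing set has the crossing property. -/
theorem Geo.cpr (g : Geo Ω A) (hδ : 0 < δ) (hr : δ ≤ r) : CPr (near Ω z δ A r)ᶜ := by
  intro p hp n
  rw [Set.notMem_compl_iff] at hp
  simp only [Set.notMem_compl_iff]
  have hn0 : (0 : ℝ) ≤ δ * n := by positivity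
  -- a point of `A` on the contour suffices
  have onC : (∃ a ∈ A, supd z δ p a = δ * n) → ∃ y ∈ near Ω z δ A r, dn p y = n := by
    rintro ⟨a, ha, h⟩
    obtain ⟨y, hy, hd⟩ := exists_contour hδ h
    refine ⟨y, Or.inr ?_, hy⟩
    have := infDist_le_dist_of_mem (x := gp z δ y) ha
    rw [dist_eq_norm] at this
    linarith
  by_cases hC : ∃ a ∈ A, supd z δ p a = δ * n
  · exact onC hC
  push Not at hC
  -- all of `A` is inside or outside
  have hio : (∀ a ∈ A, supd z δ p a < δ * n) ∨ (∀ a ∈ A, δ * n < supd z δ p a) := by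
    by_contra hcon
    push Not at hcon
    obtain ⟨⟨a, ha, h1⟩, ⟨b, hb, h2⟩⟩ := hcon
    have hpc : IsPreconnected (supd z δ p '' A) :=
      g.cn.isPreconnected.image _ (continuous_supd z δ p).continuousOn
    have := hpc.ordConnected.out ⟨b, hb, rfl⟩ ⟨a, ha, rfl⟩ ⟨h2, h1⟩
    obtain ⟨c, hc, hc2⟩ := this
    exact hC c hc hc2
  rcases hio with hin | hout
  · -- `A` inside: the point to the right is not in `Ω`
    refine ⟨(p.1 + n, p.2), Or.inl ?_, by rw [dn_eq]; simp⟩
    intro hy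
    set v := gp z δ (p.1 + n, p.2) with hv
    have hs : IsPreconnected ((fun t : ℝ => v + t) '' Set.Ici 0) := by
      apply isPreconnected_Ici.image
      fun_prop
    have hsub := g.sub_of_conn hs ⟨v, ⟨0, by simp, by simp⟩, hy⟩ (by
      rintro _ ⟨t, ht, rfl⟩ hA
      have ht0 : 0 ≤ t := ht
      have h1 := hin _ hA
      have h2 : |(v + (t : ℂ) - gp z δ p).re| ≤ supd z δ p (v + t) := le_max_left _ _
      have h3 : (v + (t : ℂ) - gp z δ p).re = δ * n + t := by
        rw [hv]; unfold gp; simp; ring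
      rw [h3, abs_of_nonneg (by positivity)] at h2
      linarith)
    obtain ⟨R, hR⟩ := g.bd.exists_norm_le
    have hR0 : 0 ≤ R := (norm_nonneg _).trans (hR v hy)
    have h1 := hR _ (hsub ⟨R + ‖v‖ + 1, by
      have : 0 ≤ R + ‖v‖ + 1 := by positivity
      exact this, rfl⟩)
    have h2 : ‖((R + ‖v‖ + 1 : ℝ) : ℂ)‖ ≤ ‖v + ((R + ‖v‖ + 1 : ℝ) : ℂ)‖ + ‖v‖ := by
      have := norm_sub_le (v + ((R + ‖v‖ + 1 : ℝ) : ℂ)) v
      simpa using this
    rw [Complex.norm_real, Real.norm_eq_abs, abs_of_nonneg (by positivity)] at h2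
    linarith
  · rcases hp with hp | hp
    · -- `p` is not in `Ω`, and neither is the point to the right
      refine ⟨(p.1 + n, p.2), Or.inl ?_, by rw [dn_eq]; simp⟩
      intro hy
      apply hp
      apply g.seg hy
      intro t ht0 ht1 hA
      have h1 := hout _ hA
      have hre : (gp z δ (p.1 + n, p.2) + (t : ℂ) * (gp z δ p - gp z δ (p.1 + n, p.2)) -
          gp z δ p).re = (1 - t) * (δ * n) := by
        unfold gp; simp; ring
      have him : (gp z δ (p.1 + n, p.2) + (t : ℂ) * (gp z δ p - gp z δ (p.1 + n, p.2)) -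
          gp z δ p).im = 0 := by
        unfold gp; simp
      unfold supd at h1
      rw [hre, him, abs_zero, abs_of_nonneg (by nlinarith)] at h1
      rw [max_eq_left (by nlinarith)] at h1
      nlinarith
    · -- `p` is near `A`
      obtain ⟨a, ha, hda⟩ := g.exists_dist (gp z δ p)
      have h1 := hout a ha
      -- the point of the segment on the contour
      have hcont : IsPreconnected ((fun t : ℝ => supd z δ p (gp z δ p + t * (a - gp z δ p))) ''
          Set.Icc 0 1) := by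
        apply isPreconnected_Icc.image
        apply Continuous.continuousOn
        exact (continuous_supd z δ p).comp (by fun_prop)
      have h0 : supd z δ p (gp z δ p + ((0 : ℝ) : ℂ) * (a - gp z δ p)) = 0 := by
        unfold supd; simp
      have h1' : supd z δ p (gp z δ p + ((1 : ℝ) : ℂ) * (a - gp z δ p)) = supd z δ p a := by
        simp
      obtain ⟨t, ht, htn⟩ := hcont.ordConnected.out ⟨0, by simp, h0⟩ ⟨1, by simp, h1'⟩
        ⟨hn0, h1.le⟩
      obtain ⟨y, hy, hd⟩ := exists_contour hδ htn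
      refine ⟨y, Or.inr ?_, hy⟩
      rcases Nat.eq_zero_or_pos n with hn | hn
      · subst hn
        have : p = y := dn_eq_zero.1 hy
        rw [← this]; exact hp
      have hn1 : (1 : ℝ) ≤ n := by exact_mod_cast hn
      have h2 := infDist_le_dist_of_mem (x := gp z δ y) ha
      rw [dist_eq_norm] at h2
      have h3 : ‖gp z δ y - a‖ ≤ ‖gp z δ y - (gp z δ p + (t : ℂ) * (a - gp z δ p))‖ +
          ‖(gp z δ p + (t : ℂ) * (a - gp z δ p)) - a‖ := norm_sub_le_norm_sub_add_norm_sub _ _ _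
      have h4 : (gp z δ p + (t : ℂ) * (a - gp z δ p)) - a =
          ((1 - t : ℝ) : ℂ) * (gp z δ p - a) := by push_cast; ring
      have ht1 : 0 ≤ 1 - t := by linarith [ht.2]
      have h5 : ‖(gp z δ p + (t : ℂ) * (a - gp z δ p)) - a‖ = (1 - t) * ‖gp z δ p - a‖ := by
        rw [h4, norm_mul, Complex.norm_real, Real.norm_eq_abs, abs_of_nonneg ht1]
      have h6 : δ * n ≤ t * ‖gp z δ p - a‖ := by
        rw [← htn]
        refine (supd_le_norm _ _ _ _).trans (le_of_eq ?_)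
        have : gp z δ p + (t : ℂ) * (a - gp z δ p) - gp z δ p = (t : ℂ) * (a - gp z δ p) := by ring
        rw [this, norm_mul, Complex.norm_real, Real.norm_eq_abs, abs_of_nonneg ht.1, norm_sub_rev]
      have h7 : infDist (gp z δ p) A ≤ r := hp
      rw [hda] at h7
      nlinarith

theorem Geo.finite (g : Geo Ω A) (hδ : 0 < δ) (z : ℂ) (r : ℝ) :
    ((near Ω z δ A r)ᶜ : Set Pt).Finite := by
  obtain ⟨N, hN⟩ := exists_inn (Ω := Ω) g.bd hδ z
  exact (hN A r).finite

/-! ## exit points -/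

theorem W_eq_zero_of_far {O : Set Pt} (hO : O.Finite) {x y : Pt} (hx : x ∈ O)
    (hy : ∀ v ∈ O, 1 < dn v y) : W O x y = 0 := by
  classical
  have hyO : y ∉ O := fun h => by
    have := hy y h
    rw [dn_self] at this
    omega
  -- the exit probability with the value at `y` erased
  have h := comparison hO (u := fun v => if v = y then 0 else W O v y) (v := fun _ => 0) ?_ ?_ x
  · have hxy : x ≠ y := fun h => hyO (h ▸ hx)
    simp only [hxy, if_false] at h
    exact le_antisymm h (W_nonneg hO x y)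
  · intro v hv
    have hd := hy v hv
    have h0 : v ≠ y := fun h => hyO (h ▸ hv)
    have n1 : (v.1 + 1, v.2) ≠ y := by
      rintro rfl
      rw [dn_eq] at hd; simp only at hd; omega
    have n2 : (v.1 - 1, v.2) ≠ y := by
      rintro rfl
      rw [dn_eq] at hd; simp only at hd; omega
    have n3 : (v.1, v.2 + 1) ≠ y := by
      rintro rfl
      rw [dn_eq] at hd; simp only at hd; omega
    have n4 : (v.1, v.2 - 1) ≠ y := by
      rintro rfl
      rw [dn_eq] at hd; simp only at hd; omega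
    have hl := dir_lap hO (fun x => if x = y then 1 else 0) hv
    rw [lap_const]
    unfold lap at hl ⊢
    simp only [h0, n1, n2, n3, n4, if_false]
    unfold W
    linarith
  · intro v hv
    by_cases h : v = y
    · simp [h]
    · simp only [h, if_false]
      rw [W_off hv, if_neg h]

/-- Exit points of the complement of the absorbing set. -/
theorem Geo.exit_spec (g : Geo Ω A) (hδ : 0 < δ) (hr : 2 * δ ≤ r) {x y : Pt}
    (hx : x ∉ near Ω z δ A r) (hW : W (near Ω z δ A r)ᶜ x y ≠ 0) :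
    gp z δ y ∈ Ω ∧ infDist (gp z δ y) A ≤ r ∧ r - 2 * δ < infDist (gp z δ y) A := by
  have hfin := g.finite hδ z r
  have hy : y ∈ near Ω z δ A r := by
    by_contra h
    exact hW (W_mem hfin x h)
  obtain ⟨v, hv, hvy⟩ : ∃ v, v ∉ near Ω z δ A r ∧ dn v y ≤ 1 := by
    by_contra hcon
    push Not at hcon
    exact hW (W_eq_zero_of_far hfin hx (fun v hv => hcon v hv))
  obtain ⟨hvΩ, hvr⟩ := notMem_near.1 hv
  have hd := gp_nbr (z := z) hδ.le hvy
  have hyΩ : gp z δ y ∈ Ω := g.mem_of_lt hvΩ (by linarith)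
  refine ⟨hyΩ, ?_, ?_⟩
  · rcases hy with h | h
    · exact absurd hyΩ h
    · exact h
  · have := infDist_le_infDist_add_dist (s := A) (x := gp z δ v) (y := gp z δ y)
    rw [dist_eq_norm] at this
    linarith

/-! ## decay estimates -/

/-- Inward decay for exit problems: a harmonic function with values in `[0, 1]` which vanishes on
the part of `S` in a box. -/
theorem decay_in {β : ℝ} (hSD : SupDecay 2 β) {S : Set Pt} (hS : CPr Sᶜ) {p : Pt} (hp : p ∈ S)
    {L : ℕ} {u : Pt → ℝ} (h0 : ∀ x, 0 ≤ u x) (h1 : ∀ x, u x ≤ 1)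
    (hoff : ∀ x ∈ S, dn p x ≤ L → u x = 0)
    (hlap : ∀ x, x ∉ S → dn p x < L → lap u x = 0) {x : Pt} (hx : dn p x ≤ L) :
    u x ≤ 2 * (((dn p x : ℝ) + 1) / ((L : ℝ) + 1)) ^ β := by
  have h := hSD {y | y ∉ S ∨ L < dn p y} p L 1 u ?_ ?_ ?_ ?_ x hx
  · rw [mul_one, abs_of_nonneg (h0 x)] at h
    exact h
  · intro s hs
    obtain ⟨q, hq, hd⟩ := hS p (by simpa using hp) s
    rw [Set.notMem_compl_iff] at hq
    refine ⟨q, ?_, hd⟩
    intro h
    rcases h with h | h
    · exact h hq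
    · omega
  · intro y hy
    have hy1 : y ∈ S := by
      by_contra h
      exact hy (Or.inl h)
    have hy2 : dn p y ≤ L := by
      by_contra h
      exact hy (Or.inr (by omega))
    exact hoff y hy1 hy2
  · intro y hy hd
    rcases hy with h | h
    · exact hlap y h hd
    · omega
  · intro y _
    rw [abs_of_nonneg (h0 y)]
    exact h1 y

/-- **(P3)**: a walk which starts within `rb` of `A'` and at distance `> r2` from `A` comes near
`A'` (distance `rM`) before it comes near `A` (distance `r3 ≤ r2 / 2`). -/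
theorem P3 : ∃ C β : ℝ, 0 < C ∧ 0 < β ∧ ∀ (Ω A A' : Set ℂ), Geo Ω A → Geo Ω A' →
    ∀ (z : ℂ) (δ rM rb r2 r3 : ℝ), 0 < δ → δ ≤ rM → rM ≤ rb → 0 < r2 → r3 ≤ r2 / 2 →
    ∀ x ∈ near Ω z δ A' rb, x ∉ near Ω z δ A r2 →
      hp (near Ω z δ A r3) (near Ω z δ A' rM) x ≤ C * (rb / r2) ^ β := by
  obtain ⟨β, hβ, hSD, -⟩ := G1.decay
  refine ⟨2 * 24 ^ β, β, by positivity, hβ, ?_⟩
  intro Ω A A' g g' z δ rM rb r2 r3 hδ hM hMb hr2 h3 x hxb hx2
  have hrb : 0 < rb := by linarith
  have hfin : ((near Ω z δ A r3 ∪ near Ω z δ A' rM)ᶜ : Set Pt).Finite :=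
    (g.finite hδ z r3).subset (Set.compl_subset_compl.2 Set.subset_union_left)
  have hle1 : ∀ y, hp (near Ω z δ A r3) (near Ω z δ A' rM) y ≤ 1 := hp_le_one hfin
  have h0 : ∀ y, 0 ≤ hp (near Ω z δ A r3) (near Ω z δ A' rM) y := hp_nonneg hfin
  obtain ⟨hxΩ, hxr2⟩ := notMem_near.1 hx2
  rcases le_or_gt r2 (24 * rb) with hbig | hsmall
  · -- trivial case
    refine (hle1 x).trans ?_
    have h1 : (1 : ℝ) ≤ (24 * (rb / r2)) ^ β := by
      apply Real.one_le_rpow _ hβ.le
      rw [← mul_div_assoc, le_div_iff₀ hr2]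
      linarith
    rw [Real.mul_rpow (by norm_num) (by positivity)] at h1
    linarith
  -- the point `p`
  have hxA' : infDist (gp z δ x) A' ≤ rb := by
    rcases hxb with h | h
    · exact absurd hxΩ h
    · exact h
  obtain ⟨a, ha, hda⟩ := g'.exists_dist (gp z δ x)
  obtain ⟨p, hp⟩ := exists_gp hδ z a
  have hpM : p ∈ near Ω z δ A' rM := by
    right
    have := infDist_le_dist_of_mem (x := gp z δ p) ha
    rw [dist_eq_norm] at this
    linarith
  have hpx : ‖gp z δ p - gp z δ x‖ ≤ 2 * rb := by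
    have h1 : ‖gp z δ p - gp z δ x‖ ≤ ‖gp z δ p - a‖ + ‖a - gp z δ x‖ :=
      norm_sub_le_norm_sub_add_norm_sub _ _ _
    rw [norm_sub_rev a, ← hda] at h1
    linarith
  have hdpx : δ * (dn p x : ℝ) ≤ 2 * rb := (le_gp_dist hδ.le p x).trans hpx
  -- the radius of the box
  set L := ⌊r2 / (8 * δ)⌋₊ with hL
  have hL1 : (L : ℝ) * (8 * δ) ≤ r2 := by
    have := Nat.floor_le (a := r2 / (8 * δ)) (by positivity)
    rw [← hL, le_div_iff₀ (by positivity)] at this
    exact this
  have hL2 : r2 < ((L : ℝ) + 1) * (8 * δ) := by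
    have := Nat.lt_floor_add_one (r2 / (8 * δ))
    rw [← hL, div_lt_iff₀ (by positivity)] at this
    exact this
  have hbox : ∀ y, dn p y ≤ L → y ∉ near Ω z δ A r3 := by
    intro y hy
    have h1 := gp_dist_le (z := z) hδ.le p y
    have h2 : (dn p y : ℝ) ≤ L := by exact_mod_cast hy
    have h3' : ‖gp z δ x - gp z δ y‖ ≤ ‖gp z δ x - gp z δ p‖ + ‖gp z δ p - gp z δ y‖ :=
      norm_sub_le_norm_sub_add_norm_sub _ _ _
    rw [norm_sub_rev (gp z δ x) (gp z δ p)] at h3'
    have h4 : ‖gp z δ x - gp z δ y‖ ≤ r2 / 2 := by nlinarith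
    rw [notMem_near]
    refine ⟨g.mem_of_lt hxΩ (by linarith), ?_⟩
    have := infDist_le_infDist_add_dist (s := A) (x := gp z δ x) (y := gp z δ y)
    rw [dist_eq_norm] at this
    linarith
  have hxL : dn p x ≤ L := by
    have h1 : (dn p x : ℝ) < (L : ℝ) + 1 := by
      by_contra hcon
      push Not at hcon
      have : ((L : ℝ) + 1) * (8 * δ) ≤ (dn p x : ℝ) * (8 * δ) :=
        mul_le_mul_of_nonneg_right hcon (by positivity)
      nlinarith
    have h2 : dn p x < L + 1 := by exact_mod_cast h1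
    omega
  have key := decay_in hSD (g'.cpr (z := z) hδ hM) hpM h0 hle1
    (fun y hy hd => hp_out hy (hbox y hd))
    (fun y hy hd => hp_lap hfin subset_rfl (by
      rw [Set.mem_compl_iff, Set.mem_union, not_or]
      exact ⟨hbox y hd.le, hy⟩)) hxL
  refine key.trans ?_
  rw [mul_assoc]
  apply mul_le_mul_of_nonneg_left _ (by norm_num)
  rw [← Real.mul_rpow (by norm_num) (by positivity)]
  apply Real.rpow_le_rpow (by positivity) _ hβ.le
  rw [← mul_div_assoc, div_le_div_iff₀ (by positivity) hr2]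
  have h5 : δ * ((dn p x : ℝ) + 1) ≤ 3 * rb := by nlinarith
  have h6 : ((dn p x : ℝ) + 1) * r2 ≤ ((dn p x : ℝ) + 1) * (((L : ℝ) + 1) * (8 * δ)) :=
    mul_le_mul_of_nonneg_left hL2.le (by positivity)
  have h7 : δ * ((dn p x : ℝ) + 1) * (8 * ((L : ℝ) + 1)) ≤ 3 * rb * (8 * ((L : ℝ) + 1)) :=
    mul_le_mul_of_nonneg_right h5 (by positivity)
  nlinarith

/-- **(P2)**: the exit distribution from a point at distance `≥ R0 / 2` from `A` is spread out. -/
theorem P2 : ∃ C β : ℝ, 0 < C ∧ 0 < β ∧ ∀ (Ω A : Set ℂ), Geo Ω A →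
    ∀ (z : ℂ) (δ r t R0 : ℝ), 0 < δ → 2 * δ ≤ r → r ≤ t → 0 < R0 →
    ∀ (B : Finset Pt), Inn B (near Ω z δ A r)ᶜ →
    ∀ x : Pt, x ∉ near Ω z δ A r → R0 / 2 ≤ infDist (gp z δ x) A → ∀ c : ℂ,
      ∑ y ∈ B.filter (fun y => ‖gp z δ y - c‖ ≤ t), W (near Ω z δ A r)ᶜ x y ≤
        C * (t / R0) ^ β := by
  classical
  obtain ⟨β, hβ, -, hOD⟩ := G1.decay
  refine ⟨2 * 64 ^ β, β, by positivity, hβ, ?_⟩
  intro Ω A g z δ r t R0 hδ hr hrt hR0 B hB x hx hxR c
  have ht : 0 < t := by linarith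
  have hfin := g.finite hδ z r
  set O : Set Pt := (near Ω z δ A r)ᶜ with hO
  -- the exit set
  set T : Set Pt := {y | y ∈ near Ω z δ A r ∧ ‖gp z δ y - c‖ ≤ t ∧ infDist (gp z δ y) A ≤ r}
    with hT
  have hsum : ∑ y ∈ B.filter (fun y => ‖gp z δ y - c‖ ≤ t), W O x y ≤ dir O (ch T) x := by
    have hxB : x ∈ B := (hB x hx).1
    rw [dir_eq_sum hB _ hxB, Finset.sum_filter]
    apply Finset.sum_le_sum
    intro y _
    split_ifs with hy
    · by_cases hW : W O x y = 0
      · rw [hW]; simp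
      · have hyn : y ∈ near Ω z δ A r := by
          by_contra h
          exact hW (W_mem hfin x h)
        have := g.exit_spec hδ hr hx hW
        rw [ch_mem (S := T) ⟨hyn, hy, this.2.1⟩, mul_one]
    · exact mul_nonneg (W_nonneg hfin x y) (ch_nonneg T y)
  refine hsum.trans ?_
  have hu0 : ∀ y, 0 ≤ dir O (ch T) y := dir_nonneg hfin (fun y _ => ch_nonneg T y)
  have hu1 : ∀ y, dir O (ch T) y ≤ 1 := dir_le_one hfin (fun y _ => ch_le_one T y)
  rcases le_or_gt R0 (64 * t) with hbig | hsmall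
  · refine (hu1 x).trans ?_
    have h1 : (1 : ℝ) ≤ (64 * (t / R0)) ^ β := by
      apply Real.one_le_rpow _ hβ.le
      rw [← mul_div_assoc, le_div_iff₀ hR0]
      linarith
    rw [Real.mul_rpow (by norm_num) (by positivity)] at h1
    linarith
  rcases T.eq_empty_or_nonempty with hTe | ⟨p, hpn, hpc, hpr⟩
  · have : dir O (ch T) x ≤ 0 := dir_le hfin (u := fun _ => 0) (fun y _ => by rw [lap_const])
      (fun y _ => by rw [hTe, ch_not (by simp)]) x
    refine this.trans (by positivity)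
  -- distances
  set ρ := ⌈2 * t / δ⌉₊ with hρ
  have hρ1 : 2 * t / δ ≤ ρ := Nat.le_ceil _
  have hρ2 : (ρ : ℝ) < 2 * t / δ + 1 := Nat.ceil_lt_add_one (by positivity)
  have hTρ : ∀ y ∈ T, dn p y ≤ ρ := by
    intro y hy
    have h1 := le_gp_dist (z := z) hδ.le p y
    have h2 : ‖gp z δ p - gp z δ y‖ ≤ ‖gp z δ p - c‖ + ‖c - gp z δ y‖ :=
      norm_sub_le_norm_sub_add_norm_sub _ _ _
    rw [norm_sub_rev c] at h2
    have h3 : δ * (dn p y : ℝ) ≤ 2 * t := by linarith [hy.2.1]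
    have h4 : (dn p y : ℝ) ≤ ρ := by
      refine le_trans ?_ hρ1
      rw [le_div_iff₀ hδ]; linarith
    exact_mod_cast h4
  have hpx : R0 / 4 ≤ 2 * (δ * dn p x) := by
    have h1 := gp_dist_le (z := z) hδ.le p x
    have h2 := infDist_le_infDist_add_dist (s := A) (x := gp z δ x) (y := gp z δ p)
    rw [dist_eq_norm, norm_sub_rev] at h2
    linarith
  have ht1 : δ * (2 * t / δ) = 2 * t := by field_simp
  have hρx : ρ + 1 < dn p x := by
    have h1 : ((ρ : ℝ) + 1) < dn p x := by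
      have h2 : δ * ((ρ : ℝ) + 1) < δ * dn p x := by
        have h3 : δ * (ρ : ℝ) < 2 * t + δ := by
          have := mul_lt_mul_of_pos_left hρ2 hδ
          rw [mul_add, ht1, mul_one] at this
          exact this
        nlinarith
      exact lt_of_mul_lt_mul_left h2 hδ.le
    exact_mod_cast h1
  -- the outward decay
  set u : Pt → ℝ := fun y => if y ∈ O then dir O (ch T) y else 0 with hu
  have hfar : ∀ y, ρ < dn p y → u y = dir O (ch T) y := by
    intro y hy
    by_cases hyO : y ∈ O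
    · simp only [hu, hyO, if_true]
    · simp only [hu, hyO, if_false]
      rw [dir_off _ hyO, ch_not]
      intro hyT
      have := hTρ y hyT
      omega
  have key := hOD O p (ρ + 1) 1 u hfin
    (fun s => by
      obtain ⟨q, hq, hd⟩ := g.cpr (z := z) hδ (by linarith : δ ≤ r) p (by simpa using hpn) s
      exact ⟨q, hq, hd⟩)
    (fun y hy => by simp only [hu, hy, if_false])
    (fun y hy hd => by
      have e : lap u y = lap (dir O (ch T)) y := by
        unfold lap
        rw [hfar (y.1 + 1, y.2) (by rw [dn_eq] at *; simp only at *; omega),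
          hfar (y.1 - 1, y.2) (by rw [dn_eq] at *; simp only at *; omega),
          hfar (y.1, y.2 + 1) (by rw [dn_eq] at *; simp only at *; omega),
          hfar (y.1, y.2 - 1) (by rw [dn_eq] at *; simp only at *; omega),
          hfar y (by omega)]
      rw [e]
      exact dir_lap hfin _ hy)
    (fun y _ => by
      simp only [hu]
      split_ifs
      · rw [abs_of_nonneg (hu0 y)]; exact hu1 y
      · simp)
    x hρx
  rw [hfar x (by omega), mul_one, abs_of_nonneg (hu0 x)] at key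
  refine key.trans ?_
  rw [mul_assoc]
  apply mul_le_mul_of_nonneg_left _ (by norm_num)
  rw [← Real.mul_rpow (by norm_num) (by positivity)]
  apply Real.rpow_le_rpow (by positivity) _ hβ.le
  push_cast
  rw [← mul_div_assoc, div_le_div_iff₀ (by positivity) hR0]
  have h8 : δ * ((ρ : ℝ) + 1 + 1) ≤ 4 * t := by
    have := mul_lt_mul_of_pos_left hρ2 hδ
    rw [mul_add, ht1, mul_one] at this
    nlinarith
  have h9 : R0 ≤ 8 * (δ * ((dn p x : ℝ) + 1)) := by nlinarith
  have h10 : ((ρ : ℝ) + 1 + 1) * R0 ≤ ((ρ : ℝ) + 1 + 1) * (8 * (δ * ((dn p x : ℝ) + 1))) :=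
    mul_le_mul_of_nonneg_left h9 (by positivity)
  have h11 : δ * ((ρ : ℝ) + 1 + 1) * (8 * ((dn p x : ℝ) + 1)) ≤
      4 * t * (8 * ((dn p x : ℝ) + 1)) := mul_le_mul_of_nonneg_right h8 (by positivity)
  nlinarith [mul_nonneg ht.le (by positivity : (0 : ℝ) ≤ (dn p x : ℝ) + 1)]

end Vale.Agent.P155.UK
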