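import Vale.Agent.P155.U.Sweep

/-!
# P155, block U (uniqueness), KEY: grids and absorbing sets
-/

namespace Vale.Agent.P155.UK

open Finset Vale.Agent.P155.G45

/-- Grid points: the point `x` of the grid of mesh `δ` with origin `z`. -/
noncomputable def gp (z : ℂ) (δ : ℝ) (x : Pt) : ℂ := z + ⟨δ * x.1, δ * x.2⟩

/-- The absorbing set: grid points outside `Ω` or at distance `≤ r` from `A`. -/
def near (Ω : Set ℂ) (z : ℂ) (δ : ℝ) (A : Set ℂ) (r : ℝ) : Set Pt :=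
  {x | gp z δ x ∉ Ω ∨ Metric.infDist (gp z δ x) A ≤ r}

theorem near_mono {Ω : Set ℂ} {z : ℂ} {δ : ℝ} {A : Set ℂ} {r r' : ℝ} (h : r ≤ r') :
    near Ω z δ A r ⊆ near Ω z δ A r' := fun _ hx => hx.imp_right fun h' => h'.trans h

theorem notMem_near {Ω : Set ℂ} {z : ℂ} {δ : ℝ} {A : Set ℂ} {r : ℝ} {x : Pt} :
    x ∉ near Ω z δ A r ↔ gp z δ x ∈ Ω ∧ r < Metric.infDist (gp z δ x) A := by
  unfold near
  rw [Set.mem_setOf_eq, not_or, not_not, not_le]

end Vale.Agent.P155.UK
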