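import Vale.Agent.P155.U.Iface2

/-!
# P155, block U: interface, continued (blocks LEV, DYA)
-/

namespace Vale.Agent.P155.Uq

open MeasureTheory Filter Topology TopologicalSpace

/-- Block LEV: the almost sure properties of one level, from `Canon`. -/
def LevStmt : Prop :=
  ∀ Ω : Set ℂ, IsOpen Ω → Bornology.IsBounded Ω → Ω.Nonempty → ∀ Q : Measure (Sp Ω), Canon Ω Q →
  ∀ k : ℕ, Lev Ω Q (fun s => ((s k).1 : Set ℂ)) (fun s => (s (k + 1)).1)
    (fun s φ => pr (s (k + 1)).2 φ - pr (s k).2 φ)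

/-- Block DYA: measurable outer approximations of `A ∪ A'` by countably many closed sets. -/
def DyaStmt : Prop :=
  ∃ (J : Type) (_ : Countable J) (_ : MeasurableSpace J) (_ : MeasurableSingletonClass J)
    (K : J → Set ℂ) (idx : ℕ → NonemptyCompacts ℂ × NonemptyCompacts ℂ → J),
    (∀ n, Measurable (idx n)) ∧ (∀ j, IsClosed (K j)) ∧
    (∀ n p, (p.1 : Set ℂ) ∪ (p.2 : Set ℂ) ⊆ K (idx n p)) ∧
    (∀ n p, K (idx (n + 1) p) ⊆ K (idx n p)) ∧
    (∀ p F, IsCompact F → Disjoint F ((p.1 : Set ℂ) ∪ (p.2 : Set ℂ)) →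
      ∃ n, Disjoint F (K (idx n p)))

/-- Block PRJ: properties of the spaces `GV`. -/
def PrjStmt : Prop :=
  (∀ U U' : Set ℂ, U ⊆ U' → GV U ≤ GV U') ∧
  (∀ (U : Set ℂ) (V : ℕ → Set ℂ), (∀ n, V n ⊆ V (n + 1)) → (∀ n, V n ⊆ U) →
    (∀ v, IsTest U v → ∃ n, tsupport v ⊆ V n) → ∀ f : HL,
    Tendsto (fun n => (GV (V n)).starProjection f) atTop (𝓝 ((GV U).starProjection f)))

/-- Block MEA: measurability of the projections. -/
def MeaStmt : Prop :=
  ∀ Ω : Set ℂ, IsOpen Ω → Bornology.IsBounded Ω → ∀ f g : HL, f ∈ GV Ω → g ∈ GV Ω →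
    Measurable (fun A : NonemptyCompacts ℂ => inner ℝ ((GV (Ω \ A)).starProjection f) g)

end Vale.Agent.P155.Uq
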