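import Vale.Agent.P155.U.Iface3

/-!
# P155, block U: interface, continued (block LOC)
-/

namespace Vale.Agent.P155.Uq

open MeasureTheory Filter Topology TopologicalSpace

/-- The properties of `R` in `HilStmt`. -/
structure IsR (Ω : Set ℂ) (R : (ℂ → ℝ) → HL) : Prop where
  mem : ∀ φ, R φ ∈ GV Ω
  lin : ∀ φ ψ, IsTest Ω φ → IsTest Ω ψ → ∀ s t : ℝ,
      R (fun z => s * φ z + t * ψ z) = s • R φ + t • R ψ
  energy : ∀ U, U ⊆ Ω → ∀ φ, IsTest Ω φ → greenEnergy U φ = ‖(GV U).starProjection (R φ)‖ ^ 2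
  lap : ∀ v φ, IsTest Ω v → IsTest Ω φ → NegLap v φ → R φ = gr v
  ex : ∀ v, IsTest Ω v → ∃ φ, IsTest Ω φ ∧ tsupport φ ⊆ tsupport v ∧ NegLap v φ

/-- Block LOC: the field as a linear isometry on `GV Ω = H¹₀(Ω)`, its conditional characteristic
function given the first `k` levels, and its locality. -/
def LocStmt : Prop :=
  ∀ Ω : Set ℂ, IsOpen Ω → Bornology.IsBounded Ω → Ω.Nonempty → ∀ R, IsR Ω R →
  ∀ Q : Measure (Sp Ω), Canon Ω Q → ∃ W : GV Ω →ₗᵢ[ℝ] Lp ℝ 2 Q,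
    (∀ f : GV Ω, ∫ s, Complex.exp (Complex.I * (W f s : ℝ)) ∂Q =
      Complex.exp (-(‖f‖ ^ 2 / 2 : ℝ))) ∧
    (∀ (k : ℕ) (φ : ℂ → ℝ) (hR : R φ ∈ GV Ω), IsTest Ω φ → ∀ Ψ : Past Ω k → ℝ, BM Ψ →
      ∫ s, (Ψ (past k s) : ℂ) *
          Complex.exp (Complex.I * ((W ⟨R φ, hR⟩ s - cst * pr (s k).2 φ : ℝ) : ℂ)) ∂Q =
        ∫ s, (Ψ (past k s) : ℂ) * Complex.exp (-(greenEnergy (Ω \ (s k).1) φ / 2 : ℝ)) ∂Q) ∧
    (∀ (k : ℕ) (K : Set ℂ), IsClosed K → ∀ E : Set (Past Ω k), MeasurableSet E →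
      (∀ p ∈ E, ((p (Fin.last k)).1 : Set ℂ) ⊆ K) → ∀ Ψ : Past Ω k → ℝ, BM Ψ →
      ∀ f g : GV Ω, (f : HL) ∈ GV (Ω \ K) → (g : HL) ∈ (GV (Ω \ K))ᗮ →
      ∫ s, ((E.indicator Ψ (past k s) : ℝ) : ℂ) * Complex.exp (Complex.I * (W (g + f) s : ℝ)) ∂Q =
        Complex.exp (-(‖f‖ ^ 2 / 2 : ℝ)) *
        ∫ s, ((E.indicator Ψ (past k s) : ℝ) : ℂ) * Complex.exp (Complex.I * (W g s : ℝ)) ∂Q)

end Vale.Agent.P155.Uq
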