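import Vale.Agent.P155.U.Iface4

/-!
# P155, block U: interface, continued (block CM)
-/

namespace Vale.Agent.P155.Uq

open MeasureTheory Filter Topology TopologicalSpace

/-- Block CM: conditional second moments from the conditional characteristic function, with random
weights. -/
def CmStmt : Prop :=
  ∀ Ω : Set ℂ, IsOpen Ω → Bornology.IsBounded Ω → Ω.Nonempty → ∀ R, IsR Ω R →
  ∀ Q : Measure (Sp Ω), Canon Ω Q → ∀ W : GV Ω →ₗᵢ[ℝ] Lp ℝ 2 Q,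
    (∀ (k : ℕ) (φ : ℂ → ℝ) (hR : R φ ∈ GV Ω), IsTest Ω φ → ∀ Ψ : Past Ω k → ℝ, BM Ψ →
      ∫ s, (Ψ (past k s) : ℂ) *
          Complex.exp (Complex.I * ((W ⟨R φ, hR⟩ s - cst * pr (s k).2 φ : ℝ) : ℂ)) ∂Q =
        ∫ s, (Ψ (past k s) : ℂ) * Complex.exp (-(greenEnergy (Ω \ (s k).1) φ / 2 : ℝ)) ∂Q) →
    ∀ k : ℕ,
    (∀ (φ : ℂ → ℝ) (hR : R φ ∈ GV Ω), IsTest Ω φ → ∀ w : Past Ω k → ℝ, BM w →
      ∫ s, w (past k s) * ((W ⟨R φ, hR⟩ : Sp Ω → ℝ) s - cst * pr (s k).2 φ) ∂Q = 0) ∧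
    (∀ {ι : Type} (t : Finset ι) (w : ι → Past Ω k → ℝ) (φ : ι → ℂ → ℝ)
      (hR : ∀ i, R (φ i) ∈ GV Ω), (∀ i ∈ t, BM (w i)) → (∀ i ∈ t, IsTest Ω (φ i)) →
      ∫ s, (∑ i ∈ t, w i (past k s) *
          ((W ⟨R (φ i), hR i⟩ : Sp Ω → ℝ) s - cst * pr (s k).2 (φ i))) ^ 2 ∂Q =
        ∫ s, greenEnergy (Ω \ (s k).1) (fun z => ∑ i ∈ t, w i (past k s) * φ i z) ∂Q)

end Vale.Agent.P155.Uq
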