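import Vale.Agent.P155.U.Key8
import Mathlib.Analysis.SpecialFunctions.Pow.Asymptotics

/-!
# P155, block U (uniqueness): KEY

In a coupled pair the field `Z` is bounded by `√(π/2)` off `A ∪ A'`:
`|Z (bump z r)| ≤ √(π/2)` almost surely on `{closedBall z r ∩ (A ∪ A') = ∅}`.
-/

namespace Vale.Agent.P155.UK

open Finset MeasureTheory TopologicalSpace Vale.Agent.P155.G45 Vale.Agent.P155.Uq Metric Filter
  Topology

theorem lim_Q (M : ℝ) {β : ℝ} (hβ : 0 < β) :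
    Tendsto (fun ρ => Qr M ρ * ρ ^ β) (𝓝[>] 0) (𝓝 0) := by
  have h1 := tendsto_log_mul_rpow_nhdsGT_zero hβ
  have h2 : Tendsto (fun ρ : ℝ => ρ ^ β) (𝓝[>] 0) (𝓝 0) := by
    have : Tendsto (fun ρ : ℝ => ρ ^ β) (𝓝 0) (𝓝 (0 ^ β)) :=
      (Real.continuous_rpow_const hβ.le).tendsto 0
    rw [Real.zero_rpow hβ.ne'] at this
    exact this.mono_left nhdsWithin_le_nhds
  have h3 : Tendsto (fun ρ : ℝ => 160 * (4 * M) ^ 2 * ((1 + Real.log 4) * ρ ^ β -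
      2 * (Real.log ρ * ρ ^ β))) (𝓝[>] 0)
      (𝓝 (160 * (4 * M) ^ 2 * ((1 + Real.log 4) * 0 - 2 * 0))) :=
    ((h2.const_mul _).sub (h1.const_mul _)).const_mul _
  have e : 160 * (4 * M) ^ 2 * ((1 + Real.log 4) * 0 - 2 * 0) = (0 : ℝ) := by ring
  rw [e] at h3
  apply h3.congr'
  filter_upwards [self_mem_nhdsWithin] with ρ hρ
  have hρ' : (0 : ℝ) < ρ := hρ
  unfold Qr
  rw [Real.log_div (by norm_num) (by positivity), Real.log_pow]
  push_cast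
  ring

theorem Qr_nonneg (M : ℝ) {ρ : ℝ} (h : 0 < ρ) (h1 : ρ ≤ 1) : 0 ≤ Qr M ρ := by
  have : 0 ≤ Real.log (4 / ρ ^ 2) := by
    apply Real.log_nonneg
    rw [le_div_iff₀ (by positivity)]
    nlinarith
  unfold Qr
  positivity

variable {Ω : Set ℂ} {X S S' : Type} [mX : MeasurableSpace X] [mS : MeasurableSpace S]
    [mS' : MeasurableSpace S'] {μ : Measure X} {K0 : X → Set ℂ} {a : X → S} {a' : X → S'}
    {A : S → NonemptyCompacts ℂ} {A' : S' → NonemptyCompacts ℂ}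
    {h : S → (ℂ → ℝ) → ℝ} {h' : S' → (ℂ → ℝ) → ℝ} {Γ Z : (ℂ → ℝ) → X → ℝ}

theorem key_int (hc : Cpl Ω μ K0 a a' A A' h h' Γ Z) {z : ℂ} {r0 : ℝ} (hr0 : 0 < r0)
    (hz : closedBall z r0 ⊆ Ω) :
    ∫ x in DD z a a' A A' r0, max (|Z (bump z r0) x| - cst) 0 ∂μ ≤ 0 := by
  set I : ℝ := ∫ x in DD z a a' A A' r0, max (|Z (bump z r0) x| - cst) 0 ∂μ with hI
  obtain ⟨M, hM⟩ := bump_bound
  obtain ⟨M', hM0', hM'⟩ := psi_bump_bound
  obtain ⟨C, β, hC⟩ := P2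
  obtain ⟨C3, β3, hC3⟩ := P3
  obtain ⟨R0, hR0⟩ := hc.bdd.exists_norm_le
  set R : ℝ := |R0| + 1 with hR
  have hRp : 0 < R := by positivity
  have hΩ : ∀ w ∈ Ω, ‖w‖ < R := fun w hw => by
    have := hR0 w hw
    have := le_abs_self R0
    rw [hR]
    linarith
  -- step 1: `δ → 0`
  have step1 : ∀ ρ : ℝ, 0 < ρ → ρ ≤ 1 / 8 → ∀ L : ℕ, 0 < L → I ≤
      4 * √(Qr M ρ * (C * (2 * ρ) ^ β)) +
      2 * (√(Qr M ρ) * √(3 / L + 2 * (C3 * ρ ^ β3))) := by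
    intro ρ hρ hρ8 L hL
    have hlim : Tendsto (fun δ : ℝ =>
        (R + ‖z‖ + 2 * δ) ^ 2 * (13 * (R ^ 2 * (M' * δ / (r0 * ρ ^ (L + 2) / 8) ^ 5))) +
        4 * √(Qr M ρ * (C * (2 * ρ) ^ β)) +
        2 * (√(Qr M ρ) * √(3 / L + 2 * (C3 * ρ ^ β3)))) (𝓝[>] 0)
        (𝓝 ((R + ‖z‖ + 2 * 0) ^ 2 * (13 * (R ^ 2 * (M' * 0 / (r0 * ρ ^ (L + 2) / 8) ^ 5))) +
        4 * √(Qr M ρ * (C * (2 * ρ) ^ β)) +
        2 * (√(Qr M ρ) * √(3 / L + 2 * (C3 * ρ ^ β3))))) := by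
      apply Tendsto.mono_left _ nhdsWithin_le_nhds
      apply Continuous.tendsto
      fun_prop
    have h1 := ge_of_tendsto hlim (b := I) (by
      have hpos : 0 < r0 * ρ ^ (L + 4) / 4 := by positivity
      filter_upwards [self_mem_nhdsWithin,
        mem_nhdsWithin_of_mem_nhds (Iio_mem_nhds hpos)] with δ hδ hδ'
      exact bound1 hc ⟨hM.1, hM.2⟩ hC hC3 hM0' hM' hRp hΩ hz hr0 hρ hρ8 hL hδ
        (by have : δ < r0 * ρ ^ (L + 4) / 4 := hδ'; linarith))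
    refine h1.trans (le_of_eq ?_)
    ring
  -- step 2: `L → ∞`
  have step2 : ∀ ρ : ℝ, 0 < ρ → ρ ≤ 1 / 8 → I ≤
      4 * √(Qr M ρ * (C * (2 * ρ) ^ β)) +
      2 * (√(Qr M ρ) * √(0 + 2 * (C3 * ρ ^ β3))) := by
    intro ρ hρ hρ8
    have h3 : Tendsto (fun L : ℕ => (3 : ℝ) / L) atTop (𝓝 0) :=
      tendsto_const_div_atTop_nhds_zero_nat 3
    have hlim : Tendsto (fun L : ℕ => 4 * √(Qr M ρ * (C * (2 * ρ) ^ β)) +
        2 * (√(Qr M ρ) * √(3 / L + 2 * (C3 * ρ ^ β3)))) atTop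
        (𝓝 (4 * √(Qr M ρ * (C * (2 * ρ) ^ β)) +
        2 * (√(Qr M ρ) * √(0 + 2 * (C3 * ρ ^ β3))))) := by
      apply Tendsto.const_add
      apply Tendsto.const_mul
      apply Tendsto.const_mul
      exact (Real.continuous_sqrt.tendsto _).comp (h3.add_const _)
    apply ge_of_tendsto hlim
    filter_upwards [eventually_gt_atTop 0] with L hL
    exact step1 ρ hρ hρ8 L hL
  -- step 3: `ρ → 0`
  have l1 := lim_Q M hC.2.1
  have l2 := lim_Q M hC3.2.1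
  have hlim : Tendsto (fun ρ : ℝ => 4 * √(C * 2 ^ β * (Qr M ρ * ρ ^ β)) +
      2 * √(2 * C3 * (Qr M ρ * ρ ^ β3))) (𝓝[>] 0)
      (𝓝 (4 * √(C * 2 ^ β * 0) + 2 * √(2 * C3 * 0))) := by
    apply Tendsto.add
    · exact ((Real.continuous_sqrt.tendsto _).comp (l1.const_mul _)).const_mul _
    · exact ((Real.continuous_sqrt.tendsto _).comp (l2.const_mul _)).const_mul _
  have h0 : 4 * √(C * 2 ^ β * 0) + 2 * √(2 * C3 * 0) = 0 := by simp
  rw [h0] at hlim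
  apply ge_of_tendsto hlim
  filter_upwards [self_mem_nhdsWithin,
    mem_nhdsWithin_of_mem_nhds (Iio_mem_nhds (show (0 : ℝ) < 1 / 8 by norm_num))] with ρ hρ hρ8
  have hρ' : (0 : ℝ) < ρ := hρ
  have hρ8' : ρ ≤ 1 / 8 := le_of_lt hρ8
  refine (step2 ρ hρ' hρ8').trans (le_of_eq ?_)
  have e1 : Qr M ρ * (C * (2 * ρ) ^ β) = C * 2 ^ β * (Qr M ρ * ρ ^ β) := by
    rw [Real.mul_rpow (by norm_num) hρ'.le]
    ring
  have e2 : √(Qr M ρ) * √(0 + 2 * (C3 * ρ ^ β3)) = √(2 * C3 * (Qr M ρ * ρ ^ β3)) := by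
    rw [← Real.sqrt_mul (Qr_nonneg M hρ' (by linarith))]
    congr 1
    ring
  rw [e1, e2]

/-- **KEY**: in a coupled pair, `|Z| ≤ √(π/2)` off `A ∪ A'`. -/
theorem key (hc : Cpl Ω μ K0 a a' A A' h h' Γ Z) {z : ℂ} {r : ℝ} (hr : 0 < r)
    (hz : closedBall z r ⊆ Ω) :
    ∀ᵐ x ∂μ, Disjoint (closedBall z r) ((A (a x) : Set ℂ) ∪ A' (a' x)) →
      |Z (bump z r) x| ≤ cst := by
  have := hc.prob
  have h1 := key_int hc hr hz
  have hZ : Integrable (Z (bump z r)) μ := (hc.memZ _ (bump_test hr hz)).integrable (by norm_num)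
  have hZi : Integrable (fun x => max (|Z (bump z r) x| - cst) 0) μ :=
    (hZ.abs.sub (integrable_const _)).sup (integrable_zero _ _ _)
  have h2 : ∫ x in DD z a a' A A' r, max (|Z (bump z r) x| - cst) 0 ∂μ = 0 :=
    le_antisymm h1 (integral_nonneg fun x => le_max_right _ _)
  replace h2 := (integral_eq_zero_iff_of_nonneg
    (f := fun x => max (|Z (bump z r) x| - cst) 0) (fun x => le_max_right _ _)
    hZi.integrableOn).1 h2
  rw [Filter.EventuallyEq, ae_restrict_iff' (meas_DD hc z r)] at h2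
  filter_upwards [h2] with x hx hd
  rw [Set.disjoint_union_right] at hd
  have far : ∀ K : NonemptyCompacts ℂ, Disjoint (closedBall z r) (K : Set ℂ) →
      r < infDist z (K : Set ℂ) := by
    intro K hK
    obtain ⟨p, hp, hpd⟩ := K.isCompact.exists_infDist_eq_dist K.nonempty z
    rw [hpd]
    by_contra hcon
    rw [not_lt] at hcon
    exact Set.disjoint_left.1 hK (by rw [mem_closedBall, dist_comm]; exact hcon) hp
  have h3 := hx ⟨far _ hd.1, far _ hd.2⟩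
  simp only [Pi.zero_apply] at h3
  have := le_max_left (|Z (bump z r) x| - cst) 0
  rw [h3] at this
  linarith

end Vale.Agent.P155.UK
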