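import Vale.Agent.P155.U.Sweep

/-!
# P155, block U (uniqueness), KEY: the pointwise inequality at one scale
-/

namespace Vale.Agent.P155.UK

open Finset Vale.Agent.P155.G45

/-- First-order term of the swept sum. -/
noncomputable def T1 (B : Finset Pt) (S Sm : Set Pt) (Y : Pt → ℝ) (z : Pt) : ℝ :=
  ∑ x ∈ B, W Smᶜ z x * |∑ y ∈ B, W Sᶜ x y * Y y|

/-- Second moment term of the swept sum. -/
noncomputable def T2 (B : Finset Pt) (S : Set Pt) (Y : Pt → ℝ) (z : Pt) : ℝ :=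
  ∑ y ∈ B, W Sᶜ z y * Y y ^ 2

/-- The pointwise inequality at one scale. -/
theorem key1 {B : Finset Pt} {S Sm S' Sm' : Set Pt} (hB : Inn B Sᶜ) (hB' : Inn B S'ᶜ)
    (hS : S ⊆ Sm) (hS' : S' ⊆ Sm') {z : Pt} (hz : z ∈ B) {X h h' Y1 Y2 Y3 : Pt → ℝ} {c e0 : ℝ}
    (he : |X z - ∑ y ∈ B, W (S ∪ S')ᶜ z y * X y| ≤ e0)
    (h1 : ∀ y ∈ B, y ∈ S → W (S ∪ S')ᶜ z y ≠ 0 → X y = h y + Y1 y - Y3 y ∧ |h y| ≤ c)
    (h2 : ∀ y ∈ B, y ∈ S' → y ∉ S → W (S ∪ S')ᶜ z y ≠ 0 →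
      X y = h' y + Y2 y - Y3 y ∧ |h' y| ≤ c) :
    |X z| ≤ c + e0 + |∑ y ∈ B, W (S ∪ S')ᶜ z y * ch S y * Y3 y| +
      |∑ y ∈ B, W (S ∪ S')ᶜ z y * ch (S' \ S) y * Y3 y| +
      (T1 B S Sm Y1 z + √(T2 B S Y1 z) * √(hp Sm S' z - hp S S' z)) +
      (T1 B S' Sm' Y2 z + √(T2 B S' Y2 z) * √(hp S S' z - hp S Sm' z)) := by
  have hO : Inn B (S ∪ S')ᶜ := hB.mono (Set.compl_subset_compl.2 Set.subset_union_left)
  -- splitting of the sum
  have hsplit : ∀ y ∈ B, W (S ∪ S')ᶜ z y * X y =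
      (W (S ∪ S')ᶜ z y * ch S y * h y + W (S ∪ S')ᶜ z y * ch (S' \ S) y * h' y) +
      (W (S ∪ S')ᶜ z y * ch S y * Y1 y + W (S ∪ S')ᶜ z y * ch (S' \ S) y * Y2 y) -
      (W (S ∪ S')ᶜ z y * ch S y * Y3 y + W (S ∪ S')ᶜ z y * ch (S' \ S) y * Y3 y) := by
    intro y hy
    by_cases hW : W (S ∪ S')ᶜ z y = 0
    · rw [hW]; ring
    by_cases hyS : y ∈ S
    · obtain ⟨e, _⟩ := h1 y hy hyS hW
      rw [ch_mem hyS, ch_not (S := S' \ S) (fun h => h.2 hyS), e]; ring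
    · have hyS' : y ∈ S' := by
        by_contra hn
        exact hW (W_mem hO.finite z (by simp [hyS, hn]))
      obtain ⟨e, _⟩ := h2 y hy hyS' hyS hW
      rw [ch_not hyS, ch_mem (S := S' \ S) ⟨hyS', hyS⟩, e]; ring
  have hsum : ∑ y ∈ B, W (S ∪ S')ᶜ z y * X y =
      ∑ y ∈ B, (W (S ∪ S')ᶜ z y * ch S y * h y + W (S ∪ S')ᶜ z y * ch (S' \ S) y * h' y) +
      (∑ y ∈ B, W (S ∪ S')ᶜ z y * ch S y * Y1 y +
        ∑ y ∈ B, W (S ∪ S')ᶜ z y * ch (S' \ S) y * Y2 y) -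
      (∑ y ∈ B, W (S ∪ S')ᶜ z y * ch S y * Y3 y +
        ∑ y ∈ B, W (S ∪ S')ᶜ z y * ch (S' \ S) y * Y3 y) := by
    rw [Finset.sum_congr rfl hsplit, Finset.sum_sub_distrib, Finset.sum_add_distrib,
      Finset.sum_add_distrib (f := fun y => W (S ∪ S')ᶜ z y * ch S y * Y1 y),
      Finset.sum_add_distrib (f := fun y => W (S ∪ S')ᶜ z y * ch S y * Y3 y)]
  have hmain : |∑ y ∈ B, (W (S ∪ S')ᶜ z y * ch S y * h y +
      W (S ∪ S')ᶜ z y * ch (S' \ S) y * h' y)| ≤ c := by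
    calc _ ≤ ∑ y ∈ B, |W (S ∪ S')ᶜ z y * ch S y * h y +
          W (S ∪ S')ᶜ z y * ch (S' \ S) y * h' y| := Finset.abs_sum_le_sum_abs _ _
      _ ≤ ∑ y ∈ B, W (S ∪ S')ᶜ z y * c := by
          apply Finset.sum_le_sum
          intro y hy
          have hWn := W_nonneg hO.finite z y
          by_cases hW : W (S ∪ S')ᶜ z y = 0
          · rw [hW]; simp
          by_cases hyS : y ∈ S
          · obtain ⟨_, e⟩ := h1 y hy hyS hW
            rw [ch_mem hyS, ch_not (S := S' \ S) (fun h => h.2 hyS), mul_one, mul_zero, zero_mul,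
              add_zero, abs_mul, abs_of_nonneg hWn]
            exact mul_le_mul_of_nonneg_left e hWn
          · have hyS' : y ∈ S' := by
              by_contra hn
              exact hW (W_mem hO.finite z (by simp [hyS, hn]))
            obtain ⟨_, e⟩ := h2 y hy hyS' hyS hW
            rw [ch_not hyS, ch_mem (S := S' \ S) ⟨hyS', hyS⟩, mul_zero, zero_mul, mul_one,
              zero_add, abs_mul, abs_of_nonneg hWn]
            exact mul_le_mul_of_nonneg_left e hWn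
      _ = c := by rw [← Finset.sum_mul, sum_W hO hz, one_mul]
  have s1 := sweep (Q := S') hB hS (T := S) (Tm := Sm) subset_rfl subset_rfl
    (fun x hx hx' => ⟨hx.resolve_left hx', fun h => hx' (hS h)⟩) hz Y1
  have s2 := sweep (P := S') (Pm := Sm') (Q := S) hB' hS' (T := S' \ S) (Tm := Sm' \ S)
    Set.diff_subset Set.diff_subset
    (fun x hx hx' => by
      have hxS : x ∈ S := by
        by_contra hn
        rcases hx with hx | hx
        · exact hx' ⟨hx, hn⟩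
        · exact hn hx
      exact ⟨hxS, fun h => h.2 hxS⟩) hz Y2
  have hU : (S' ∪ S)ᶜ = (S ∪ S')ᶜ := by rw [Set.union_comm]
  have hO' : Inn B (S' ∪ S)ᶜ := by rw [hU]; exact hO
  have hOm' : Inn B (Sm' ∪ S)ᶜ := hO'.mono
    (Set.compl_subset_compl.2 (Set.union_subset_union_left _ hS'))
  rw [dir_diff hOm' hz, dir_diff hO' hz, hU] at s2
  have hd : (1 - hp S Sm' z) - (1 - hp S S' z) = hp S S' z - hp S Sm' z := by ring
  rw [hd] at s2
  change _ ≤ T1 B S Sm Y1 z + √(T2 B S Y1 z) * √(hp Sm S' z - hp S S' z) at s1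
  change _ ≤ T1 B S' Sm' Y2 z + √(T2 B S' Y2 z) * √(hp S S' z - hp S Sm' z) at s2
  obtain ⟨b1, b1'⟩ := abs_le.1 he
  obtain ⟨b2, b2'⟩ := abs_le.1 hmain
  obtain ⟨b3, b3'⟩ := abs_le.1 s1
  obtain ⟨b4, b4'⟩ := abs_le.1 s2
  have b5 := le_abs_self (∑ y ∈ B, W (S ∪ S')ᶜ z y * ch S y * Y3 y)
  have b5' := neg_abs_le (∑ y ∈ B, W (S ∪ S')ᶜ z y * ch S y * Y3 y)
  have b6 := le_abs_self (∑ y ∈ B, W (S ∪ S')ᶜ z y * ch (S' \ S) y * Y3 y)
  have b6' := neg_abs_le (∑ y ∈ B, W (S ∪ S')ᶜ z y * ch (S' \ S) y * Y3 y)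
  rw [abs_le]
  constructor <;> linarith

end Vale.Agent.P155.UK
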