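import Vale.Agent.P155.U.Exit

/-!
# P155, block U (uniqueness), KEY: Green function and almost harmonic functions
-/

namespace Vale.Agent.P155.UK

open Finset Vale.Agent.P155.G45

open Classical in
/-- Green function of `O` with pole `z`. -/
noncomputable def gr (O : Set Pt) (z : Pt) : Pt → ℝ :=
  if h : O.Finite then Classical.choose (exists_green h (fun x => if x = z then 1 else 0))
  else fun _ => 0

open Classical in
theorem gr_green {O : Set Pt} (hO : O.Finite) (z : Pt) :
    IsGreen O (fun x => if x = z then 1 else 0) (gr O z) := by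
  unfold gr
  rw [dif_pos hO]
  exact Classical.choose_spec (exists_green hO (fun x => if x = z then 1 else 0))

theorem gr_off {O : Set Pt} (hO : O.Finite) (z : Pt) {x : Pt} (hx : x ∉ O) : gr O z x = 0 :=
  (gr_green hO z).off x hx

theorem gr_nonneg {O : Set Pt} (hO : O.Finite) (z x : Pt) : 0 ≤ gr O z x :=
  green_nonneg hO (gr_green hO z) (fun x _ => by split_ifs <;> norm_num) x

theorem gr_mono {O O1 : Set Pt} (hO1 : O1.Finite) (h : O ⊆ O1) (z x : Pt) :
    gr O z x ≤ gr O1 z x := by
  have hO := hO1.subset h
  apply green_le_super hO (gr_green hO z)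
  · intro y hy
    rw [← (gr_green hO1 z).eq y (h hy)]
  · intro y _
    exact gr_nonneg hO1 z y

/-- Exact representation of a function on `O`: exit part plus Green potential of its Laplacian. -/
theorem sub_dir {O : Set Pt} (hO : O.Finite) (F : Pt → ℝ) (z : Pt) :
    F z - dir O F z = - ∑ x ∈ hO.toFinset, gr O z x * lap F x := by
  classical
  have hu : IsGreen O (fun x => - lap F x) (fun x => F x - dir O F x) := by
    constructor
    · intro x hx
      rw [dir_off F hx, sub_self]
    · intro x hx
      rw [lap_sub, dir_lap hO F hx]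
      ring
  have h := green_symm' hO (gr_green hO z) hu
  by_cases hz : z ∈ O
  · rw [← sum_neg_distrib]
    have h1 : ∑ x ∈ hO.toFinset, (if x = z then (1 : ℝ) else 0) * (F x - dir O F x) =
        F z - dir O F z := by
      rw [sum_eq_single z]
      · simp
      · intro b _ hb
        rw [if_neg hb, zero_mul]
      · intro h0
        exact absurd (hO.mem_toFinset.2 hz) h0
    rw [← h1, h]
    apply sum_congr rfl
    intro x _
    ring
  · rw [dir_off F hz, sub_self]
    have h0 : ∀ x, gr O z x = 0 := by
      intro x
      apply le_antisymm _ (gr_nonneg hO z x)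
      apply green_le_super hO (gr_green hO z) (w := fun _ => 0)
      · intro y hy
        rw [lap_const, if_neg (fun h : y = z => hz (h ▸ hy))]
        simp
      · intro y _
        exact le_rfl
    rw [sum_eq_zero]
    · simp
    · intro x _
      rw [h0, zero_mul]

/-- **VIS**: a function which is almost harmonic on `O` is almost the average of its exit values. -/
theorem vis {B : Finset Pt} {O : Set Pt} (h : Inn B O) (F : Pt → ℝ) {z : Pt} (hz : z ∈ B) :
    |F z - ∑ y ∈ B, W O z y * F y| ≤ ∑ x ∈ B, gr O z x * (ch O x * |lap F x|) := by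
  classical
  rw [← dir_eq_sum h F hz, sub_dir h.finite F z, abs_neg]
  refine (abs_sum_le_sum_abs _ _).trans ?_
  have hsub : h.finite.toFinset ⊆ B := by
    intro x hx
    exact (h x (h.finite.mem_toFinset.1 hx)).1
  calc ∑ x ∈ h.finite.toFinset, |gr O z x * lap F x|
      = ∑ x ∈ h.finite.toFinset, gr O z x * (ch O x * |lap F x|) := by
        apply sum_congr rfl
        intro x hx
        rw [abs_mul, abs_of_nonneg (gr_nonneg h.finite z x),
          ch_mem (h.finite.mem_toFinset.1 hx), one_mul]
    _ ≤ ∑ x ∈ B, gr O z x * (ch O x * |lap F x|) := by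
        apply sum_le_sum_of_subset_of_nonneg hsub
        intro x _ _
        exact mul_nonneg (gr_nonneg h.finite z x) (mul_nonneg (ch_nonneg _ _) (abs_nonneg _))

/-- **VIS**, with the Green function of a larger set (usable for a random `O`). -/
theorem vis_mono {B : Finset Pt} {O O1 : Set Pt} (h : Inn B O1) (hO : O ⊆ O1) (F : Pt → ℝ) {z : Pt}
    (hz : z ∈ B) :
    |F z - ∑ y ∈ B, W O z y * F y| ≤ ∑ x ∈ B, gr O1 z x * (ch O x * |lap F x|) := by
  refine (vis (h.mono hO) F hz).trans ?_
  apply sum_le_sum
  intro x _
  exact mul_le_mul_of_nonneg_right (gr_mono h.finite hO z x)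
    (mul_nonneg (ch_nonneg _ _) (abs_nonneg _))

/-- the total mass of the Green function -/
theorem sum_gr_le {O : Set Pt} {p : Pt} {L : ℕ} (hOL : ∀ x ∈ O, dn p x ≤ L) (z : Pt)
    (B : Finset Pt) : ∑ x ∈ B, gr O z x ≤ ((L : ℝ) + 1) ^ 2 := by
  classical
  have hO : O.Finite := by
    apply (box p L).finite_toSet.subset
    intro x hx
    exact mem_box.2 (hOL x hx)
  obtain ⟨v, hv⟩ := exists_green hO (fun _ => 1)
  have h := green_symm' hO (gr_green hO z) hv
  have h1 : ∑ x ∈ B, gr O z x ≤ ∑ x ∈ hO.toFinset, gr O z x * 1 := by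
    calc ∑ x ∈ B, gr O z x = ∑ x ∈ B.filter (· ∈ O), gr O z x := by
          rw [sum_filter]
          apply sum_congr rfl
          intro x _
          split_ifs with hx
          · rfl
          · exact gr_off hO z hx
      _ ≤ ∑ x ∈ hO.toFinset, gr O z x := by
          apply sum_le_sum_of_subset_of_nonneg
          · intro x hx
            exact hO.mem_toFinset.2 (mem_filter.1 hx).2
          · intro x _ _
            exact gr_nonneg hO z x
      _ = ∑ x ∈ hO.toFinset, gr O z x * 1 := by simp
  rw [← h] at h1
  have hv1 := exit_le hOL hv (fun _ _ => le_rfl)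
  have hv0 := green_nonneg hO hv (fun _ _ => zero_le_one)
  refine h1.trans ?_
  calc ∑ x ∈ hO.toFinset, (if x = z then (1 : ℝ) else 0) * v x
      ≤ v z := by
        by_cases hz : z ∈ hO.toFinset
        · rw [sum_eq_single z]
          · simp
          · intro b _ hb
            rw [if_neg hb, zero_mul]
          · intro h0
            exact absurd hz h0
        · rw [sum_eq_zero]
          · exact hv0 z
          · intro x hx
            rw [if_neg (fun h : x = z => hz (h ▸ hx)), zero_mul]
    _ ≤ ((L : ℝ) + 1) ^ 2 := hv1 z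

end Vale.Agent.P155.UK
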