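import Vale.Agent.P155.U.Geo
import Vale.Agent.P155.U.Key1
import Vale.Agent.P155.U.Key2
import Vale.Agent.P155.U.Taylor
import Vale.Agent.P155.U.Vis

/-!
# P155, block U (uniqueness), KEY: expectations of the terms at one scale
-/

namespace Vale.Agent.P155.UK

open Finset MeasureTheory TopologicalSpace Vale.Agent.P155.G45 Vale.Agent.P155.Uq Metric

/-! ## geometry -/

/-- `A` is not contained in a small disc. -/
theorem Geo.far {Ω A : Set ℂ} (g : Geo Ω A) {z y : ℂ} {r : ℝ} (hr : 0 < r) (hz : z ∈ Ω)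
    (h : 4 * r ≤ infDist z A) : ∃ p ∈ A, 2 * r ≤ dist p y := by
  by_contra hcon
  push Not at hcon
  obtain ⟨p0, hp0⟩ := g.cn.nonempty
  have h1 : 4 * r ≤ dist z p0 := h.trans (infDist_le_dist_of_mem hp0)
  have h2 := hcon p0 hp0
  have h3 : 2 * r < dist z y := by
    have := dist_triangle z y p0
    rw [dist_comm y p0] at this
    linarith
  have h4 : 0 < ‖z - y‖ := by rw [← dist_eq_norm]; linarith
  obtain ⟨R, hR⟩ := g.bd.exists_norm_le
  set T : ℝ := (|R| + ‖z‖ + 1) / ‖z - y‖ with hT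
  have hT0 : 0 ≤ T := by positivity
  have hw : z + (T : ℂ) * (z - y) ∈ Ω := by
    apply g.seg hz
    intro t ht0 ht1 hA
    have h5 := hcon _ hA
    rw [dist_eq_norm] at h5
    have e : z + (t : ℂ) * (z + (T : ℂ) * (z - y) - z) - y = ((1 + t * T : ℝ) : ℂ) * (z - y) := by
      push_cast; ring
    rw [e, norm_mul, Complex.norm_real, Real.norm_eq_abs, abs_of_nonneg (by positivity)] at h5
    have h6 : ‖z - y‖ ≤ (1 + t * T) * ‖z - y‖ := by
      have : 0 ≤ t * T := by positivity
      nlinarith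
    rw [dist_eq_norm] at h3
    linarith
  have h7 := hR _ hw
  have h8 : ‖(T : ℂ) * (z - y)‖ ≤ ‖z + (T : ℂ) * (z - y)‖ + ‖z‖ := by
    have e : (T : ℂ) * (z - y) = (z + (T : ℂ) * (z - y)) - z := by ring
    calc ‖(T : ℂ) * (z - y)‖ = ‖(z + (T : ℂ) * (z - y)) - z‖ := by rw [← e]
      _ ≤ _ := norm_sub_le _ _
  rw [norm_mul, Complex.norm_real, Real.norm_eq_abs, abs_of_nonneg hT0, hT,
    div_mul_cancel₀ _ h4.ne'] at h8
  linarith [le_abs_self R]

theorem gp_zero (z : ℂ) (δ : ℝ) : gp z δ (0, 0) = z := by unfold gp; simp [Complex.ext_iff]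

theorem gp_e1 (z : ℂ) (δ : ℝ) (x : Pt) : gp z δ (x.1 + 1, x.2) = gp z δ x + δ := by
  unfold gp
  apply Complex.ext
  · simp; ring
  · simp

theorem gp_e2 (z : ℂ) (δ : ℝ) (x : Pt) : gp z δ (x.1 - 1, x.2) = gp z δ x - δ := by
  unfold gp
  apply Complex.ext
  · simp; ring
  · simp

theorem gp_e3 (z : ℂ) (δ : ℝ) (x : Pt) : gp z δ (x.1, x.2 + 1) = gp z δ x + δ * Complex.I := by
  unfold gp
  apply Complex.ext
  · simp
  · simp; ring

theorem gp_e4 (z : ℂ) (δ : ℝ) (x : Pt) : gp z δ (x.1, x.2 - 1) = gp z δ x - δ * Complex.I := by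
  unfold gp
  apply Complex.ext
  · simp
  · simp; ring

theorem Geo.closedBall_sub {Ω A : Set ℂ} (g : Geo Ω A) {y : ℂ} {s : ℝ} (hy : y ∈ Ω)
    (h : s < infDist y A) : closedBall y s ⊆ Ω := by
  intro w hw
  apply g.mem_of_lt hy
  rw [mem_closedBall, dist_comm, dist_eq_norm] at hw
  linarith

theorem closedBall_disj {A : Set ℂ} {y : ℂ} {s : ℝ}
    (h : s < infDist y A) : Disjoint (closedBall y s) A := by
  rw [Set.disjoint_left]
  intro w hw hA
  have := infDist_le_dist_of_mem (x := y) hA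
  rw [mem_closedBall, dist_comm] at hw
  linarith

/-! ## the boxes and the finset valued maps -/

/-- a box for the grid -/
def Bx (Ω : Set ℂ) (z : ℂ) (δ : ℝ) (B : Finset Pt) : Prop :=
  ∀ (A : Set ℂ) (r : ℝ), Inn B (near Ω z δ A r)ᶜ

open Classical in
/-- the complement of the absorbing set as a finset -/
noncomputable def OF (B : Finset Pt) (Ω : Set ℂ) (z : ℂ) (δ : ℝ) (K : Set ℂ) (r : ℝ) : Finset Pt :=
  B.filter (fun x => x ∉ near Ω z δ K r)

open Classical in
/-- the finset of the grid points in `Ω` -/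
noncomputable def OO (B : Finset Pt) (Ω : Set ℂ) (z : ℂ) (δ : ℝ) : Finset Pt :=
  B.filter (fun x => gp z δ x ∈ Ω)

variable {Ω : Set ℂ} {z : ℂ} {δ : ℝ} {B : Finset Pt}

theorem coe_OF (hB : Bx Ω z δ B) (K : Set ℂ) (r : ℝ) :
    (↑(OF B Ω z δ K r) : Set Pt) = (near Ω z δ K r)ᶜ := by
  ext x
  simp only [OF, coe_filter, Set.mem_compl_iff, Set.mem_ofPred_eq]
  constructor
  · exact fun h => h.2
  · exact fun h => ⟨(hB K r x h).1, h⟩

theorem near_empty : (near Ω z δ ∅ (-1))ᶜ = {x | gp z δ x ∈ Ω} := by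
  ext x
  rw [Set.mem_compl_iff, notMem_near, infDist_empty]
  simp

theorem coe_OO (hB : Bx Ω z δ B) : (↑(OO B Ω z δ) : Set Pt) = {x | gp z δ x ∈ Ω} := by
  ext x
  simp only [OO, coe_filter, Set.mem_ofPred_eq]
  constructor
  · exact fun h => h.2
  · intro h
    have h' : x ∈ (near Ω z δ ∅ (-1))ᶜ := by rw [near_empty]; exact h
    exact ⟨(hB _ _ x h').1, h⟩

theorem inn_OO (hB : Bx Ω z δ B) : Inn B (↑(OO B Ω z δ) : Set Pt) := by
  rw [coe_OO hB, ← near_empty]
  exact hB _ _

theorem OF_mem (K : Set ℂ) (r : ℝ) : OF B Ω z δ K r ∈ (OO B Ω z δ).powerset := by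
  rw [Finset.mem_powerset]
  intro x hx
  simp only [OF, OO, mem_filter] at *
  exact ⟨hx.1, (notMem_near.1 hx.2).1⟩

theorem inn_of_mem (hB : Bx Ω z δ B) {i : Finset Pt} (hi : i ∈ (OO B Ω z δ).powerset) :
    Inn B (↑i : Set Pt) :=
  (inn_OO hB).mono (by exact_mod_cast Finset.mem_powerset.1 hi)

theorem meas_OF {Θ : Type*} {m : MeasurableSpace Θ} {K : Θ → Set ℂ}
    (hm : ∀ (w : ℂ) (r : ℝ), MeasurableSet[m] {θ | Metric.infDist w (K θ) ≤ r})
    (r : ℝ) (i : Finset Pt) :
    MeasurableSet[m] ((fun θ => OF B Ω z δ (K θ) r) ⁻¹' {i}) := by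
  classical
  by_cases hi : i ⊆ B
  · have e : ((fun θ => OF B Ω z δ (K θ) r) ⁻¹' {i}) =
        ⋂ x ∈ B, {θ | x ∉ near Ω z δ (K θ) r ↔ x ∈ i} := by
      ext θ
      simp only [Set.mem_preimage, Set.mem_singleton_iff, Set.mem_iInter, Set.mem_ofPred_eq]
      constructor
      · intro h x hx
        rw [← h]
        simp only [OF, mem_filter, hx, true_and]
      · intro h
        ext x
        simp only [OF, mem_filter]
        constructor
        · intro hx
          exact (h x hx.1).1 hx.2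
        · intro hx
          exact ⟨hi hx, (h x (hi hx)).2 hx⟩
    rw [e]
    apply Finset.measurableSet_biInter
    intro x _
    have h1 : MeasurableSet[m] {θ | x ∈ near Ω z δ (K θ) r} := by
      by_cases hx : gp z δ x ∈ Ω
      · have : {θ | x ∈ near Ω z δ (K θ) r} = {θ | infDist (gp z δ x) (K θ) ≤ r} := by
          ext θ
          simp only [Set.mem_ofPred_eq]
          constructor
          · rintro (h | h)
            · exact absurd hx h
            · exact h
          · exact fun h => Or.inr h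
        rw [this]
        exact hm _ _
      · have : {θ | x ∈ near Ω z δ (K θ) r} = Set.univ := by
          ext θ
          simp only [Set.mem_ofPred_eq, Set.mem_univ, iff_true]
          exact Or.inl hx
        rw [this]
        exact MeasurableSet.univ
    by_cases hx : x ∈ i
    · have : {θ | x ∉ near Ω z δ (K θ) r ↔ x ∈ i} = {θ | x ∈ near Ω z δ (K θ) r}ᶜ := by
        ext θ; simp [hx]
      rw [this]
      exact h1.compl
    · have : {θ | x ∉ near Ω z δ (K θ) r ↔ x ∈ i} = {θ | x ∈ near Ω z δ (K θ) r} := by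
        ext θ; simp [hx]
      rw [this]
      exact h1
  · have : ((fun θ => OF B Ω z δ (K θ) r) ⁻¹' {i}) = ∅ := by
      ext θ
      simp only [Set.mem_preimage, Set.mem_singleton_iff, Set.mem_empty_iff_false, iff_false]
      intro h
      apply hi
      rw [← h]
      exact Finset.filter_subset _ _
    rw [this]
    exact MeasurableSet.empty

end Vale.Agent.P155.UK
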