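import Vale.Agent.P155.U.Key3

/-!
# P155, block U (uniqueness), KEY: the terms at one scale
-/

namespace Vale.Agent.P155.UK

open Finset MeasureTheory TopologicalSpace Vale.Agent.P155.G45 Vale.Agent.P155.Uq Metric

/-- the logarithmic factor of the energies -/
noncomputable def qn (M r s : ℝ) : ℝ := 160 * (4 * M) ^ 2 * (1 + Real.log (r / (2 * s)))

theorem qn_nonneg (M : ℝ) {r s : ℝ} (hs : 0 < s) (hsr : 2 * s ≤ r) : 0 ≤ qn M r s := by
  have : 0 ≤ Real.log (r / (2 * s)) := Real.log_nonneg (by rw [le_div_iff₀ (by positivity)]; linarith)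
  unfold qn
  positivity

/-- The bound on bumps. -/
def BB (M : ℝ) : Prop := 0 ≤ M ∧ ∀ (z : ℂ) (s : ℝ) (w : ℂ), 0 < s → bump z s w ≤ M / s ^ 2

theorem en_bound {M : ℝ} (hM : BB M) {Ω A : Set ℂ} (g : Geo Ω A) (D : Set ℂ) {z : ℂ} {δ r s Bd : ℝ}
    (hs : 0 < s) (hsr : 2 * s ≤ r) (hz : z ∈ Ω) (hfar : 4 * r ≤ infDist z A) (I : Finset Pt)
    (w : Pt → ℝ) (hw : ∀ y ∈ I, 0 ≤ w y) (hw1 : ∑ y ∈ I, w y ≤ 1)
    (hn : ∀ y ∈ I, w y ≠ 0 → infDist (gp z δ y) A ≤ r)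
    (hBd : ∀ x : ℂ, ∑ y ∈ I.filter (fun y => ‖gp z δ y - x‖ ≤ 2 * r), w y ≤ Bd) :
    greenEnergy (D \ A) (fun ζ => ∑ y ∈ I, w y * bump (gp z δ y) s ζ) ≤ qn M r s * Bd := by
  classical
  have hr : 0 < r := by linarith
  have hBd0 : 0 ≤ Bd := by
    refine le_trans ?_ (hBd 0)
    exact Finset.sum_nonneg fun i hi => hw i (Finset.mem_filter.1 hi).1
  have e : ∀ ζ, ∑ y ∈ I, w y * bump (gp z δ y) s ζ =
      ∑ y ∈ I.filter (fun y => w y ≠ 0), w y * bump (gp z δ y) s ζ := by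
    intro ζ
    symm
    apply Finset.sum_filter_of_ne
    intro y _ h h0
    apply h
    rw [h0, zero_mul]
  simp_rw [e]
  have hq := qn_nonneg M hs hsr
  have h := Vale.Agent.P155.U.green_near D g.cn.isPreconnected (I.filter (fun y => w y ≠ 0))
    (fun y => gp z δ y) w (fun y => bump (gp z δ y) s) (r := r) (s := 2 * s) (M := 4 * M) (B := Bd)
    (by positivity) hsr (fun y hy => hw y (Finset.mem_filter.1 hy).1)
    (fun y _ => (bump_contDiff _ s).continuous.aestronglyMeasurable)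
    (fun y _ ζ => by
      rw [abs_of_nonneg (bump_nonneg _ _ _)]
      refine (hM.2 _ _ _ hs).trans (le_of_eq ?_)
      field_simp
      ring)
    (fun y _ ζ hζ => by
      apply bump_zero hs
      rw [mem_ball, not_lt] at hζ
      linarith)
    (fun y hy => by
      obtain ⟨hy1, hy2⟩ := Finset.mem_filter.1 hy
      obtain ⟨p, hp, hpd⟩ := g.exists_dist (gp z δ y)
      refine ⟨p, hp, ?_⟩
      rw [dist_comm, dist_eq_norm, ← hpd]
      exact hn y hy1 hy2)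
    (fun y _ => g.far hr hz hfar)
    (fun x => by
      refine le_trans ?_ (hBd x)
      apply Finset.sum_le_sum_of_subset_of_nonneg
      · intro y hy
        simp only [Finset.mem_filter] at hy ⊢
        refine ⟨hy.1.1, ?_⟩
        rw [← dist_eq_norm, dist_comm]
        exact hy.2.le
      · intro y hy _
        exact hw y (Finset.mem_filter.1 hy).1)
  refine h.trans ?_
  have h1 : ∑ y ∈ I.filter (fun y => w y ≠ 0), w y ≤ 1 := by
    refine le_trans ?_ hw1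
    exact Finset.sum_le_sum_of_subset_of_nonneg (Finset.filter_subset _ _) fun y hy _ => hw y hy
  have h2 : 0 ≤ ∑ y ∈ I.filter (fun y => w y ≠ 0), w y :=
    Finset.sum_nonneg fun i hi => hw i (Finset.mem_filter.1 hi).1
  calc 160 * (4 * M) ^ 2 * (1 + Real.log (r / (2 * s))) *
        (∑ y ∈ I.filter (fun y => w y ≠ 0), w y) * Bd
      ≤ qn M r s * 1 * Bd := by
        apply mul_le_mul_of_nonneg_right _ hBd0
        exact mul_le_mul_of_nonneg_left h1 hq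
    _ = qn M r s * Bd := by ring

/-- The spreading constant. -/
def SP (C β : ℝ) : Prop := 0 < C ∧ 0 < β ∧ ∀ (Ω A : Set ℂ), Geo Ω A →
    ∀ (z : ℂ) (δ r t R0 : ℝ), 0 < δ → 2 * δ ≤ r → r ≤ t → 0 < R0 →
    ∀ (B : Finset Pt), Inn B (near Ω z δ A r)ᶜ →
    ∀ x : Pt, x ∉ near Ω z δ A r → R0 / 2 ≤ infDist (gp z δ x) A → ∀ c : ℂ,
      ∑ y ∈ B.filter (fun y => ‖gp z δ y - c‖ ≤ t), W (near Ω z δ A r)ᶜ x y ≤
        C * (t / R0) ^ β

variable {Θ : Type*} {m m0 : MeasurableSpace Θ} {μ : Measure Θ} {Ω : Set ℂ} {z : ℂ} {δ : ℝ}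
  {B : Finset Pt} {K K1 K2 : Θ → Set ℂ} {Y : (ℂ → ℝ) → Θ → ℝ}

theorem origin_mem (hB : Bx Ω z δ B) (hz : z ∈ Ω) : ((0, 0) : Pt) ∈ B := by
  have h : ((0, 0) : Pt) ∈ (near Ω z δ ∅ (-1))ᶜ := by
    rw [near_empty, Set.mem_ofPred_eq, gp_zero]
    exact hz
  exact (hB _ _ _ h).1

theorem bump_isTest {A : Set ℂ} (g : Geo Ω A) {y : ℂ} {r s : ℝ} (hs : 0 < s) (hsr : s ≤ r - 2 * δ)
    (hy : y ∈ Ω) (h : r - 2 * δ < infDist y A) : IsTest Ω (bump y s) :=
  bump_test hs (g.closedBall_sub hy (by linarith))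

/-- **T1**. -/
theorem cvT1 [IsProbabilityMeasure μ] {M C β : ℝ} (hM : BB M) (hC : SP C β)
    (h : CondVar μ m Ω K Y) (hg : ∀ᵐ θ ∂μ, Geo Ω (K θ)) (hB : Bx Ω z δ B) (hz : z ∈ Ω)
    {r rm r0 s : ℝ} (hδ : 0 < δ) (hs : 0 < s) (hsr : 2 * s ≤ r) (hsδ : s ≤ r - 2 * δ)
    (hrm : r + 2 * δ ≤ rm) (hr0 : rm ≤ r0) (h4 : 4 * r ≤ r0) :
    IntegrableOn (fun θ => ∑ x ∈ B, W (near Ω z δ (K θ) rm)ᶜ (0, 0) x *
        (∑ y ∈ B, W (near Ω z δ (K θ) r)ᶜ x y * Y (bump (gp z δ y) s) θ) ^ 2)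
      {θ | r0 < infDist z (K θ)} μ ∧
    ∫ θ in {θ | r0 < infDist z (K θ)}, ∑ x ∈ B, W (near Ω z δ (K θ) rm)ᶜ (0, 0) x *
        (∑ y ∈ B, W (near Ω z δ (K θ) r)ᶜ x y * Y (bump (gp z δ y) s) θ) ^ 2 ∂μ ≤
      qn M r s * (C * (2 * r / rm) ^ β) := by
  classical
  have hr : 0 < r := by linarith
  have hrm0 : 0 < rm := by linarith
  have hDm : MeasurableSet[m] {θ | r0 < infDist z (K θ)} := by
    have e : {θ | r0 < infDist z (K θ)} = {θ | infDist z (K θ) ≤ r0}ᶜ := by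
      ext θ; simp
    rw [e]
    exact (h.near z r0).compl
  have hq0 : 0 ≤ qn M r s * (C * (2 * r / rm) ^ β) := by
    have := qn_nonneg M hs hsr
    have := hC.1
    positivity
  set F : Θ → Finset Pt × Finset Pt := fun θ => (OF B Ω z δ (K θ) r, OF B Ω z δ (K θ) rm) with hF
  have key := h.avg_lin ((OO B Ω z δ).powerset ×ˢ (OO B Ω z δ).powerset) F
    (by
      intro i _
      have e : F ⁻¹' {i} = ((fun θ => OF B Ω z δ (K θ) r) ⁻¹' {i.1}) ∩
          ((fun θ => OF B Ω z δ (K θ) rm) ⁻¹' {i.2}) := by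
        ext θ
        simp only [hF, Set.mem_preimage, Set.mem_singleton_iff, Set.mem_inter_iff, Prod.ext_iff]
      rw [e]
      exact (meas_OF h.near r i.1).inter (meas_OF h.near rm i.2))
    (fun θ => Finset.mem_product.2 ⟨OF_mem _ _, OF_mem _ _⟩) B
    (fun i x => W (↑i.2 : Set Pt) (0, 0) x)
    (fun i _ x _ => W_nonneg (Finset.finite_toSet _) _ _)
    (fun i hi => (sum_W (inn_of_mem hB (Finset.mem_product.1 hi).2) (origin_mem hB hz)).le)
    (fun i x y => W (↑i.1 : Set Pt) x y) (fun y => bump (gp z δ y) s) hDm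
    hq0
    (by
      filter_upwards [hg] with θ g hθ x hx ha
      simp only [hF, coe_OF hB] at ha ⊢
      have hθ' : r0 < infDist z (K θ) := hθ
      have h0 : ((0, 0) : Pt) ∉ near Ω z δ (K θ) rm :=
        notMem_near.2 (by rw [gp_zero]; exact ⟨hz, by linarith⟩)
      obtain ⟨x1, x2, x3⟩ := g.exit_spec hδ (by linarith) h0 ha
      have hxn : x ∉ near Ω z δ (K θ) r := notMem_near.2 ⟨x1, by linarith⟩
      constructor
      · intro y _ hy
        obtain ⟨y1, y2, y3⟩ := g.exit_spec hδ (by linarith) hxn hy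
        exact bump_isTest g hs hsδ y1 y3
      · apply en_bound hM g Ω hs hsr hz (by linarith) B _
          (fun y _ => W_nonneg (g.finite hδ z r) _ _) (sum_W (hB _ _) hx).le
        · intro y _ hy
          exact (g.exit_spec hδ (by linarith) hxn hy).2.1
        · exact hC.2.2 Ω (K θ) g z δ r (2 * r) rm hδ (by linarith) (by linarith) hrm0 B (hB _ _) x hxn
            (by linarith))
  simp only [hF, coe_OF hB] at key
  refine ⟨key.1, key.2.trans ?_⟩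
  have h1 : μ.real {θ | r0 < infDist z (K θ)} ≤ 1 := measureReal_le_one
  calc _ ≤ qn M r s * (C * (2 * r / rm) ^ β) * 1 := mul_le_mul_of_nonneg_left h1 hq0
    _ = _ := mul_one _

/-- **T2**. -/
theorem cvT2 [IsProbabilityMeasure μ] {M : ℝ} (hM : BB M)
    (h : CondVar μ m Ω K Y) (hg : ∀ᵐ θ ∂μ, Geo Ω (K θ)) (hB : Bx Ω z δ B) (hz : z ∈ Ω)
    {r r0 s : ℝ} (hδ : 0 < δ) (hs : 0 < s) (hsr : 2 * s ≤ r) (hsδ : s ≤ r - 2 * δ)
    (h4 : 4 * r ≤ r0) :
    IntegrableOn (fun θ => ∑ y ∈ B, W (near Ω z δ (K θ) r)ᶜ (0, 0) y *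
        Y (bump (gp z δ y) s) θ ^ 2) {θ | r0 < infDist z (K θ)} μ ∧
    ∫ θ in {θ | r0 < infDist z (K θ)}, ∑ y ∈ B, W (near Ω z δ (K θ) r)ᶜ (0, 0) y *
        Y (bump (gp z δ y) s) θ ^ 2 ∂μ ≤ qn M r s := by
  classical
  have hr : 0 < r := by linarith
  have hDm : MeasurableSet[m] {θ | r0 < infDist z (K θ)} := by
    have e : {θ | r0 < infDist z (K θ)} = {θ | infDist z (K θ) ≤ r0}ᶜ := by
      ext θ; simp
    rw [e]
    exact (h.near z r0).compl
  have hq0 : 0 ≤ qn M r s := qn_nonneg M hs hsr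
  have key := h.avg ((OO B Ω z δ).powerset) (fun θ => OF B Ω z δ (K θ) r)
    (fun i _ => meas_OF h.near r i)
    (fun θ => OF_mem _ _) B
    (fun i x => W (↑i : Set Pt) (0, 0) x)
    (fun i _ x _ => W_nonneg (Finset.finite_toSet _) _ _)
    (fun i hi => (sum_W (inn_of_mem hB hi) (origin_mem hB hz)).le)
    (fun _ y => bump (gp z δ y) s) hDm hq0
    (by
      filter_upwards [hg] with θ g hθ x hx ha
      simp only [coe_OF hB] at ha
      have hθ' : r0 < infDist z (K θ) := hθ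
      have h0 : ((0, 0) : Pt) ∉ near Ω z δ (K θ) r :=
        notMem_near.2 (by rw [gp_zero]; exact ⟨hz, by linarith⟩)
      obtain ⟨x1, x2, x3⟩ := g.exit_spec hδ (by linarith) h0 ha
      refine ⟨bump_isTest g hs hsδ x1 x3, ?_⟩
      have := en_bound hM g Ω hs hsr hz (by linarith : 4 * r ≤ infDist z (K θ)) {x} (fun _ => 1)
        (δ := δ) (Bd := 1) (fun _ _ => zero_le_one) (by simp)
        (fun y hy _ => by rw [Finset.mem_singleton.1 hy]; exact x2)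
        (fun c => by
          rw [Finset.sum_const, nsmul_eq_mul, mul_one]
          have : (({x} : Finset Pt).filter (fun y => ‖gp z δ y - c‖ ≤ 2 * r)).card ≤ 1 := by
            simpa using Finset.card_filter_le ({x} : Finset Pt) (fun y => ‖gp z δ y - c‖ ≤ 2 * r)
          exact_mod_cast this)
      simpa using this)
  simp only [coe_OF hB] at key
  refine ⟨key.1, key.2.trans ?_⟩
  have h1 : μ.real {θ | r0 < infDist z (K θ)} ≤ 1 := measureReal_le_one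
  calc _ ≤ qn M r s * 1 := mul_le_mul_of_nonneg_left h1 hq0
    _ = _ := mul_one _

/-- **E**: the field `Y`, given `K1` and `K2`. -/
theorem cvE [IsProbabilityMeasure μ] {M C β : ℝ} (hM : BB M) (hC : SP C β)
    (h : CondVar μ m Ω (fun θ => K1 θ ∪ K2 θ) Y)
    (hm1 : ∀ (w : ℂ) (r : ℝ), MeasurableSet[m] {θ | Metric.infDist w (K1 θ) ≤ r})
    (hm2 : ∀ (w : ℂ) (r : ℝ), MeasurableSet[m] {θ | Metric.infDist w (K2 θ) ≤ r})
    (hg : ∀ᵐ θ ∂μ, Geo Ω (K1 θ)) (hB : Bx Ω z δ B) (hz : z ∈ Ω)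
    {r r' r0 s : ℝ} (hδ : 0 < δ) (hs : 0 < s) (hsr : 2 * s ≤ r) (hsδ : s ≤ r - 2 * δ)
    (h4 : 4 * r ≤ r0) (τ : Finset Pt × Finset Pt → Pt → ℝ) (hτ0 : ∀ i y, 0 ≤ τ i y)
    (hτ1 : ∀ i y, τ i y ≤ 1) (hτ : ∀ i y, y ∈ i.1 → τ i y = 0) :
    IntegrableOn (fun θ => (∑ y ∈ B, W (near Ω z δ (K1 θ) r ∪ near Ω z δ (K2 θ) r')ᶜ (0, 0) y *
        τ (OF B Ω z δ (K1 θ) r, OF B Ω z δ (K2 θ) r') y * Y (bump (gp z δ y) s) θ) ^ 2)
      {θ | r0 < infDist z (K1 θ)} μ ∧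
    ∫ θ in {θ | r0 < infDist z (K1 θ)}, (∑ y ∈ B,
        W (near Ω z δ (K1 θ) r ∪ near Ω z δ (K2 θ) r')ᶜ (0, 0) y *
        τ (OF B Ω z δ (K1 θ) r, OF B Ω z δ (K2 θ) r') y * Y (bump (gp z δ y) s) θ) ^ 2 ∂μ ≤
      qn M r s * (C * (2 * r / r0) ^ β) := by
  classical
  have hr : 0 < r := by linarith
  have hr0 : 0 < r0 := by linarith
  have hDm : MeasurableSet[m] {θ | r0 < infDist z (K1 θ)} := by
    have e : {θ | r0 < infDist z (K1 θ)} = {θ | infDist z (K1 θ) ≤ r0}ᶜ := by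
      ext θ; simp
    rw [e]
    exact (hm1 z r0).compl
  have hq0 : 0 ≤ qn M r s * (C * (2 * r / r0) ^ β) := by
    have := qn_nonneg M hs hsr
    have := hC.1
    positivity
  have hcoe : ∀ θ, (↑(OF B Ω z δ (K1 θ) r ∩ OF B Ω z δ (K2 θ) r') : Set Pt) =
      (near Ω z δ (K1 θ) r ∪ near Ω z δ (K2 θ) r')ᶜ := by
    intro θ
    rw [Finset.coe_inter, coe_OF hB, coe_OF hB, Set.compl_union]
  set F : Θ → Finset Pt × Finset Pt :=
    fun θ => (OF B Ω z δ (K1 θ) r, OF B Ω z δ (K2 θ) r') with hF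
  have key := h.avg_lin ((OO B Ω z δ).powerset ×ˢ (OO B Ω z δ).powerset) F
    (by
      intro i _
      have e : F ⁻¹' {i} = ((fun θ => OF B Ω z δ (K1 θ) r) ⁻¹' {i.1}) ∩
          ((fun θ => OF B Ω z δ (K2 θ) r') ⁻¹' {i.2}) := by
        ext θ
        simp only [hF, Set.mem_preimage, Set.mem_singleton_iff, Set.mem_inter_iff, Prod.ext_iff]
      rw [e]
      exact (meas_OF hm1 r i.1).inter (meas_OF hm2 r' i.2))
    (fun θ => Finset.mem_product.2 ⟨OF_mem _ _, OF_mem _ _⟩) B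
    (fun i x => if x = (0, 0) then (1 : ℝ) else 0)
    (fun i _ x _ => by split_ifs <;> norm_num)
    (fun i hi => by rw [Finset.sum_ite_eq' B ((0, 0) : Pt)]; simp [origin_mem hB hz])
    (fun i _ y => W (↑(i.1 ∩ i.2) : Set Pt) (0, 0) y * τ i y) (fun y => bump (gp z δ y) s) hDm
    hq0
    (by
      filter_upwards [hg] with θ g hθ x hx ha
      simp only [hF, hcoe]
      have hθ' : r0 < infDist z (K1 θ) := hθ
      have h0 : ((0, 0) : Pt) ∉ near Ω z δ (K1 θ) r :=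
        notMem_near.2 (by rw [gp_zero]; exact ⟨hz, by linarith⟩)
      have hfin := g.finite hδ z r
      have hfin2 : ((near Ω z δ (K1 θ) r ∪ near Ω z δ (K2 θ) r')ᶜ : Set Pt).Finite :=
        hfin.subset (Set.compl_subset_compl.2 Set.subset_union_left)
      -- the weights
      have hwle : ∀ y ∈ B, W (near Ω z δ (K1 θ) r ∪ near Ω z δ (K2 θ) r')ᶜ (0, 0) y *
          τ (OF B Ω z δ (K1 θ) r, OF B Ω z δ (K2 θ) r') y ≤ W (near Ω z δ (K1 θ) r)ᶜ (0, 0) y := by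
        intro y hy
        by_cases hyS : y ∈ near Ω z δ (K1 θ) r
        · calc _ ≤ W (near Ω z δ (K1 θ) r ∪ near Ω z δ (K2 θ) r')ᶜ (0, 0) y * 1 :=
                mul_le_mul_of_nonneg_left (hτ1 _ _) (W_nonneg hfin2 _ _)
            _ ≤ _ := by rw [mul_one]; exact W_le_W hfin _ hyS
        · rw [hτ _ y (show y ∈ OF B Ω z δ (K1 θ) r from Finset.mem_filter.2 ⟨hy, hyS⟩), mul_zero]
          exact W_nonneg hfin _ _
      have hw0 : ∀ y ∈ B, 0 ≤ W (near Ω z δ (K1 θ) r ∪ near Ω z δ (K2 θ) r')ᶜ (0, 0) y *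
          τ (OF B Ω z δ (K1 θ) r, OF B Ω z δ (K2 θ) r') y := fun y _ =>
        mul_nonneg (W_nonneg hfin2 _ _) (hτ0 _ _)
      have hex : ∀ y ∈ B, W (near Ω z δ (K1 θ) r ∪ near Ω z δ (K2 θ) r')ᶜ (0, 0) y *
          τ (OF B Ω z δ (K1 θ) r, OF B Ω z δ (K2 θ) r') y ≠ 0 →
          gp z δ y ∈ Ω ∧ infDist (gp z δ y) (K1 θ) ≤ r ∧ r - 2 * δ < infDist (gp z δ y) (K1 θ) := by
        intro y hy hne
        apply g.exit_spec hδ (by linarith) h0
        have := lt_of_le_of_ne (hw0 y hy) (Ne.symm hne)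
        exact (this.trans_le (hwle y hy)).ne'
      constructor
      · intro y hy hne
        obtain ⟨y1, y2, y3⟩ := hex y hy hne
        exact bump_isTest g hs hsδ y1 y3
      · have e : Ω \ (K1 θ ∪ K2 θ) = (Ω \ K2 θ) \ K1 θ := by
          ext w; simp only [Set.mem_sdiff, Set.mem_union]; tauto
        rw [e]
        apply en_bound hM g (Ω \ K2 θ) hs hsr hz (by linarith) B _ hw0
        · calc _ ≤ ∑ y ∈ B, W (near Ω z δ (K1 θ) r)ᶜ (0, 0) y := Finset.sum_le_sum hwle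
            _ = 1 := sum_W (hB _ _) (origin_mem hB hz)
        · exact fun y hy hne => (hex y hy hne).2.1
        · intro c
          refine le_trans ?_ (hC.2.2 Ω (K1 θ) g z δ r (2 * r) r0 hδ (by linarith) (by linarith) hr0 B
            (hB _ _) (0, 0) h0 (by rw [gp_zero]; linarith) c)
          apply Finset.sum_le_sum
          intro y hy
          exact hwle y (Finset.mem_filter.1 hy).1)
  have hsum : ∀ θ, ∑ x ∈ B, (if x = (0, 0) then (1 : ℝ) else 0) *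
      (∑ y ∈ B, W (↑((F θ).1 ∩ (F θ).2) : Set Pt) (0, 0) y * τ (F θ) y *
        Y (bump (gp z δ y) s) θ) ^ 2 =
      (∑ y ∈ B, W (near Ω z δ (K1 θ) r ∪ near Ω z δ (K2 θ) r')ᶜ (0, 0) y *
        τ (OF B Ω z δ (K1 θ) r, OF B Ω z δ (K2 θ) r') y * Y (bump (gp z δ y) s) θ) ^ 2 := by
    intro θ
    simp only [ite_mul, one_mul, zero_mul]
    rw [Finset.sum_ite_eq' B ((0, 0) : Pt), if_pos (origin_mem hB hz)]
    simp only [hF]
    rw [hcoe]
  simp only [hsum] at key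
  refine ⟨key.1, key.2.trans ?_⟩
  have h1 : μ.real {θ | r0 < infDist z (K1 θ)} ≤ 1 := measureReal_le_one
  calc _ ≤ qn M r s * (C * (2 * r / r0) ^ β) * 1 := mul_le_mul_of_nonneg_left h1 hq0
    _ = _ := mul_one _

end Vale.Agent.P155.UK
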