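import Vale.Agent.P155.U.Key4

/-!
# P155, block U (uniqueness), KEY: the discretisation error
-/

namespace Vale.Agent.P155.UK

open Finset MeasureTheory TopologicalSpace Vale.Agent.P155.G45 Vale.Agent.P155.Uq Metric

variable {Ω : Set ℂ} {X S S' : Type} [mX : MeasurableSpace X] [mS : MeasurableSpace S]
    [mS' : MeasurableSpace S'] {μ : Measure X} {K0 : X → Set ℂ} {a : X → S} {a' : X → S'}
    {A : S → NonemptyCompacts ℂ} {A' : S' → NonemptyCompacts ℂ}
    {h : S → (ℂ → ℝ) → ℝ} {h' : S' → (ℂ → ℝ) → ℝ} {Γ Z : (ℂ → ℝ) → X → ℝ}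

theorem geo1 (hc : Cpl Ω μ K0 a a' A A' h h' Γ Z) : ∀ᵐ x ∂μ, Geo Ω (A (a x) : Set ℂ) := by
  filter_upwards [hc.one.fr, hc.one.conn] with x h1 h2
  exact ⟨hc.isOpen, hc.bdd, (A (a x)).isCompact, h2, h1⟩

theorem geo2 (hc : Cpl Ω μ K0 a a' A A' h h' Γ Z) : ∀ᵐ x ∂μ, Geo Ω (A' (a' x) : Set ℂ) := by
  filter_upwards [hc.one'.fr, hc.one'.conn] with x h1 h2
  exact ⟨hc.isOpen, hc.bdd, (A' (a' x)).isCompact, h2, h1⟩

/-- The discrete Laplacian of the fields. -/
theorem lap_ae (hc : Cpl Ω μ K0 a a' A A' h h' Γ Z) {z : ℂ} {δ s : ℝ} (hδ : 0 ≤ δ) (hs : 0 < s)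
    (p : Pt) (hp : closedBall (gp z δ p) (s + δ) ⊆ Ω) :
    ∀ᵐ x ∂μ, Disjoint (closedBall (gp z δ p) s) ((A (a x) : Set ℂ) ∪ A' (a' x)) →
      lap (fun y => Z (bump (gp z δ y) s) x) p = Z (psi (bump (gp z δ p) s) δ) x := by
  set c := gp z δ p with hcdef
  have sub : ∀ e : ℂ, ‖e‖ ≤ δ → closedBall (c + e) s ⊆ Ω := by
    intro e he
    refine Set.Subset.trans ?_ hp
    intro w hw
    rw [mem_closedBall] at hw ⊢
    have : dist w c ≤ dist w (c + e) + dist (c + e) c := dist_triangle _ _ _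
    have h2 : dist (c + e) c = ‖e‖ := by rw [dist_eq_norm, add_sub_cancel_left]
    linarith
  have t0 : IsTest Ω (bump c s) := by
    have := sub 0 (by simpa using hδ)
    rw [add_zero] at this
    exact bump_test hs this
  have t1 : IsTest Ω (bump (c + δ) s) :=
    bump_test hs (sub δ (by rw [Complex.norm_real, Real.norm_of_nonneg hδ]))
  have t2 : IsTest Ω (bump (c - δ) s) := by
    have := sub (-δ) (by rw [norm_neg, Complex.norm_real, Real.norm_of_nonneg hδ])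
    rw [← sub_eq_add_neg] at this
    exact bump_test hs this
  have t3 : IsTest Ω (bump (c + δ * Complex.I) s) :=
    bump_test hs (sub _ (by
      rw [norm_mul, Complex.norm_I, mul_one, Complex.norm_real, Real.norm_of_nonneg hδ]))
  have t4 : IsTest Ω (bump (c - δ * Complex.I) s) := by
    have := sub (-(δ * Complex.I)) (by
      rw [norm_neg, norm_mul, Complex.norm_I, mul_one, Complex.norm_real, Real.norm_of_nonneg hδ])
    rw [← sub_eq_add_neg] at this
    exact bump_test hs this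
  have t5 : IsTest Ω (fun w => - lapC (bump c s) w) := by
    have h1 := IsTest.add_mul (-1) (Vale.Agent.P155.U.isTest_zero Ω) (lapC_test t0)
    refine (iff_of_eq ?_).1 h1
    congr 1
    funext w
    ring
  have hh := hc.harm _ _ t0 t5 (negLap_lapC t0.1 t0.2.1)
  -- linear combinations
  have lin : ∀ φ ψ (t : ℝ), IsTest Ω φ → IsTest Ω ψ →
      Z (fun z => φ z + t * ψ z) =ᵐ[μ] fun x => Z φ x + t * Z ψ x := by
    intro φ ψ t hφ hψ
    have := hc.linZ φ ψ hφ hψ 1 t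
    simp only [one_mul] at this
    exact this
  have f1 := lin _ _ 1 t1 t2
  have g1 := IsTest.add_mul 1 t1 t2
  have f2 := lin _ _ 1 g1 t3
  have g2 := IsTest.add_mul 1 g1 t3
  have f3 := lin _ _ 1 g2 t4
  have g3 := IsTest.add_mul 1 g2 t4
  have f4 := lin _ _ (-4) g3 t0
  have g4 := IsTest.add_mul (-4) g3 t0
  have f5 := lin _ _ (δ ^ 2) g4 t5
  have e : psi (bump c s) δ = fun w => bump (c + δ) s w + 1 * bump (c - δ) s w +
      1 * bump (c + δ * Complex.I) s w + 1 * bump (c - δ * Complex.I) s w +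
      -4 * bump c s w + δ ^ 2 * (- lapC (bump c s) w) := by
    funext w
    rw [psi_bump]
    ring
  filter_upwards [hh, f1, f2, f3, f4, f5] with x hh f1 f2 f3 f4 f5 hd
  rw [e, f5, f4, f3, f2, f1, hh (hd.mono_left (bump_tsupport hs))]
  unfold lap
  simp only [gp_e1, gp_e2, gp_e3, gp_e4]
  ring

open Classical in
/-- The discretisation error. -/
noncomputable def e0 (B : Finset Pt) (Ω : Set ℂ) (z : ℂ) (δ s : ℝ) (Z : (ℂ → ℝ) → X → ℝ)
    (x : X) : ℝ :=
  ∑ p ∈ B, gr {y | gp z δ y ∈ Ω} (0, 0) p * (if closedBall (gp z δ p) (s + δ) ⊆ Ω then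
    |Z (psi (bump (gp z δ p) s) δ) x| else 0)

theorem inn_Om {z : ℂ} {δ : ℝ} {B : Finset Pt} (hB : Bx Ω z δ B) : Inn B {y | gp z δ y ∈ Ω} := by
  rw [← near_empty]
  exact hB _ _

theorem e0_nonneg {z : ℂ} {δ s : ℝ} {B : Finset Pt} (hB : Bx Ω z δ B) (x : X) :
    0 ≤ e0 B Ω z δ s Z x := by
  apply Finset.sum_nonneg
  intro p _
  apply mul_nonneg (gr_nonneg (inn_Om hB).finite _ _)
  split_ifs
  · exact abs_nonneg _
  · exact le_rfl

/-- The visibility error. -/
theorem vis_ae (hc : Cpl Ω μ K0 a a' A A' h h' Γ Z) {z : ℂ} {δ s r r' : ℝ} {B : Finset Pt}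
    (hB : Bx Ω z δ B) (hz : z ∈ Ω) (hδ : 0 ≤ δ) (hs : 0 < s) (hsr : s + δ ≤ r) (hsr' : s ≤ r') :
    ∀ᵐ x ∂μ, |Z (bump (gp z δ (0, 0)) s) x - ∑ y ∈ B,
      W (near Ω z δ (A (a x)) r ∪ near Ω z δ (A' (a' x)) r')ᶜ (0, 0) y *
        Z (bump (gp z δ y) s) x| ≤ e0 B Ω z δ s Z x := by
  classical
  have h1 : ∀ᵐ x ∂μ, ∀ p ∈ B, closedBall (gp z δ p) (s + δ) ⊆ Ω →
      Disjoint (closedBall (gp z δ p) s) ((A (a x) : Set ℂ) ∪ A' (a' x)) →
      lap (fun y => Z (bump (gp z δ y) s) x) p = Z (psi (bump (gp z δ p) s) δ) x := by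
    rw [Filter.eventually_all_finset]
    intro p _
    by_cases hp : closedBall (gp z δ p) (s + δ) ⊆ Ω
    · filter_upwards [lap_ae hc hδ hs p hp] with x hx _
      exact hx
    · exact Filter.Eventually.of_forall fun x h' => absurd h' hp
  filter_upwards [h1, geo1 hc] with x h1 g
  have hO : (near Ω z δ (A (a x)) r ∪ near Ω z δ (A' (a' x)) r')ᶜ ⊆ {y | gp z δ y ∈ Ω} := by
    intro y hy
    rw [Set.mem_compl_iff, Set.mem_union, not_or] at hy
    exact (notMem_near.1 hy.1).1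
  refine (vis_mono (inn_Om hB) hO (fun y => Z (bump (gp z δ y) s) x) (origin_mem hB hz)).trans ?_
  apply Finset.sum_le_sum
  intro p hp
  apply mul_le_mul_of_nonneg_left _ (gr_nonneg (inn_Om hB).finite _ _)
  by_cases hpO : p ∈ (near Ω z δ (A (a x)) r ∪ near Ω z δ (A' (a' x)) r')ᶜ
  · rw [ch_mem hpO, one_mul]
    rw [Set.mem_compl_iff, Set.mem_union, not_or] at hpO
    obtain ⟨p1, p2⟩ := notMem_near.1 hpO.1
    obtain ⟨_, p3⟩ := notMem_near.1 hpO.2
    have hcb : closedBall (gp z δ p) (s + δ) ⊆ Ω := g.closedBall_sub p1 (by linarith)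
    rw [if_pos hcb, h1 p hp hcb]
    rw [Set.disjoint_union_right]
    exact ⟨closedBall_disj (by linarith), closedBall_disj (by linarith)⟩
  · rw [ch_not hpO, zero_mul]
    split_ifs
    · exact abs_nonneg _
    · exact le_rfl

/-- The expectation of the discretisation error. -/
theorem e0_int (hc : Cpl Ω μ K0 a a' A A' h h' Γ Z) {R M z δ s} {B : Finset Pt} {L : ℕ}
    (hR : 0 < R) (hΩ : ∀ z ∈ Ω, ‖z‖ < R) (hB : Bx Ω z δ B) (hδ : 0 ≤ δ) (hs : 0 < s)
    (hM0 : 0 ≤ M) (hM : ∀ (z : ℂ) (s : ℝ) (w : ℂ) (δ : ℝ), 0 < s → 0 ≤ δ →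
      |psi (bump z s) δ w| ≤ M * δ ^ 3 / s ^ 5)
    (hL : ∀ p, gp z δ p ∈ Ω → dn (0, 0) p ≤ L) :
    Integrable (e0 B Ω z δ s Z) μ ∧
      ∫ x, e0 B Ω z δ s Z x ∂μ ≤ ((L : ℝ) + 1) ^ 2 * (13 * (R ^ 2 * (M * δ ^ 3 / s ^ 5))) := by
  classical
  have := hc.prob
  set ε : ℝ := M * δ ^ 3 / s ^ 5 with hε
  have hε0 : 0 ≤ ε := by positivity
  have one : ∀ p ∈ B, Integrable (fun x => if closedBall (gp z δ p) (s + δ) ⊆ Ω then
      |Z (psi (bump (gp z δ p) s) δ) x| else 0) μ ∧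
      ∫ x, (if closedBall (gp z δ p) (s + δ) ⊆ Ω then
      |Z (psi (bump (gp z δ p) s) δ) x| else 0) ∂μ ≤ 13 * (R ^ 2 * ε) := by
    intro p _
    by_cases hp : closedBall (gp z δ p) (s + δ) ⊆ Ω
    · simp only [if_pos hp]
      have ht := psi_test hs hδ hp
      have hm := hc.memZ _ ht
      have hi : Integrable (Z (psi (bump (gp z δ p) s) δ)) μ := hm.integrable (by norm_num)
      refine ⟨hi.abs, ?_⟩
      have h1 := Z_sq_le hc hR hΩ ht (fun w => hM _ _ w _ hs hδ)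
      have h2 := (integral_sqrt_le (μ := μ) hm.integrable_sq
        (Filter.Eventually.of_forall fun x => sq_nonneg _)).2
      simp only [Real.sqrt_sq_eq_abs] at h2
      have h3 : μ.real Set.univ = 1 := by simp
      rw [h3, Real.sqrt_one, mul_one] at h2
      refine h2.trans ?_
      have h4 : √(∫ x, Z (psi (bump (gp z δ p) s) δ) x ^ 2 ∂μ) ≤
          √((13 * (R ^ 2 * ε)) ^ 2) := by
        apply Real.sqrt_le_sqrt
        refine h1.trans ?_
        rw [mul_pow 13]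
        exact mul_le_mul_of_nonneg_right (by norm_num : (160 : ℝ) ≤ 13 ^ 2) (sq_nonneg _)
      rwa [Real.sqrt_sq (by positivity)] at h4
    · simp only [if_neg hp]
      refine ⟨integrable_zero _ _ _, ?_⟩
      simp only [integral_zero]
      positivity
  have hint : Integrable (e0 B Ω z δ s Z) μ := by
    apply integrable_finsetSum
    intro p hp
    exact (one p hp).1.const_mul _
  refine ⟨hint, ?_⟩
  have hsum : ∫ x, e0 B Ω z δ s Z x ∂μ = ∑ p ∈ B, gr {y | gp z δ y ∈ Ω} (0, 0) p *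
      ∫ x, (if closedBall (gp z δ p) (s + δ) ⊆ Ω then
        |Z (psi (bump (gp z δ p) s) δ) x| else 0) ∂μ := by
    unfold e0
    rw [integral_finsetSum _ (fun p hp => (one p hp).1.const_mul _)]
    simp only [integral_const_mul]
  rw [hsum]
  calc _ ≤ ∑ p ∈ B, gr {y | gp z δ y ∈ Ω} (0, 0) p * (13 * (R ^ 2 * ε)) := by
        apply Finset.sum_le_sum
        intro p hp
        exact mul_le_mul_of_nonneg_left (one p hp).2 (gr_nonneg (inn_Om hB).finite _ _)
    _ = (∑ p ∈ B, gr {y | gp z δ y ∈ Ω} (0, 0) p) * (13 * (R ^ 2 * ε)) := by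
        rw [Finset.sum_mul]
    _ ≤ _ := mul_le_mul_of_nonneg_right (sum_gr_le (p := (0, 0)) (fun p hp => hL p hp) (0, 0) B)
        (by positivity)

/-- Different radii. -/
theorem bump_radius (hc : Cpl Ω μ K0 a a' A A' h h' Γ Z) {z : ℂ} {s r : ℝ} (hs : 0 < s) (hsr : s ≤ r)
    (hr : closedBall z r ⊆ Ω) : ∀ᵐ x ∂μ, Disjoint (closedBall z r) ((A (a x) : Set ℂ) ∪ A' (a' x)) →
      Z (bump z s) x = Z (bump z r) x := by
  have hr0 : 0 < r := hs.trans_le hsr
  have hm : max r s = r := max_eq_left hsr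
  have t1 : IsTest Ω (bump z s) := bump_test hs ((closedBall_subset_closedBall hsr).trans hr)
  have t2 : IsTest Ω (bump z r) := bump_test hr0 hr
  have t3 : IsTest Ω (pdiff z r s) := pdiff_test hr0 hs (by rw [hm]; exact hr)
  have t4 := IsTest.add_mul (-1) t1 t2
  have e : (fun w => bump z s w - bump z r w) = fun w => bump z s w + -1 * bump z r w := by
    funext w; ring
  have h1 := hc.harm _ _ t3 t4 (by rw [← e]; exact negLap_pdiff z hs hr0)
  have h2 := hc.linZ _ _ t1 t2 1 (-1)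
  simp only [one_mul] at h2
  filter_upwards [h1, h2] with x h1 h2 hd
  have := h1 (hd.mono_left (by have := pdiff_tsupport (z := z) hr0 hs; rwa [hm] at this))
  rw [h2] at this
  linarith

/-- The sign of a bump. -/
theorem sign_bump {K : X → NonemptyCompacts ℂ} {g : X → (ℂ → ℝ) → ℝ} (hl : Lev Ω μ K0 K g)
    (hop : ∀ᵐ x ∂μ, Geo Ω (K x : Set ℂ)) :
    ∀ᵐ x ∂μ, ∀ (y : ℂ) (s : ℝ), 0 < s → y ∈ Ω → s < infDist y (K x : Set ℂ) →
      |cst * g x (bump y s)| ≤ cst := by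
  have hcst : 0 ≤ cst := Real.sqrt_nonneg _
  filter_upwards [hl.sign, hop] with x h1 g1 y s hs hy hd
  set r : ℝ := (s + infDist y (K x : Set ℂ)) / 2 with hr
  have hsr : s < r := by rw [hr]; linarith
  have hrd : r < infDist y (K x : Set ℂ) := by rw [hr]; linarith
  obtain ⟨t, ht, h2⟩ := h1 y r (by linarith) (g1.closedBall_sub hy hrd) (closedBall_disj hrd)
  have ht1 : IsTest (ball y r) (bump y s) := bump_test hs (closedBall_subset_ball hsr)
  rw [h2 _ ht1, integral_bump y hs, mul_one, abs_mul, abs_of_nonneg hcst]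
  have : |t| = 1 := by rcases ht with rfl | rfl <;> simp
  rw [this, mul_one]

end Vale.Agent.P155.UK
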