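import Vale.Agent.P155.U.Key5

/-!
# P155, block U (uniqueness), KEY: the inequality at one scale
-/

namespace Vale.Agent.P155.UK

open Finset MeasureTheory TopologicalSpace Vale.Agent.P155.G45 Vale.Agent.P155.Uq Metric

theorem hp_int {Θ : Type*} {m0 : MeasurableSpace Θ} {μ : Measure Θ} [IsFiniteMeasure μ] {Ω : Set ℂ}
    {z : ℂ} {δ : ℝ} {B : Finset Pt} (hB : Bx Ω z δ B) {K1 K2 : Θ → Set ℂ}
    (hm1 : ∀ (w : ℂ) (r : ℝ), MeasurableSet {θ | Metric.infDist w (K1 θ) ≤ r})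
    (hm2 : ∀ (w : ℂ) (r : ℝ), MeasurableSet {θ | Metric.infDist w (K2 θ) ≤ r}) (r r' : ℝ) (p : Pt) :
    Integrable (fun θ => hp (near Ω z δ (K1 θ) r) (near Ω z δ (K2 θ) r') p) μ := by
  classical
  have key := integrable_comp_finite (μ := μ) ((OO B Ω z δ).powerset ×ˢ (OO B Ω z δ).powerset)
    (fun θ => (OF B Ω z δ (K1 θ) r, OF B Ω z δ (K2 θ) r'))
    (by
      intro i _
      have e : (fun θ => (OF B Ω z δ (K1 θ) r, OF B Ω z δ (K2 θ) r')) ⁻¹' {i} =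
          ((fun θ => OF B Ω z δ (K1 θ) r) ⁻¹' {i.1}) ∩
          ((fun θ => OF B Ω z δ (K2 θ) r') ⁻¹' {i.2}) := by
        ext θ
        simp only [Set.mem_preimage, Set.mem_singleton_iff, Set.mem_inter_iff, Prod.ext_iff]
      rw [e]
      exact (meas_OF hm1 r i.1).inter (meas_OF hm2 r' i.2))
    (fun θ => Finset.mem_product.2 ⟨OF_mem _ _, OF_mem _ _⟩)
    (fun i => hp (↑i.1 : Set Pt)ᶜ (↑i.2 : Set Pt)ᶜ p)
  simpa only [coe_OF hB, compl_compl] using key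

/-- Restriction to a smaller set, and square roots. -/
theorem sqrt_on {Θ : Type*} {m0 : MeasurableSpace Θ} {μ : Measure Θ} [IsProbabilityMeasure μ]
    {D D1 : Set Θ} (hD : D ⊆ D1) {f : Θ → ℝ} (hf0 : ∀ᵐ x ∂μ, x ∈ D1 → 0 ≤ f x)
    (hm : MeasurableSet D1) {η : ℝ}
    (hint : IntegrableOn f D1 μ) (hle : ∫ θ in D1, f θ ∂μ ≤ η) :
    (IntegrableOn f D μ ∧ ∫ θ in D, f θ ∂μ ≤ η) ∧
      IntegrableOn (fun θ => √(f θ)) D μ ∧ ∫ θ in D, √(f θ) ∂μ ≤ √η := by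
  have h0 : 0 ≤ᵐ[μ.restrict D1] f := by
    rw [Filter.EventuallyLE, ae_restrict_iff' hm]
    exact hf0
  have h0' : 0 ≤ᵐ[μ.restrict D] f := Filter.Eventually.filter_mono
    (ae_mono (Measure.restrict_mono_set μ hD)) h0
  have h1 : IntegrableOn f D μ := hint.mono_set hD
  have h2 : ∫ θ in D, f θ ∂μ ≤ η :=
    (setIntegral_mono_set hint h0 (LE.le.eventuallyLE hD)).trans hle
  obtain ⟨h3, h4⟩ := integral_sqrt_le (μ := μ.restrict D) h1 h0'
  refine ⟨⟨h1, h2⟩, h3, ?_⟩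
  have h5 : (μ.restrict D).real Set.univ ≤ 1 := by
    rw [measureReal_restrict_apply_univ]
    exact measureReal_le_one
  calc _ ≤ √(∫ θ in D, f θ ∂μ) * √((μ.restrict D).real Set.univ) := h4
    _ ≤ √(∫ θ in D, f θ ∂μ) * 1 := by
        apply mul_le_mul_of_nonneg_left _ (Real.sqrt_nonneg _)
        rw [Real.sqrt_le_one]
        exact h5
    _ = √(∫ θ in D, f θ ∂μ) := mul_one _
    _ ≤ √η := Real.sqrt_le_sqrt h2

variable {Ω : Set ℂ} {X S S' : Type} [mX : MeasurableSpace X] [mS : MeasurableSpace S]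
    [mS' : MeasurableSpace S'] {μ : Measure X} {K0 : X → Set ℂ} {a : X → S} {a' : X → S'}
    {A : S → NonemptyCompacts ℂ} {A' : S' → NonemptyCompacts ℂ}
    {h : S → (ℂ → ℝ) → ℝ} {h' : S' → (ℂ → ℝ) → ℝ} {Γ Z : (ℂ → ℝ) → X → ℝ}

/-- The conditions on the scales. -/
structure Sc (r0 δ s r rm : ℝ) : Prop where
  a1 : 2 * s ≤ r
  a2 : s ≤ r - 2 * δ
  a3 : r + 2 * δ ≤ rm
  a4 : rm ≤ r0
  a5 : 4 * r ≤ r0

theorem meas1 (hc : Cpl Ω μ K0 a a' A A' h h' Γ Z) (w : ℂ) (r : ℝ) :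
    MeasurableSet[MeasurableSpace.comap a mS] {θ | Metric.infDist w (A (a θ) : Set ℂ) ≤ r} :=
  (condVar1 hc).near w r

theorem meas1' (hc : Cpl Ω μ K0 a a' A A' h h' Γ Z) (w : ℂ) (r : ℝ) :
    MeasurableSet {θ | Metric.infDist w (A (a θ) : Set ℂ) ≤ r} :=
  (condVar1 hc).le _ (meas1 hc w r)

theorem meas2 (hc : Cpl Ω μ K0 a a' A A' h h' Γ Z) (w : ℂ) (r : ℝ) :
    MeasurableSet[MeasurableSpace.comap a' mS'] {θ | Metric.infDist w (A' (a' θ) : Set ℂ) ≤ r} :=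
  (condVar2 hc).near w r

theorem meas2' (hc : Cpl Ω μ K0 a a' A A' h h' Γ Z) (w : ℂ) (r : ℝ) :
    MeasurableSet {θ | Metric.infDist w (A' (a' θ) : Set ℂ) ≤ r} :=
  (condVar2 hc).le _ (meas2 hc w r)

theorem meas31 (hc : Cpl Ω μ K0 a a' A A' h h' Γ Z) (w : ℂ) (r : ℝ) :
    MeasurableSet[MeasurableSpace.comap (fun x => (a x, a' x)) (mS.prod mS')]
      {θ | Metric.infDist w (A (a θ) : Set ℂ) ≤ r} :=
  ⟨{s : S × S' | Metric.infDist w (A s.1 : Set ℂ) ≤ r},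
    measurableSet_le ((meas_infDist hc.mA w).comp measurable_fst) measurable_const, rfl⟩

theorem meas32 (hc : Cpl Ω μ K0 a a' A A' h h' Γ Z) (w : ℂ) (r : ℝ) :
    MeasurableSet[MeasurableSpace.comap (fun x => (a x, a' x)) (mS.prod mS')]
      {θ | Metric.infDist w (A' (a' θ) : Set ℂ) ≤ r} :=
  ⟨{s : S × S' | Metric.infDist w (A' s.2 : Set ℂ) ≤ r},
    measurableSet_le ((meas_infDist hc.mA' w).comp measurable_snd) measurable_const, rfl⟩

/-- The loss of mass, type 1. -/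
noncomputable def m1 (Ω : Set ℂ) (z : ℂ) (δ : ℝ) (a : X → S) (a' : X → S')
    (A : S → NonemptyCompacts ℂ) (A' : S' → NonemptyCompacts ℂ) (r rm r' : ℝ) (x : X) : ℝ :=
  hp (near Ω z δ (A (a x)) rm) (near Ω z δ (A' (a' x)) r') (0, 0) -
    hp (near Ω z δ (A (a x)) r) (near Ω z δ (A' (a' x)) r') (0, 0)

/-- The loss of mass, type 2. -/
noncomputable def m2 (Ω : Set ℂ) (z : ℂ) (δ : ℝ) (a : X → S) (a' : X → S')
    (A : S → NonemptyCompacts ℂ) (A' : S' → NonemptyCompacts ℂ) (r r' rm' : ℝ) (x : X) : ℝ :=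
  hp (near Ω z δ (A (a x)) r) (near Ω z δ (A' (a' x)) r') (0, 0) -
    hp (near Ω z δ (A (a x)) r) (near Ω z δ (A' (a' x)) rm') (0, 0)

/-- The set on which the inequality is proved. -/
def DD (z : ℂ) (a : X → S) (a' : X → S') (A : S → NonemptyCompacts ℂ) (A' : S' → NonemptyCompacts ℂ)
    (r0 : ℝ) : Set X :=
  {x | r0 < infDist z (A (a x) : Set ℂ)} ∩ {x | r0 < infDist z (A' (a' x) : Set ℂ)}

/-- The terms of the one-level fields. -/
noncomputable def ft1 (Ω : Set ℂ) (z : ℂ) (δ : ℝ) (B : Finset Pt) (K : X → Set ℂ)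
    (Y : (ℂ → ℝ) → X → ℝ) (r rm s : ℝ) (x : X) : ℝ :=
  ∑ p ∈ B, W (near Ω z δ (K x) rm)ᶜ (0, 0) p *
    (∑ y ∈ B, W (near Ω z δ (K x) r)ᶜ p y * Y (bump (gp z δ y) s) x) ^ 2

noncomputable def ft2 (Ω : Set ℂ) (z : ℂ) (δ : ℝ) (B : Finset Pt) (K : X → Set ℂ)
    (Y : (ℂ → ℝ) → X → ℝ) (r s : ℝ) (x : X) : ℝ :=
  ∑ y ∈ B, W (near Ω z δ (K x) r)ᶜ (0, 0) y * Y (bump (gp z δ y) s) x ^ 2

open Classical in
noncomputable def tau1 (i : Finset Pt × Finset Pt) (y : Pt) : ℝ := if y ∈ i.1 then 0 else 1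
open Classical in
noncomputable def tau2 (i : Finset Pt × Finset Pt) (y : Pt) : ℝ :=
  if y ∈ i.1 then 0 else if y ∈ i.2 then 1 else 0

noncomputable def fe (Ω : Set ℂ) (z : ℂ) (δ : ℝ) (B : Finset Pt) (K1 K2 : X → Set ℂ)
    (Y : (ℂ → ℝ) → X → ℝ) (τ : Finset Pt × Finset Pt → Pt → ℝ) (r r' s : ℝ) (x : X) : ℝ :=
  (∑ y ∈ B, W (near Ω z δ (K1 x) r ∪ near Ω z δ (K2 x) r')ᶜ (0, 0) y *
        τ (OF B Ω z δ (K1 x) r, OF B Ω z δ (K2 x) r') y * Y (bump (gp z δ y) s) x) ^ 2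

/-- The pointwise inequality. -/
theorem pointwise (hc : Cpl Ω μ K0 a a' A A' h h' Γ Z) {z : ℂ} {r0 δ s r rm r' rm' : ℝ}
    {B : Finset Pt} (hB : Bx Ω z δ B) (hz : z ∈ Ω) (hδ : 0 < δ) (hs : 0 < s)
    (c1 : Sc r0 δ s r rm) (c2 : Sc r0 δ s r' rm') :
    ∀ᵐ x ∂μ, x ∈ DD z a a' A A' r0 → |Z (bump z s) x| ≤ cst + (e0 B Ω z δ s Z x +
      √(fe Ω z δ B (fun x => (A (a x) : Set ℂ)) (fun x => (A' (a' x) : Set ℂ))
        (fun φ x => Γ φ x - Z φ x) tau1 r r' s x) +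
      √(fe Ω z δ B (fun x => (A' (a' x) : Set ℂ)) (fun x => (A (a x) : Set ℂ))
        (fun φ x => Γ φ x - Z φ x) tau2 r' r s x) +
      (√(ft1 Ω z δ B (fun x => (A (a x) : Set ℂ)) (Y1 a h Γ) r rm s x) +
        √(ft2 Ω z δ B (fun x => (A (a x) : Set ℂ)) (Y1 a h Γ) r s x) *
          √(m1 Ω z δ a a' A A' r rm r' x)) +
      (√(ft1 Ω z δ B (fun x => (A' (a' x) : Set ℂ)) (Y1 a' h' Γ) r' rm' s x) +
        √(ft2 Ω z δ B (fun x => (A' (a' x) : Set ℂ)) (Y1 a' h' Γ) r' s x) *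
          √(m2 Ω z δ a a' A A' r r' rm' x))) := by
  classical
  have hr : 0 < r := by linarith [c1.a1]
  have hr' : 0 < r' := by linarith [c2.a1]
  filter_upwards [geo1 hc, geo2 hc, vis_ae hc hB hz hδ.le hs (r := r) (r' := r')
    (by linarith [c1.a2]) (by linarith [c2.a2]), sign_bump hc.one (geo1 hc),
    sign_bump hc.one' (geo2 hc)] with x g g' hv hs1 hs2 hD
  obtain ⟨hD1, hD2⟩ := hD
  have hD1' : r0 < infDist z (A (a x) : Set ℂ) := hD1
  have hD2' : r0 < infDist z (A' (a' x) : Set ℂ) := hD2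
  set SS := near Ω z δ (A (a x)) r with hSS
  set SS' := near Ω z δ (A' (a' x)) r' with hSS'
  have h0 : ((0, 0) : Pt) ∉ SS :=
    notMem_near.2 (by rw [gp_zero]; exact ⟨hz, by linarith [c1.a3, c1.a4]⟩)
  have h0' : ((0, 0) : Pt) ∉ SS' :=
    notMem_near.2 (by rw [gp_zero]; exact ⟨hz, by linarith [c2.a3, c2.a4]⟩)
  have fin1 := g.finite hδ z r
  have fin1' := g'.finite hδ z r'
  have key := key1 (B := B) (S := SS) (Sm := near Ω z δ (A (a x)) rm) (S' := SS')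
    (Sm' := near Ω z δ (A' (a' x)) rm') (hB _ _) (hB _ _)
    (near_mono (by linarith [c1.a3])) (near_mono (by linarith [c2.a3])) (origin_mem hB hz)
    (X := fun y => Z (bump (gp z δ y) s) x) (h := fun y => cst * h (a x) (bump (gp z δ y) s))
    (h' := fun y => cst * h' (a' x) (bump (gp z δ y) s))
    (Y1 := fun y => Y1 a h Γ (bump (gp z δ y) s) x)
    (Y2 := fun y => Y1 a' h' Γ (bump (gp z δ y) s) x)
    (Y3 := fun y => Γ (bump (gp z δ y) s) x - Z (bump (gp z δ y) s) x) (c := cst)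
    (e0 := e0 B Ω z δ s Z x) hv
    (by
      intro y hy hyS hW
      refine ⟨by simp only [Y1]; ring, ?_⟩
      have hW0 : 0 < W (SS ∪ SS')ᶜ (0, 0) y := lt_of_le_of_ne
        (W_nonneg (fin1.subset (Set.compl_subset_compl.2 Set.subset_union_left)) _ _) (Ne.symm hW)
      obtain ⟨y1, y2, y3⟩ := g.exit_spec hδ (by linarith [c1.a2]) h0
        (hW0.trans_le (W_le_W fin1 _ hyS)).ne'
      exact hs1 _ s hs y1 (by linarith [c1.a2]))
    (by
      intro y hy hyS hyn hW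
      refine ⟨by simp only [Y1]; ring, ?_⟩
      have hW0 : 0 < W (SS' ∪ SS)ᶜ (0, 0) y := by
        rw [Set.union_comm]
        exact lt_of_le_of_ne (W_nonneg (fin1.subset
          (Set.compl_subset_compl.2 Set.subset_union_left)) _ _) (Ne.symm hW)
      obtain ⟨y1, y2, y3⟩ := g'.exit_spec hδ (by linarith [c2.a2]) h0'
        (hW0.trans_le (W_le_W fin1' _ hyS)).ne'
      exact hs2 _ s hs y1 (by linarith [c2.a2]))
  rw [gp_zero] at key
  -- comparison of the terms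
  have e1 : |∑ y ∈ B, W (SS ∪ SS')ᶜ (0, 0) y * ch SS y *
      (Γ (bump (gp z δ y) s) x - Z (bump (gp z δ y) s) x)| =
      √(fe Ω z δ B (fun x => (A (a x) : Set ℂ)) (fun x => (A' (a' x) : Set ℂ))
        (fun φ x => Γ φ x - Z φ x) tau1 r r' s x) := by
    unfold fe
    rw [Real.sqrt_sq_eq_abs]
    congr 1
    apply Finset.sum_congr rfl
    intro y hy
    congr 2
    unfold tau1 ch
    simp only [OF, Finset.mem_filter, hy, true_and, ← hSS]
    by_cases hyS : y ∈ SS <;> simp [hyS]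
  have e2 : |∑ y ∈ B, W (SS ∪ SS')ᶜ (0, 0) y * ch (SS' \ SS) y *
      (Γ (bump (gp z δ y) s) x - Z (bump (gp z δ y) s) x)| =
      √(fe Ω z δ B (fun x => (A' (a' x) : Set ℂ)) (fun x => (A (a x) : Set ℂ))
        (fun φ x => Γ φ x - Z φ x) tau2 r' r s x) := by
    unfold fe
    rw [Real.sqrt_sq_eq_abs]
    congr 1
    apply Finset.sum_congr rfl
    intro y hy
    simp only [← hSS, ← hSS']
    rw [Set.union_comm SS' SS]
    congr 2
    unfold tau2 ch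
    simp only [OF, Finset.mem_filter, hy, true_and, ← hSS, ← hSS']
    by_cases hyS : y ∈ SS <;> by_cases hyS' : y ∈ SS' <;> simp [hyS, hyS']
  have t1 : T1 B SS (near Ω z δ (A (a x)) rm) (fun y => Y1 a h Γ (bump (gp z δ y) s) x) (0, 0) ≤
      √(ft1 Ω z δ B (fun x => (A (a x) : Set ℂ)) (Y1 a h Γ) r rm s x) :=
    sum_abs_le_sqrt (fun p _ => W_nonneg (g.finite hδ z rm) _ _)
      (sum_W (hB _ _) (origin_mem hB hz)).le _
  have t1' : T1 B SS' (near Ω z δ (A' (a' x)) rm') (fun y => Y1 a' h' Γ (bump (gp z δ y) s) x)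
      (0, 0) ≤ √(ft1 Ω z δ B (fun x => (A' (a' x) : Set ℂ)) (Y1 a' h' Γ) r' rm' s x) :=
    sum_abs_le_sqrt (fun p _ => W_nonneg (g'.finite hδ z rm') _ _)
      (sum_W (hB _ _) (origin_mem hB hz)).le _
  rw [e1, e2] at key
  have t2 : T2 B SS (fun y => Y1 a h Γ (bump (gp z δ y) s) x) (0, 0) =
      ft2 Ω z δ B (fun x => (A (a x) : Set ℂ)) (Y1 a h Γ) r s x := rfl
  have t2' : T2 B SS' (fun y => Y1 a' h' Γ (bump (gp z δ y) s) x) (0, 0) =
      ft2 Ω z δ B (fun x => (A' (a' x) : Set ℂ)) (Y1 a' h' Γ) r' s x := rfl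
  rw [t2, t2'] at key
  unfold m1 m2
  linarith

end Vale.Agent.P155.UK
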