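import Vale.Agent.P155.U.Key6

/-!
# P155, block U (uniqueness), KEY: the inequality at one scale, in expectation
-/

namespace Vale.Agent.P155.UK

open Finset MeasureTheory TopologicalSpace Vale.Agent.P155.G45 Vale.Agent.P155.Uq Metric

theorem hp_mono_S {S Sm R : Set Pt} (hS : S ⊆ Sm) (hfin : ((S ∪ R)ᶜ : Set Pt).Finite) (z : Pt) :
    hp S R z ≤ hp Sm R z := by
  have s : (Sm ∪ R)ᶜ ⊆ (S ∪ R)ᶜ := Set.compl_subset_compl.2 (Set.union_subset_union_left _ hS)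
  apply le_dir (hfin.subset s)
  · intro y hy
    exact (hp_lap hfin s hy).ge
  · intro y hy
    by_cases hyS : y ∈ Sm
    · rw [ch_mem hyS]
      exact hp_le_one hfin y
    · have hyR : y ∈ R := by
        by_contra hn
        exact hy (by simp [hyS, hn])
      rw [ch_not hyS, hp_out hyR (fun h => hyS (hS h))]

variable {Ω : Set ℂ} {X S S' : Type} [mX : MeasurableSpace X] [mS : MeasurableSpace S]
    [mS' : MeasurableSpace S'] {μ : Measure X} {K0 : X → Set ℂ} {a : X → S} {a' : X → S'}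
    {A : S → NonemptyCompacts ℂ} {A' : S' → NonemptyCompacts ℂ}
    {h : S → (ℂ → ℝ) → ℝ} {h' : S' → (ℂ → ℝ) → ℝ} {Γ Z : (ℂ → ℝ) → X → ℝ}

theorem meas_gt {Θ : Type*} {m0 : MeasurableSpace Θ} {f : Θ → ℝ} {r0 : ℝ}
    (h : MeasurableSet {θ | f θ ≤ r0}) : MeasurableSet {θ | r0 < f θ} := by
  have e : {θ | r0 < f θ} = {θ | f θ ≤ r0}ᶜ := by
    ext θ; simp
  rw [e]
  exact h.compl

theorem meas_DD (hc : Cpl Ω μ K0 a a' A A' h h' Γ Z) (z : ℂ) (r0 : ℝ) :
    MeasurableSet (DD z a a' A A' r0) :=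
  (meas_gt (meas1' hc z r0)).inter (meas_gt (meas2' hc z r0))

/-- The inequality at one scale, in expectation. -/
theorem scale (hc : Cpl Ω μ K0 a a' A A' h h' Γ Z) {M C β M' R : ℝ} (hM : BB M) (hC : SP C β)
    (hM0' : 0 ≤ M') (hM' : ∀ (z : ℂ) (s : ℝ) (w : ℂ) (δ : ℝ), 0 < s → 0 ≤ δ →
      |psi (bump z s) δ w| ≤ M' * δ ^ 3 / s ^ 5) (hR : 0 < R) (hΩ : ∀ z ∈ Ω, ‖z‖ < R)
    {z : ℂ} {r0 δ s r rm r' rm' : ℝ}
    {B : Finset Pt} {L : ℕ} (hL : ∀ p, gp z δ p ∈ Ω → dn (0, 0) p ≤ L)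
    (hB : Bx Ω z δ B) (hz : closedBall z r0 ⊆ Ω) (hδ : 0 < δ) (hs : 0 < s)
    (c1 : Sc r0 δ s r rm) (c2 : Sc r0 δ s r' rm') :
    ∫ x in DD z a a' A A' r0, max (|Z (bump z s) x| - cst) 0 ∂μ ≤
      ((L : ℝ) + 1) ^ 2 * (13 * (R ^ 2 * (M' * δ ^ 3 / s ^ 5))) +
      (√(qn M r s * (C * (2 * r / rm) ^ β)) + √(qn M r' s * (C * (2 * r' / rm') ^ β))) +
      (√(qn M r s * (C * (2 * r / rm) ^ β)) +
        √(qn M r s) * √(∫ x in DD z a a' A A' r0, m1 Ω z δ a a' A A' r rm r' x ∂μ)) +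
      (√(qn M r' s * (C * (2 * r' / rm') ^ β)) +
        √(qn M r' s) * √(∫ x in DD z a a' A A' r0, m2 Ω z δ a a' A A' r r' rm' x ∂μ)) := by
  have := hc.prob
  have hr : 0 < r := by linarith [c1.a1]
  have hr' : 0 < r' := by linarith [c2.a1]
  have hrm : 0 < rm := by linarith [c1.a3]
  have hrm' : 0 < rm' := by linarith [c2.a3]
  have hr0 : 0 < r0 := by linarith [c1.a4]
  have hzΩ : z ∈ Ω := hz (mem_closedBall_self hr0.le)
  have g1 := geo1 hc
  have g2 := geo2 hc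
  set D := DD z a a' A A' r0 with hDdef
  have hDm : MeasurableSet D := meas_DD hc z r0
  have hD1 : D ⊆ {x | r0 < infDist z (A (a x) : Set ℂ)} := Set.inter_subset_left
  have hD2 : D ⊆ {x | r0 < infDist z (A' (a' x) : Set ℂ)} := Set.inter_subset_right
  -- T1, T2
  obtain ⟨iT1, bT1⟩ := cvT1 hM hC (condVar1 hc) g1 hB hzΩ hδ hs c1.a1 c1.a2 c1.a3 c1.a4 c1.a5
  obtain ⟨iT2, bT2⟩ := cvT2 hM (condVar1 hc) g1 hB hzΩ hδ hs c1.a1 c1.a2 c1.a5
  obtain ⟨iT1', bT1'⟩ := cvT1 hM hC (condVar2 hc) g2 hB hzΩ hδ hs c2.a1 c2.a2 c2.a3 c2.a4 c2.a5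
  obtain ⟨iT2', bT2'⟩ := cvT2 hM (condVar2 hc) g2 hB hzΩ hδ hs c2.a1 c2.a2 c2.a5
  have cv3 := condVar3 hc
  have cv3' : CondVar μ (MeasurableSpace.comap (fun x => (a x, a' x)) (mS.prod mS')) Ω
      (fun x => (A' (a' x) : Set ℂ) ∪ A (a x)) (fun φ x => Γ φ x - Z φ x) := by
    have e : (fun x => (A' (a' x) : Set ℂ) ∪ A (a x)) =
        (fun x => (A (a x) : Set ℂ) ∪ A' (a' x)) := by
      funext x; exact Set.union_comm _ _
    rw [e]; exact cv3
  have hβ := hC.2.1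
  have hC0 := hC.1
  obtain ⟨iE1, bE1⟩ := cvE (r' := r') hM hC cv3 (meas31 hc) (meas32 hc) g1 hB hzΩ hδ hs c1.a1 c1.a2
    c1.a5 tau1 (fun i y => by unfold tau1; split_ifs <;> norm_num)
    (fun i y => by unfold tau1; split_ifs <;> norm_num)
    (fun i y hy => by unfold tau1; rw [if_pos hy])
  obtain ⟨iE2, bE2⟩ := cvE (r' := r) hM hC cv3' (meas32 hc) (meas31 hc) g2 hB hzΩ hδ hs c2.a1 c2.a2
    c2.a5 tau2 (fun i y => by unfold tau2; split_ifs <;> norm_num)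
    (fun i y => by unfold tau2; split_ifs <;> norm_num)
    (fun i y hy => by unfold tau2; rw [if_pos hy])
  have q0 := qn_nonneg M hs c1.a1
  have q0' := qn_nonneg M hs c2.a1
  have bE1' : qn M r s * (C * (2 * r / r0) ^ β) ≤ qn M r s * (C * (2 * r / rm) ^ β) := by
    apply mul_le_mul_of_nonneg_left _ q0
    apply mul_le_mul_of_nonneg_left _ hC0.le
    apply Real.rpow_le_rpow (by positivity) _ hβ.le
    exact div_le_div_of_nonneg_left (by positivity) hrm c1.a4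
  have bE2' : qn M r' s * (C * (2 * r' / r0) ^ β) ≤ qn M r' s * (C * (2 * r' / rm') ^ β) := by
    apply mul_le_mul_of_nonneg_left _ q0'
    apply mul_le_mul_of_nonneg_left _ hC0.le
    apply Real.rpow_le_rpow (by positivity) _ hβ.le
    exact div_le_div_of_nonneg_left (by positivity) hrm' c2.a4
  obtain ⟨-, jE1, dE1⟩ := sqrt_on hD1 (Filter.Eventually.of_forall fun x _ => sq_nonneg _)
    (meas_gt (meas1' hc z r0)) iE1 (bE1.trans bE1')
  obtain ⟨-, jE2, dE2⟩ := sqrt_on hD2 (Filter.Eventually.of_forall fun x _ => sq_nonneg _)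
    (meas_gt (meas2' hc z r0)) iE2 (bE2.trans bE2')
  obtain ⟨-, jT1, dT1⟩ := sqrt_on hD1 (by
      filter_upwards [g1] with x g _
      exact Finset.sum_nonneg fun p _ => mul_nonneg (W_nonneg (g.finite hδ z rm) _ _) (sq_nonneg _))
    (meas_gt (meas1' hc z r0)) iT1 bT1
  obtain ⟨-, jT1', dT1'⟩ := sqrt_on hD2 (by
      filter_upwards [g2] with x g _
      exact Finset.sum_nonneg fun p _ => mul_nonneg (W_nonneg (g.finite hδ z rm') _ _) (sq_nonneg _))
    (meas_gt (meas2' hc z r0)) iT1' bT1'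
  have nT2 : ∀ᵐ x ∂μ, x ∈ {x | r0 < infDist z (A (a x) : Set ℂ)} → 0 ≤ ∑ y ∈ B,
      W (near Ω z δ (A (a x)) r)ᶜ (0, 0) y * Y1 a h Γ (bump (gp z δ y) s) x ^ 2 := by
    filter_upwards [g1] with x g _
    exact Finset.sum_nonneg fun p _ => mul_nonneg (W_nonneg (g.finite hδ z r) _ _) (sq_nonneg _)
  have nT2' : ∀ᵐ x ∂μ, x ∈ {x | r0 < infDist z (A' (a' x) : Set ℂ)} → 0 ≤ ∑ y ∈ B,
      W (near Ω z δ (A' (a' x)) r')ᶜ (0, 0) y * Y1 a' h' Γ (bump (gp z δ y) s) x ^ 2 := by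
    filter_upwards [g2] with x g _
    exact Finset.sum_nonneg fun p _ => mul_nonneg (W_nonneg (g.finite hδ z r') _ _) (sq_nonneg _)
  obtain ⟨⟨kT2, lT2⟩, -⟩ := sqrt_on hD1 nT2 (meas_gt (meas1' hc z r0)) iT2 bT2
  obtain ⟨⟨kT2', lT2'⟩, -⟩ := sqrt_on hD2 nT2' (meas_gt (meas2' hc z r0)) iT2' bT2'
  -- the losses of mass
  have im1 : Integrable (m1 Ω z δ a a' A A' r rm r') μ :=
    (hp_int hB (meas1' hc) (meas2' hc) rm r' (0, 0)).sub
      (hp_int hB (meas1' hc) (meas2' hc) r r' (0, 0))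
  have im2 : Integrable (m2 Ω z δ a a' A A' r r' rm') μ :=
    (hp_int hB (meas1' hc) (meas2' hc) r r' (0, 0)).sub
      (hp_int hB (meas1' hc) (meas2' hc) r rm' (0, 0))
  have nm1 : ∀ᵐ x ∂μ, 0 ≤ m1 Ω z δ a a' A A' r rm r' x := by
    filter_upwards [g1] with x g
    have hfin := g.finite hδ z r
    exact sub_nonneg.2 (hp_mono_S (near_mono (by linarith [c1.a3]))
      (hfin.subset (Set.compl_subset_compl.2 Set.subset_union_left)) _)
  have nm2 : ∀ᵐ x ∂μ, 0 ≤ m2 Ω z δ a a' A A' r r' rm' x := by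
    filter_upwards [g1] with x g
    have hfin := g.finite hδ z r
    exact sub_nonneg.2 (hp_mono_R (near_mono (by linarith [c2.a3]))
      (hfin.subset (Set.compl_subset_compl.2 Set.subset_union_left)) _)
  have ae_sub : ∀ {P : X → Prop}, (∀ᵐ x ∂μ, P x) → ∀ᵐ x ∂(μ.restrict D), P x := fun hP =>
    ae_restrict_of_ae hP
  obtain ⟨jm1, dm1⟩ := integral_sqrt_mul_le (μ := μ.restrict D) kT2 im1.integrableOn
    (by
      have := ae_restrict_of_ae (s := D) nT2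
      filter_upwards [this, ae_restrict_mem hDm] with x hx hxD
      exact hx (hD1 hxD))
    (ae_sub nm1)
  obtain ⟨jm2, dm2⟩ := integral_sqrt_mul_le (μ := μ.restrict D) kT2' im2.integrableOn
    (by
      have := ae_restrict_of_ae (s := D) nT2'
      filter_upwards [this, ae_restrict_mem hDm] with x hx hxD
      exact hx (hD2 hxD))
    (ae_sub nm2)
  -- the discretisation error
  obtain ⟨i0, b0⟩ := e0_int (s := s) hc hR hΩ hB hδ.le hs hM0' hM' hL
  have b0' : ∫ x in D, e0 B Ω z δ s Z x ∂μ ≤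
      ((L : ℝ) + 1) ^ 2 * (13 * (R ^ 2 * (M' * δ ^ 3 / s ^ 5))) :=
    (setIntegral_le_integral i0 (Filter.Eventually.of_forall fun x => e0_nonneg hB x)).trans b0
  -- the left hand side
  have hsr : s ≤ r0 := by linarith [c1.a1, c1.a5]
  have hZ : Integrable (Z (bump z s)) μ :=
    (hc.memZ _ (bump_test hs ((closedBall_subset_closedBall hsr).trans hz))).integrable
      (by norm_num)
  have hZi : Integrable (fun x => max (|Z (bump z s) x| - cst) 0) μ :=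
    (hZ.abs.sub (integrable_const _)).sup (integrable_zero _ _ _)
  have hpt := pointwise hc hB hzΩ hδ hs c1 c2
  have hI := ((((i0.integrableOn (s := D)).add jE1).add jE2).add (jT1.add jm1)).add (jT1'.add jm2)
  have hmono := integral_mono_ae (μ := μ.restrict D) hZi.integrableOn hI (by
    filter_upwards [ae_restrict_of_ae (s := D) hpt, ae_restrict_mem hDm] with x hx hxD
    have hx' := hx hxD
    apply max_le
    · simp only [Pi.add_apply]
      unfold fe ft1 ft2 at hx'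
      linarith
    · have := e0_nonneg (s := s) (Z := Z) hB x
      simp only [Pi.add_apply]
      positivity)
  refine hmono.trans ?_
  have hsum := integral_add (μ := μ.restrict D)
    ((((i0.integrableOn (s := D)).add jE1).add jE2).add (jT1.add jm1)) (jT1'.add jm2)
  have hsum2 := integral_add (μ := μ.restrict D)
    (((i0.integrableOn (s := D)).add jE1).add jE2) (jT1.add jm1)
  have hsum3 := integral_add (μ := μ.restrict D) ((i0.integrableOn (s := D)).add jE1) jE2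
  have hsum4 := integral_add (μ := μ.restrict D) (i0.integrableOn (s := D)) jE1
  have hsum5 := integral_add (μ := μ.restrict D) jT1 jm1
  have hsum6 := integral_add (μ := μ.restrict D) jT1' jm2
  simp only [Pi.add_apply] at hsum hsum2 hsum3 hsum4 hsum5 hsum6 ⊢
  rw [hsum, hsum2, hsum3, hsum4, hsum5, hsum6]
  have f1 : √(∫ x in D, ∑ y ∈ B, W (near Ω z δ (A (a x)) r)ᶜ (0, 0) y *
      Y1 a h Γ (bump (gp z δ y) s) x ^ 2 ∂μ) ≤ √(qn M r s) := Real.sqrt_le_sqrt lT2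
  have f2 : √(∫ x in D, ∑ y ∈ B, W (near Ω z δ (A' (a' x)) r')ᶜ (0, 0) y *
      Y1 a' h' Γ (bump (gp z δ y) s) x ^ 2 ∂μ) ≤ √(qn M r' s) := Real.sqrt_le_sqrt lT2'
  have f3 := mul_le_mul_of_nonneg_right f1 (Real.sqrt_nonneg
    (∫ x in D, m1 Ω z δ a a' A A' r rm r' x ∂μ))
  have f4 := mul_le_mul_of_nonneg_right f2 (Real.sqrt_nonneg
    (∫ x in D, m2 Ω z δ a a' A A' r r' rm' x ∂μ))
  linarith

end Vale.Agent.P155.UK
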