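import Vale.Agent.P155.U.Key7

/-!
# P155, block U (uniqueness), KEY: choice of the scales and conclusion
-/

namespace Vale.Agent.P155.UK

open Finset MeasureTheory TopologicalSpace Vale.Agent.P155.G45 Vale.Agent.P155.Uq Metric

/-- The hitting constant. -/
def HC (C β : ℝ) : Prop := 0 < C ∧ 0 < β ∧ ∀ (Ω A A' : Set ℂ), Geo Ω A → Geo Ω A' →
    ∀ (z : ℂ) (δ rM rb r2 r3 : ℝ), 0 < δ → δ ≤ rM → rM ≤ rb → 0 < r2 → r3 ≤ r2 / 2 →
    ∀ x ∈ near Ω z δ A' rb, x ∉ near Ω z δ A r2 →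
      hp (near Ω z δ A r3) (near Ω z δ A' rM) x ≤ C * (rb / r2) ^ β

variable {Ω : Set ℂ} {X S S' : Type} [mX : MeasurableSpace X] [mS : MeasurableSpace S]
    [mS' : MeasurableSpace S'] {μ : Measure X} {K0 : X → Set ℂ} {a : X → S} {a' : X → S'}
    {A : S → NonemptyCompacts ℂ} {A' : S' → NonemptyCompacts ℂ}
    {h : S → (ℂ → ℝ) → ℝ} {h' : S' → (ℂ → ℝ) → ℝ} {Γ Z : (ℂ → ℝ) → X → ℝ}

/-- The loss of mass is small at some scale. -/
theorem pigeon (hc : Cpl Ω μ K0 a a' A A' h h' Γ Z) {C β : ℝ} (hC : HC C β) {z : ℂ} {r0 δ ρ : ℝ}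
    {B : Finset Pt} (hB : Bx Ω z δ B) (hr0 : 0 < r0) (hρ : 0 < ρ) (hρ8 : ρ ≤ 1 / 8) {L : ℕ}
    (hL : 0 < L) (hδ : 0 < δ) (hδ' : δ ≤ r0 * ρ ^ (L + 4)) :
    ∃ i < L, ∫ x in DD z a a' A A' r0,
        m1 Ω z δ a a' A A' (r0 * ρ ^ (i + 1)) (r0 * ρ ^ i) (r0 * ρ ^ (i + 3)) x ∂μ +
      ∫ x in DD z a a' A A' r0,
        m2 Ω z δ a a' A A' (r0 * ρ ^ (i + 1)) (r0 * ρ ^ (i + 3)) (r0 * ρ ^ (i + 2)) x ∂μ ≤
      3 / L + 2 * (C * ρ ^ β) := by
  have := hc.prob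
  have hρ1 : ρ ≤ 1 := by linarith
  have hβ := hC.2.1
  have hC0 := hC.1
  set ε : ℝ := C * ρ ^ β with hε
  have hε0 : 0 ≤ ε := by positivity
  have mono : ∀ i j : ℕ, i ≤ j → r0 * ρ ^ j ≤ r0 * ρ ^ i := fun i j hij =>
    mul_le_mul_of_nonneg_left (pow_le_pow_of_le_one hρ.le hρ1 hij) hr0.le
  have pos : ∀ i : ℕ, 0 < r0 * ρ ^ i := fun i => by positivity
  have half : ∀ i : ℕ, r0 * ρ ^ (i + 1) ≤ r0 * ρ ^ i / 2 := by
    intro i
    rw [pow_succ]
    have := pos i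
    nlinarith
  set f : ℕ → X → ℝ := fun i x =>
    m1 Ω z δ a a' A A' (r0 * ρ ^ (i + 1)) (r0 * ρ ^ i) (r0 * ρ ^ (i + 3)) x +
    m2 Ω z δ a a' A A' (r0 * ρ ^ (i + 1)) (r0 * ρ ^ (i + 3)) (r0 * ρ ^ (i + 2)) x with hf
  have im1 : ∀ r rm r' : ℝ, Integrable (m1 Ω z δ a a' A A' r rm r') μ := fun r rm r' =>
    (hp_int hB (meas1' hc) (meas2' hc) rm r' (0, 0)).sub
      (hp_int hB (meas1' hc) (meas2' hc) r r' (0, 0))
  have im2 : ∀ r r' rm' : ℝ, Integrable (m2 Ω z δ a a' A A' r r' rm') μ := fun r r' rm' =>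
    (hp_int hB (meas1' hc) (meas2' hc) r r' (0, 0)).sub
      (hp_int hB (meas1' hc) (meas2' hc) r rm' (0, 0))
  have hsum : ∀ᵐ x ∂μ, ∑ i ∈ Finset.range L, f i x ≤ 3 + L * (2 * ε) := by
    filter_upwards [geo1 hc, geo2 hc] with x g g'
    set G : ℕ → ℝ := fun k => hp (near Ω z δ (A (a x)) (r0 * ρ ^ k))
      (near Ω z δ (A' (a' x)) (r0 * ρ ^ (L + 4))) (0, 0) with hG
    have hfin : ∀ k : ℕ, ((near Ω z δ (A (a x)) (r0 * ρ ^ k) ∪
        near Ω z δ (A' (a' x)) (r0 * ρ ^ (L + 4)))ᶜ : Set Pt).Finite := fun k =>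
      (g.finite hδ z _).subset (Set.compl_subset_compl.2 Set.subset_union_left)
    have G0 : ∀ k, 0 ≤ G k := fun k => hp_nonneg (hfin k) _
    have G1 : ∀ k, G k ≤ 1 := fun k => hp_le_one (hfin k) _
    have hterm : ∀ i ∈ Finset.range L, f i x ≤ (G i - G (i + 1)) +
        2 * (G (i + 1) - G (i + 2)) + 2 * ε := by
      intro i hi
      rw [Finset.mem_range] at hi
      have hP : ∀ p ∈ near Ω z δ (A' (a' x)) (r0 * ρ ^ (i + 2)),
          p ∉ near Ω z δ (A (a x)) (r0 * ρ ^ (i + 1)) →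
          hp (near Ω z δ (A (a x)) (r0 * ρ ^ (i + 2)))
            (near Ω z δ (A' (a' x)) (r0 * ρ ^ (L + 4))) p ≤ ε := by
        intro p hp1 hp2
        have := hC.2.2 Ω (A (a x)) (A' (a' x)) g g' z δ (r0 * ρ ^ (L + 4)) (r0 * ρ ^ (i + 2))
          (r0 * ρ ^ (i + 1)) (r0 * ρ ^ (i + 2)) hδ hδ' (mono _ _ (by omega)) (pos _) (half _) p
          hp1 hp2
        refine this.trans (le_of_eq ?_)
        rw [hε]
        congr 2
        have h1 : r0 ≠ 0 := hr0.ne'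
        have h2 : ρ ≠ 0 := hρ.ne'
        rw [pow_succ ρ (i + 1)]
        field_simp
      have l1 := loss1 (S1 := near Ω z δ (A (a x)) (r0 * ρ ^ i))
        (S2 := near Ω z δ (A (a x)) (r0 * ρ ^ (i + 1)))
        (S3 := near Ω z δ (A (a x)) (r0 * ρ ^ (i + 2)))
        (R := near Ω z δ (A' (a' x)) (r0 * ρ ^ (i + 3)))
        (R' := near Ω z δ (A' (a' x)) (r0 * ρ ^ (L + 4)))
        (near_mono (mono _ _ (by omega))) (near_mono (mono _ _ (by omega)))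
        (near_mono (mono _ _ (by omega))) (hfin (i + 2)) hε0
        (fun p hp1 hp2 => hP p (near_mono (mono _ _ (by omega)) hp1) hp2) (0, 0)
      have l2 := loss2 (S2 := near Ω z δ (A (a x)) (r0 * ρ ^ (i + 1)))
        (S3 := near Ω z δ (A (a x)) (r0 * ρ ^ (i + 2)))
        (R'' := near Ω z δ (A' (a' x)) (r0 * ρ ^ (i + 2)))
        (R := near Ω z δ (A' (a' x)) (r0 * ρ ^ (i + 3)))
        (R' := near Ω z δ (A' (a' x)) (r0 * ρ ^ (L + 4)))
        (near_mono (mono _ _ (by omega))) (near_mono (mono _ _ (by omega)))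
        (near_mono (mono _ _ (by omega))) (hfin (i + 2)) hε0 hP (0, 0)
      simp only [hf, hG, m1, m2]
      linarith
    calc ∑ i ∈ Finset.range L, f i x ≤ ∑ i ∈ Finset.range L, ((G i - G (i + 1)) +
          2 * (G (i + 1) - G (i + 2)) + 2 * ε) := Finset.sum_le_sum hterm
      _ = (G 0 - G L) + 2 * (G 1 - G (L + 1)) + L * (2 * ε) := by
          rw [Finset.sum_add_distrib, Finset.sum_add_distrib, ← Finset.mul_sum,
            Finset.sum_range_sub' G L, Finset.sum_range_sub' (fun i => G (i + 1)) L,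
            Finset.sum_const, Finset.card_range, nsmul_eq_mul]
      _ ≤ 3 + L * (2 * ε) := by
          have := G0 L
          have := G1 0
          have := G1 1
          have := G0 (L + 1)
          linarith
  have if1 : ∀ i, Integrable (f i) μ := fun i => (im1 _ _ _).add (im2 _ _ _)
  have hint : ∑ i ∈ Finset.range L, ∫ x in DD z a a' A A' r0, f i x ∂μ ≤ 3 + L * (2 * ε) := by
    rw [← integral_finsetSum _ (fun i _ => (if1 i).integrableOn)]
    have h1 : ∫ x in DD z a a' A A' r0, ∑ i ∈ Finset.range L, f i x ∂μ ≤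
        ∫ _ in DD z a a' A A' r0, (3 + L * (2 * ε)) ∂μ := by
      apply integral_mono_ae
      · exact (integrable_finsetSum _ (fun i _ => (if1 i))).integrableOn
      · exact (integrable_const _).integrableOn
      · exact ae_restrict_of_ae hsum
    refine h1.trans ?_
    rw [setIntegral_const, smul_eq_mul]
    have : μ.real (DD z a a' A A' r0) ≤ 1 := measureReal_le_one
    have h3 : (0 : ℝ) ≤ 3 + L * (2 * ε) := by positivity
    nlinarith
  have hL' : (0 : ℝ) < L := by exact_mod_cast hL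
  obtain ⟨i, hi, hle⟩ := Finset.exists_le_of_sum_le (s := Finset.range L)
    (f := fun i => ∫ x in DD z a a' A A' r0, f i x ∂μ) (g := fun _ => 3 / L + 2 * ε)
    ⟨0, Finset.mem_range.2 hL⟩ (by
      rw [Finset.sum_const, Finset.card_range, nsmul_eq_mul]
      refine hint.trans (le_of_eq ?_)
      field_simp)
  refine ⟨i, Finset.mem_range.1 hi, ?_⟩
  rw [← integral_add (im1 _ _ _).integrableOn (im2 _ _ _).integrableOn]
  exact hle

/-- The logarithmic factor, as a function of `ρ`. -/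
noncomputable def Qr (M ρ : ℝ) : ℝ := 160 * (4 * M) ^ 2 * (1 + Real.log (4 / ρ ^ 2))

/-- The bound for given `ρ`, `L`, `δ`. -/
theorem bound1 (hc : Cpl Ω μ K0 a a' A A' h h' Γ Z) {M C β M' R C3 β3 : ℝ} (hM : BB M)
    (hC : SP C β) (hC3 : HC C3 β3)
    (hM0' : 0 ≤ M') (hM' : ∀ (z : ℂ) (s : ℝ) (w : ℂ) (δ : ℝ), 0 < s → 0 ≤ δ →
      |psi (bump z s) δ w| ≤ M' * δ ^ 3 / s ^ 5) (hR : 0 < R) (hΩ : ∀ z ∈ Ω, ‖z‖ < R)
    {z : ℂ} {r0 δ ρ : ℝ} (hz : closedBall z r0 ⊆ Ω) (hr0 : 0 < r0) (hρ : 0 < ρ) (hρ8 : ρ ≤ 1 / 8)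
    {L : ℕ} (hL : 0 < L) (hδ : 0 < δ) (hδ' : 4 * δ ≤ r0 * ρ ^ (L + 4)) :
    ∫ x in DD z a a' A A' r0, max (|Z (bump z r0) x| - cst) 0 ∂μ ≤
      (R + ‖z‖ + 2 * δ) ^ 2 * (13 * (R ^ 2 * (M' * δ / (r0 * ρ ^ (L + 2) / 8) ^ 5))) +
      4 * √(Qr M ρ * (C * (2 * ρ) ^ β)) +
      2 * (√(Qr M ρ) * √(3 / L + 2 * (C3 * ρ ^ β3))) := by
  have := hc.prob
  have hρ1 : ρ ≤ 1 := by linarith
  have mono : ∀ i j : ℕ, i ≤ j → r0 * ρ ^ j ≤ r0 * ρ ^ i := fun i j hij =>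
    mul_le_mul_of_nonneg_left (pow_le_pow_of_le_one hρ.le hρ1 hij) hr0.le
  have pos : ∀ i : ℕ, 0 < r0 * ρ ^ i := fun i => by positivity
  have step : ∀ i : ℕ, r0 * ρ ^ (i + 1) ≤ r0 * ρ ^ i / 8 := by
    intro i
    rw [pow_succ]
    have := pos i
    nlinarith
  obtain ⟨N, hN⟩ := exists_inn hc.bdd hδ z
  have hB : Bx Ω z δ (box (0, 0) N) := hN
  obtain ⟨i, hiL, hi⟩ := pigeon hc hC3 hB hr0 hρ hρ8 hL hδ (by linarith)
  set s : ℝ := r0 * ρ ^ (i + 3) / 8 with hs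
  have hs0 : 0 < s := by have := pos (i + 3); positivity
  have hδs : 4 * δ ≤ r0 * ρ ^ (i + 3) := hδ'.trans (mono _ _ (by omega))
  have c1 : Sc r0 δ s (r0 * ρ ^ (i + 1)) (r0 * ρ ^ i) := by
    have h1 := mono (i + 1) (i + 3) (by omega)
    have h2 := step i
    have h3 := mono 0 i (by omega)
    have h4 := mono 0 (i + 1) (by omega)
    have h5 := pos (i + 3)
    have h6 := step 0
    have h7 := mono (0 + 1) (i + 1) (by omega)
    simp only [pow_zero, mul_one] at h3 h4 h6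
    constructor <;> linarith
  have c2 : Sc r0 δ s (r0 * ρ ^ (i + 3)) (r0 * ρ ^ (i + 2)) := by
    have h2 := step (i + 2)
    have h3 := mono 0 (i + 2) (by omega)
    have h5 := pos (i + 3)
    have h6 := step 0
    have h7 := mono (0 + 1) (i + 3) (by omega)
    simp only [pow_zero, mul_one] at h3 h6
    constructor <;> linarith
  set L' : ℕ := ⌈(R + ‖z‖) / δ⌉₊ with hL'
  have hLp : ∀ p, gp z δ p ∈ Ω → dn (0, 0) p ≤ L' := by
    intro p hp
    have h2 := le_gp_dist (z := z) hδ.le p (0, 0)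
    rw [gp_zero] at h2
    have h4 : ‖gp z δ p - z‖ ≤ R + ‖z‖ := (norm_sub_le _ _).trans (by linarith [hΩ _ hp])
    have h5 : (dn (0, 0) p : ℝ) ≤ (R + ‖z‖) / δ := by
      rw [le_div_iff₀ hδ, dn_comm]
      linarith
    have h7 : (dn (0, 0) p : ℝ) ≤ (⌈(R + ‖z‖) / δ⌉₊ : ℝ) := h5.trans (Nat.le_ceil _)
    exact_mod_cast h7
  have key := scale hc hM hC hM0' hM' hR hΩ hLp hB hz hδ hs0 c1 c2
  -- the left hand side
  have hsr : s ≤ r0 := by linarith [c1.a1, c1.a5]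
  have hlhs : ∫ x in DD z a a' A A' r0, max (|Z (bump z r0) x| - cst) 0 ∂μ =
      ∫ x in DD z a a' A A' r0, max (|Z (bump z s) x| - cst) 0 ∂μ := by
    apply integral_congr_ae
    filter_upwards [ae_restrict_of_ae (s := DD z a a' A A' r0) (bump_radius hc hs0 hsr hz),
      ae_restrict_mem (meas_DD hc z r0)] with x hx hxD
    rw [hx (by
      rw [Set.disjoint_union_right]
      exact ⟨closedBall_disj hxD.1, closedBall_disj hxD.2⟩)]
  rw [hlhs]
  refine key.trans ?_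
  -- the energies
  have hρ0 : ρ ≠ 0 := hρ.ne'
  have hr00 : r0 ≠ 0 := hr0.ne'
  have eq1 : qn M (r0 * ρ ^ (i + 1)) s = Qr M ρ := by
    unfold qn Qr
    congr 3
    rw [hs, pow_add ρ i 3, pow_add ρ i 1]
    field_simp
    ring
  have eq2 : qn M (r0 * ρ ^ (i + 3)) s ≤ Qr M ρ := by
    unfold qn Qr
    apply mul_le_mul_of_nonneg_left _ (by positivity)
    have e : r0 * ρ ^ (i + 3) / (2 * s) = 4 := by
      rw [hs]
      field_simp
      ring
    rw [e]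
    have : Real.log 4 ≤ Real.log (4 / ρ ^ 2) := by
      apply Real.log_le_log (by norm_num)
      rw [le_div_iff₀ (by positivity)]
      nlinarith
    linarith
  have eq3 : 2 * (r0 * ρ ^ (i + 1)) / (r0 * ρ ^ i) = 2 * ρ := by
    rw [pow_succ]
    field_simp
  have eq4 : 2 * (r0 * ρ ^ (i + 3)) / (r0 * ρ ^ (i + 2)) = 2 * ρ := by
    rw [pow_succ ρ (i + 2)]
    field_simp
  rw [eq1, eq3, eq4]
  have hQ0 : 0 ≤ Qr M ρ := by rw [← eq1]; exact qn_nonneg M hs0 c1.a1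
  have hC0 := hC.1
  have k1 : √(qn M (r0 * ρ ^ (i + 3)) s * (C * (2 * ρ) ^ β)) ≤ √(Qr M ρ * (C * (2 * ρ) ^ β)) :=
    Real.sqrt_le_sqrt (mul_le_mul_of_nonneg_right eq2 (by positivity))
  have k2 : √(qn M (r0 * ρ ^ (i + 3)) s) ≤ √(Qr M ρ) := Real.sqrt_le_sqrt eq2
  -- the losses
  have n1 : 0 ≤ ∫ x in DD z a a' A A' r0,
      m1 Ω z δ a a' A A' (r0 * ρ ^ (i + 1)) (r0 * ρ ^ i) (r0 * ρ ^ (i + 3)) x ∂μ := by
    apply integral_nonneg_of_ae
    apply ae_restrict_of_ae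
    filter_upwards [geo1 hc] with x g
    exact sub_nonneg.2 (hp_mono_S (near_mono (mono _ _ (by omega)))
      ((g.finite hδ z _).subset (Set.compl_subset_compl.2 Set.subset_union_left)) _)
  have n2 : 0 ≤ ∫ x in DD z a a' A A' r0,
      m2 Ω z δ a a' A A' (r0 * ρ ^ (i + 1)) (r0 * ρ ^ (i + 3)) (r0 * ρ ^ (i + 2)) x ∂μ := by
    apply integral_nonneg_of_ae
    apply ae_restrict_of_ae
    filter_upwards [geo1 hc] with x g
    exact sub_nonneg.2 (hp_mono_R (near_mono (mono _ _ (by omega)))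
      ((g.finite hδ z _).subset (Set.compl_subset_compl.2 Set.subset_union_left)) _)
  have k3 := Real.sqrt_le_sqrt ((le_add_of_nonneg_right n2).trans hi)
  have k4 := Real.sqrt_le_sqrt ((le_add_of_nonneg_left n1).trans hi)
  have k5 := mul_le_mul_of_nonneg_left k3 (Real.sqrt_nonneg (Qr M ρ))
  have k6 := mul_le_mul k2 k4 (Real.sqrt_nonneg _) (Real.sqrt_nonneg _)
  -- the discretisation error
  have k7 : ((L' : ℝ) + 1) ^ 2 * (13 * (R ^ 2 * (M' * δ ^ 3 / s ^ 5))) ≤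
      (R + ‖z‖ + 2 * δ) ^ 2 * (13 * (R ^ 2 * (M' * δ / (r0 * ρ ^ (L + 2) / 8) ^ 5))) := by
    have h1 : (L' : ℝ) + 1 ≤ (R + ‖z‖ + 2 * δ) / δ := by
      have := (Nat.ceil_lt_add_one (a := (R + ‖z‖) / δ) (by positivity)).le
      rw [← hL'] at this
      have e : (R + ‖z‖ + 2 * δ) / δ = (R + ‖z‖) / δ + 1 + 1 := by
        field_simp
        ring
      rw [e]
      linarith
    have h2 : s ^ 5 ≥ (r0 * ρ ^ (L + 2) / 8) ^ 5 := by
      apply pow_le_pow_left₀ (by positivity)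
      rw [hs]
      have := mono (i + 3) (L + 2) (by omega)
      linarith
    have h3 : 0 < (r0 * ρ ^ (L + 2) / 8) ^ 5 := by positivity
    have h4 : M' * δ ^ 3 / s ^ 5 ≤ M' * δ ^ 3 / (r0 * ρ ^ (L + 2) / 8) ^ 5 :=
      div_le_div_of_nonneg_left (by positivity) h3 h2
    have h5 : ((L' : ℝ) + 1) ^ 2 ≤ ((R + ‖z‖ + 2 * δ) / δ) ^ 2 :=
      pow_le_pow_left₀ (by positivity) h1 2
    calc _ ≤ ((R + ‖z‖ + 2 * δ) / δ) ^ 2 *
          (13 * (R ^ 2 * (M' * δ ^ 3 / (r0 * ρ ^ (L + 2) / 8) ^ 5))) := by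
          apply mul_le_mul h5 _ (by positivity) (by positivity)
          apply mul_le_mul_of_nonneg_left _ (by norm_num)
          exact mul_le_mul_of_nonneg_left h4 (by positivity)
      _ = _ := by
          rw [div_pow]
          field_simp
  linarith

end Vale.Agent.P155.UK
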