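import Vale.Agent.P155.U.Family

/-!
# P155 uniqueness: the joint law of Green energies and heights determines the law of the carpets
-/

namespace Vale.Agent.P155.U

open MeasureTheory Set TopologicalSpace
open scoped ContDiff

/-- Lusin-Souslin: a measurable map which is injective on a set of full measure determines the
measure. -/
theorem measure_eq_of_injOn {X Y : Type*} [MeasurableSpace X] [StandardBorelSpace X]
    [MeasurableSpace Y] [MeasurableSpace.CountablySeparated Y] {μ ν : Measure X} {C : Set X}
    (hC : MeasurableSet C) {Φ : X → Y} (hΦ : Measurable Φ) (hinj : InjOn Φ C)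
    (hμ : ∀ᵐ x ∂μ, x ∈ C) (hν : ∀ᵐ x ∂ν, x ∈ C) (h : μ.map Φ = ν.map Φ) : μ = ν := by
  ext S hS
  have hSC : MeasurableSet (S ∩ C) := hS.inter hC
  set T : Set Y := Φ '' (S ∩ C) with hT
  have hTm : MeasurableSet T := hSC.image_of_measurable_injOn hΦ (hinj.mono inter_subset_right)
  have key : ∀ ρ : Measure X, (∀ᵐ x ∂ρ, x ∈ C) → ρ S = ρ.map Φ T := by
    intro ρ hρ
    rw [Measure.map_apply hΦ hTm]
    apply measure_congr
    filter_upwards [hρ] with x hx
    apply propext
    constructor
    · intro hxS
      exact ⟨x, ⟨hxS, hx⟩, rfl⟩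
    · rintro ⟨y, hy, hyx⟩
      have : y = x := hinj hy.2 hx hyx
      rw [← this]
      exact hy.1
  rw [key μ hμ, key ν hν, h]

section

variable {Θ Θ' : Type} [MeasurableSpace Θ] [MeasurableSpace Θ'] {P : Measure Θ} {P' : Measure Θ'}
  {Ω : Set ℂ} {k m : ℕ}

/-- the observables of the first `k` gaskets -/
noncomputable def obs (Ω : Set ℂ) {k m : ℕ}
    (p : (Fin k → NonemptyCompacts ℂ) × (Fin k → Fin m → ℝ)) :
    (Fin k × IdxIn Ω) ⊕ (Fin k × Fin m) → ℝ
  | Sum.inl (l, i) => greenEnergy (Ω \ (p.1 l : Set ℂ)) (fam Ω i)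
  | Sum.inr (l, j) => p.2 l j

/-- **(U-INJ)** If for all finite families `χ` of test functions the laws of the Green energies
of the complements of the first `k` gaskets and of the first `k` heights at `χ` agree, then the
laws of the gaskets and heights agree. -/
theorem law_eq (hΩ : IsOpen Ω) (hb : Bornology.IsBounded Ω) [IsProbabilityMeasure P]
    [IsProbabilityMeasure P'] {G : ℕ → Θ → NonemptyCompacts ℂ} {H : ℕ → Θ → (ℂ → ℝ) → ℝ}
    {G' : ℕ → Θ' → NonemptyCompacts ℂ} {H' : ℕ → Θ' → (ℂ → ℝ) → ℝ}
    (hG : ∀ l, @Measurable _ _ _ (borel (NonemptyCompacts ℂ)) (G l))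
    (hG' : ∀ l, @Measurable _ _ _ (borel (NonemptyCompacts ℂ)) (G' l))
    (hH : ∀ l φ, IsTest Ω φ → Measurable (fun x => H l x φ))
    (hH' : ∀ l φ, IsTest Ω φ → Measurable (fun x => H' l x φ))
    (hC : ∀ᵐ x ∂P, ∀ l, G l x ∈ CC Ω) (hC' : ∀ᵐ x ∂P', ∀ l, G' l x ∈ CC Ω) (k : ℕ)
    (h : ∀ (m : ℕ) (χ : Fin m → ℂ → ℝ), (∀ i, IsTest Ω (χ i)) →
      P.map (fun x => ((fun (l : Fin k) (i : Fin m) => greenEnergy (Ω \ (G l x : Set ℂ)) (χ i)),
        fun (l : Fin k) (i : Fin m) => H l x (χ i))) =
      P'.map (fun x => ((fun (l : Fin k) (i : Fin m) => greenEnergy (Ω \ (G' l x : Set ℂ)) (χ i)),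
        fun (l : Fin k) (i : Fin m) => H' l x (χ i)))) {m : ℕ} {χ : Fin m → ℂ → ℝ}
    (hχ : ∀ i, IsTest Ω (χ i)) (F : (Fin k → NonemptyCompacts ℂ) × (Fin k → Fin m → ℝ) → ℝ)
    (hF : Continuous F) :
    ∫ x, F (fun l => G l x, fun l i => H l x (χ i)) ∂P =
      ∫ x, F (fun l => G' l x, fun l i => H' l x (χ i)) ∂P' := by
  classical
  let _ : MeasurableSpace (NonemptyCompacts ℂ) := borel _
  have hbs : BorelSpace (NonemptyCompacts ℂ) := ⟨rfl⟩
  -- the random elements
  set A : Θ → (Fin k → NonemptyCompacts ℂ) × (Fin k → Fin m → ℝ) :=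
    fun x => (fun l => G l x, fun l i => H l x (χ i)) with hA
  set A' : Θ' → (Fin k → NonemptyCompacts ℂ) × (Fin k → Fin m → ℝ) :=
    fun x => (fun l => G' l x, fun l i => H' l x (χ i)) with hA'
  have hAm : Measurable A := by
    apply Measurable.prodMk
    · exact measurable_pi_lambda _ fun l => hG l
    · exact measurable_pi_lambda _ fun l => measurable_pi_lambda _ fun i => hH l _ (hχ i)
  have hAm' : Measurable A' := by
    apply Measurable.prodMk
    · exact measurable_pi_lambda _ fun l => hG' l
    · exact measurable_pi_lambda _ fun l => measurable_pi_lambda _ fun i => hH' l _ (hχ i)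
  have hobs : Measurable (obs Ω (k := k) (m := m)) := by
    apply measurable_pi_lambda
    rintro (⟨l, i⟩ | ⟨l, j⟩)
    · exact (measurable_green hb (fam_test Ω i)).comp ((measurable_pi_apply l).comp measurable_fst)
    · exact (measurable_pi_apply j).comp ((measurable_pi_apply l).comp measurable_snd)
  -- the full set
  set C : Set ((Fin k → NonemptyCompacts ℂ) × (Fin k → Fin m → ℝ)) :=
    {p | ∀ l, p.1 l ∈ CC Ω} with hCd
  have hCm : MeasurableSet C := by
    have : C = ⋂ l : Fin k, (fun p => p.1 l) ⁻¹' CC Ω := by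
      ext p
      simp only [hCd, mem_iInter, mem_preimage]
      rfl
    rw [this]
    refine MeasurableSet.iInter fun l => ?_
    exact ((measurable_pi_apply l).comp measurable_fst) (isClosed_CC Ω).measurableSet
  have hinj : InjOn (obs Ω (k := k) (m := m)) C := by
    intro p hp q hq hpq
    apply Prod.ext
    · funext l
      apply fam_inj hΩ hb (hp l) (hq l)
      intro i
      exact congrFun hpq (Sum.inl (l, i))
    · funext l j
      exact congrFun hpq (Sum.inr (l, j))
  have hfull : ∀ᵐ p ∂(P.map A), p ∈ C := by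
    apply (ae_map_iff hAm.aemeasurable hCm).2
    filter_upwards [hC] with x hx
    exact fun l => hx l
  have hfull' : ∀ᵐ p ∂(P'.map A'), p ∈ C := by
    apply (ae_map_iff hAm'.aemeasurable hCm).2
    filter_upwards [hC'] with x hx
    exact fun l => hx l
  -- finite dimensional laws
  have hproj : (P.map A).map (obs Ω) = (P'.map A').map (obs Ω) := by
    have hp1 : IsProbabilityMeasure (P.map A) := Measure.isProbabilityMeasure_map hAm.aemeasurable
    have hp2 : IsProbabilityMeasure (P'.map A') :=
      Measure.isProbabilityMeasure_map hAm'.aemeasurable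
    have hp3 : IsProbabilityMeasure ((P.map A).map (obs Ω)) :=
      Measure.isProbabilityMeasure_map hobs.aemeasurable
    have key : ∀ J : Finset ((Fin k × IdxIn Ω) ⊕ (Fin k × Fin m)),
        ((P'.map A').map (obs Ω)).map J.restrict = ((P.map A).map (obs Ω)).map J.restrict := by
      intro J
      -- the indices of the family which occur
      set I : Finset (IdxIn Ω) := J.biUnion (fun j => Sum.elim (fun a => {a.2}) (fun _ => ∅) j)
        with hI
      have hmemI : ∀ l i, Sum.inl (l, i) ∈ J → i ∈ I := by
        intro l i hj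
        rw [hI, Finset.mem_biUnion]
        exact ⟨_, hj, by simp⟩
      set e := I.equivFin with he
      set χ' : Fin (m + I.card) → ℂ → ℝ :=
        Fin.append χ (fun a => fam Ω (e.symm a).1) with hχ'
      have hχ't : ∀ i, IsTest Ω (χ' i) := by
        intro i
        refine Fin.addCases (fun a => ?_) (fun a => ?_) i
        · rw [hχ', Fin.append_left]
          exact hχ a
        · rw [hχ', Fin.append_right]
          exact fam_test Ω _
      let g : (Fin k → Fin (m + I.card) → ℝ) × (Fin k → Fin (m + I.card) → ℝ) → (J → ℝ) :=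
        fun p j => match j with
        | ⟨Sum.inl (l, i), hj⟩ => p.1 l (Fin.natAdd m (e ⟨i, hmemI l i hj⟩))
        | ⟨Sum.inr (l, a), _⟩ => p.2 l (Fin.castAdd _ a)
      have hg : Measurable g := by
        apply measurable_pi_lambda
        rintro ⟨(⟨l, i⟩ | ⟨l, a⟩), hj⟩
        · exact (measurable_pi_apply _).comp ((measurable_pi_apply l).comp measurable_fst)
        · exact (measurable_pi_apply _).comp ((measurable_pi_apply l).comp measurable_snd)
      have hm1 : Measurable (fun x => ((fun (l : Fin k) (i : Fin (m + I.card)) =>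
          greenEnergy (Ω \ (G l x : Set ℂ)) (χ' i)),
          fun (l : Fin k) (i : Fin (m + I.card)) => H l x (χ' i))) := by
        apply Measurable.prodMk
        · exact measurable_pi_lambda _ fun l => measurable_pi_lambda _ fun i =>
            (measurable_green hb (hχ't i)).comp (hG l)
        · exact measurable_pi_lambda _ fun l => measurable_pi_lambda _ fun i => hH l _ (hχ't i)
      have hm2 : Measurable (fun x => ((fun (l : Fin k) (i : Fin (m + I.card)) =>
          greenEnergy (Ω \ (G' l x : Set ℂ)) (χ' i)),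
          fun (l : Fin k) (i : Fin (m + I.card)) => H' l x (χ' i))) := by
        apply Measurable.prodMk
        · exact measurable_pi_lambda _ fun l => measurable_pi_lambda _ fun i =>
            (measurable_green hb (hχ't i)).comp (hG' l)
        · exact measurable_pi_lambda _ fun l => measurable_pi_lambda _ fun i => hH' l _ (hχ't i)
      have hh := congrArg (fun ρ => Measure.map g ρ) (h _ χ' hχ't)
      rw [Measure.map_map hg hm1, Measure.map_map hg hm2] at hh
      rw [Measure.map_map (Finset.measurable_restrict J) hobs,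
        Measure.map_map (Finset.measurable_restrict J) hobs,
        Measure.map_map ((Finset.measurable_restrict J).comp hobs) hAm,
        Measure.map_map ((Finset.measurable_restrict J).comp hobs) hAm']
      have e1 : (J.restrict ∘ obs Ω) ∘ A = g ∘ (fun x => ((fun (l : Fin k)
          (i : Fin (m + I.card)) => greenEnergy (Ω \ (G l x : Set ℂ)) (χ' i)),
          fun (l : Fin k) (i : Fin (m + I.card)) => H l x (χ' i))) := by
        funext x
        funext j
        obtain ⟨(⟨l, i⟩ | ⟨l, a⟩), hj⟩ := j
        · show greenEnergy _ (fam Ω i) = greenEnergy _ (χ' (Fin.natAdd m (e ⟨i, hmemI l i hj⟩)))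
          rw [hχ', Fin.append_right, Equiv.symm_apply_apply]
        · show H l x (χ a) = H l x (χ' (Fin.castAdd _ a))
          rw [hχ', Fin.append_left]
      have e2 : (J.restrict ∘ obs Ω) ∘ A' = g ∘ (fun x => ((fun (l : Fin k)
          (i : Fin (m + I.card)) => greenEnergy (Ω \ (G' l x : Set ℂ)) (χ' i)),
          fun (l : Fin k) (i : Fin (m + I.card)) => H' l x (χ' i))) := by
        funext x
        funext j
        obtain ⟨(⟨l, i⟩ | ⟨l, a⟩), hj⟩ := j
        · show greenEnergy _ (fam Ω i) = greenEnergy _ (χ' (Fin.natAdd m (e ⟨i, hmemI l i hj⟩)))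
          rw [hχ', Fin.append_right, Equiv.symm_apply_apply]
        · show H' l x (χ a) = H' l x (χ' (Fin.castAdd _ a))
          rw [hχ', Fin.append_left]
      rw [e1, e2]
      exact hh.symm
    have hmeas1 : ∀ J : Finset ((Fin k × IdxIn Ω) ⊕ (Fin k × Fin m)),
        IsFiniteMeasure (((P.map A).map (obs Ω)).map (J.restrict (π := fun _ => ℝ))) := by
      intro J
      infer_instance
    exact IsProjectiveLimit.unique
      (P := fun J => ((P.map A).map (obs Ω)).map (J.restrict (π := fun _ => ℝ)))
      (fun J => rfl) (fun J => key J)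
  have hlaw : P.map A = P'.map A' := measure_eq_of_injOn hCm hobs hinj hfull hfull' hproj
  have hFm : Measurable F := hF.measurable
  have h1 : ∫ x, F (A x) ∂P = ∫ p, F p ∂(P.map A) :=
    (integral_map hAm.aemeasurable hFm.aestronglyMeasurable).symm
  have h2 : ∫ x, F (A' x) ∂P' = ∫ p, F p ∂(P'.map A') :=
    (integral_map hAm'.aemeasurable hFm.aestronglyMeasurable).symm
  rw [h1, h2, hlaw]

end

end Vale.Agent.P155.U
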