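import Vale.Agent.P155.U.Iface6
import Vale.Agent.P155.U.Mom

/-!
# P155, block U (uniqueness): `PieceK` from the product identity of CPL-2
-/

namespace Vale.Agent.P155.Uq

open MeasureTheory Filter Topology TopologicalSpace

/-- Extension from indicators to bounded functions (real valued). -/
theorem zero_real {X Y : Type*} {mX : MeasurableSpace X} {mY : MeasurableSpace Y}
    {μ : Measure X} [IsFiniteMeasure μ] {P : X → Y} (hP : Measurable P)
    {w : Y → ℝ} (hw : Measurable w) {C : ℝ} (hwb : ∀ y, |w y| ≤ C) (u : X → ℝ)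
    (hu : Integrable u μ) (h0 : ∀ T, MeasurableSet T → ∫ x in P ⁻¹' T, u x ∂μ = 0) :
    ∫ x, w (P x) * u x ∂μ = 0 := by
  have hle : MeasurableSpace.comap P mY ≤ mX := hP.comap_le
  have h1 : (fun _ => (0 : ℝ)) =ᵐ[μ] μ[u|MeasurableSpace.comap P mY] := by
    apply ae_eq_condExp_of_forall_setIntegral_eq hle hu
    · intro s _ _
      exact integrableOn_zero
    · rintro s ⟨T, hT, rfl⟩ _
      rw [h0 T hT]
      simp
    · exact aestronglyMeasurable_const
  have hwm : StronglyMeasurable[MeasurableSpace.comap P mY] (fun x => w (P x)) := by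
    apply Measurable.stronglyMeasurable
    exact hw.comp (comap_measurable P)
  have hint : Integrable (fun x => w (P x) * u x) μ := by
    apply hu.bdd_mul (hw.comp hP).aestronglyMeasurable (c := C)
    exact Eventually.of_forall fun x => by rw [Real.norm_eq_abs]; exact hwb _
  have h2 := condExp_mul_of_stronglyMeasurable_left hwm hint hu
  have h3 : ∫ x, (μ[(fun x => w (P x)) * u|MeasurableSpace.comap P mY]) x ∂μ =
      ∫ x, w (P x) * u x ∂μ := integral_condExp hle
  rw [← h3, integral_congr_ae h2]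
  have h4 : (fun x => w (P x)) * μ[u|MeasurableSpace.comap P mY] =ᵐ[μ] fun _ => 0 := by
    filter_upwards [h1] with x hx
    simp only [Pi.mul_apply]
    rw [← hx, mul_zero]
  rw [integral_congr_ae h4]
  simp

/-- Extension from indicators to bounded functions. -/
theorem zero_of_sets {X Y : Type*} {mX : MeasurableSpace X} {mY : MeasurableSpace Y}
    {μ : Measure X} [IsFiniteMeasure μ] {P : X → Y} (hP : Measurable P) {F : X → ℂ}
    (hF : Integrable F μ) (h0 : ∀ T, MeasurableSet T → ∫ x in P ⁻¹' T, F x ∂μ = 0)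
    {w : Y → ℝ} (hw : Measurable w) {C : ℝ} (hwb : ∀ y, |w y| ≤ C) :
    ∫ x, (w (P x) : ℂ) * F x ∂μ = 0 := by
  have hre := zero_real hP hw hwb (fun x => (F x).re) hF.re (fun T hT => by
    have := h0 T hT
    have h5 := integral_re (𝕜 := ℂ) (hF.integrableOn (s := P ⁻¹' T))
    rw [this] at h5
    simpa using h5)
  have him := zero_real hP hw hwb (fun x => (F x).im) hF.im (fun T hT => by
    have := h0 T hT
    have h5 := integral_im (𝕜 := ℂ) (hF.integrableOn (s := P ⁻¹' T))
    rw [this] at h5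
    simpa using h5)
  have hint : Integrable (fun x => (w (P x) : ℂ) * F x) μ := by
    apply hF.bdd_mul (Complex.measurable_ofReal.comp (hw.comp hP)).aestronglyMeasurable (c := C)
    exact Eventually.of_forall fun x => by
      simp only [Function.comp_apply, Complex.norm_real, Real.norm_eq_abs]; exact hwb _
  apply Complex.ext
  · have h5 := integral_re (𝕜 := ℂ) hint
    simp only [RCLike.re_to_complex, Complex.re_ofReal_mul] at h5
    rw [← h5]
    exact hre
  · have h5 := integral_im (𝕜 := ℂ) hint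
    simp only [RCLike.im_to_complex, Complex.im_ofReal_mul] at h5
    rw [← h5]
    exact him

/-- π-λ: from rectangles to all measurable sets. -/
theorem zero_of_rect {X Y Y' : Type*} {mX : MeasurableSpace X} {mY : MeasurableSpace Y}
    {mY' : MeasurableSpace Y'} {μ : Measure X} [IsFiniteMeasure μ] {P : X → Y} {P' : X → Y'}
    (hP : Measurable P) (hP' : Measurable P') {F : X → ℂ} (hF : Integrable F μ)
    (h0 : ∀ T T', MeasurableSet T → MeasurableSet T' → ∫ x in P ⁻¹' T ∩ P' ⁻¹' T', F x ∂μ = 0)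
    {T : Set (Y × Y')} (hT : MeasurableSet T) :
    ∫ x in (fun x => (P x, P' x)) ⁻¹' T, F x ∂μ = 0 := by
  have hPP : Measurable (fun x => (P x, P' x)) := hP.prodMk hP'
  induction T, hT using MeasurableSpace.induction_on_inter generateFrom_prod.symm isPiSystem_prod with
  | empty => simp
  | basic T hT =>
    obtain ⟨S, hS, S', hS', rfl⟩ := hT
    exact h0 S S' hS hS'
  | compl T hT ih =>
    have h1 := integral_add_compl (hPP hT) hF
    rw [ih, zero_add] at h1
    rw [Set.preimage_compl, h1]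
    have := h0 Set.univ Set.univ MeasurableSet.univ MeasurableSet.univ
    simpa using this
  | iUnion f hd hm ih =>
    rw [Set.preimage_iUnion, integral_iUnion (fun i => hPP (hm i)) _ hF.integrableOn]
    · simp only [ih, tsum_zero]
    · intro i j hij
      exact (hd hij).preimage _

variable {Ω : Set ℂ} {X : Type} [MeasurableSpace X] {μ : Measure X} {a a' : X → Sp Ω}
  {Wt : GV Ω →ₗᵢ[ℝ] Lp ℝ 2 μ}

/-- `H¹₀(Ω \ K)` as a subspace of `H¹₀(Ω)`. -/
noncomputable def Vk (Ω K : Set ℂ) : Submodule ℝ (GV Ω) := (GV (Ω \ K)).comap (GV Ω).subtype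

theorem mem_Vk {K : Set ℂ} {f : GV Ω} : f ∈ Vk Ω K ↔ (f : HL) ∈ GV (Ω \ K) := Iff.rfl

theorem isClosed_Vk (K : Set ℂ) : IsClosed (Vk Ω K : Set (GV Ω)) :=
  (Submodule.isClosed_topologicalClosure _).preimage (GV Ω).subtypeL.continuous

theorem exp_bound (u : ℝ) : ‖Complex.exp (Complex.I * (u : ℂ))‖ = 1 := by
  rw [mul_comm]; exact Complex.norm_exp_ofReal_mul_I u

theorem int_exp [IsFiniteMeasure μ] (f : Lp ℝ 2 μ) :
    Integrable (fun x => Complex.exp (Complex.I * ((f x : ℝ) : ℂ))) μ := by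
  refine ⟨aesm_exp (Lp.aestronglyMeasurable f), ?_⟩
  apply HasFiniteIntegral.of_bounded (C := 1)
  exact Eventually.of_forall fun x => (exp_bound _).le

/-- **PieceK** from the product identity. -/
theorem pieceK_of [IsProbabilityMeasure μ] (ha : Measurable a) (ha' : Measurable a')
    (hclosed : ∀ (k : ℕ) (K : Set ℂ), IsClosed K →
      MeasurableSet {p : Past Ω k | ((p (Fin.last k)).1 : Set ℂ) ⊆ K})
    (hprod : ∀ (k : ℕ) (K : Set ℂ), IsClosed K → ∀ E E' : Set (Past Ω k), MeasurableSet E →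
      MeasurableSet E' → (∀ p ∈ E, ((p (Fin.last k)).1 : Set ℂ) ⊆ K) →
      (∀ p ∈ E', ((p (Fin.last k)).1 : Set ℂ) ⊆ K) → ∀ f ∈ Vk Ω K, ∀ g ∈ (Vk Ω K)ᗮ,
      ∫ x in (fun x => past k (a x)) ⁻¹' E ∩ (fun x => past k (a' x)) ⁻¹' E',
        Complex.exp (Complex.I * ((Wt (g + f) x : ℝ) : ℂ)) ∂μ =
      ((Real.exp (-‖f‖ ^ 2 / 2) : ℝ) : ℂ) *
        ∫ x in (fun x => past k (a x)) ⁻¹' E ∩ (fun x => past k (a' x)) ⁻¹' E',
          Complex.exp (Complex.I * ((Wt g x : ℝ) : ℂ)) ∂μ) :
    PieceK Ω μ a a' Wt := by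
  intro k K hK w hw hwK f g hf
  obtain ⟨hwm, C, hwC⟩ := hw
  have mpast : Measurable (past (Ω := Ω) k) := measurable_pi_lambda _ fun j => measurable_pi_apply _
  have mP : Measurable (fun x => past k (a x)) := mpast.comp ha
  have mP' : Measurable (fun x => past k (a' x)) := mpast.comp ha'
  set EK : Set (Past Ω k) := {p | ((p (Fin.last k)).1 : Set ℂ) ⊆ K} with hEK
  have mEK : MeasurableSet EK := hclosed k K hK
  set wx : X → ℝ := fun x => w (past k (a x), past k (a' x)) with hwx
  have mwx : Measurable wx := hwm.comp (mP.prodMk mP')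
  have hwxC : ∀ x, |wx x| ≤ C := fun x => hwC _
  -- the main identity
  have main : ∀ f ∈ Vk Ω K, ∀ g ∈ (Vk Ω K)ᗮ,
      ∫ x, (wx x : ℂ) * Complex.exp (Complex.I * ((Wt (g + f) x : ℝ) : ℂ)) ∂μ =
      ((Real.exp (-‖f‖ ^ 2 / 2) : ℝ) : ℂ) *
        ∫ x, (wx x : ℂ) * Complex.exp (Complex.I * ((Wt g x : ℝ) : ℂ)) ∂μ := by
    intro f hf g hg
    set c : ℂ := ((Real.exp (-‖f‖ ^ 2 / 2) : ℝ) : ℂ) with hc
    set S : Set X := (fun x => past k (a x)) ⁻¹' EK ∩ (fun x => past k (a' x)) ⁻¹' EK with hS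
    have mS : MeasurableSet S := (mP mEK).inter (mP' mEK)
    have i1 := int_exp (μ := μ) (Wt (g + f))
    have i2 := int_exp (μ := μ) (Wt g)
    set F : X → ℂ := S.indicator (fun x => Complex.exp (Complex.I * ((Wt (g + f) x : ℝ) : ℂ)) -
      c * Complex.exp (Complex.I * ((Wt g x : ℝ) : ℂ))) with hF
    have iF : Integrable F μ := (i1.sub (i2.const_mul c)).indicator mS
    have hrect : ∀ T T' : Set (Past Ω k), MeasurableSet T → MeasurableSet T' →
        ∫ x in (fun x => past k (a x)) ⁻¹' T ∩ (fun x => past k (a' x)) ⁻¹' T', F x ∂μ = 0 := by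
      intro T T' hT hT'
      rw [hF, setIntegral_indicator mS]
      have e : (fun x => past k (a x)) ⁻¹' T ∩ (fun x => past k (a' x)) ⁻¹' T' ∩ S =
          (fun x => past k (a x)) ⁻¹' (T ∩ EK) ∩ (fun x => past k (a' x)) ⁻¹' (T' ∩ EK) := by
        ext x
        simp only [hS, Set.mem_inter_iff, Set.mem_preimage]
        tauto
      rw [e, integral_sub i1.integrableOn (i2.const_mul c).integrableOn, integral_const_mul,
        hprod k K hK _ _ (hT.inter mEK) (hT'.inter mEK) (fun p hp => hp.2) (fun p hp => hp.2) f hf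
          g hg, sub_self]
    have h1 := zero_of_sets (mP.prodMk mP') iF
      (fun T hT => zero_of_rect mP mP' iF hrect hT) hwm hwC
    have h2 : ∀ x, (w (past k (a x), past k (a' x)) : ℂ) * F x =
        (wx x : ℂ) * Complex.exp (Complex.I * ((Wt (g + f) x : ℝ) : ℂ)) -
        c * ((wx x : ℂ) * Complex.exp (Complex.I * ((Wt g x : ℝ) : ℂ))) := by
      intro x
      by_cases hx : x ∈ S
      · rw [hF, Set.indicator_of_mem hx]
        ring
      · rw [hF, Set.indicator_of_notMem hx, mul_zero]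
        have : wx x = 0 := by
          by_contra hne
          have := hwK _ hne
          exact hx ⟨this.1, this.2⟩
        rw [this]
        simp
    simp only [h2] at h1
    have j1 : Integrable (fun x => (wx x : ℂ) *
        Complex.exp (Complex.I * ((Wt (g + f) x : ℝ) : ℂ))) μ :=
      i1.bdd_mul (Complex.measurable_ofReal.comp mwx).aestronglyMeasurable (c := C)
        (Eventually.of_forall fun x => by rw [Complex.norm_real, Real.norm_eq_abs]; exact hwxC x)
    have j2 : Integrable (fun x => (wx x : ℂ) * Complex.exp (Complex.I * ((Wt g x : ℝ) : ℂ))) μ :=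
      i2.bdd_mul (Complex.measurable_ofReal.comp mwx).aestronglyMeasurable (c := C)
        (Eventually.of_forall fun x => by rw [Complex.norm_real, Real.norm_eq_abs]; exact hwxC x)
    rw [integral_sub j1 (j2.const_mul c), integral_const_mul] at h1
    exact sub_eq_zero.1 h1
  -- real combinations
  have lin : ∀ (u v : GV Ω) (s t : ℝ), ∀ᵐ x ∂μ, Wt (s • v + t • u) x = s * Wt v x + t * Wt u x := by
    intro u v s t
    rw [map_add, map_smul, map_smul]
    filter_upwards [Lp.coeFn_add (s • Wt v) (t • Wt u), Lp.coeFn_smul s (Wt v),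
      Lp.coeFn_smul t (Wt u)] with x h1 h2 h3
    rw [h1, Pi.add_apply, h2, h3]
    simp
  have H : ∀ u ∈ Vk Ω K, ∀ v ∈ (Vk Ω K)ᗮ, ∀ s t : ℝ,
      ∫ x, (wx x : ℂ) * Complex.exp (Complex.I * ((s * Wt v x + t * Wt u x : ℝ) : ℂ)) ∂μ =
      ∫ x, (wx x : ℂ) * Complex.exp (Complex.I * ((s * Wt v x : ℝ) : ℂ)) *
        Complex.exp (-(t ^ 2 * ‖u‖ ^ 2 / 2 : ℝ)) ∂μ := by
    intro u hu v hv s t
    have h1 := main (t • u) ((Vk Ω K).smul_mem t hu) (s • v) ((Vk Ω K)ᗮ.smul_mem s hv)
    have h2 : ∫ x, (wx x : ℂ) * Complex.exp (Complex.I * ((s * Wt v x + t * Wt u x : ℝ) : ℂ)) ∂μ =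
        ∫ x, (wx x : ℂ) * Complex.exp (Complex.I * ((Wt (s • v + t • u) x : ℝ) : ℂ)) ∂μ := by
      apply integral_congr_ae
      filter_upwards [lin u v s t] with x hx
      rw [hx]
    have h3 : ∫ x, (wx x : ℂ) * Complex.exp (Complex.I * ((Wt (s • v) x : ℝ) : ℂ)) ∂μ =
        ∫ x, (wx x : ℂ) * Complex.exp (Complex.I * ((s * Wt v x : ℝ) : ℂ)) ∂μ := by
      apply integral_congr_ae
      rw [map_smul]
      filter_upwards [Lp.coeFn_smul s (Wt v)] with x hx
      rw [hx]
      simp
    rw [h2, h1, h3, integral_mul_const, mul_comm]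
    congr 1
    rw [norm_smul, mul_pow, Real.norm_eq_abs, sq_abs, Complex.ofReal_exp]
    congr 1
    push_cast
    ring
  have memW : ∀ u : GV Ω, MemLp (fun x => Wt u x) 2 μ := fun u => Lp.memLp _
  have hv0 : ∀ u : GV Ω, ∀ x : X, 0 ≤ (fun _ : X => ‖u‖ ^ 2) x := fun u x => sq_nonneg _
  have H0 : ∀ u ∈ Vk Ω K, ∀ t : ℝ,
      ∫ x, (wx x : ℂ) * Complex.exp (Complex.I * ((t * Wt u x : ℝ) : ℂ)) ∂μ =
      ∫ x, (wx x : ℂ) * Complex.exp (-(t ^ 2 * ‖u‖ ^ 2 / 2 : ℝ)) ∂μ := by
    intro u hu t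
    have h1 := H u hu 0 (Submodule.zero_mem _) 0 t
    simpa using h1
  have one : ∀ u ∈ Vk Ω K, ∫ x, wx x * Wt u x ∂μ = 0 := fun u hu =>
    mom_one (v := fun _ => ‖u‖ ^ 2) mwx.aestronglyMeasurable hwxC (memW u)
      aestronglyMeasurable_const (hv0 u) (fun _ => le_refl _) (fun t => by
        have := H0 u hu t
        push_cast at this ⊢
        exact this)
  have two : ∀ u ∈ Vk Ω K, ∫ x, wx x * Wt u x ^ 2 ∂μ = ‖u‖ ^ 2 * ∫ x, wx x ∂μ := fun u hu => by
    have h1 := mom_two (v := fun _ => ‖u‖ ^ 2) mwx.aestronglyMeasurable hwxC (memW u)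
      aestronglyMeasurable_const (hv0 u) (fun _ => le_refl _) (fun t => by
        have := H0 u hu t
        push_cast at this ⊢
        exact this)
    rw [h1, integral_mul_const, mul_comm]
  have cross : ∀ u ∈ Vk Ω K, ∀ v ∈ (Vk Ω K)ᗮ, ∫ x, wx x * (Wt u x * Wt v x) ∂μ = 0 :=
    fun u hu v hv => mom_cross (v := fun _ => ‖u‖ ^ 2) mwx.aestronglyMeasurable hwxC (memW u)
      (memW v) aestronglyMeasurable_const (hv0 u) (fun _ => le_refl _) (fun s t => by
        have := H u hu v hv s t
        push_cast at this ⊢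
        exact this)
  -- integrability of the products
  have ip : ∀ u v : GV Ω, Integrable (fun x => wx x * (Wt u x * Wt v x)) μ := by
    intro u v
    have h1 : Integrable (fun x => Wt u x * Wt v x) μ := (memW u).integrable_mul (memW v)
    exact h1.bdd_mul mwx.aestronglyMeasurable (c := C)
      (Eventually.of_forall fun x => by rw [Real.norm_eq_abs]; exact hwxC x)
  have pol : ∀ u ∈ Vk Ω K, ∀ v ∈ Vk Ω K,
      ∫ x, wx x * (Wt u x * Wt v x) ∂μ = inner ℝ u v * ∫ x, wx x ∂μ := by
    intro u hu v hv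
    have h1 := two (u + v) ((Vk Ω K).add_mem hu hv)
    have h2 := two u hu
    have h3 := two v hv
    have e1 : ∫ x, wx x * Wt (u + v) x ^ 2 ∂μ = ∫ x, wx x * Wt u x ^ 2 ∂μ +
        (2 * ∫ x, wx x * (Wt u x * Wt v x) ∂μ + ∫ x, wx x * Wt v x ^ 2 ∂μ) := by
      have q1 : Integrable (fun x => wx x * Wt u x ^ 2) μ := by simpa [sq] using ip u u
      have q2 : Integrable (fun x => wx x * Wt v x ^ 2) μ := by simpa [sq] using ip v v
      have q3 : Integrable (fun x => 2 * (wx x * (Wt u x * Wt v x)) + wx x * Wt v x ^ 2) μ :=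
        ((ip u v).const_mul 2).add q2
      rw [← integral_const_mul, ← integral_add ((ip u v).const_mul 2) q2, ← integral_add q1 q3]
      apply integral_congr_ae
      rw [map_add]
      filter_upwards [Lp.coeFn_add (Wt u) (Wt v)] with x hx
      rw [hx, Pi.add_apply]
      ring
    have e2 := norm_add_sq_real u v
    rw [h1, h2, h3] at e1
    rw [e2] at e1
    linarith
  refine ⟨?_, one f hf⟩
  -- decomposition of `g`
  have hcomp : CompleteSpace (Vk Ω K) := (isClosed_Vk K).completeSpace_coe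
  set p : GV Ω := (Vk Ω K).starProjection g with hp
  have hpV : p ∈ Vk Ω K := by rw [hp]; exact Submodule.starProjection_apply_mem _ _
  have hq : g - p ∈ (Vk Ω K)ᗮ := by rw [hp]; exact Submodule.sub_starProjection_mem_orthogonal g
  have h1 := pol f hf p hpV
  have h2 := cross f hf (g - p) hq
  have e1 : ∫ x, wx x * (Wt f x * Wt g x) ∂μ = ∫ x, wx x * (Wt f x * Wt p x) ∂μ +
      ∫ x, wx x * (Wt f x * Wt (g - p) x) ∂μ := by
    rw [← integral_add (ip f p) (ip f (g - p))]
    apply integral_congr_ae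
    have : g = p + (g - p) := by abel
    have h5 := Lp.coeFn_add (Wt p) (Wt (g - p))
    rw [← map_add, ← this] at h5
    filter_upwards [h5] with x hx
    rw [hx, Pi.add_apply]
    ring
  have e2 : inner ℝ f g = inner ℝ f p := by
    have : inner ℝ f (g - p) = (0 : ℝ) := (Submodule.mem_orthogonal _ _).1 hq f hf
    rw [inner_sub_right] at this
    linarith
  rw [e1, h1, h2, add_zero, e2]

end Vale.Agent.P155.Uq
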