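import Vale.Agent.P155.U.Polar

/-!
# P155 uniqueness: the Poincare inequality at a connected set
-/

namespace Vale.Agent.P155.U

open MeasureTheory Set

variable {v : ℂ → ℝ}

/-- integrals of continuous functions over discs in polar coordinates -/
theorem polar_ball {g : ℂ → ℝ} (hg : Continuous g) (y : ℂ) {R : ℝ} (hR : 0 ≤ R) :
    ∫ z in Metric.ball y R, g z =
      ∫ t in (0 : ℝ)..R, ∫ α in (-Real.pi)..Real.pi, t * g (pp y t α) := by
  have hpi : -Real.pi ≤ Real.pi := by linarith [Real.pi_pos]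
  rw [← integral_indicator measurableSet_ball,
    ← integral_add_right_eq_self ((Metric.ball y R).indicator g) y,
    ← Complex.integral_comp_polarCoord_symm]
  rw [polarCoord_target]
  have hcong : ∀ p ∈ (Ioi (0 : ℝ) ×ˢ Ioo (-Real.pi) Real.pi),
      p.1 • (Metric.ball y R).indicator g (Complex.polarCoord.symm p + y)
        = (Ioo (0 : ℝ) R ×ˢ Ioo (-Real.pi) Real.pi).indicator
          (fun p => p.1 * g (pp y p.1 p.2)) p := by
    rintro ⟨t, α⟩ ⟨ht, hα⟩
    have ht0 : (0 : ℝ) < t := ht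
    have e1 : Complex.polarCoord.symm (t, α) + y = pp y t α := by
      rw [Complex.polarCoord_symm_apply, pp, Complex.exp_mul_I]
      push_cast
      ring
    rw [e1]
    have hmem : pp y t α ∈ Metric.ball y R ↔ t < R := by
      rw [mem_ball_iff_norm, norm_pp_sub y ht0.le]
    by_cases h : t < R
    · rw [indicator_of_mem (hmem.2 h), indicator_of_mem]
      · rfl
      · exact ⟨⟨ht0, h⟩, hα⟩
    · rw [indicator_of_notMem (fun h' => h (hmem.1 h')), indicator_of_notMem]
      · simp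
      · intro h'
        exact h h'.1.2
  rw [setIntegral_congr_fun (measurableSet_Ioi.prod measurableSet_Ioo) hcong,
    setIntegral_indicator (measurableSet_Ioo.prod measurableSet_Ioo)]
  have hinter : (Ioi (0 : ℝ) ×ˢ Ioo (-Real.pi) Real.pi) ∩ (Ioo (0 : ℝ) R ×ˢ Ioo (-Real.pi) Real.pi)
      = Ioo (0 : ℝ) R ×ˢ Ioo (-Real.pi) Real.pi := by
    apply inter_eq_right.2
    exact prod_mono Ioo_subset_Ioi_self subset_rfl
  rw [hinter]
  have hcont : Continuous (fun p : ℝ × ℝ => p.1 * g (pp y p.1 p.2)) :=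
    continuous_fst.mul (hg.comp (continuous_pp y))
  have hint : IntegrableOn (fun p : ℝ × ℝ => p.1 * g (pp y p.1 p.2))
      (Ioo (0 : ℝ) R ×ˢ Ioo (-Real.pi) Real.pi) (volume.prod volume) :=
    (hcont.continuousOn.integrableOn_compact (isCompact_Icc.prod isCompact_Icc)).mono_set
      (prod_mono Ioo_subset_Icc_self Ioo_subset_Icc_self)
  rw [Measure.volume_eq_prod, setIntegral_prod _ hint, intervalIntegral.integral_of_le hR,
    integral_Ioc_eq_integral_Ioo]
  refine setIntegral_congr_fun measurableSet_Ioo fun t _ => ?_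
  simp only
  rw [intervalIntegral.integral_of_le hpi, integral_Ioc_eq_integral_Ioo]

theorem ball_energy (hv : ContDiff ℝ 1 v) (y : ℂ) {R : ℝ} (hR : 0 ≤ R) {a b : ℝ} (h0 : 0 ≤ a)
    (hab : a ≤ b) (hb : b ≤ R) :
    ∫ t in a..b, ∫ α in (-Real.pi)..Real.pi, t * ‖fderiv ℝ v (pp y t α)‖ ^ 2 ≤
      ∫ z in Metric.ball y R, ‖fderiv ℝ v z‖ ^ 2 := by
  have hpi : -Real.pi ≤ Real.pi := by linarith [Real.pi_pos]
  have hg : Continuous (fun z => ‖fderiv ℝ v z‖ ^ 2) :=
    (hv.continuous_fderiv (by norm_num)).norm.pow 2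
  rw [polar_ball hg y hR]
  have hc : Continuous (fun t => ∫ α in (-Real.pi)..Real.pi, t * ‖fderiv ℝ v (pp y t α)‖ ^ 2) :=
    continuous_inner (g := fun t α => t * ‖fderiv ℝ v (pp y t α)‖ ^ 2)
      (continuous_fst.mul ((continuous_G hv y).pow 2)) _ _
  rw [intervalIntegral.integral_of_le hab, intervalIntegral.integral_of_le hR]
  apply setIntegral_mono_set
  · exact (hc.intervalIntegrable (μ := volume) 0 R).1
  · rw [Filter.EventuallyLE, ae_restrict_iff' measurableSet_Ioc]
    refine Filter.Eventually.of_forall fun t ht => ?_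
    show (0 : ℝ) ≤ _
    apply intervalIntegral.integral_nonneg hpi
    intro α _
    exact mul_nonneg ht.1.le (sq_nonneg _)
  · exact (Ioc_subset_Ioc h0 hb).eventuallyLE

/-- first form, with a parameter -/
theorem poinc_lam (hv : ContDiff ℝ 1 v) (y : ℂ) {r s : ℝ} (hs : 0 < s) (hsr : s ≤ r)
    (hz : ∀ x ∈ Icc r (2 * r), ∃ z, dist z y = x ∧ v z = 0) {lam : ℝ} (hlam : 0 < lam) :
    ∫ z in Metric.ball y s, |v z| ≤
      s ^ 2 * (2 * lam * (∫ z in Metric.ball y (2 * r), ‖fderiv ℝ v z‖ ^ 2) +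
        20 / lam * (1 + Real.log (r / s))) := by
  have hr : 0 < r := hs.trans_le hsr
  have hpi0 := Real.pi_pos
  set E : ℝ := ∫ z in Metric.ball y (2 * r), ‖fderiv ℝ v z‖ ^ 2 with hE
  have hE0 : 0 ≤ E := setIntegral_nonneg measurableSet_ball fun z _ => sq_nonneg _
  have hFc : Continuous (fun p : ℝ × ℝ => v (pp y p.1 p.2)) := hv.continuous.comp (continuous_pp y)
  have h1 : ∀ ρ, 0 < ρ → ρ ≤ r → ∫ θ in (-Real.pi)..Real.pi, |v (pp y ρ θ)| ≤
      (2 * Real.pi * (lam / 2 * E + 3 * Real.pi / (2 * lam)) + lam / 2 * E) +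
        Real.pi / lam * Real.log (2 * r / ρ) := by
    intro ρ hρ hρr
    have := polar_avg (F := fun t α => v (pp y t α)) (G := fun t α => ‖fderiv ℝ v (pp y t α)‖)
      hFc (continuous_G hv y) (fun t α => norm_nonneg _) hr hpi0.le
      (fun θ a b hab => rad_le hv y θ hab) ?_ hlam (E := E) ?_ hρ hρr
    · linarith
    · intro x hx θ hθ
      obtain ⟨z, hz1, hz2⟩ := hz x hx
      exact circ_le hv y (hr.le.trans hx.1) hz1 hz2 hθ
    · intro a b h0 hab hb
      exact ball_energy hv y (by linarith) h0 hab hb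
  have h2 := polar_total (F := fun t α => v (pp y t α)) hFc hs hsr
    (show 0 ≤ Real.pi / lam by positivity) h1
  rw [polar_ball hv.continuous.abs y hs.le]
  refine h2.trans ?_
  apply mul_le_mul_of_nonneg_left _ (sq_nonneg s)
  -- numbers
  have hlog : Real.log (2 * r / s) ≤ 7 / 10 + Real.log (r / s) := by
    have e : 2 * r / s = 2 * (r / s) := by ring
    rw [e, Real.log_mul (by norm_num) (by positivity)]
    have := Real.log_two_lt_d9
    linarith
  have hL0 : 0 ≤ Real.log (r / s) := Real.log_nonneg (by rw [le_div_iff₀ hs]; linarith)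
  have hpi1 : Real.pi < 3.15 := Real.pi_lt_d2
  have hpi2 : Real.pi ^ 2 ≤ 10 := by nlinarith
  set L := Real.log (r / s) with hL
  have e1 : (2 * Real.pi * (lam / 2 * E + 3 * Real.pi / (2 * lam)) + lam / 2 * E) / 2
      = (Real.pi / 2 + 1 / 4) * (lam * E) + 3 * Real.pi ^ 2 / 2 / lam := by
    field_simp
    ring
  rw [e1]
  have h3 : (Real.pi / 2 + 1 / 4) * (lam * E) ≤ 2 * (lam * E) := by
    apply mul_le_mul_of_nonneg_right _ (by positivity)
    linarith
  have h4 : 3 * Real.pi ^ 2 / 2 / lam ≤ 15 / lam := by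
    apply div_le_div_of_nonneg_right _ hlam.le
    linarith
  have h5 : Real.pi / lam * (Real.log (2 * r / s) / 2 + 1) ≤ (3.15 / lam) * ((7 / 10 + L) / 2 + 1) := by
    apply mul_le_mul
    · apply div_le_div_of_nonneg_right _ hlam.le
      exact hpi1.le
    · linarith
    · have : 0 ≤ Real.log (2 * r / s) := Real.log_nonneg (by rw [le_div_iff₀ hs]; linarith)
      positivity
    · positivity
  have h6 : (3.15 / lam) * ((7 / 10 + L) / 2 + 1) + 15 / lam ≤ 20 / lam * (1 + L) := by
    have e2 : 20 / lam * (1 + L) - ((3.15 / lam) * ((7 / 10 + L) / 2 + 1) + 15 / lam)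
        = (20 * (1 + L) - (3.15 * ((7 / 10 + L) / 2 + 1) + 15)) / lam := by
      field_simp
    have h7 : 0 ≤ (20 * (1 + L) - (3.15 * ((7 / 10 + L) / 2 + 1) + 15)) / lam := by
      apply div_nonneg _ hlam.le
      linarith
    linarith
  linarith

/-- optimisation over the parameter -/
theorem opt_lam {X a b : ℝ} (hX : 0 ≤ X) (ha : 0 ≤ a) (hb : 0 < b)
    (h : ∀ lam : ℝ, 0 < lam → X ≤ lam * a + b / lam) : X ^ 2 ≤ 4 * a * b := by
  rcases eq_or_lt_of_le ha with h0 | h0
  · -- a = 0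
    have hX0 : X = 0 := by
      by_contra hne
      have hXp : 0 < X := lt_of_le_of_ne hX (Ne.symm hne)
      have h1 := h (2 * b / X) (by positivity)
      rw [← h0, mul_zero, zero_add] at h1
      have e : b / (2 * b / X) = X / 2 := by field_simp
      rw [e] at h1
      linarith
    rw [hX0, ← h0]
    simp
  · have hs : 0 < Real.sqrt (b / a) := Real.sqrt_pos.2 (by positivity)
    have h1 := h (Real.sqrt (b / a)) hs
    have h2 : b / Real.sqrt (b / a) = Real.sqrt (b / a) * a := by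
      rw [div_eq_iff hs.ne']
      have : Real.sqrt (b / a) * Real.sqrt (b / a) = b / a := Real.mul_self_sqrt (by positivity)
      calc b = b / a * a := by field_simp
        _ = Real.sqrt (b / a) * Real.sqrt (b / a) * a := by rw [this]
        _ = _ := by ring
    rw [h2] at h1
    have h3 : X ≤ 2 * (Real.sqrt (b / a) * a) := by linarith
    have h4 : (Real.sqrt (b / a) * a) ^ 2 = a * b := by
      rw [mul_pow, Real.sq_sqrt (by positivity)]
      field_simp
    calc X ^ 2 ≤ (2 * (Real.sqrt (b / a) * a)) ^ 2 := by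
          apply pow_le_pow_left₀ hX h3
      _ = 4 * (Real.sqrt (b / a) * a) ^ 2 := by ring
      _ = 4 * a * b := by rw [h4]; ring

/-- **Poincare inequality at a zero set meeting all circles of radii between `r` and `2 r`.** -/
theorem poinc (hv : ContDiff ℝ 1 v) (y : ℂ) {r s : ℝ} (hs : 0 < s) (hsr : s ≤ r)
    (hz : ∀ x ∈ Icc r (2 * r), ∃ z, dist z y = x ∧ v z = 0) :
    (∫ z in Metric.ball y s, |v z|) ^ 2 ≤
      160 * s ^ 4 * (1 + Real.log (r / s)) *
        ∫ z in Metric.ball y (2 * r), ‖fderiv ℝ v z‖ ^ 2 := by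
  set E : ℝ := ∫ z in Metric.ball y (2 * r), ‖fderiv ℝ v z‖ ^ 2 with hE
  have hE0 : 0 ≤ E := setIntegral_nonneg measurableSet_ball fun z _ => sq_nonneg _
  have hL0 : 0 ≤ Real.log (r / s) := Real.log_nonneg (by rw [le_div_iff₀ hs]; linarith)
  have h := opt_lam (X := ∫ z in Metric.ball y s, |v z|) (a := s ^ 2 * (2 * E))
    (b := s ^ 2 * (20 * (1 + Real.log (r / s))))
    (setIntegral_nonneg measurableSet_ball fun z _ => abs_nonneg _) (by positivity)
    (by positivity) (fun lam hlam => ?_)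
  · refine h.trans (le_of_eq ?_)
    ring
  · refine (poinc_lam hv y hs hsr hz hlam).trans (le_of_eq ?_)
    rw [← hE]
    field_simp

/-- Poincare inequality against a density: for `|φ| ≤ M / s ^ 2` vanishing off `ball y s`. -/
theorem poinc_phi (hv : ContDiff ℝ 1 v) (y : ℂ) {r s : ℝ} (hs : 0 < s) (hsr : s ≤ r)
    (hz : ∀ x ∈ Icc r (2 * r), ∃ z, dist z y = x ∧ v z = 0) {φ : ℂ → ℝ} {M : ℝ}
    (hφ : ∀ z, |φ z| ≤ M / s ^ 2) (hφ0 : ∀ z, z ∉ Metric.ball y s → φ z = 0) :
    (∫ z, φ z * v z) ^ 2 ≤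
      160 * M ^ 2 * (1 + Real.log (r / s)) *
        ∫ z in Metric.ball y (2 * r), ‖fderiv ℝ v z‖ ^ 2 := by
  have hM : 0 ≤ M := by
    have := (abs_nonneg _).trans (hφ 0)
    have h2 : 0 < s ^ 2 := by positivity
    rcases div_nonneg_iff.1 this with h | h
    · exact h.1
    · linarith [h.2]
  have hint : IntegrableOn (fun z => M / s ^ 2 * |v z|) (Metric.ball y s) :=
    ((continuous_const.mul hv.continuous.abs).continuousOn.integrableOn_compact
      (isCompact_closedBall y s)).mono_set Metric.ball_subset_closedBall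
  have h1 : |∫ z, φ z * v z| ≤ ∫ z in Metric.ball y s, M / s ^ 2 * |v z| := by
    rw [← integral_indicator measurableSet_ball, ← Real.norm_eq_abs]
    apply norm_integral_le_of_norm_le (hint.integrable_indicator measurableSet_ball)
    refine Filter.Eventually.of_forall fun z => ?_
    rw [Real.norm_eq_abs, abs_mul]
    by_cases h : z ∈ Metric.ball y s
    · rw [indicator_of_mem h]
      exact mul_le_mul_of_nonneg_right (hφ z) (abs_nonneg _)
    · rw [indicator_of_notMem h, hφ0 z h, abs_zero, zero_mul]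
  rw [integral_const_mul] at h1
  have h2 := poinc hv y hs hsr hz
  calc (∫ z, φ z * v z) ^ 2 = |∫ z, φ z * v z| ^ 2 := (sq_abs _).symm
    _ ≤ (M / s ^ 2 * ∫ z in Metric.ball y s, |v z|) ^ 2 :=
        pow_le_pow_left₀ (abs_nonneg _) h1 2
    _ = (M / s ^ 2) ^ 2 * (∫ z in Metric.ball y s, |v z|) ^ 2 := by ring
    _ ≤ (M / s ^ 2) ^ 2 * (160 * s ^ 4 * (1 + Real.log (r / s)) *
        ∫ z in Metric.ball y (2 * r), ‖fderiv ℝ v z‖ ^ 2) :=
        mul_le_mul_of_nonneg_left h2 (sq_nonneg _)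
    _ = _ := by
      field_simp

/-- a connected set which comes within `r` of `y` and is not contained in the ball of radius
`2 r` meets all circles in between -/
theorem meets_circles {A : Set ℂ} (hA : IsPreconnected A) {y : ℂ} {r : ℝ}
    (h1 : ∃ z ∈ A, dist z y ≤ r) (h2 : ∃ z ∈ A, 2 * r ≤ dist z y) :
    ∀ x ∈ Icc r (2 * r), ∃ z ∈ A, dist z y = x := by
  intro x hx
  obtain ⟨z1, hz1, h1⟩ := h1
  obtain ⟨z2, hz2, h2⟩ := h2
  have hc : ContinuousOn (fun z => dist z y) A := (continuous_id.dist continuous_const).continuousOn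
  obtain ⟨z, hz, h⟩ := hA.intermediate_value hz1 hz2 hc
    (show x ∈ Icc (dist z1 y) (dist z2 y) from ⟨h1.trans hx.1, hx.2.trans h2⟩)
  exact ⟨z, hz, h⟩

end Vale.Agent.P155.U
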