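import Vale.Agent.P155.U.Amgm

/-!
# P155 uniqueness: one-variable and polar coordinate estimates for smooth functions in the plane
-/

namespace Vale.Agent.P155.U

open MeasureTheory Set

/-- the point with polar coordinates `(ρ, θ)` around `y` -/
noncomputable def pp (y : ℂ) (ρ θ : ℝ) : ℂ := y + ρ * Complex.exp (θ * Complex.I)

theorem continuous_pp (y : ℂ) : Continuous (fun p : ℝ × ℝ => pp y p.1 p.2) := by
  unfold pp
  fun_prop

theorem norm_pp_sub (y : ℂ) {ρ : ℝ} (hρ : 0 ≤ ρ) (θ : ℝ) : ‖pp y ρ θ - y‖ = ρ := by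
  unfold pp
  rw [add_sub_cancel_left, norm_mul, Complex.norm_exp_ofReal_mul_I, mul_one, Complex.norm_real,
    Real.norm_of_nonneg hρ]

theorem exists_pp {y z : ℂ} {ρ : ℝ} (h : dist z y = ρ) :
    ∃ θ ∈ Icc (-Real.pi) Real.pi, pp y ρ θ = z := by
  refine ⟨(z - y).arg, ⟨(Complex.neg_pi_lt_arg _).le, Complex.arg_le_pi _⟩, ?_⟩
  unfold pp
  have h1 : ‖z - y‖ = ρ := by rw [← h, Complex.dist_eq]
  rw [← h1, Complex.norm_mul_exp_arg_mul_I]
  ring

variable {v : ℂ → ℝ}

theorem hasDerivAt_rad (hv : ContDiff ℝ 1 v) (y : ℂ) (θ t : ℝ) :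
    HasDerivAt (fun t : ℝ => v (pp y t θ))
      (fderiv ℝ v (pp y t θ) (Complex.exp (θ * Complex.I))) t := by
  have h1 : HasFDerivAt v (fderiv ℝ v (pp y t θ)) (pp y t θ) :=
    (hv.differentiable (by norm_num) _).hasFDerivAt
  have h2 : HasDerivAt (fun t : ℝ => pp y t θ) (Complex.exp (θ * Complex.I)) t := by
    unfold pp
    have h3 : HasDerivAt (fun t : ℝ => (t : ℂ)) 1 t := Complex.ofRealCLM.hasDerivAt
    have h4 := (h3.mul_const (Complex.exp (θ * Complex.I))).const_add y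
    simpa using h4
  exact h1.comp_hasDerivAt t h2

theorem hasDerivAt_ang (hv : ContDiff ℝ 1 v) (y : ℂ) (ρ α : ℝ) :
    HasDerivAt (fun α : ℝ => v (pp y ρ α))
      (fderiv ℝ v (pp y ρ α) (ρ * (Complex.exp (α * Complex.I) * Complex.I))) α := by
  have h1 : HasFDerivAt v (fderiv ℝ v (pp y ρ α)) (pp y ρ α) :=
    (hv.differentiable (by norm_num) _).hasFDerivAt
  have h2 : HasDerivAt (fun α : ℝ => pp y ρ α)
      (ρ * (Complex.exp (α * Complex.I) * Complex.I)) α := by
    unfold pp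
    have h3 : HasDerivAt (fun t : ℝ => (t : ℂ) * Complex.I) Complex.I α := by
      have := (Complex.ofRealCLM.hasDerivAt (x := α)).mul_const Complex.I
      simpa using this
    have h4 := (h3.cexp.const_mul (ρ : ℂ)).const_add y
    simpa using h4
  exact h1.comp_hasDerivAt α h2

theorem continuous_G (hv : ContDiff ℝ 1 v) (y : ℂ) :
    Continuous (fun p : ℝ × ℝ => ‖fderiv ℝ v (pp y p.1 p.2)‖) :=
  ((hv.continuous_fderiv (by norm_num)).comp (continuous_pp y)).norm

theorem rad_le (hv : ContDiff ℝ 1 v) (y : ℂ) (θ : ℝ) {a b : ℝ} (hab : a ≤ b) :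
    |v (pp y b θ) - v (pp y a θ)| ≤ ∫ t in a..b, ‖fderiv ℝ v (pp y t θ)‖ := by
  have hc1 : Continuous (fun t : ℝ => pp y t θ) :=
    (continuous_pp y).comp (Continuous.prodMk_left θ)
  have hc : Continuous (fun t : ℝ => fderiv ℝ v (pp y t θ) (Complex.exp (θ * Complex.I))) :=
    ((hv.continuous_fderiv (by norm_num)).comp hc1).clm_apply continuous_const
  have h1 := intervalIntegral.integral_eq_sub_of_hasDerivAt
    (fun t _ => hasDerivAt_rad hv y θ t) (hc.intervalIntegrable a b)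
  rw [← h1, ← Real.norm_eq_abs]
  refine (intervalIntegral.norm_integral_le_integral_norm hab).trans ?_
  apply intervalIntegral.integral_mono_on hab (hc.norm.intervalIntegrable a b)
  · exact ((hv.continuous_fderiv (by norm_num)).comp hc1).norm.intervalIntegrable a b
  · intro t _
    have := (fderiv ℝ v (pp y t θ)).le_opNorm (Complex.exp (θ * Complex.I))
    rwa [Complex.norm_exp_ofReal_mul_I, mul_one] at this

theorem ang_le (hv : ContDiff ℝ 1 v) (y : ℂ) {ρ : ℝ} (hρ : 0 ≤ ρ) {a b : ℝ} (hab : a ≤ b) :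
    |v (pp y ρ b) - v (pp y ρ a)| ≤ ∫ α in a..b, ρ * ‖fderiv ℝ v (pp y ρ α)‖ := by
  have hc1 : Continuous (fun α : ℝ => pp y ρ α) :=
    (continuous_pp y).comp (Continuous.prodMk_right ρ)
  have hc : Continuous (fun α : ℝ => fderiv ℝ v (pp y ρ α)
      (ρ * (Complex.exp (α * Complex.I) * Complex.I))) := by
    refine ((hv.continuous_fderiv (by norm_num)).comp hc1).clm_apply ?_
    fun_prop
  have h1 := intervalIntegral.integral_eq_sub_of_hasDerivAt
    (fun t _ => hasDerivAt_ang hv y ρ t) (hc.intervalIntegrable a b)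
  rw [← h1, ← Real.norm_eq_abs]
  refine (intervalIntegral.norm_integral_le_integral_norm hab).trans ?_
  apply intervalIntegral.integral_mono_on hab (hc.norm.intervalIntegrable a b)
  · exact (continuous_const.mul
      ((hv.continuous_fderiv (by norm_num)).comp hc1).norm).intervalIntegrable a b
  · intro α _
    have := (fderiv ℝ v (pp y ρ α)).le_opNorm (ρ * (Complex.exp (α * Complex.I) * Complex.I))
    rw [norm_mul, norm_mul, Complex.norm_exp_ofReal_mul_I, Complex.norm_I, Complex.norm_real,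
      Real.norm_of_nonneg hρ, one_mul, mul_one] at this
    linarith

/-- a function with a zero on the circle of radius `ρ` is bounded by its variation -/
theorem circ_le (hv : ContDiff ℝ 1 v) (y : ℂ) {ρ : ℝ} (hρ : 0 ≤ ρ) {z : ℂ} (hz : dist z y = ρ)
    (h0 : v z = 0) {θ : ℝ} (hθ : θ ∈ Icc (-Real.pi) Real.pi) :
    |v (pp y ρ θ)| ≤ ∫ α in (-Real.pi)..Real.pi, ρ * ‖fderiv ℝ v (pp y ρ α)‖ := by
  obtain ⟨θ₀, hθ₀, hz₀⟩ := exists_pp hz
  have hc1 : Continuous (fun α : ℝ => pp y ρ α) :=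
    (continuous_pp y).comp (Continuous.prodMk_right ρ)
  have hc : Continuous (fun α : ℝ => ρ * ‖fderiv ℝ v (pp y ρ α)‖) :=
    continuous_const.mul ((hv.continuous_fderiv (by norm_num)).comp hc1).norm
  have hnn : ∀ α, 0 ≤ ρ * ‖fderiv ℝ v (pp y ρ α)‖ := fun α => mul_nonneg hρ (norm_nonneg _)
  have key : ∀ a b : ℝ, -Real.pi ≤ a → a ≤ b → b ≤ Real.pi →
      ∫ α in a..b, ρ * ‖fderiv ℝ v (pp y ρ α)‖ ≤
        ∫ α in (-Real.pi)..Real.pi, ρ * ‖fderiv ℝ v (pp y ρ α)‖ := by
    intro a b h1 h2 h3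
    exact intervalIntegral.integral_mono_interval h1 h2 h3
      (Filter.Eventually.of_forall hnn) (hc.intervalIntegrable _ _)
  have hv0 : v (pp y ρ θ₀) = 0 := by rw [hz₀, h0]
  rcases le_total θ₀ θ with h | h
  · have := ang_le hv y hρ h
    rw [hv0, sub_zero] at this
    exact this.trans (key _ _ hθ₀.1 h hθ.2)
  · have := ang_le hv y hρ h
    rw [hv0, zero_sub, abs_neg] at this
    exact this.trans (key _ _ hθ.1 h hθ₀.2)

end Vale.Agent.P155.U
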