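import Vale.Agent.P155.U.Exit

/-!
# P155, block U (uniqueness), KEY: sweeping estimates for simple random walk
-/

namespace Vale.Agent.P155.UK

open Finset Vale.Agent.P155.G45

theorem dir_lap_sub {O D : Set Pt} (hO : O.Finite) (hD : D ⊆ O) (f : Pt → ℝ) {x : Pt}
    (hx : x ∈ D) : lap (dir O f) x = 0 := dir_lap hO f (hD hx)

/-- Domain monotonicity of exit weights at points of `P`. -/
theorem W_le_W {P Q : Set Pt} (hP : (Pᶜ : Set Pt).Finite) (x : Pt) {y : Pt} (hy : y ∈ P) :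
    W (P ∪ Q)ᶜ x y ≤ W Pᶜ x y := by
  classical
  have hsub : (P ∪ Q)ᶜ ⊆ Pᶜ := Set.compl_subset_compl.2 Set.subset_union_left
  apply dir_le (hP.subset hsub)
  · intro z hz
    exact (dir_lap hP _ (hsub hz)).le
  · intro z hz
    by_cases hzP : z ∈ P
    · rw [W_off (by simpa using hzP)]
    · rw [if_neg]
      · exact W_nonneg hP z y
      · rintro rfl; exact hzP hy

section sweep

variable {B : Finset Pt} {P Pm Q T Tm : Set Pt}

/-- The swept weights. -/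
noncomputable def wF (B : Finset Pt) (P Pm Q Tm : Set Pt) (z y : Pt) : ℝ :=
  ∑ x ∈ B, W (Pm ∪ Q)ᶜ z x * ch Tm x * W Pᶜ x y

theorem w1_le_wF (hB : Inn B Pᶜ) (hP : P ⊆ Pm) (hT : T ⊆ P)
    (hTm : ∀ x, x ∈ Pm ∪ Q → x ∉ Tm → x ∈ Q ∧ x ∉ T) {z : Pt} (hz : z ∈ B) (y : Pt) :
    W (P ∪ Q)ᶜ z y * ch T y ≤ wF B P Pm Q Tm z y := by
  classical
  have hsub : (P ∪ Q)ᶜ ⊆ Pᶜ := Set.compl_subset_compl.2 Set.subset_union_left
  have hsub2 : (Pm ∪ Q)ᶜ ⊆ (P ∪ Q)ᶜ :=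
    Set.compl_subset_compl.2 (Set.union_subset_union_left _ hP)
  have hO := hB.mono hsub
  have hD := hO.mono hsub2
  have hnn : 0 ≤ wF B P Pm Q Tm z y := Finset.sum_nonneg fun x _ =>
    mul_nonneg (mul_nonneg (W_nonneg hD.finite _ _) (ch_nonneg _ _)) (W_nonneg hB.finite _ _)
  by_cases hy : y ∈ T
  swap
  · rw [ch_not hy, mul_zero]; exact hnn
  rw [ch_mem hy, mul_one, W_tower hO hsub2 hz]
  apply Finset.sum_le_sum
  intro x _
  by_cases hx : x ∈ (Pm ∪ Q)ᶜ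
  · rw [W_mem hD.finite z hx]; simp
  · have hx' : x ∈ Pm ∪ Q := by_contra fun h => hx h
    by_cases hxT : x ∈ Tm
    · rw [ch_mem hxT, mul_one]
      exact mul_le_mul_of_nonneg_left (W_le_W hB.finite x (hT hy)) (W_nonneg hD.finite _ _)
    · obtain ⟨hxQ, hxnT⟩ := hTm x hx' hxT
      have : W (P ∪ Q)ᶜ x y = 0 := by
        rw [W_off (by simp [hxQ]), if_neg]
        rintro rfl; exact hxnT hy
      rw [this, mul_zero]
      exact mul_nonneg (mul_nonneg (W_nonneg hD.finite _ _) (ch_nonneg _ _))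
        (W_nonneg hB.finite _ _)

theorem v_le (hB : Inn B Pᶜ) (hP : P ⊆ Pm) (hTm : Tm ⊆ Pm) (z x : Pt) :
    W (Pm ∪ Q)ᶜ z x * ch Tm x ≤ W Pmᶜ z x := by
  have hPm : Inn B Pmᶜ := hB.mono (Set.compl_subset_compl.2 hP)
  by_cases hx : x ∈ Tm
  · rw [ch_mem hx, mul_one]
    exact W_le_W hPm.finite z (hTm hx)
  · rw [ch_not hx, mul_zero]
    exact W_nonneg hPm.finite _ _

theorem wF_le (hB : Inn B Pᶜ) (hP : P ⊆ Pm) (hTm : Tm ⊆ Pm) {z : Pt} (hz : z ∈ B) (y : Pt) :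
    wF B P Pm Q Tm z y ≤ W Pᶜ z y := by
  rw [W_tower hB (Set.compl_subset_compl.2 hP) hz]
  apply Finset.sum_le_sum
  intro x _
  exact mul_le_mul_of_nonneg_right (v_le hB hP hTm z x) (W_nonneg hB.finite _ _)

theorem sum_wF (hB : Inn B Pᶜ) (hP : P ⊆ Pm) {z : Pt} (hz : z ∈ B) :
    ∑ y ∈ B, wF B P Pm Q Tm z y = dir (Pm ∪ Q)ᶜ (ch Tm) z := by
  have hsub : (Pm ∪ Q)ᶜ ⊆ Pᶜ :=
    Set.compl_subset_compl.2 (hP.trans Set.subset_union_left)
  rw [dir_eq_sum (hB.mono hsub) _ hz]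
  unfold wF
  rw [Finset.sum_comm]
  apply Finset.sum_congr rfl
  intro x hx
  rw [← Finset.mul_sum, sum_W hB hx, mul_one]

theorem sum_w1 (hB : Inn B Pᶜ) {z : Pt} (hz : z ∈ B) :
    ∑ y ∈ B, W (P ∪ Q)ᶜ z y * ch T y = dir (P ∪ Q)ᶜ (ch T) z :=
  (dir_eq_sum (hB.mono (Set.compl_subset_compl.2 Set.subset_union_left)) _ hz).symm

/-- The sweeping inequality: the adversarial weights `W (P ∪ Q)ᶜ z y * ch T y` are compared with
quantities depending on `P`, `Pm` only, up to the loss of mass. -/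
theorem sweep (hB : Inn B Pᶜ) (hP : P ⊆ Pm) (hT : T ⊆ P) (hTm' : Tm ⊆ Pm)
    (hTm : ∀ x, x ∈ Pm ∪ Q → x ∉ Tm → x ∈ Q ∧ x ∉ T) {z : Pt} (hz : z ∈ B) (G : Pt → ℝ) :
    |∑ y ∈ B, W (P ∪ Q)ᶜ z y * ch T y * G y| ≤
      ∑ x ∈ B, W Pmᶜ z x * |∑ y ∈ B, W Pᶜ x y * G y| +
      √(∑ y ∈ B, W Pᶜ z y * G y ^ 2) *
        √(dir (Pm ∪ Q)ᶜ (ch Tm) z - dir (P ∪ Q)ᶜ (ch T) z) := by
  have hsub2 : (Pm ∪ Q)ᶜ ⊆ Pᶜ :=
    Set.compl_subset_compl.2 (hP.trans Set.subset_union_left)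
  have hD := hB.mono hsub2
  have hPm : Inn B Pmᶜ := hB.mono (Set.compl_subset_compl.2 hP)
  set w1 : Pt → ℝ := fun y => W (P ∪ Q)ᶜ z y * ch T y with hw1
  set wf : Pt → ℝ := fun y => wF B P Pm Q Tm z y with hwf
  have hle : ∀ y, w1 y ≤ wf y := fun y => w1_le_wF hB hP hT hTm hz y
  have h1 : ∑ y ∈ B, W (P ∪ Q)ᶜ z y * ch T y * G y =
      ∑ y ∈ B, wf y * G y - ∑ y ∈ B, (wf y - w1 y) * G y := by
    rw [← Finset.sum_sub_distrib]
    apply Finset.sum_congr rfl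
    intro y _
    simp only [hw1]; ring
  have h2 : |∑ y ∈ B, wf y * G y| ≤ ∑ x ∈ B, W Pmᶜ z x * |∑ y ∈ B, W Pᶜ x y * G y| := by
    have e : ∑ y ∈ B, wf y * G y =
        ∑ x ∈ B, W (Pm ∪ Q)ᶜ z x * ch Tm x * ∑ y ∈ B, W Pᶜ x y * G y := by
      simp only [hwf, wF, Finset.sum_mul, Finset.mul_sum]
      rw [Finset.sum_comm]
      apply Finset.sum_congr rfl
      intro x _
      apply Finset.sum_congr rfl
      intro y _
      ring
    rw [e]
    refine (Finset.abs_sum_le_sum_abs _ _).trans (Finset.sum_le_sum fun x _ => ?_)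
    rw [abs_mul, abs_of_nonneg (mul_nonneg (W_nonneg hD.finite _ _) (ch_nonneg _ _))]
    exact mul_le_mul_of_nonneg_right (v_le hB hP hTm' z x) (abs_nonneg _)
  have h3 : |∑ y ∈ B, (wf y - w1 y) * G y| ≤ √(∑ y ∈ B, W Pᶜ z y * G y ^ 2) *
        √(dir (Pm ∪ Q)ᶜ (ch Tm) z - dir (P ∪ Q)ᶜ (ch T) z) := by
    have e : dir (Pm ∪ Q)ᶜ (ch Tm) z - dir (P ∪ Q)ᶜ (ch T) z = ∑ y ∈ B, (wf y - w1 y) := by
      rw [Finset.sum_sub_distrib, ← sum_wF hB hP hz, ← sum_w1 hB hz]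
    rw [e]
    have cs := Real.sum_mul_le_sqrt_mul_sqrt B (fun y => √(wf y - w1 y) * |G y|)
      (fun y => √(wf y - w1 y))
    have e1 : ∀ y, √(wf y - w1 y) * |G y| * √(wf y - w1 y) = (wf y - w1 y) * |G y| := by
      intro y
      have := Real.mul_self_sqrt (sub_nonneg.2 (hle y))
      calc _ = (√(wf y - w1 y) * √(wf y - w1 y)) * |G y| := by ring
        _ = _ := by rw [this]
    have e2 : ∀ y, (√(wf y - w1 y) * |G y|) ^ 2 = (wf y - w1 y) * G y ^ 2 := by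
      intro y
      rw [mul_pow, Real.sq_sqrt (sub_nonneg.2 (hle y)), sq_abs]
    have e3 : ∀ y, √(wf y - w1 y) ^ 2 = wf y - w1 y := fun y =>
      Real.sq_sqrt (sub_nonneg.2 (hle y))
    simp only [e1, e2, e3] at cs
    calc |∑ y ∈ B, (wf y - w1 y) * G y| ≤ ∑ y ∈ B, (wf y - w1 y) * |G y| := by
          refine (Finset.abs_sum_le_sum_abs _ _).trans (Finset.sum_le_sum fun y _ => ?_)
          rw [abs_mul, abs_of_nonneg (sub_nonneg.2 (hle y))]
      _ ≤ _ := cs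
      _ ≤ _ := by
          apply mul_le_mul_of_nonneg_right _ (Real.sqrt_nonneg _)
          apply Real.sqrt_le_sqrt
          apply Finset.sum_le_sum
          intro y _
          apply mul_le_mul_of_nonneg_right _ (sq_nonneg _)
          have a1 := wF_le hB hP hTm' hz y (Q := Q)
          have a2 : 0 ≤ w1 y := mul_nonneg (W_nonneg
            (hB.mono (Set.compl_subset_compl.2 Set.subset_union_left)).finite _ _) (ch_nonneg _ _)
          simp only [hwf]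
          linarith
  rw [h1]
  calc _ ≤ |∑ y ∈ B, wf y * G y| + |∑ y ∈ B, (wf y - w1 y) * G y| := abs_sub _ _
    _ ≤ _ := add_le_add h2 h3

end sweep

/-- Probability to hit `S` not later than `R`. -/
noncomputable def hp (S R : Set Pt) (z : Pt) : ℝ := dir (S ∪ R)ᶜ (ch S) z

theorem hp_in {S R : Set Pt} {z : Pt} (h : z ∈ S) : hp S R z = 1 := by
  unfold hp; rw [dir_off _ (by simp [h]), ch_mem h]

theorem hp_out {S R : Set Pt} {z : Pt} (h : z ∈ R) (h' : z ∉ S) : hp S R z = 0 := by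
  unfold hp; rw [dir_off _ (by simp [h]), ch_not h']

theorem hp_le_one {S R : Set Pt} (h : ((S ∪ R)ᶜ : Set Pt).Finite) (z : Pt) : hp S R z ≤ 1 :=
  dir_le_one h (fun x _ => ch_le_one S x) z

theorem hp_nonneg {S R : Set Pt} (h : ((S ∪ R)ᶜ : Set Pt).Finite) (z : Pt) : 0 ≤ hp S R z :=
  dir_nonneg h (fun x _ => ch_nonneg S x) z

theorem hp_lap {S R D : Set Pt} (h : ((S ∪ R)ᶜ : Set Pt).Finite) (hD : D ⊆ (S ∪ R)ᶜ) {x : Pt}
    (hx : x ∈ D) : lap (hp S R) x = 0 := dir_lap h _ (hD hx)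

/-- Type 1 loss of mass, telescoping. -/
theorem loss1 {S1 S2 S3 R R' : Set Pt} (h12 : S2 ⊆ S1) (h23 : S3 ⊆ S2) (hR : R' ⊆ R)
    (hfin : ((S3 ∪ R')ᶜ : Set Pt).Finite) {ε : ℝ} (hε0 : 0 ≤ ε)
    (hε : ∀ x ∈ R, x ∉ S2 → hp S3 R' x ≤ ε) (z : Pt) :
    hp S1 R z - hp S2 R z ≤ hp S1 R' z - hp S3 R' z + ε := by
  have s2 : (S2 ∪ R)ᶜ ⊆ (S3 ∪ R')ᶜ := Set.compl_subset_compl.2 (Set.union_subset_union h23 hR)
  have s1 : (S1 ∪ R)ᶜ ⊆ (S2 ∪ R)ᶜ := Set.compl_subset_compl.2 (Set.union_subset_union_left _ h12)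
  have s1' : (S1 ∪ R')ᶜ ⊆ (S3 ∪ R')ᶜ :=
    Set.compl_subset_compl.2 (Set.union_subset_union_left _ (h23.trans h12))
  have s11 : (S1 ∪ R)ᶜ ⊆ (S1 ∪ R')ᶜ :=
    Set.compl_subset_compl.2 (Set.union_subset_union_right _ hR)
  have f2 := hfin.subset s2
  have f1 := f2.subset s1
  have f1' := hfin.subset s1'
  have A : ∀ x, hp S3 R' x ≤ hp S2 R x + ε := by
    intro x
    apply comparison f2
    · intro y hy
      rw [hp_lap hfin s2 hy]
      have : lap (fun y => hp S2 R y + ε) y = 0 := by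
        rw [lap_add, lap_const, hp_lap f2 subset_rfl hy, add_zero]
      rw [this]
    · intro y hy
      by_cases hyS : y ∈ S2
      · rw [hp_in hyS]
        linarith [hp_le_one hfin y]
      · have hyR : y ∈ R := by
          by_contra h
          exact hy (by simp [hyS, h])
        rw [hp_out hyR hyS, zero_add]
        exact hε y hyR hyS
  have key := comparison f1 (u := fun y => hp S1 R y - hp S2 R y)
    (v := fun y => (hp S1 R' y - hp S3 R' y) + ε) ?_ ?_ z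
  · exact key
  · intro y hy
    rw [lap_add, lap_const, lap_sub, lap_sub, hp_lap f1' s11 hy, hp_lap hfin (s1.trans s2) hy,
      hp_lap f1 subset_rfl hy, hp_lap f2 s1 hy]
    norm_num
  · intro y hy
    by_cases hyS : y ∈ S1
    · rw [hp_in hyS, hp_in hyS]
      linarith [A y]
    · have hyR : y ∈ R := by
        by_contra h
        exact hy (by simp [hyS, h])
      have hyS2 : y ∉ S2 := fun h => hyS (h12 h)
      rw [hp_out hyR hyS, hp_out hyR hyS2]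
      have := hε y hyR hyS2
      have := hp_nonneg f1' y
      linarith

theorem hp_mono_R {S R R' : Set Pt} (hR : R' ⊆ R) (hfin : ((S ∪ R')ᶜ : Set Pt).Finite) (z : Pt) :
    hp S R z ≤ hp S R' z := by
  have s : (S ∪ R)ᶜ ⊆ (S ∪ R')ᶜ := Set.compl_subset_compl.2 (Set.union_subset_union_right _ hR)
  apply dir_le (hfin.subset s)
  · intro y hy
    exact (hp_lap hfin s hy).le
  · intro y hy
    by_cases hyS : y ∈ S
    · rw [ch_mem hyS, hp_in hyS]
    · rw [ch_not hyS]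
      exact hp_nonneg hfin y

/-- Type 2 loss of mass, telescoping. -/
theorem loss2 {S2 S3 R'' R R' : Set Pt} (h23 : S3 ⊆ S2) (hR : R' ⊆ R) (hR' : R ⊆ R'')
    (hfin : ((S3 ∪ R')ᶜ : Set Pt).Finite) {ε : ℝ} (hε0 : 0 ≤ ε)
    (hε : ∀ x ∈ R'', x ∉ S2 → hp S3 R' x ≤ ε) (z : Pt) :
    hp S2 R z - hp S2 R'' z ≤ hp S2 R' z - hp S3 R' z + ε := by
  have s2 : (S2 ∪ R)ᶜ ⊆ (S3 ∪ R')ᶜ := Set.compl_subset_compl.2 (Set.union_subset_union h23 hR)
  have s1 : (S2 ∪ R'')ᶜ ⊆ (S2 ∪ R)ᶜ :=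
    Set.compl_subset_compl.2 (Set.union_subset_union_right _ hR')
  have s2' : (S2 ∪ R')ᶜ ⊆ (S3 ∪ R')ᶜ := Set.compl_subset_compl.2 (Set.union_subset_union_left _ h23)
  have s22 : (S2 ∪ R)ᶜ ⊆ (S2 ∪ R')ᶜ :=
    Set.compl_subset_compl.2 (Set.union_subset_union_right _ hR)
  have f2 := hfin.subset s2
  have f1 := f2.subset s1
  have f2' := hfin.subset s2'
  have key := comparison f1 (u := fun y => hp S2 R y - hp S2 R'' y)
    (v := fun y => (hp S2 R' y - hp S3 R' y) + ε) ?_ ?_ z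
  · exact key
  · intro y hy
    rw [lap_add, lap_const, lap_sub, lap_sub, hp_lap f2' (s1.trans s22) hy,
      hp_lap hfin (s1.trans s2) hy, hp_lap f2 s1 hy, hp_lap f1 subset_rfl hy]
    norm_num
  · intro y hy
    by_cases hyS : y ∈ S2
    · rw [hp_in hyS, hp_in hyS, hp_in hyS]
      linarith [hp_le_one hfin y]
    · have hyR : y ∈ R'' := by
        by_contra h
        exact hy (by simp [hyS, h])
      rw [hp_out hyR hyS]
      have := hε y hyR hyS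
      have := hp_mono_R (S := S2) hR f2' y
      linarith

/-- Complementary probabilities. -/
theorem dir_diff {B : Finset Pt} {P Q : Set Pt} (hB : Inn B (P ∪ Q)ᶜ) {z : Pt} (hz : z ∈ B) :
    dir (P ∪ Q)ᶜ (ch (P \ Q)) z = 1 - hp Q P z := by
  unfold hp
  rw [Set.union_comm Q P]
  apply hB.eq_on (u := dir (P ∪ Q)ᶜ (ch (P \ Q))) (v := fun z => 1 - dir (P ∪ Q)ᶜ (ch Q) z) _ _ hz
  · intro x hx
    rw [dir_lap hB.finite _ hx]
    have : lap (fun z => 1 - dir (P ∪ Q)ᶜ (ch Q) z) x = 0 := by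
      rw [lap_sub, lap_const, dir_lap hB.finite _ hx]; norm_num
    rw [this]
  · intro x _ hx
    rw [dir_off _ hx, dir_off _ hx]
    by_cases hQ : x ∈ Q
    · rw [ch_mem hQ, ch_not (by simp [hQ])]; norm_num
    · have hP : x ∈ P := by
        by_contra h
        exact hx (by simp [hQ, h])
      rw [ch_not hQ, ch_mem (S := P \ Q) ⟨hP, hQ⟩]; norm_num

end Vale.Agent.P155.UK
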