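import Vale.Agent.P155.U.Family
import Vale.Agent.P155.U.Iface

/-!
# P155, block U: the Green energy off a connected set which is close to every point of the support
-/

namespace Vale.Agent.P155.Uq

open MeasureTheory Filter Topology TopologicalSpace

/-- index of the cell of side `t` containing a point -/
noncomputable def cidx (t : ℝ) (z : ℂ) : ℤ × ℤ := (⌊z.re / t⌋, ⌊z.im / t⌋)

/-- corner of a cell -/
noncomputable def cpt (t : ℝ) (i : ℤ × ℤ) : ℂ := ⟨t * i.1, t * i.2⟩

theorem measurable_cidx (t : ℝ) : Measurable (cidx t) := by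
  unfold cidx
  exact (Int.measurable_floor.comp (Complex.measurable_re.div_const t)).prodMk
    (Int.measurable_floor.comp (Complex.measurable_im.div_const t))

theorem floor_close {t : ℝ} (ht : 0 < t) (x : ℝ) : 0 ≤ x - t * ⌊x / t⌋ ∧ x - t * ⌊x / t⌋ < t := by
  have h1 := Int.floor_le (x / t)
  have h2 := Int.lt_floor_add_one (x / t)
  rw [le_div_iff₀ ht] at h1
  rw [div_lt_iff₀ ht] at h2
  constructor <;> nlinarith

theorem dist_cpt {t : ℝ} (ht : 0 < t) (z : ℂ) : dist z (cpt t (cidx t z)) < 2 * t := by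
  rw [dist_eq_norm]
  have h := Complex.norm_le_abs_re_add_abs_im (z - cpt t (cidx t z))
  have h1 := floor_close ht z.re
  have h2 := floor_close ht z.im
  have e1 : (z - cpt t (cidx t z)).re = z.re - t * ⌊z.re / t⌋ := rfl
  have e2 : (z - cpt t (cidx t z)).im = z.im - t * ⌊z.im / t⌋ := rfl
  rw [e1, e2, abs_of_nonneg h1.1, abs_of_nonneg h2.1] at h
  linarith [h1.2, h2.2]

theorem card_near {t : ℝ} (ht : 0 < t) (S : Finset (ℤ × ℤ)) (x : ℂ) :
    (S.filter (fun i => dist x (cpt t i) < 6 * t)).card ≤ 169 := by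
  have hsub : S.filter (fun i => dist x (cpt t i) < 6 * t) ⊆
      Finset.Icc (⌊x.re / t⌋ - 6) (⌊x.re / t⌋ + 6) ×ˢ
        Finset.Icc (⌊x.im / t⌋ - 6) (⌊x.im / t⌋ + 6) := by
    intro i hi
    have h := (Finset.mem_filter.1 hi).2
    rw [dist_eq_norm] at h
    have h1 := (Complex.abs_re_le_norm (x - cpt t i)).trans_lt h
    have h2 := (Complex.abs_im_le_norm (x - cpt t i)).trans_lt h
    have e1 : (x - cpt t i).re = x.re - t * i.1 := rfl
    have e2 : (x - cpt t i).im = x.im - t * i.2 := rfl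
    rw [e1, abs_lt] at h1
    rw [e2, abs_lt] at h2
    have key : ∀ (y : ℝ) (m : ℤ), -(6 * t) < y - t * m → y - t * m < 6 * t →
        ⌊y / t⌋ - 6 ≤ m ∧ m ≤ ⌊y / t⌋ + 6 := by
      intro y m h3 h4
      have h5 := Int.floor_le (y / t)
      have h6 := Int.lt_floor_add_one (y / t)
      have h7 : (m : ℝ) < y / t + 6 := by
        rw [← sub_lt_iff_lt_add, lt_div_iff₀ ht]
        nlinarith
      have h8 : y / t - 6 < (m : ℝ) := by
        rw [sub_lt_iff_lt_add, div_lt_iff₀ ht]
        nlinarith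
      constructor
      · have : ((⌊y / t⌋ - 6 : ℤ) : ℝ) < m := by
          push_cast
          linarith
        have := (Int.cast_lt (R := ℝ)).1 this
        omega
      · have : (m : ℝ) < ((⌊y / t⌋ + 7 : ℤ) : ℝ) := by
          push_cast
          linarith
        have := (Int.cast_lt (R := ℝ)).1 this
        omega
    have k1 := key x.re i.1 h1.1 h1.2
    have k2 := key x.im i.2 h2.1 h2.2
    rw [Finset.mem_product, Finset.mem_Icc, Finset.mem_Icc]
    exact ⟨k1, k2⟩
  refine (Finset.card_le_card hsub).trans ?_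
  rw [Finset.card_product, Int.card_Icc, Int.card_Icc]
  have e1 : (⌊x.re / t⌋ + 6 + 1 - (⌊x.re / t⌋ - 6)).toNat = 13 := by omega
  have e2 : (⌊x.im / t⌋ + 6 + 1 - (⌊x.im / t⌋ - 6)).toNat = 13 := by omega
  rw [e1, e2]

open Classical in
/-- If the support of `φ` is within `t` of the connected set `A`, the Green energy of `φ` off `A`
is at most a constant times `t ^ 2`. -/
theorem green_close {Ω A : Set ℂ} (hA : IsPreconnected A) {φ : ℂ → ℝ} {M ϱ t : ℝ} (ht : 0 < t)
    (ht1 : t ≤ 1) (hϱ : 0 ≤ ϱ) (hφm : Measurable φ) (hφ : ∀ z, |φ z| ≤ M)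
    (hφ0 : ∀ z, φ z ≠ 0 → ‖z‖ ≤ ϱ) (hnear : ∀ z, φ z ≠ 0 → ∃ w ∈ A, dist w z ≤ t)
    (hdiam : ∃ a ∈ A, ∃ b ∈ A, 12 * t ≤ dist a b) :
    greenEnergy (Ω \ A) φ ≤
      160 * (4 * M) ^ 2 * (1 + Real.log (3 / 2)) * (2 * ϱ + 5) ^ 2 * 169 * t ^ 2 := by
  have hM : 0 ≤ M := (abs_nonneg _).trans (hφ 0)
  set N : ℕ := ⌈ϱ / t⌉₊ + 1 with hN
  set S : Finset (ℤ × ℤ) := (Finset.Icc (-(N : ℤ)) N ×ˢ Finset.Icc (-(N : ℤ)) N).filter
    (fun i => ∃ z, φ z ≠ 0 ∧ cidx t z = i) with hS
  have hmemS : ∀ z, φ z ≠ 0 → cidx t z ∈ S := by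
    intro z hz
    rw [hS, Finset.mem_filter, Finset.mem_product, Finset.mem_Icc, Finset.mem_Icc]
    have h1 := hφ0 z hz
    have key : ∀ y : ℝ, |y| ≤ ϱ → -(N : ℤ) ≤ ⌊y / t⌋ ∧ ⌊y / t⌋ ≤ N := by
      intro y hy
      have h2 : ϱ / t ≤ ⌈ϱ / t⌉₊ := Nat.le_ceil _
      have h3 := abs_le.1 hy
      have h4 : y / t ≤ ϱ / t := div_le_div_of_nonneg_right h3.2 ht.le
      have h5 : -(ϱ / t) ≤ y / t := by
        rw [← neg_div]
        exact div_le_div_of_nonneg_right h3.1 ht.le
      have h6 := Int.floor_le (y / t)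
      have h7 := Int.lt_floor_add_one (y / t)
      constructor
      · have : ((-(N : ℤ) : ℤ) : ℝ) < ((⌊y / t⌋ + 1 : ℤ) : ℝ) := by
          rw [hN]
          push_cast
          linarith
        have := (Int.cast_lt (R := ℝ)).1 this
        omega
      · have : ((⌊y / t⌋ : ℤ) : ℝ) ≤ ((N : ℤ) : ℝ) := by
          rw [hN]
          push_cast
          linarith
        exact_mod_cast this
    exact ⟨⟨key _ ((Complex.abs_re_le_norm z).trans h1), key _ ((Complex.abs_im_le_norm z).trans h1)⟩,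
      z, hz, rfl⟩
  set φi : ℤ × ℤ → ℂ → ℝ := fun i z => if cidx t z = i then φ z / t ^ 2 else 0 with hφi
  have hfun : (fun z => ∑ i ∈ S, t ^ 2 * φi i z) = φ := by
    funext z
    by_cases hz : φ z = 0
    · rw [hz]
      apply Finset.sum_eq_zero
      intro i _
      simp only [hφi, hz, zero_div, ite_self, mul_zero]
    · rw [Finset.sum_eq_single_of_mem (cidx t z) (hmemS z hz)]
      · simp only [hφi, if_true]
        field_simp
      · intro i _ hi
        simp only [hφi]
        rw [if_neg (Ne.symm hi), mul_zero]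
  have hcard : ((S.card : ℝ)) * t ^ 2 ≤ (2 * ϱ + 5) ^ 2 := by
    have h1 : S.card ≤ (2 * N + 1) * (2 * N + 1) := by
      refine (Finset.card_filter_le _ _).trans ?_
      rw [Finset.card_product, Int.card_Icc]
      have : ((N : ℤ) + 1 - -(N : ℤ)).toNat = 2 * N + 1 := by omega
      rw [this]
    have h2 : (N : ℝ) ≤ ϱ / t + 2 := by
      have := Nat.ceil_lt_add_one (a := ϱ / t) (by positivity)
      rw [hN]
      push_cast
      linarith
    have h3 : ((2 * (N : ℝ) + 1)) * t ≤ 2 * ϱ + 5 := by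
      have h4 : (N : ℝ) * t ≤ ϱ + 2 * t := by
        calc (N : ℝ) * t ≤ (ϱ / t + 2) * t := by gcongr
          _ = ϱ + 2 * t := by field_simp
      nlinarith
    calc (S.card : ℝ) * t ^ 2 ≤ ((2 * (N : ℝ) + 1) * (2 * N + 1)) * t ^ 2 := by
          gcongr
          exact_mod_cast h1
      _ = ((2 * (N : ℝ) + 1) * t) ^ 2 := by ring
      _ ≤ (2 * ϱ + 5) ^ 2 := pow_le_pow_left₀ (by positivity) h3 2
  have key := U.green_near (ι := ℤ × ℤ) Ω hA S (cpt t) (fun _ => t ^ 2) φi (r := 3 * t) (s := 2 * t)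
    (M := 4 * M) (B := 169 * t ^ 2) (by positivity) (by linarith) (fun _ _ => by positivity)
    (fun i _ => by
      apply Measurable.aestronglyMeasurable
      exact Measurable.ite (measurableSet_eq_fun (measurable_cidx t) measurable_const)
        (hφm.div_const _) measurable_const)
    (fun i _ z => by
      simp only [hφi]
      split_ifs with h
      · rw [abs_div, abs_of_pos (by positivity : 0 < t ^ 2)]
        have : 4 * M / (2 * t) ^ 2 = M / t ^ 2 := by
          field_simp
          ring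
        rw [this]
        exact div_le_div_of_nonneg_right (hφ z) (by positivity)
      · rw [abs_zero]
        positivity)
    (fun i _ z hz => by
      simp only [hφi]
      rw [if_neg]
      rintro rfl
      exact hz (dist_cpt ht z))
    (fun i hi => by
      obtain ⟨z, hz, rfl⟩ := (Finset.mem_filter.1 hi).2
      obtain ⟨w, hw, hwz⟩ := hnear z hz
      refine ⟨w, hw, ?_⟩
      have := dist_triangle w z (cpt t (cidx t z))
      have := dist_cpt ht z
      linarith)
    (fun i _ => by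
      obtain ⟨a, ha, b, hb, hab⟩ := hdiam
      by_contra hcon
      push Not at hcon
      have h1 := hcon a ha
      have h2 := hcon b hb
      have := dist_triangle_right a b (cpt t i)
      linarith)
    (fun x => by
      rw [Finset.sum_const, nsmul_eq_mul]
      have h1 := card_near ht S x
      have e : 2 * (3 * t) = 6 * t := by ring
      rw [e]
      gcongr
      exact_mod_cast h1)
  rw [hfun] at key
  refine key.trans ?_
  rw [Finset.sum_const, nsmul_eq_mul]
  have e : 3 * t / (2 * t) = 3 / 2 := by field_simp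
  rw [e]
  have hl : 0 ≤ Real.log (3 / 2 : ℝ) := Real.log_nonneg (by norm_num)
  calc 160 * (4 * M) ^ 2 * (1 + Real.log (3 / 2)) * ((S.card : ℝ) * t ^ 2) * (169 * t ^ 2)
      ≤ 160 * (4 * M) ^ 2 * (1 + Real.log (3 / 2)) * (2 * ϱ + 5) ^ 2 * (169 * t ^ 2) := by gcongr
    _ = _ := by ring

end Vale.Agent.P155.Uq
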