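import Vale.Agent.P155.U.Vk1

/-!
# P155, block U: the Green energies tend to zero along increasing dense connected sets
-/

namespace Vale.Agent.P155.Uq

open MeasureTheory Filter Topology TopologicalSpace

theorem exists_frontier_segment {U : Set ℂ} {x y : ℂ} (hx : x ∈ U) (hy : y ∉ U) :
    ∃ w ∈ segment ℝ x y, w ∈ frontier U := by
  have hseg : IsPreconnected (segment ℝ x y) := (convex_segment x y).isPreconnected
  by_contra hne
  push Not at hne
  have h1 : segment ℝ x y ⊆ interior U ∪ (closure U)ᶜ := by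
    intro z hz
    by_cases hzU : z ∈ closure U
    · left
      by_contra h2
      exact hne z hz ⟨hzU, h2⟩
    · right
      exact hzU
  obtain ⟨z, _, hz1, hz2⟩ := hseg _ _ isOpen_interior isClosed_closure.isOpen_compl h1
    ⟨x, left_mem_segment ℝ x y, by
      rcases h1 (left_mem_segment ℝ x y) with h | h
      · exact h
      · exact absurd (subset_closure hx) h⟩
    ⟨y, right_mem_segment ℝ x y, by
      rcases h1 (right_mem_segment ℝ x y) with h | h
      · exact absurd (interior_subset h) hy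
      · exact h⟩
  exact hz2 (subset_closure (interior_subset hz1))

/-- the frontier of a bounded nonempty open set has two points -/
theorem exists_two_frontier {Ω : Set ℂ} (hΩ : IsOpen Ω) (hb : Bornology.IsBounded Ω)
    (hne : Ω.Nonempty) : ∃ a ∈ frontier Ω, ∃ b ∈ frontier Ω, 0 < dist a b := by
  obtain ⟨z, hz⟩ := hne
  obtain ⟨R, hR⟩ := hb.subset_closedBall z
  set L : ℝ := |R| + 1 with hL
  have hL0 : 0 < L := by positivity
  have hout : ∀ s : ℝ, |s| = L → z + (s : ℂ) ∉ Ω := by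
    intro s hs h
    have h1 := hR h
    rw [Metric.mem_closedBall, dist_eq_norm, add_sub_cancel_left, Complex.norm_real,
      Real.norm_eq_abs, hs] at h1
    linarith [le_abs_self R]
  have hdisj : ∀ w ∈ frontier Ω, w ∉ Ω := by
    intro w hw hwΩ
    rw [hΩ.frontier_eq] at hw
    exact hw.2 hwΩ
  obtain ⟨w1, hw1, hf1⟩ := exists_frontier_segment hz (hout L (abs_of_pos hL0))
  obtain ⟨w2, hw2, hf2⟩ := exists_frontier_segment hz (hout (-L) (by rw [abs_neg, abs_of_pos hL0]))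
  refine ⟨w1, hf1, w2, hf2, ?_⟩
  rw [dist_pos]
  rintro rfl
  obtain ⟨s1, t1, hs1, ht1, hst1, e1⟩ := hw1
  obtain ⟨s2, t2, hs2, ht2, hst2, e2⟩ := hw2
  have r1 : w1.re = z.re + t1 * L := by
    rw [← e1]
    simp
    have : s1 = 1 - t1 := by linarith
    rw [this]
    ring
  have i1 : w1.im = z.im := by
    rw [← e1]
    simp
    have : s1 = 1 - t1 := by linarith
    rw [this]
    ring
  have r2 : w1.re = z.re - t2 * L := by
    rw [← e2]
    simp
    have : s2 = 1 - t2 := by linarith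
    rw [this]
    ring
  have h1 : t1 * L = 0 := by nlinarith [mul_nonneg ht1 hL0.le, mul_nonneg ht2 hL0.le]
  have : w1 = z := by
    apply Complex.ext
    · rw [r1, h1, add_zero]
    · exact i1
  exact hdisj w1 hf1 (this ▸ hz)

/-- Green energies off increasing connected sets which become dense. -/
theorem tendsto_green {Ω : Set ℂ} (hΩ : IsOpen Ω) (hb : Bornology.IsBounded Ω) (hne : Ω.Nonempty)
    {K : ℕ → Set ℂ} (hmono : ∀ k, K k ⊆ K (k + 1)) (hconn : ∀ k, IsPreconnected (K k))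
    (h0 : frontier Ω ⊆ K 0)
    (hd : ∀ i m : ℕ, Metric.closedBall (denseSeq ℂ i) (1 / (m + 1 : ℝ)) ⊆ Ω →
      ∃ k, ∃ w ∈ K k, dist w (denseSeq ℂ i) ≤ 1 / (m + 1 : ℝ))
    {φ : ℂ → ℝ} (hφ : IsTest Ω φ) :
    Tendsto (fun k => greenEnergy (Ω \ K k) φ) atTop (𝓝 0) := by
  obtain ⟨M, hM⟩ := hφ.1.continuous.bounded_above_of_compact_support hφ.2.1
  have hM' : ∀ z, |φ z| ≤ M := fun z => by
    have := hM z
    rwa [Real.norm_eq_abs] at this
  have hz0 : ∀ z, z ∉ Ω → φ z = 0 := fun z hz => U.test_zero hφ hz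
  have hmono' : ∀ k l, k ≤ l → K k ⊆ K l := fun k l hkl => monotone_nat_of_le_succ hmono hkl
  obtain ⟨ϱ, hϱ⟩ := hφ.2.1.isBounded.subset_closedBall 0
  have hϱ' : ∀ z, φ z ≠ 0 → ‖z‖ ≤ max ϱ 0 := by
    intro z hz
    have := hϱ (subset_tsupport φ hz)
    rw [mem_closedBall_zero_iff] at this
    exact this.trans (le_max_left _ _)
  obtain ⟨a, ha, b, hb', hab⟩ := exists_two_frontier hΩ hb hne
  set C : ℝ := 160 * (4 * M) ^ 2 * (1 + Real.log (3 / 2)) * (2 * max ϱ 0 + 5) ^ 2 * 169 with hC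
  have hl : 0 ≤ Real.log (3 / 2 : ℝ) := Real.log_nonneg (by norm_num)
  have hC0 : 0 ≤ C := by positivity
  have hnn : ∀ k, 0 ≤ greenEnergy (Ω \ K k) φ := by
    intro k
    have hbdd := U.bdd_dval hb hM' hz0 (U := Ω \ K k) Set.sdiff_subset
    have h1 := le_csSup hbdd ⟨_, U.isTest_zero _, rfl⟩
    refine le_trans (le_of_eq ?_) h1
    simp
  rw [Metric.tendsto_atTop]
  intro ε hε
  -- the scale
  obtain ⟨t, ht0, ht1, ht2, ht3⟩ : ∃ t : ℝ, 0 < t ∧ t ≤ 1 ∧ 12 * t ≤ dist a b ∧ C * t ^ 2 < ε := by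
    have hcont : Continuous (fun t : ℝ => C * t ^ 2) := by fun_prop
    have h1 := (hcont.tendsto 0).mono_left (nhdsWithin_le_nhds (s := Set.Ioi 0))
    have h2 : ∀ᶠ t : ℝ in 𝓝[>] 0, C * t ^ 2 < ε :=
      (tendsto_order.1 h1).2 ε (by simpa using hε)
    have h3 : ∀ᶠ t : ℝ in 𝓝[>] 0, t < min 1 (dist a b / 12) :=
      nhdsWithin_le_nhds (Iio_mem_nhds (lt_min one_pos (by positivity)))
    obtain ⟨t, h4, h5, h6⟩ := (h2.and (h3.and self_mem_nhdsWithin)).exists
    refine ⟨t, h6, (h5.le.trans (min_le_left _ _)), ?_, h4⟩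
    have := h5.le.trans (min_le_right _ _)
    linarith
  -- compactness
  have hnear : ∃ N, ∀ k, N ≤ k → ∀ z, φ z ≠ 0 → ∃ w ∈ K k, dist w z ≤ t := by
    let ι := {p : ℕ × ℕ // Metric.closedBall (denseSeq ℂ p.1) (1 / (p.2 + 1 : ℝ)) ⊆ Ω ∧
      2 / (p.2 + 1 : ℝ) ≤ t}
    have hcov : tsupport φ ⊆ ⋃ p : ι, Metric.ball (denseSeq ℂ p.1.1) (1 / (p.1.2 + 1 : ℝ)) := by
      intro y hy
      obtain ⟨ρ, hρ, hρΩ⟩ := Metric.isOpen_iff.1 hΩ y (hφ.2.2 hy)
      obtain ⟨m, hm⟩ := exists_nat_one_div_lt (K := ℝ) (show 0 < min (ρ / 2) (t / 2) by positivity)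
      have hm1 := hm.trans_le (min_le_left _ _)
      have hm2 := hm.trans_le (min_le_right _ _)
      have hm0 : (0 : ℝ) < 1 / (m + 1) := by positivity
      obtain ⟨q, hq, ⟨i, rfl⟩⟩ := Metric.dense_iff.1 (denseRange_denseSeq ℂ) y _ hm0
      have hsub : Metric.closedBall (denseSeq ℂ i) (1 / (m + 1 : ℝ)) ⊆ Ω := by
        intro x hx
        apply hρΩ
        rw [Metric.mem_closedBall] at hx
        have h3 : dist (denseSeq ℂ i) y < 1 / (m + 1) := hq
        rw [Metric.mem_ball]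
        have := dist_triangle x (denseSeq ℂ i) y
        linarith
      have h2t : 2 / (m + 1 : ℝ) ≤ t := by
        have : 2 / (m + 1 : ℝ) = 2 * (1 / (m + 1)) := by ring
        rw [this]
        linarith
      refine Set.mem_iUnion.2 ⟨⟨(i, m), hsub, h2t⟩, ?_⟩
      rw [Metric.mem_ball, dist_comm]
      exact hq
    obtain ⟨F, hF⟩ := hφ.2.1.isCompact.elim_finite_subcover _ (fun p : ι => Metric.isOpen_ball) hcov
    choose kk w hw hwd using fun p : ι => hd p.1.1 p.1.2 p.2.1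
    refine ⟨F.sup kk, fun k hk z hz => ?_⟩
    obtain ⟨p, hp⟩ := Set.mem_iUnion.1 (hF (subset_tsupport φ hz))
    obtain ⟨hpF, hzp⟩ := Set.mem_iUnion.1 hp
    refine ⟨w p, hmono' _ _ ((Finset.le_sup hpF).trans hk) (hw p), ?_⟩
    have h1 := hwd p
    rw [Metric.mem_ball, dist_comm] at hzp
    have h2 := dist_triangle (w p) (denseSeq ℂ p.1.1) z
    have h3 := p.2.2
    have h4 : 2 / (p.1.2 + 1 : ℝ) = 1 / (p.1.2 + 1 : ℝ) + 1 / (p.1.2 + 1 : ℝ) := by ring
    linarith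
  obtain ⟨N, hN⟩ := hnear
  refine ⟨N, fun k hk => ?_⟩
  rw [Real.dist_eq, sub_zero, abs_of_nonneg (hnn k)]
  refine lt_of_le_of_lt (green_close (Ω := Ω) (hconn k) ht0 ht1 (le_max_right _ _)
    hφ.1.continuous.measurable hM' hϱ' (hN k hk) ⟨a, hmono' 0 k (Nat.zero_le _) (h0 ha), b,
      hmono' 0 k (Nat.zero_le _) (h0 hb'), ht2⟩) ht3

end Vale.Agent.P155.Uq
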