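import Vale.Agent.P155.U.Family

/-!
# P155 uniqueness: the Green energy off a dense connected set is small
-/

namespace Vale.Agent.P155.U

open MeasureTheory Set TopologicalSpace
open scoped ContDiff

/-- half open squares of side `s` -/
def cell (s : ℝ) (i : ℤ × ℤ) : Set ℂ := {z | ⌊z.re / s⌋ = i.1 ∧ ⌊z.im / s⌋ = i.2}

/-- their centres -/
noncomputable def cc (s : ℝ) (i : ℤ × ℤ) : ℂ := ⟨s * ((i.1 : ℝ) + 1 / 2), s * ((i.2 : ℝ) + 1 / 2)⟩

theorem measurable_cell (s : ℝ) (i : ℤ × ℤ) : MeasurableSet (cell s i) := by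
  have h1 : Measurable (fun z : ℂ => ⌊z.re / s⌋) :=
    Int.measurable_floor.comp (Complex.measurable_re.div_const s)
  have h2 : Measurable (fun z : ℂ => ⌊z.im / s⌋) :=
    Int.measurable_floor.comp (Complex.measurable_im.div_const s)
  exact (h1 (measurableSet_singleton i.1)).inter (h2 (measurableSet_singleton i.2))

theorem dist_cc {s : ℝ} (hs : 0 < s) {i : ℤ × ℤ} {z : ℂ} (hz : z ∈ cell s i) :
    dist z (cc s i) < s := by
  obtain ⟨h1, h2⟩ := hz
  have a1 := Int.floor_le (z.re / s)
  have a2 := Int.lt_floor_add_one (z.re / s)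
  have b1 := Int.floor_le (z.im / s)
  have b2 := Int.lt_floor_add_one (z.im / s)
  rw [h1] at a1 a2
  rw [h2] at b1 b2
  rw [le_div_iff₀ hs] at a1 b1
  rw [div_lt_iff₀ hs] at a2 b2
  rw [Complex.dist_eq, Complex.norm_def, Complex.normSq_apply]
  have hre : |(z - cc s i).re| ≤ s / 2 := by
    simp only [Complex.sub_re, cc]
    rw [abs_le]
    constructor <;> nlinarith
  have him : |(z - cc s i).im| ≤ s / 2 := by
    simp only [Complex.sub_im, cc]
    rw [abs_le]
    constructor <;> nlinarith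
  have h3 : (z - cc s i).re * (z - cc s i).re + (z - cc s i).im * (z - cc s i).im ≤ s ^ 2 / 2 := by
    have e1 := abs_mul_abs_self (z - cc s i).re
    have e2 := abs_mul_abs_self (z - cc s i).im
    have n1 := abs_nonneg (z - cc s i).re
    have n2 := abs_nonneg (z - cc s i).im
    nlinarith
  calc Real.sqrt _ ≤ Real.sqrt (s ^ 2 / 2) := Real.sqrt_le_sqrt h3
    _ < s := by
      rw [Real.sqrt_lt' hs]
      nlinarith

/-- few centres in a disc of radius `4 s` -/
theorem card_near {s : ℝ} (hs : 0 < s) (S : Finset (ℤ × ℤ)) (x : ℂ) :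
    ((S.filter (fun i => dist x (cc s i) < 2 * (2 * s))).card : ℝ) ≤ 100 := by
  set p : ℤ := ⌊x.re / s⌋ with hp
  set q : ℤ := ⌊x.im / s⌋ with hq
  have hsub : S.filter (fun i => dist x (cc s i) < 2 * (2 * s)) ⊆
      Finset.Icc (p - 4) (p + 5) ×ˢ Finset.Icc (q - 4) (q + 5) := by
    intro i hi
    have h := (Finset.mem_filter.1 hi).2
    rw [Complex.dist_eq] at h
    have h1 := (Complex.abs_re_le_norm _).trans_lt h
    have h2 := (Complex.abs_im_le_norm _).trans_lt h
    simp only [Complex.sub_re, Complex.sub_im, cc] at h1 h2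
    rw [abs_lt] at h1 h2
    have a1 := Int.floor_le (x.re / s)
    have a2 := Int.lt_floor_add_one (x.re / s)
    have b1 := Int.floor_le (x.im / s)
    have b2 := Int.lt_floor_add_one (x.im / s)
    rw [← hp] at a1 a2
    rw [← hq] at b1 b2
    rw [le_div_iff₀ hs] at a1 b1
    rw [div_lt_iff₀ hs] at a2 b2
    have c1 : (i.1 : ℝ) < p + 6 := by
      have : s * (i.1 : ℝ) < s * (p + 6) := by nlinarith
      exact lt_of_mul_lt_mul_left this hs.le
    have c2 : (p : ℝ) - 5 < i.1 := by
      have : s * ((p : ℝ) - 5) < s * i.1 := by nlinarith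
      exact lt_of_mul_lt_mul_left this hs.le
    have d1 : (i.2 : ℝ) < q + 6 := by
      have : s * (i.2 : ℝ) < s * (q + 6) := by nlinarith
      exact lt_of_mul_lt_mul_left this hs.le
    have d2 : (q : ℝ) - 5 < i.2 := by
      have : s * ((q : ℝ) - 5) < s * i.2 := by nlinarith
      exact lt_of_mul_lt_mul_left this hs.le
    have c1' : i.1 < p + 6 := by exact_mod_cast c1
    have c2' : p - 5 < i.1 := by exact_mod_cast c2
    have d1' : i.2 < q + 6 := by exact_mod_cast d1
    have d2' : q - 5 < i.2 := by exact_mod_cast d2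
    rw [Finset.mem_product, Finset.mem_Icc, Finset.mem_Icc]
    refine ⟨⟨?_, ?_⟩, ?_, ?_⟩ <;> omega
  have h1 := Finset.card_le_card hsub
  rw [Finset.card_product, Int.card_Icc, Int.card_Icc] at h1
  have e1 : (p + 5 + 1 - (p - 4)).toNat = 10 := by
    have : p + 5 + 1 - (p - 4) = 10 := by ring
    rw [this]; rfl
  have e2 : (q + 5 + 1 - (q - 4)).toNat = 10 := by
    have : q + 5 + 1 - (q - 4) = 10 := by ring
    rw [this]; rfl
  rw [e1, e2] at h1
  have : (S.filter (fun i => dist x (cc s i) < 2 * (2 * s))).card ≤ 100 := by omega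
  exact_mod_cast this

/-- **(VK), deterministic part.** -/
theorem green_dense {Ω : Set ℂ} (hΩ : IsOpen Ω) (hb : Bornology.IsBounded Ω) (hne : Ω.Nonempty)
    {φ : ℂ → ℝ} (hφ : IsTest Ω φ) :
    ∃ C t₀ : ℝ, 0 < t₀ ∧ ∀ t, 0 < t → t < t₀ → ∀ A : Set ℂ, IsPreconnected A → frontier Ω ⊆ A →
      (∀ z ∈ tsupport φ, ∃ a ∈ A, dist a z ≤ t) → greenEnergy (Ω \ A) φ ≤ C * t ^ 2 := by
  classical
  obtain ⟨M, hM⟩ := hφ.1.continuous.bounded_above_of_compact_support hφ.2.1
  have hM' : ∀ z, |φ z| ≤ M := fun z => by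
    have := hM z
    rwa [Real.norm_eq_abs] at this
  have hM0 : 0 ≤ M := (abs_nonneg _).trans (hM' 0)
  obtain ⟨L, hL⟩ := hφ.2.1.isCompact.isBounded.subset_closedBall 0
  have hfr : (frontier Ω).Nonempty := by
    rw [nonempty_frontier_iff]
    refine ⟨hne, ?_⟩
    rintro rfl
    exact NormedSpace.unbounded_univ ℝ ℂ hb
  obtain ⟨q, hq⟩ := hfr
  have hqΩ : q ∉ Ω := by
    rw [frontier, hΩ.interior_eq] at hq
    exact hq.2
  -- distance from the support to `q`
  have hd : ∃ d : ℝ, 0 < d ∧ ∀ z ∈ tsupport φ, d ≤ dist q z := by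
    rcases (tsupport φ).eq_empty_or_nonempty with h | h
    · exact ⟨1, one_pos, fun z hz => by rw [h] at hz; exact absurd hz (notMem_empty z)⟩
    · obtain ⟨z₀, hz₀, hmin⟩ := hφ.2.1.isCompact.exists_isMinOn h
        (f := fun z => dist q z) (continuous_const.dist continuous_id).continuousOn
      refine ⟨dist q z₀, dist_pos.2 ?_, fun z hz => hmin hz⟩
      rintro rfl
      exact hqΩ (hφ.2.2 hz₀)
  obtain ⟨d, hd0, hd⟩ := hd
  set L' : ℝ := max L 0 with hL'
  refine ⟨160 * M ^ 2 * (1 + Real.log 2) * (2 * L' + 5) ^ 2 * 100, min 1 (d / 5), by positivity, ?_⟩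
  intro t ht0 ht A hA hfA hdense
  have ht1 : t < 1 := ht.trans_le (min_le_left _ _)
  have ht5 : 5 * t ≤ d := by
    have := ht.trans_le (min_le_right 1 (d / 5))
    linarith
  -- the cells
  set N : ℕ := ⌈L' / t⌉₊ + 1 with hN
  have hNle : (N : ℝ) ≤ L' / t + 2 := by
    rw [hN]
    push_cast
    have := Nat.ceil_lt_add_one (show 0 ≤ L' / t by positivity)
    linarith
  set S : Finset (ℤ × ℤ) :=
    (Finset.Icc (-(N : ℤ)) N ×ˢ Finset.Icc (-(N : ℤ)) N).filter
      (fun i => ∃ z ∈ tsupport φ, z ∈ cell t i) with hS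
  set ψ : ℤ × ℤ → ℂ → ℝ := fun i z => (cell t i).indicator (fun z => φ z / t ^ 2) z with hψ
  have hmemS : ∀ z ∈ tsupport φ, (⌊z.re / t⌋, ⌊z.im / t⌋) ∈ S := by
    intro z hz
    have hzL : ‖z‖ ≤ L' := by
      have := hL hz
      rw [mem_closedBall_zero_iff] at this
      exact this.trans (le_max_left _ _)
    have hbnd : ∀ x : ℝ, |x| ≤ L' → ⌊x / t⌋ ∈ Finset.Icc (-(N : ℤ)) N := by
      intro x hx
      have h1 : |x / t| ≤ L' / t := by
        rw [abs_div, abs_of_pos ht0]
        exact div_le_div_of_nonneg_right hx ht0.le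
      have h2 : L' / t ≤ (N : ℝ) - 1 := by
        rw [hN]
        push_cast
        have := Nat.le_ceil (L' / t)
        linarith
      rw [abs_le] at h1
      have h3 := Int.floor_le (x / t)
      have h4 := Int.lt_floor_add_one (x / t)
      have h5 : (⌊x / t⌋ : ℝ) ≤ N := by linarith
      have h6 : -(N : ℝ) ≤ ⌊x / t⌋ := by linarith
      rw [Finset.mem_Icc]
      constructor
      · exact_mod_cast h6
      · exact_mod_cast h5
    rw [hS, Finset.mem_filter, Finset.mem_product]
    refine ⟨⟨hbnd _ ((Complex.abs_re_le_norm z).trans hzL),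
      hbnd _ ((Complex.abs_im_le_norm z).trans hzL)⟩, z, hz, rfl, rfl⟩
  have hdecomp : φ = fun z => ∑ i ∈ S, t ^ 2 * ψ i z := by
    funext z
    by_cases hz : z ∈ tsupport φ
    · rw [Finset.sum_eq_single (⌊z.re / t⌋, ⌊z.im / t⌋)]
      · rw [hψ]
        simp only
        rw [indicator_of_mem (show z ∈ cell t (⌊z.re / t⌋, ⌊z.im / t⌋) from ⟨rfl, rfl⟩)]
        field_simp
      · intro i _ hne'
        rw [hψ]
        simp only
        rw [indicator_of_notMem, mul_zero]
        rintro ⟨h1, h2⟩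
        exact hne' (Prod.ext h1.symm h2.symm)
      · intro h
        exact absurd (hmemS z hz) h
    · have h0 : φ z = 0 := by
        by_contra h
        exact hz (subset_tsupport φ h)
      rw [h0]
      symm
      apply Finset.sum_eq_zero
      intro i _
      rw [hψ]
      simp only
      by_cases h : z ∈ cell t i
      · rw [indicator_of_mem h, h0]
        simp
      · rw [indicator_of_notMem h, mul_zero]
  have hlog : Real.log (2 * t / t) = Real.log 2 := by
    congr 1
    field_simp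
  have hmain := green_near (Ω) hA S (cc t) (fun _ => t ^ 2) ψ (r := 2 * t) (s := t) (M := M)
    (B := t ^ 2 * 100) ht0 (by linarith) (fun i _ => by positivity)
    (fun i _ => by
      apply AEStronglyMeasurable.indicator _ (measurable_cell t i)
      exact (hφ.1.continuous.div_const _).aestronglyMeasurable)
    (fun i _ z => by
      rw [hψ]
      simp only
      by_cases h : z ∈ cell t i
      · rw [indicator_of_mem h, abs_div, abs_of_pos (show 0 < t ^ 2 by positivity)]
        exact div_le_div_of_nonneg_right (hM' z) (by positivity)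
      · rw [indicator_of_notMem h, abs_zero]
        positivity)
    (fun i _ z hz => by
      rw [hψ]
      simp only
      apply indicator_of_notMem
      intro h
      exact hz (Metric.mem_ball.2 (dist_cc ht0 h)))
    (fun i hi => by
      obtain ⟨z, hz, hzi⟩ := (Finset.mem_filter.1 hi).2
      obtain ⟨a, ha, hat⟩ := hdense z hz
      refine ⟨a, ha, ?_⟩
      have h1 := dist_triangle a z (cc t i)
      have h2 := dist_cc ht0 hzi
      linarith)
    (fun i hi => by
      obtain ⟨z, hz, hzi⟩ := (Finset.mem_filter.1 hi).2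
      refine ⟨q, hfA hq, ?_⟩
      have h1 := dist_triangle q (cc t i) z
      have h2 := dist_cc ht0 hzi
      have h3 := hd z hz
      have h4 := dist_comm (cc t i) z
      linarith)
    (fun x => by
      rw [Finset.sum_const, nsmul_eq_mul, mul_comm]
      exact mul_le_mul_of_nonneg_left (card_near ht0 S x) (by positivity))
  rw [← hdecomp, hlog] at hmain
  refine hmain.trans ?_
  rw [Finset.sum_const, nsmul_eq_mul]
  have hcard : (S.card : ℝ) ≤ (2 * (N : ℝ) + 1) ^ 2 := by
    have h1 : S.card ≤ (Finset.Icc (-(N : ℤ)) N ×ˢ Finset.Icc (-(N : ℤ)) N).card :=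
      Finset.card_filter_le _ _
    rw [Finset.card_product, Int.card_Icc] at h1
    have e : ((N : ℤ) + 1 - -(N : ℤ)).toNat = 2 * N + 1 := by omega
    rw [e] at h1
    have h2 : (S.card : ℝ) ≤ ((2 * N + 1) * (2 * N + 1) : ℕ) := by exact_mod_cast h1
    refine h2.trans (le_of_eq ?_)
    push_cast
    ring
  have hcard2 : (S.card : ℝ) * t ^ 2 ≤ (2 * L' + 5) ^ 2 := by
    have h1 : (2 * (N : ℝ) + 1) * t ≤ 2 * L' + 5 := by
      have h2 : (2 * (N : ℝ) + 1) * t ≤ (2 * (L' / t + 2) + 1) * t :=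
        mul_le_mul_of_nonneg_right (by linarith) ht0.le
      have h3 : (2 * (L' / t + 2) + 1) * t = 2 * L' + 5 * t := by
        field_simp
        ring
      rw [h3] at h2
      linarith
    calc (S.card : ℝ) * t ^ 2 ≤ (2 * (N : ℝ) + 1) ^ 2 * t ^ 2 :=
          mul_le_mul_of_nonneg_right hcard (by positivity)
      _ = ((2 * (N : ℝ) + 1) * t) ^ 2 := by ring
      _ ≤ (2 * L' + 5) ^ 2 := pow_le_pow_left₀ (by positivity) h1 2
  have hl2 : 0 ≤ Real.log 2 := Real.log_nonneg (by norm_num)
  calc 160 * M ^ 2 * (1 + Real.log 2) * ((S.card : ℝ) * t ^ 2) * (t ^ 2 * 100)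
      ≤ 160 * M ^ 2 * (1 + Real.log 2) * (2 * L' + 5) ^ 2 * (t ^ 2 * 100) := by
        apply mul_le_mul_of_nonneg_right _ (by positivity)
        exact mul_le_mul_of_nonneg_left hcard2 (by positivity)
    _ = _ := by ring

end Vale.Agent.P155.U
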