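import Vale.Agent.P155.U.Iface4
import Vale.Agent.P155.U.Mom
import Vale.Agent.P155.U.Gam
import Mathlib.Analysis.Normed.Operator.Extend

/-!
# P155, block U (LOC, first half): the field as a linear isometry `GV Ω → L²(Q)`
-/

namespace Vale.Agent.P155.Uq.WI

open MeasureTheory Filter Topology TopologicalSpace

variable {Ω : Set ℂ} {Q : Measure (Sp Ω)} {R : (ℂ → ℝ) → HL} {Γ : (ℂ → ℝ) → Sp Ω → ℝ}

theorem test_zero (Ω : Set ℂ) : IsTest Ω (fun _ => (0 : ℝ)) := by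
  refine ⟨contDiff_const, HasCompactSupport.zero, ?_⟩
  have : tsupport (fun _ : ℂ => (0 : ℝ)) = ∅ := by
    rw [tsupport_eq_empty_iff]
    rfl
  rw [this]
  exact Set.empty_subset _

/-- the space of test functions -/
def TF (Ω : Set ℂ) : Submodule ℝ (ℂ → ℝ) where
  carrier := {φ | IsTest Ω φ}
  add_mem' := by
    intro φ ψ hφ hψ
    have h := Gam.test_lin hφ hψ 1 1
    simp only [one_mul] at h
    exact h
  zero_mem' := test_zero Ω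
  smul_mem' := by
    intro c φ hφ
    exact Gam.test_smul hφ c

theorem IsR.comb (hR : IsR Ω R) {φ ψ : ℂ → ℝ} (hφ : IsTest Ω φ) (hψ : IsTest Ω ψ) :
    R (φ + ψ) = R φ + R ψ := by
  have h := hR.lin φ ψ hφ hψ 1 1
  simp only [one_mul, one_smul] at h
  exact h

theorem IsR.smul (hR : IsR Ω R) {φ : ℂ → ℝ} (hφ : IsTest Ω φ) (t : ℝ) :
    R (fun z => t * φ z) = t • R φ := by
  have h := hR.lin φ φ hφ hφ t 0
  simp only [zero_mul, add_zero, zero_smul] at h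
  exact h

theorem sdiff_frontier (hΩ : IsOpen Ω) : Ω \ frontier Ω = Ω := by
  rw [sdiff_eq_left, Set.disjoint_iff_inter_eq_empty]
  exact hΩ.inter_frontier_eq

/-- the embedding of the test functions in `GV Ω` -/
noncomputable def eMap (hR : IsR Ω R) : TF Ω →ₗ[ℝ] GV Ω where
  toFun φ := ⟨R φ, hR.mem φ⟩
  map_add' φ ψ := Subtype.ext (IsR.comb hR φ.2 ψ.2)
  map_smul' c φ := Subtype.ext (IsR.smul hR φ.2 c)

theorem dense_eMap (hR : IsR Ω R) : DenseRange (eMap hR) := by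
  intro x
  rw [closure_subtype]
  have hx : (x : HL) ∈ closure (Submodule.span ℝ {f | ∃ v, IsTest Ω v ∧ f = gr v} : Set HL) := x.2
  refine closure_mono ?_ hx
  have hle : Submodule.span ℝ {f | ∃ v, IsTest Ω v ∧ f = gr v} ≤
      (LinearMap.range (eMap hR)).map (GV Ω).subtype := by
    rw [Submodule.span_le]
    rintro _ ⟨v, hv, rfl⟩
    obtain ⟨φ, hφ, -, hN⟩ := hR.ex v hv
    refine ⟨eMap hR ⟨φ, hφ⟩, ⟨⟨φ, hφ⟩, rfl⟩, ?_⟩
    exact hR.lap v φ hv hφ hN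
  intro f hf
  obtain ⟨y, ⟨φ, rfl⟩, hy⟩ := hle hf
  exact ⟨eMap hR φ, ⟨φ, rfl⟩, hy⟩

/-- the field on test functions, as a linear map into `L²` -/
noncomputable def fMap (h1 : ∀ φ, IsTest Ω φ → MemLp (Γ φ) 2 Q)
    (h2 : ∀ φ ψ, IsTest Ω φ → IsTest Ω ψ → ∀ s t : ℝ,
      Γ (fun z => s * φ z + t * ψ z) =ᵐ[Q] fun x => s * Γ φ x + t * Γ ψ x) :
    TF Ω →ₗ[ℝ] Lp ℝ 2 Q where
  toFun φ := (h1 φ φ.2).toLp (Γ φ)
  map_add' φ ψ := by
    rw [← MemLp.toLp_add, MemLp.toLp_eq_toLp_iff]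
    have h := h2 φ ψ φ.2 ψ.2 1 1
    simp only [one_mul] at h
    exact h
  map_smul' c φ := by
    rw [RingHom.id_apply, ← MemLp.toLp_const_smul, MemLp.toLp_eq_toLp_iff]
    have h := h2 φ φ φ.2 φ.2 c 0
    simp only [zero_mul, add_zero] at h
    exact h

section

variable (hΩ : IsOpen Ω) (hQ : Canon Ω Q) (hR : IsR Ω R)
  (h1 : ∀ φ, IsTest Ω φ → MemLp (Γ φ) 2 Q)
  (h2 : ∀ φ ψ, IsTest Ω φ → IsTest Ω ψ → ∀ s t : ℝ,
      Γ (fun z => s * φ z + t * ψ z) =ᵐ[Q] fun x => s * Γ φ x + t * Γ ψ x)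
  (h3 : ∀ (k : ℕ) (φ : ℂ → ℝ), IsTest Ω φ → ∀ Ψ : Past Ω k → ℝ, BM Ψ →
    ∫ s, (Ψ (past k s) : ℂ) * Complex.exp (Complex.I * (Γ φ s - cst * pr (s k).2 φ)) ∂Q =
      ∫ s, (Ψ (past k s) : ℂ) * Complex.exp (- greenEnergy (Ω \ (s k).1) φ / 2) ∂Q)

theorem greenEnergy_eq (hR : IsR Ω R) {φ : ℂ → ℝ} (hφ : IsTest Ω φ) :
    greenEnergy Ω φ = ‖R φ‖ ^ 2 := by
  rw [hR.energy Ω le_rfl φ hφ, Submodule.starProjection_eq_self_iff.2 (hR.mem φ)]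

include hΩ hQ hR h3 in
theorem cf0 {φ : ℂ → ℝ} (hφ : IsTest Ω φ) :
    ∫ s, Complex.exp (Complex.I * (Γ φ s : ℂ)) ∂Q = Complex.exp (-(‖R φ‖ ^ 2 / 2 : ℝ)) := by
  have := hQ.prob
  have h := h3 0 φ hφ (fun _ => 1) ⟨measurable_const, 1, fun _ => by simp⟩
  have e1 : ∫ s, (((1 : ℝ)) : ℂ) * Complex.exp (Complex.I * (Γ φ s - cst * pr (s 0).2 φ)) ∂Q =
      ∫ s, Complex.exp (Complex.I * (Γ φ s : ℂ)) ∂Q := by
    refine integral_congr_ae ?_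
    filter_upwards [hQ.zero] with s hs
    have h0 : pr (s 0).2 φ = 0 := by
      rw [hs.2]
      unfold pr
      refine integral_eq_zero_of_ae ?_
      filter_upwards [Lp.coeFn_zero ℝ 2 (volume.restrict Ω : Measure ℂ)] with w hw
      rw [hw]
      simp
    rw [h0]
    simp
  have e2 : ∫ s, (((1 : ℝ)) : ℂ) * Complex.exp (- greenEnergy (Ω \ (s 0).1) φ / 2) ∂Q =
      Complex.exp (-(‖R φ‖ ^ 2 / 2 : ℝ)) := by
    have : ∀ᵐ s ∂Q, (((1 : ℝ)) : ℂ) * Complex.exp (- greenEnergy (Ω \ (s 0).1) φ / 2) =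
        Complex.exp (-(‖R φ‖ ^ 2 / 2 : ℝ)) := by
      filter_upwards [hQ.zero] with s hs
      rw [hs.1, sdiff_frontier hΩ, greenEnergy_eq hR hφ]
      push_cast
      rw [one_mul]
      congr 1
      ring
    rw [integral_congr_ae this]
    simp
  rw [← e1, ← e2]
  exact h

include hΩ hQ hR h2 h3 in
theorem cft {φ : ℂ → ℝ} (hφ : IsTest Ω φ) (t : ℝ) :
    ∫ s, Complex.exp (Complex.I * (t * Γ φ s : ℝ)) ∂Q =
      Complex.exp (-(t ^ 2 * ‖R φ‖ ^ 2 / 2 : ℝ)) := by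
  have h := cf0 hΩ hQ hR h3 (Gam.test_smul hφ t)
  rw [IsR.smul hR hφ, norm_smul, mul_pow, Real.norm_eq_abs, sq_abs] at h
  rw [← h]
  refine integral_congr_ae ?_
  have h4 := h2 φ φ hφ hφ t 0
  simp only [zero_mul, add_zero] at h4
  filter_upwards [h4] with s hs
  rw [hs]

include hΩ hQ hR h1 h2 h3 in
theorem mom {φ : ℂ → ℝ} (hφ : IsTest Ω φ) : ∫ s, Γ φ s ^ 2 ∂Q = ‖R φ‖ ^ 2 := by
  have := hQ.prob
  have h := mom_two (μ := Q) (w := fun _ => (1 : ℝ)) (U := Γ φ) (v := fun _ => ‖R φ‖ ^ 2) (C := 1)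
    (D := ‖R φ‖ ^ 2) aestronglyMeasurable_const (fun _ => by simp) (h1 φ hφ)
    aestronglyMeasurable_const (fun _ => by positivity) (fun _ => le_rfl) (fun t => by
      have h4 := cft hΩ hQ hR h2 h3 hφ t
      push_cast at h4 ⊢
      simp only [one_mul]
      rw [h4]
      simp)
  simpa using h

/-- characteristic function of an element of `L²` -/
theorem continuous_cf [IsProbabilityMeasure Q] :
    Continuous fun h : Lp ℝ 2 Q => ∫ s, Complex.exp (Complex.I * (h s : ℝ)) ∂Q := by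
  have hint : ∀ h : Lp ℝ 2 Q, Integrable (fun s => Complex.exp (Complex.I * (h s : ℝ))) Q := by
    intro h
    refine Integrable.of_bound (aesm_exp (Lp.aestronglyMeasurable h)) 1
      (Eventually.of_forall fun s => ?_)
    rw [mul_comm, Complex.norm_exp_ofReal_mul_I]
  refine (LipschitzWith.of_dist_le_mul (K := 1) fun h h' => ?_).continuous
  rw [dist_eq_norm, ← integral_sub (hint h) (hint h'), NNReal.coe_one, one_mul]
  have e1 : ‖∫ s, (Complex.exp (Complex.I * (h s : ℝ)) - Complex.exp (Complex.I * (h' s : ℝ))) ∂Q‖ ≤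
      ∫ s, |(h - h') s| ∂Q := by
    refine norm_integral_le_of_norm_le ((Lp.memLp (h - h')).integrable (by norm_num)).abs ?_
    filter_upwards [Lp.coeFn_sub h h'] with s hs
    have := Gam.exp_diff (h s) (h' s) 0 le_rfl
    simp only [zero_div, sub_zero, add_zero, Complex.ofReal_zero] at this
    rw [hs]
    exact this
  have e2 := Gam.int_abs_sq_le (Lp.memLp (h - h'))
  have e3 : ∫ s, (h - h') s ^ 2 ∂Q = ‖h - h'‖ ^ 2 := by
    have := Gam.norm_sq_toLp (Lp.memLp (h - h'))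
    rw [Lp.toLp_coeFn] at this
    exact this.symm
  rw [e3] at e2
  have e4 : ∫ s, |(h - h') s| ∂Q ≤ ‖h - h'‖ :=
    (sq_le_sq₀ (integral_nonneg fun s => abs_nonneg _) (norm_nonneg _)).1 e2
  rw [dist_eq_norm]
  exact e1.trans e4

include hΩ hQ hR h1 h2 h3 in
/-- **LOC, first half** -/
theorem exists_W : ∃ W : GV Ω →ₗᵢ[ℝ] Lp ℝ 2 Q,
    (∀ (φ : ℂ → ℝ) (hR : R φ ∈ GV Ω), IsTest Ω φ → W ⟨R φ, hR⟩ =ᵐ[Q] Γ φ) ∧
    (∀ f : GV Ω, ∫ s, Complex.exp (Complex.I * (W f s : ℝ)) ∂Q =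
      Complex.exp (-(‖f‖ ^ 2 / 2 : ℝ))) ∧
    (∀ (k : ℕ) (φ : ℂ → ℝ) (hR : R φ ∈ GV Ω), IsTest Ω φ → ∀ Ψ : Past Ω k → ℝ, BM Ψ →
      ∫ s, (Ψ (past k s) : ℂ) *
          Complex.exp (Complex.I * ((W ⟨R φ, hR⟩ s - cst * pr (s k).2 φ : ℝ) : ℂ)) ∂Q =
        ∫ s, (Ψ (past k s) : ℂ) * Complex.exp (-(greenEnergy (Ω \ (s k).1) φ / 2 : ℝ)) ∂Q) := by
  have := hQ.prob
  have hiso : ∀ φ : TF Ω, ‖fMap h1 h2 φ‖ = ‖eMap hR φ‖ := by
    intro φ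
    have h4 : ‖fMap h1 h2 φ‖ ^ 2 = ‖eMap hR φ‖ ^ 2 := by
      have h5 : ‖fMap h1 h2 φ‖ ^ 2 = ∫ s, Γ φ s ^ 2 ∂Q := Gam.norm_sq_toLp (h1 φ φ.2)
      rw [h5, mom hΩ hQ hR h1 h2 h3 φ.2]
      rfl
    exact (sq_eq_sq₀ (norm_nonneg _) (norm_nonneg _)).1 h4
  have hd := dense_eMap hR
  have hn : ∃ C, ∀ φ : TF Ω, ‖fMap h1 h2 φ‖ ≤ C * ‖eMap hR φ‖ :=
    ⟨1, fun φ => by rw [one_mul, hiso]⟩
  set L : GV Ω →L[ℝ] Lp ℝ 2 Q := (fMap h1 h2).extendOfNorm (eMap hR) with hL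
  have hLe : ∀ φ : TF Ω, L (eMap hR φ) = fMap h1 h2 φ := fun φ =>
    LinearMap.extendOfNorm_eq hd hn φ
  have hLn : ∀ f : GV Ω, ‖L f‖ = ‖f‖ := by
    intro f
    refine hd.induction ?_ (isClosed_eq (by fun_prop) (by fun_prop)) f
    rintro _ ⟨φ, rfl⟩
    rw [hLe, hiso]
  let W : GV Ω →ₗᵢ[ℝ] Lp ℝ 2 Q := ⟨L.toLinearMap, hLn⟩
  have hWL : ∀ f, W f = L f := fun _ => rfl
  have ha : ∀ (φ : ℂ → ℝ) (hR' : R φ ∈ GV Ω), IsTest Ω φ → W ⟨R φ, hR'⟩ =ᵐ[Q] Γ φ := by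
    intro φ hR' hφ
    have h4 : W ⟨R φ, hR'⟩ = (h1 φ hφ).toLp (Γ φ) := hLe ⟨φ, hφ⟩
    rw [h4]
    exact MemLp.coeFn_toLp _
  refine ⟨W, ha, ?_, ?_⟩
  · intro f
    have hcl : IsClosed {f : GV Ω | ∫ s, Complex.exp (Complex.I * (W f s : ℝ)) ∂Q =
        Complex.exp (-(‖f‖ ^ 2 / 2 : ℝ))} := by
      refine isClosed_eq (continuous_cf.comp W.continuous) ?_
      fun_prop
    refine hd.induction (P := fun f => ∫ s, Complex.exp (Complex.I * (W f s : ℝ)) ∂Q =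
        Complex.exp (-(‖f‖ ^ 2 / 2 : ℝ))) ?_ hcl f
    rintro _ ⟨φ, rfl⟩
    have h4 := cf0 hΩ hQ hR h3 φ.2
    have h5 : ‖eMap hR φ‖ = ‖R φ‖ := rfl
    rw [h5, ← h4]
    refine integral_congr_ae ?_
    filter_upwards [ha φ (hR.mem φ) φ.2] with s hs
    have h6 : W (eMap hR φ) s = Γ φ s := hs
    rw [h6]
  · intro k φ hR' hφ Ψ hΨ
    have h4 := h3 k φ hφ Ψ hΨ
    have e1 : ∫ s, (Ψ (past k s) : ℂ) *
          Complex.exp (Complex.I * ((W ⟨R φ, hR'⟩ s - cst * pr (s k).2 φ : ℝ) : ℂ)) ∂Q =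
        ∫ s, (Ψ (past k s) : ℂ) * Complex.exp (Complex.I * (Γ φ s - cst * pr (s k).2 φ)) ∂Q := by
      refine integral_congr_ae ?_
      filter_upwards [ha φ hR' hφ] with s hs
      rw [hs]
      push_cast
      rfl
    rw [e1, h4]
    refine integral_congr_ae (Eventually.of_forall fun s => ?_)
    beta_reduce
    push_cast
    rw [neg_div]

end

end Vale.Agent.P155.Uq.WI
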