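import Vale.Agent.P155.U.YLim
import Vale.Agent.P155.U.Iface6
import Vale.Agent.P155.U.Mea
import Vale.Agent.P155.U.Gam1
import Vale.Agent.P155.U.ExtGreen

/-!
# P155, block U-X, part 1: the projections and the data for the limit field
-/

namespace Vale.Agent.P155.Uq

open MeasureTheory Filter Topology TopologicalSpace Vale.Agent.P155.U

/-- Projection onto `GV U` inside `GV Ω`. -/
noncomputable def PG {Ω U : Set ℂ} (h : U ⊆ Ω) : GV Ω →L[ℝ] GV Ω :=
  ((GV U).starProjection.comp (GV Ω).subtypeL).codRestrict (GV Ω)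
    (fun f => GV_mono h (Submodule.starProjection_apply_mem (GV U) (f : HL)))

section PG

variable {Ω U U' : Set ℂ}

theorem PG_coe (h : U ⊆ Ω) (f : GV Ω) : ((PG h f : GV Ω) : HL) = (GV U).starProjection (f : HL) := rfl

theorem PG_mem (h : U ⊆ Ω) (f : GV Ω) : ((PG h f : GV Ω) : HL) ∈ GV U :=
  Submodule.starProjection_apply_mem (GV U) (f : HL)

theorem PG_eq_iff (h : U ⊆ Ω) (f : GV Ω) : PG h f = f ↔ (f : HL) ∈ GV U := by
  rw [← Submodule.starProjection_eq_self_iff, ← PG_coe h]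
  exact ⟨fun h => congrArg _ h, fun h => Subtype.ext h⟩

theorem PG_sym (h : U ⊆ Ω) (f g : GV Ω) : inner ℝ (PG h f) g = inner ℝ f (PG h g) := by
  rw [Submodule.coe_inner, Submodule.coe_inner, PG_coe, PG_coe]
  exact Submodule.inner_starProjection_left_eq_right (GV U) (f : HL) (g : HL)

theorem PG_idem (h : U ⊆ Ω) (f : GV Ω) : PG h (PG h f) = PG h f :=
  (PG_eq_iff h _).2 (PG_mem h f)

theorem PG_norm_le (h : U ⊆ Ω) (f : GV Ω) : ‖PG h f‖ ≤ ‖f‖ :=
  Submodule.norm_starProjection_apply_le (GV U) (f : HL)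

theorem PG_PG (h : U ⊆ Ω) (h' : U' ⊆ Ω) (hU : U ⊆ U') (f : GV Ω) : PG h' (PG h f) = PG h f :=
  (PG_eq_iff h' _).2 (GV_mono hU (PG_mem h f))

theorem PG_inner (h : U ⊆ Ω) (f g : GV Ω) : inner ℝ (PG h f) (PG h g) = inner ℝ (PG h f) g := by
  rw [PG_sym, PG_idem, ← PG_sym]

end PG

/-- Pairs of pasts. -/
abbrev PP (Ω : Set ℂ) (k : ℕ) : Type := Past Ω k × Past Ω k

/-- The two last carpets. -/
def car {Ω : Set ℂ} {k : ℕ} (t : PP Ω k) : NonemptyCompacts ℂ × NonemptyCompacts ℂ :=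
  ((t.1 (Fin.last k)).1, (t.2 (Fin.last k)).1)

theorem measurable_car {Ω : Set ℂ} {k : ℕ} : Measurable (car (Ω := Ω) (k := k)) := by
  unfold car
  refine Measurable.prodMk ?_ ?_
  · exact measurable_fst.comp ((measurable_pi_apply _).comp measurable_fst)
  · exact measurable_fst.comp ((measurable_pi_apply _).comp measurable_snd)

theorem measurable_past {Ω : Set ℂ} (k : ℕ) : Measurable (past (Ω := Ω) k) :=
  measurable_pi_lambda _ fun _ => measurable_pi_apply _

/-- The union of the two carpets. -/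
def uni {Ω : Set ℂ} {k : ℕ} (t : PP Ω k) : Set ℂ :=
  ((t.1 (Fin.last k)).1 : Set ℂ) ∪ ((t.2 (Fin.last k)).1 : Set ℂ)

/-- The data for the limit field. -/
theorem ydata {Ω : Set ℂ} {X : Type} [MeasurableSpace X] {μ : Measure X}
    {a a' : X → Sp Ω} (ha : Measurable a) (ha' : Measurable a') {Wt : GV Ω →ₗᵢ[ℝ] Lp ℝ 2 μ}
    (hpc : PieceK Ω μ a a' Wt) (k : ℕ)
    {J : Type} [Countable J] [MeasurableSpace J] [MeasurableSingletonClass J] {K : J → Set ℂ}
    {ix : ℕ → NonemptyCompacts ℂ × NonemptyCompacts ℂ → J} (hix : ∀ n, Measurable (ix n))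
    (hKc : ∀ j, IsClosed (K j))
    (hKs : ∀ n p, (p.1 : Set ℂ) ∪ (p.2 : Set ℂ) ⊆ K (ix n p))
    (hKm : ∀ n p, K (ix (n + 1) p) ⊆ K (ix n p))
    (hKe : ∀ p F, IsCompact F → Disjoint F ((p.1 : Set ℂ) ∪ (p.2 : Set ℂ)) →
      ∃ n, Disjoint F (K (ix n p))) :
    YData Wt (fun x => ((past k (a x), past k (a' x)) : PP Ω k)) (fun n t => ix n (car t))
      (fun j => PG (Set.sdiff_subset : Ω \ K j ⊆ Ω))
      (fun t => PG (Set.sdiff_subset : Ω \ uni t ⊆ Ω)) where
  mp := ((measurable_past k).comp ha).prodMk ((measurable_past k).comp ha')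
  midx n := (hix n).comp measurable_car
  sym j f g := PG_sym _ f g
  idem j f := PG_idem _ f
  norm_le j f := PG_norm_le _ f
  mono n m hnm t f := by
    refine PG_PG _ _ ?_ f
    refine Set.sdiff_subset_sdiff_right ?_
    induction m, hnm using Nat.le_induction with
    | base => exact subset_rfl
    | succ m _ ih => exact (hKm m _).trans ih
  lim t f := by
    rw [tendsto_subtype_rng]
    simp only [PG_coe]
    refine prjStmt.2 (Ω \ uni t) (fun n => Ω \ K (ix n (car t)))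
      (fun n => Set.sdiff_subset_sdiff_right (hKm n _)) (fun n => Set.sdiff_subset_sdiff_right ?_) ?_ _
    · exact hKs n (car t)
    · intro v hv
      obtain ⟨n, hn⟩ := hKe (car t) (tsupport v) hv.2.1 (by
        rw [Set.disjoint_left]
        intro z hz hz'
        exact (hv.2.2 hz).2 hz')
      refine ⟨n, fun z hz => ⟨(hv.2.2 hz).1, fun hz' => ?_⟩⟩
      exact (Set.disjoint_left.1 hn) hz hz'
  piece n j w hw hwb hsup f g hf := by
    refine (hpc k (K j) (hKc j) w ⟨hw, hwb⟩ ?_ f g ((PG_eq_iff _ _).1 hf)).1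
    intro t ht
    have h1 := hKs n (car t)
    rw [hsup t ht] at h1
    exact Set.union_subset_iff.1 h1
  piece1 n j w hw hwb hsup f hf := by
    refine (hpc k (K j) (hKc j) w ⟨hw, hwb⟩ ?_ f f ((PG_eq_iff _ _).1 hf)).2
    intro t ht
    have h1 := hKs n (car t)
    rw [hsup t ht] at h1
    exact Set.union_subset_iff.1 h1

end Vale.Agent.P155.Uq
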