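import Vale.Agent.P155.U.Xex1
import Vale.Agent.P155.U.Gam

/-!
# P155, block U-X, part 2: random finite combinations
-/

namespace Vale.Agent.P155.Uq.Xe

open MeasureTheory Filter Topology TopologicalSpace Vale.Agent.P155.U

theorem test_sum {Ω : Set ℂ} {ι : Type*} (t : Finset ι) (c : ι → ℝ) (φ : ι → ℂ → ℝ)
    (h : ∀ i ∈ t, IsTest Ω (φ i)) : IsTest Ω (fun z => ∑ i ∈ t, c i * φ i z) := by
  classical
  induction t using Finset.induction_on with
  | empty => simpa using isTest_zero Ω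
  | insert i t hi ih =>
    have h1 := Gam.test_lin (h i (Finset.mem_insert_self i t))
      (ih fun j hj => h j (Finset.mem_insert_of_mem hj)) (c i) 1
    convert h1 using 2 with z
    rw [Finset.sum_insert hi, one_mul]

theorem R_sum {Ω : Set ℂ} {R : (ℂ → ℝ) → HL} (hR : IsR Ω R) {ι : Type*} (t : Finset ι)
    (c : ι → ℝ) (φ : ι → ℂ → ℝ) (h : ∀ i ∈ t, IsTest Ω (φ i)) :
    R (fun z => ∑ i ∈ t, c i * φ i z) = ∑ i ∈ t, c i • R (φ i) := by
  classical
  induction t using Finset.induction_on with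
  | empty =>
    have h0 := hR.lin (fun _ => 0) (fun _ => 0) (isTest_zero Ω) (isTest_zero Ω) 0 0
    simpa using h0
  | insert i t hi ih =>
    have h1 := hR.lin (φ i) (fun z => ∑ i ∈ t, c i * φ i z) (h i (Finset.mem_insert_self i t))
      (test_sum t c φ fun j hj => h j (Finset.mem_insert_of_mem hj)) (c i) 1
    rw [Finset.sum_insert hi, ← ih fun j hj => h j (Finset.mem_insert_of_mem hj)]
    rw [one_smul] at h1
    rw [← h1]
    congr 1
    ext z
    rw [Finset.sum_insert hi, one_mul]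

/-- The Green energy of a finite combination. -/
theorem green_sum {Ω : Set ℂ} {R : (ℂ → ℝ) → HL} (hR : IsR Ω R) {U : Set ℂ} (hU : U ⊆ Ω)
    {ι : Type*} (t : Finset ι) (c : ι → ℝ) (φ : ι → ℂ → ℝ) (h : ∀ i ∈ t, IsTest Ω (φ i)) :
    greenEnergy U (fun z => ∑ i ∈ t, c i * φ i z) =
      ∑ i ∈ t, ∑ j ∈ t, c i * c j *
        inner ℝ (PG hU ⟨R (φ i), hR.mem _⟩) (PG hU ⟨R (φ j), hR.mem _⟩) := by
  rw [hR.energy U hU _ (test_sum t c φ h), R_sum hR t c φ h, map_sum, ← real_inner_self_eq_norm_sq,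
    sum_inner]
  refine Finset.sum_congr rfl fun i _ => ?_
  rw [inner_sum]
  refine Finset.sum_congr rfl fun j _ => ?_
  rw [map_smul, map_smul, real_inner_smul_left, real_inner_smul_right, Submodule.coe_inner,
    PG_coe, PG_coe]
  ring

theorem meas_inner_PG {Ω : Set ℂ} (hO : IsOpen Ω) (hb : Bornology.IsBounded Ω) {T : Type*}
    [MeasurableSpace T] {A : T → NonemptyCompacts ℂ} (hA : Measurable A) (f g : GV Ω) :
    Measurable (fun t => inner ℝ (PG (Set.sdiff_subset : Ω \ (A t : Set ℂ) ⊆ Ω) f)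
      (PG (Set.sdiff_subset : Ω \ (A t : Set ℂ) ⊆ Ω) g)) := by
  have h := (meaStmt Ω hO hb (f : HL) (g : HL) f.2 g.2).comp hA
  have e : (fun t => inner ℝ (PG (Set.sdiff_subset : Ω \ (A t : Set ℂ) ⊆ Ω) f)
      (PG (Set.sdiff_subset : Ω \ (A t : Set ℂ) ⊆ Ω) g)) =
      (fun A : NonemptyCompacts ℂ => inner ℝ ((GV (Ω \ A)).starProjection (f : HL)) (g : HL)) ∘ A := by
    funext t
    simp only [Function.comp]
    rw [PG_inner, Submodule.coe_inner, PG_coe]
  rw [e]
  exact h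

theorem meas_green_sum {Ω : Set ℂ} (hO : IsOpen Ω) (hb : Bornology.IsBounded Ω)
    {R : (ℂ → ℝ) → HL} (hR : IsR Ω R) {T : Type*}
    [MeasurableSpace T] {A : T → NonemptyCompacts ℂ} (hA : Measurable A)
    {ι : Type*} (t : Finset ι) (w : ι → T → ℝ) (hw : ∀ i ∈ t, Measurable (w i))
    (φ : ι → ℂ → ℝ) (h : ∀ i ∈ t, IsTest Ω (φ i)) :
    Measurable (fun s => greenEnergy (Ω \ (A s : Set ℂ)) (fun z => ∑ i ∈ t, w i s * φ i z)) := by
  have e : (fun s => greenEnergy (Ω \ (A s : Set ℂ)) (fun z => ∑ i ∈ t, w i s * φ i z)) =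
      fun s => ∑ i ∈ t, ∑ j ∈ t, w i s * w j s *
        inner ℝ (PG (Set.sdiff_subset : Ω \ (A s : Set ℂ) ⊆ Ω) ⟨R (φ i), hR.mem _⟩)
          (PG (Set.sdiff_subset : Ω \ (A s : Set ℂ) ⊆ Ω) ⟨R (φ j), hR.mem _⟩) := by
    funext s
    exact green_sum hR _ t (fun i => w i s) φ h
  rw [e]
  refine Finset.measurable_fun_sum _ fun i hi => Finset.measurable_fun_sum _ fun j hj => ?_
  exact ((hw i hi).mul (hw j hj)).mul (meas_inner_PG hO hb hA _ _)

/-- Expansion of the second moment of a random finite combination. -/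
theorem int_sq_sum {X : Type*} [MeasurableSpace X] {μ : Measure X} {ι : Type*} (t : Finset ι)
    (w : ι → X → ℝ) (hw : ∀ i ∈ t, AEStronglyMeasurable (w i) μ)
    (hwb : ∀ i ∈ t, ∃ C, ∀ x, |w i x| ≤ C) (U : ι → X → ℝ) (hU : ∀ i ∈ t, MemLp (U i) 2 μ) :
    ∫ x, (∑ i ∈ t, w i x * U i x) ^ 2 ∂μ =
      ∑ i ∈ t, ∑ j ∈ t, ∫ x, (w i x * w j x) * (U i x * U j x) ∂μ := by
  have hint : ∀ i ∈ t, ∀ j ∈ t, Integrable (fun x => (w i x * w j x) * (U i x * U j x)) μ := by
    intro i hi j hj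
    obtain ⟨C, hC⟩ := hwb i hi
    obtain ⟨D, hD⟩ := hwb j hj
    refine integrable_wint (C := |C| * |D|) ((hw i hi).mul (hw j hj)) (fun x => ?_) (hU i hi) (hU j hj)
    rw [Pi.mul_apply, abs_mul]
    exact mul_le_mul ((hC x).trans (le_abs_self C)) ((hD x).trans (le_abs_self D)) (abs_nonneg _)
      (abs_nonneg _)
  have e : ∀ x, (∑ i ∈ t, w i x * U i x) ^ 2 =
      ∑ i ∈ t, ∑ j ∈ t, (w i x * w j x) * (U i x * U j x) := by
    intro x
    rw [sq, Finset.sum_mul_sum]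
    refine Finset.sum_congr rfl fun i _ => Finset.sum_congr rfl fun j _ => ?_
    ring
  simp_rw [e]
  rw [integral_finsetSum _ fun i hi => integrable_finsetSum _ fun j hj => hint i hi j hj]
  refine Finset.sum_congr rfl fun i hi => ?_
  rw [integral_finsetSum _ fun j hj => hint i hi j hj]

theorem int_map {S X : Type*} [MeasurableSpace S] [MeasurableSpace X] {Q : Measure S}
    {μ : Measure X} {a : X → S} (ha : Measurable a) (hmap : μ.map a = Q) {F : S → ℝ}
    (hF : AEStronglyMeasurable F Q) : ∫ x, F (a x) ∂μ = ∫ s, F s ∂Q := by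
  subst hmap
  rw [integral_map ha.aemeasurable hF]

theorem ae_map_of {S X : Type*} [MeasurableSpace S] [MeasurableSpace X] {Q : Measure S}
    {μ : Measure X} {a : X → S} (ha : Measurable a) (hmap : μ.map a = Q) {p : S → Prop}
    (h : ∀ᵐ s ∂Q, p s) : ∀ᵐ x ∂μ, p (a x) := by
  subst hmap
  exact ae_of_ae_map ha.aemeasurable h

theorem lev_map {Ω : Set ℂ} {S X : Type} [MeasurableSpace S] [MeasurableSpace X] {Q : Measure S}
    {μ : Measure X} {a : X → S} (ha : Measurable a) (hmap : μ.map a = Q) {K0 : S → Set ℂ}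
    {A : S → NonemptyCompacts ℂ} {h : S → (ℂ → ℝ) → ℝ} (H : Lev Ω Q K0 A h) :
    Lev Ω μ (fun x => K0 (a x)) (fun x => A (a x)) (fun x => h (a x)) where
  rep := ae_map_of ha hmap H.rep
  fr := ae_map_of ha hmap H.fr
  sub := ae_map_of ha hmap H.sub
  conn := ae_map_of ha hmap H.conn
  null := ae_map_of ha hmap H.null
  sign := ae_map_of ha hmap H.sign

end Vale.Agent.P155.Uq.Xe
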