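import Vale.Agent.P155.U.Xex2
import Vale.Agent.P155.U.Cm
import Vale.Agent.P155.U.Hil
import Vale.Agent.P155.U.Dya
import Vale.Agent.P155.U.Lev
import Vale.Agent.P155.U.Loch

/-!
# P155, block U-X, part 3: the coupled pair
-/

namespace Vale.Agent.P155.Uq.Xe

open MeasureTheory Filter Topology TopologicalSpace Vale.Agent.P155.U

theorem exists_isR {Ω : Set ℂ} (hO : IsOpen Ω) (hb : Bornology.IsBounded Ω) : ∃ R, IsR Ω R := by
  obtain ⟨R, h1, h2, h3, h4, h5⟩ := hilStmt Ω hO hb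
  exact ⟨R, ⟨h1, h2, h3, h4, h5⟩⟩

/-- Truncation. -/
noncomputable def clip (M u : ℝ) : ℝ := max (-M) (min M u)

theorem clip_eq {M u : ℝ} (h : |u| ≤ M) : clip M u = u := by
  unfold clip
  rw [min_eq_right (abs_le.1 h).2, max_eq_right (abs_le.1 h).1]

theorem abs_clip_le {M : ℝ} (hM : 0 ≤ M) (u : ℝ) : |clip M u| ≤ M := by
  unfold clip
  rw [abs_le]
  exact ⟨le_max_left _ _, max_le (by linarith) (min_le_left _ _)⟩

theorem measurable_clip {M : ℝ} {T : Type*} [MeasurableSpace T] {u : T → ℝ} (hu : Measurable u) :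
    Measurable (fun t => clip M (u t)) :=
  measurable_const.max (measurable_const.min hu)

section

variable {Ω : Set ℂ} {R : (ℂ → ℝ) → HL} {Q Q' : Measure (Sp Ω)} {X : Type} [MeasurableSpace X]
  {μ : Measure X} {a a' : X → Sp Ω}

/-- The field. -/
noncomputable def Gm (hR : IsR Ω R) (Wt : GV Ω →ₗᵢ[ℝ] Lp ℝ 2 μ) (a : X → Sp Ω) (k : ℕ)
    (φ : ℂ → ℝ) (x : X) : ℝ :=
  (Wt ⟨R φ, hR.mem φ⟩ : X → ℝ) x - cst * pr (a x k).2 φ

theorem memLp_pr_a (hQ : Canon Ω Q) (ha : Measurable a) (hmap : μ.map a = Q) {φ : ℂ → ℝ}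
    (hφ : IsTest Ω φ) (k : ℕ) : MemLp (fun x => cst * pr (a x k).2 φ) 2 μ := by
  have h := Gam.memLp_Mk hQ hφ k
  subst hmap
  exact h.comp_measurePreserving ⟨ha, rfl⟩

theorem memLp_Gm (hR : IsR Ω R) (Wt : GV Ω →ₗᵢ[ℝ] Lp ℝ 2 μ) (hQ : Canon Ω Q) (ha : Measurable a)
    (hmap : μ.map a = Q) {φ : ℂ → ℝ} (hφ : IsTest Ω φ) (k : ℕ) :
    MemLp (Gm hR Wt a k φ) 2 μ :=
  (Lp.memLp _).sub (memLp_pr_a hQ ha hmap hφ k)

theorem Gm_lin (hR : IsR Ω R) (Wt : GV Ω →ₗᵢ[ℝ] Lp ℝ 2 μ) (k : ℕ) {φ ψ : ℂ → ℝ}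
    (hφ : IsTest Ω φ) (hψ : IsTest Ω ψ) (s t : ℝ) :
    Gm hR Wt a k (fun z => s * φ z + t * ψ z) =ᵐ[μ]
      fun x => s * Gm hR Wt a k φ x + t * Gm hR Wt a k ψ x := by
  have e : (⟨R (fun z => s * φ z + t * ψ z), hR.mem _⟩ : GV Ω) =
      s • ⟨R φ, hR.mem φ⟩ + t • ⟨R ψ, hR.mem ψ⟩ := Subtype.ext (hR.lin φ ψ hφ hψ s t)
  have e2 : Wt ⟨R (fun z => s * φ z + t * ψ z), hR.mem _⟩ =
      s • Wt ⟨R φ, hR.mem φ⟩ + t • Wt ⟨R ψ, hR.mem ψ⟩ := by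
    rw [e]; simp only [map_add, map_smul]
  filter_upwards [Lp.coeFn_add (s • Wt ⟨R φ, hR.mem φ⟩) (t • Wt ⟨R ψ, hR.mem ψ⟩),
    Lp.coeFn_smul s (Wt ⟨R φ, hR.mem φ⟩), Lp.coeFn_smul t (Wt ⟨R ψ, hR.mem ψ⟩)] with x h1 h2 h3
  unfold Gm
  rw [e2, h1, Pi.add_apply, h2, h3, Pi.smul_apply, Pi.smul_apply, Gam.pr_lin hφ hψ]
  simp only [smul_eq_mul]
  ring

/-- First conditional moment of the field, at level `k`, on the coupling space. -/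
theorem Gm_one (hO : IsOpen Ω) (hb : Bornology.IsBounded Ω) (hne : Ω.Nonempty) (hR : IsR Ω R)
    (hQ : Canon Ω Q) {W : GV Ω →ₗᵢ[ℝ] Lp ℝ 2 Q} (hch : CondCh Ω R Q W)
    {Wt : GV Ω →ₗᵢ[ℝ] Lp ℝ 2 μ} (ha : Measurable a) (hmap : μ.map a = Q)
    (hW : ∀ f, ∀ᵐ x ∂μ, (Wt f : X → ℝ) x = (W f : Sp Ω → ℝ) (a x)) (k : ℕ) {φ : ℂ → ℝ}
    (hφ : IsTest Ω φ) {w : Past Ω k → ℝ} (hw : BM w) :
    ∫ x, w (past k (a x)) * Gm hR Wt a k φ x ∂μ = 0 := by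
  rw [← (cmStmt Ω hO hb hne R hR Q hQ W hch k).1 φ (hR.mem φ) hφ w hw, ← int_map ha hmap]
  · refine integral_congr_ae ?_
    filter_upwards [hW ⟨R φ, hR.mem φ⟩] with x hx
    unfold Gm
    rw [hx]
  · refine AEStronglyMeasurable.mul (hw.1.comp (measurable_past k)).aestronglyMeasurable ?_
    exact (Lp.aestronglyMeasurable _).sub (Gam.meas_Mk hφ k).aestronglyMeasurable

/-- Second conditional moment. -/
theorem Gm_two (hO : IsOpen Ω) (hb : Bornology.IsBounded Ω) (hne : Ω.Nonempty) (hR : IsR Ω R)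
    (hQ : Canon Ω Q) {W : GV Ω →ₗᵢ[ℝ] Lp ℝ 2 Q} (hch : CondCh Ω R Q W)
    {Wt : GV Ω →ₗᵢ[ℝ] Lp ℝ 2 μ} (ha : Measurable a) (hmap : μ.map a = Q)
    (hW : ∀ f, ∀ᵐ x ∂μ, (Wt f : X → ℝ) x = (W f : Sp Ω → ℝ) (a x)) (k : ℕ)
    {ι : Type} (t : Finset ι) (w : ι → Past Ω k → ℝ) (φ : ι → ℂ → ℝ) (hw : ∀ i ∈ t, BM (w i))
    (hφ : ∀ i ∈ t, IsTest Ω (φ i)) :
    ∫ x, (∑ i ∈ t, w i (past k (a x)) * Gm hR Wt a k (φ i) x) ^ 2 ∂μ =
      ∫ x, greenEnergy (Ω \ (a x k).1) (fun z => ∑ i ∈ t, w i (past k (a x)) * φ i z) ∂μ := by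
  have h := (cmStmt Ω hO hb hne R hR Q hQ W hch k).2 t w φ (fun i => hR.mem (φ i)) hw hφ
  have h1 : ∫ x, greenEnergy (Ω \ (a x k).1) (fun z => ∑ i ∈ t, w i (past k (a x)) * φ i z) ∂μ =
      ∫ s, greenEnergy (Ω \ (s k).1) (fun z => ∑ i ∈ t, w i (past k s) * φ i z) ∂Q := by
    refine int_map (F := fun s : Sp Ω => greenEnergy (Ω \ (s k).1)
      (fun z => ∑ i ∈ t, w i (past k s) * φ i z)) ha hmap ?_
    exact (meas_green_sum hO hb hR (A := fun s : Sp Ω => (s k).1)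
      (measurable_fst.comp (measurable_pi_apply k)) t (fun i s => w i (past k s))
      (fun i hi => (hw i hi).1.comp (measurable_past k)) φ hφ).aestronglyMeasurable
  rw [h1, ← h, ← int_map ha hmap]
  · refine integral_congr_ae ?_
    have h2 : ∀ᵐ x ∂μ, ∀ i ∈ t, (Wt ⟨R (φ i), hR.mem (φ i)⟩ : X → ℝ) x =
        (W ⟨R (φ i), hR.mem (φ i)⟩ : Sp Ω → ℝ) (a x) := by
      rw [Filter.eventually_all_finset]
      exact fun i _ => hW _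
    filter_upwards [h2] with x hx
    congr 1
    refine Finset.sum_congr rfl fun i hi => ?_
    unfold Gm
    rw [hx i hi]
  · refine AEStronglyMeasurable.pow ?_ 2
    refine Finset.aestronglyMeasurable_fun_sum _ fun i hi => ?_
    refine AEStronglyMeasurable.mul ((hw i hi).1.comp (measurable_past k)).aestronglyMeasurable ?_
    exact (Lp.aestronglyMeasurable _).sub (Gam.meas_Mk (hφ i hi) k).aestronglyMeasurable

end

end Vale.Agent.P155.Uq.Xe
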