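import Vale.Agent.P155.U.Fib

/-!
# P155, block U: limit of the locally projected fields
-/

namespace Vale.Agent.P155.Uq

open MeasureTheory Filter Topology

section wint

variable {X : Type*} [MeasurableSpace X] {μ : Measure X}

theorem memLp_wmul {w : X → ℝ} {C : ℝ} (hw : AEStronglyMeasurable w μ) (hC : ∀ x, |w x| ≤ C)
    {F : X → ℝ} (hF : MemLp F 2 μ) : MemLp (fun x => w x * F x) 2 μ := by
  refine hF.of_le_mul (c := C) (hw.mul hF.1) (Eventually.of_forall fun x => ?_)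
  rw [Real.norm_eq_abs, Real.norm_eq_abs, abs_mul]
  exact mul_le_mul_of_nonneg_right (hC x) (abs_nonneg _)

theorem wint_le {w : X → ℝ} {C : ℝ} (hw : AEStronglyMeasurable w μ) (hC : ∀ x, |w x| ≤ C)
    (hC0 : 0 ≤ C) (F G : Lp ℝ 2 μ) :
    |∫ x, w x * ((F : X → ℝ) x * (G : X → ℝ) x) ∂μ| ≤ C * ‖F‖ * ‖G‖ := by
  have h1 : MemLp (fun x => w x * (F : X → ℝ) x) 2 μ := memLp_wmul hw hC (Lp.memLp F)
  have h2 : ∫ x, w x * ((F : X → ℝ) x * (G : X → ℝ) x) ∂μ = inner ℝ (h1.toLp _) G := by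
    rw [L2.inner_def]
    refine integral_congr_ae ?_
    filter_upwards [h1.coeFn_toLp] with x hx
    rw [hx]
    simp only [RCLike.inner_apply, conj_trivial]
    ring
  rw [h2]
  refine (abs_real_inner_le_norm _ _).trans ?_
  refine mul_le_mul_of_nonneg_right ?_ (norm_nonneg _)
  rw [Lp.norm_toLp]
  have h3 : eLpNorm (fun x => w x * (F : X → ℝ) x) 2 μ ≤ ENNReal.ofReal C * eLpNorm F 2 μ := by
    refine eLpNorm_le_mul_eLpNorm_of_ae_le_mul (Eventually.of_forall fun x => ?_) 2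
    rw [Real.norm_eq_abs, Real.norm_eq_abs, abs_mul]
    exact mul_le_mul_of_nonneg_right (hC x) (abs_nonneg _)
  have h4 := ENNReal.toReal_mono (ENNReal.mul_ne_top ENNReal.ofReal_ne_top (Lp.memLp F).2.ne) h3
  rw [ENNReal.toReal_mul, ENNReal.toReal_ofReal hC0] at h4
  rw [Lp.norm_def]
  exact h4

theorem integrable_wint {w : X → ℝ} {C : ℝ} (hw : AEStronglyMeasurable w μ) (hC : ∀ x, |w x| ≤ C)
    {F G : X → ℝ} (hF : MemLp F 2 μ) (hG : MemLp G 2 μ) :
    Integrable (fun x => w x * (F x * G x)) μ :=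
  (hF.integrable_mul hG).bdd_mul (c := C) hw (Eventually.of_forall hC)

theorem tendsto_wint {w : X → ℝ} {C : ℝ} (hw : AEStronglyMeasurable w μ) (hC : ∀ x, |w x| ≤ C)
    {F G : ℕ → Lp ℝ 2 μ} {F' G' : Lp ℝ 2 μ} (hF : Tendsto F atTop (𝓝 F'))
    (hG : Tendsto G atTop (𝓝 G')) :
    Tendsto (fun n => ∫ x, w x * ((F n : X → ℝ) x * (G n : X → ℝ) x) ∂μ) atTop
      (𝓝 (∫ x, w x * ((F' : X → ℝ) x * (G' : X → ℝ) x) ∂μ)) := by
  have hC' : ∀ x, |w x| ≤ |C| := fun x => (hC x).trans (le_abs_self C)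
  rw [tendsto_iff_norm_sub_tendsto_zero]
  have key : ∀ n, ‖∫ x, w x * ((F n : X → ℝ) x * (G n : X → ℝ) x) ∂μ -
      ∫ x, w x * ((F' : X → ℝ) x * (G' : X → ℝ) x) ∂μ‖ ≤
      |C| * ‖F n - F'‖ * ‖G n‖ + |C| * ‖F'‖ * ‖G n - G'‖ := by
    intro n
    have h1 : ∫ x, w x * ((F n : X → ℝ) x * (G n : X → ℝ) x) ∂μ -
      ∫ x, w x * ((F' : X → ℝ) x * (G' : X → ℝ) x) ∂μ =
      ∫ x, w x * (((F n - F' : Lp ℝ 2 μ) : X → ℝ) x * (G n : X → ℝ) x) ∂μ +
      ∫ x, w x * ((F' : X → ℝ) x * ((G n - G' : Lp ℝ 2 μ) : X → ℝ) x) ∂μ := by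
      rw [← integral_sub (integrable_wint hw hC (Lp.memLp _) (Lp.memLp _))
        (integrable_wint hw hC (Lp.memLp _) (Lp.memLp _)),
        ← integral_add (integrable_wint hw hC (Lp.memLp _) (Lp.memLp _))
        (integrable_wint hw hC (Lp.memLp _) (Lp.memLp _))]
      refine integral_congr_ae ?_
      filter_upwards [Lp.coeFn_sub (F n) F', Lp.coeFn_sub (G n) G'] with x hx hx'
      rw [hx, hx']
      simp only [Pi.sub_apply]
      ring
    rw [h1, Real.norm_eq_abs]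
    exact (abs_add_le _ _).trans (add_le_add (wint_le hw hC' (abs_nonneg _) _ _)
      (wint_le hw hC' (abs_nonneg _) _ _))
  refine squeeze_zero (fun n => norm_nonneg _) key ?_
  have h2 : Tendsto (fun n => |C| * ‖F n - F'‖ * ‖G n‖ + |C| * ‖F'‖ * ‖G n - G'‖) atTop
      (𝓝 (|C| * 0 * ‖G'‖ + |C| * ‖F'‖ * 0)) := by
    refine Tendsto.add (Tendsto.mul (Tendsto.const_mul _ ?_) hG.norm) (Tendsto.const_mul _ ?_)
    · exact tendsto_iff_norm_sub_tendsto_zero.1 hF
    · exact tendsto_iff_norm_sub_tendsto_zero.1 hG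
  simpa using h2

end wint

section YL

variable {X T J : Type*} [MeasurableSpace X] {μ : Measure X} [IsProbabilityMeasure μ]
  [MeasurableSpace T] [MeasurableSpace J] [Countable J] [MeasurableSingletonClass J]
  {𝓓 : Type*} [NormedAddCommGroup 𝓓] [InnerProductSpace ℝ 𝓓]

/-- The data: random projections `P (idx n t)`, increasing in `n`, with limit `Pi t`, for which the
field restricted to the range of `P j` is conditionally a white noise on `{idx n = j}`. -/
structure YData (W : 𝓓 →ₗᵢ[ℝ] Lp ℝ 2 μ) (p : X → T) (idx : ℕ → T → J) (P : J → 𝓓 →L[ℝ] 𝓓)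
    (Pj : T → 𝓓 →L[ℝ] 𝓓) : Prop where
  mp : Measurable p
  midx : ∀ n, Measurable (idx n)
  sym : ∀ j f g, inner ℝ (P j f) g = inner ℝ f (P j g)
  idem : ∀ j f, P j (P j f) = P j f
  norm_le : ∀ j f, ‖P j f‖ ≤ ‖f‖
  mono : ∀ n m, n ≤ m → ∀ t f, P (idx m t) (P (idx n t) f) = P (idx n t) f
  lim : ∀ t f, Tendsto (fun n => P (idx n t) f) atTop (𝓝 (Pj t f))
  piece : ∀ n j (w : T → ℝ), Measurable w → (∃ C, ∀ t, |w t| ≤ C) → (∀ t, w t ≠ 0 → idx n t = j) →
    ∀ f g, P j f = f → ∫ x, w (p x) * ((W f : X → ℝ) x * (W g : X → ℝ) x) ∂μ =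
      inner ℝ f g * ∫ x, w (p x) ∂μ
  piece1 : ∀ n j (w : T → ℝ), Measurable w → (∃ C, ∀ t, |w t| ≤ C) → (∀ t, w t ≠ 0 → idx n t = j) →
    ∀ f, P j f = f → ∫ x, w (p x) * (W f : X → ℝ) x ∂μ = 0

variable {W : 𝓓 →ₗᵢ[ℝ] Lp ℝ 2 μ} {p : X → T} {idx : ℕ → T → J} {P : J → 𝓓 →L[ℝ] 𝓓}
    {Pj : T → 𝓓 →L[ℝ] 𝓓}

omit [IsProbabilityMeasure μ] [Countable J] [MeasurableSingletonClass J] in
theorem YData.pc (D : YData W p idx P Pj) (n : ℕ) (f g : 𝓓) :
    Piece W p (idx n) (fun j => P j f) (fun j => P j g) := by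
  intro j w hw hwb hsup
  exact D.piece n j w hw hwb hsup _ _ (D.idem j f)

omit [IsProbabilityMeasure μ] [Countable J] [MeasurableSingletonClass J] in
theorem YData.pcW (D : YData W p idx P Pj) (n : ℕ) (f g : 𝓓) :
    Piece W p (idx n) (fun j => P j f) (fun _ => g) := by
  intro j w hw hwb hsup
  exact D.piece n j w hw hwb hsup _ _ (D.idem j f)

/-- The locally projected field. -/
noncomputable def Yn (W : 𝓓 →ₗᵢ[ℝ] Lp ℝ 2 μ) (p : X → T) (idx : ℕ → T → J) (P : J → 𝓓 →L[ℝ] 𝓓)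
    (n : ℕ) (f : 𝓓) : X → ℝ := UA W p (idx n) (fun j => P j f)

theorem YData.memLp_Yn (D : YData W p idx P Pj) (n : ℕ) (f : 𝓓) : MemLp (Yn W p idx P n f) 2 μ :=
  memLp_UA (D.pc n f f) D.mp (D.midx n) (fun j => D.norm_le j f)

/-- ... as an element of `L²`. -/
noncomputable def YData.yn (D : YData W p idx P Pj) (n : ℕ) (f : 𝓓) : Lp ℝ 2 μ :=
  (D.memLp_Yn n f).toLp _

theorem YData.coe_yn (D : YData W p idx P Pj) (n : ℕ) (f : 𝓓) :
    (D.yn n f : X → ℝ) =ᵐ[μ] Yn W p idx P n f := (D.memLp_Yn n f).coeFn_toLp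

theorem YData.mom (D : YData W p idx P Pj) (n : ℕ) (f g : 𝓓) {w : T → ℝ} (hw : Measurable w)
    (hwb : ∃ C, ∀ t, |w t| ≤ C) :
    ∫ x, w (p x) * ((D.yn n f : X → ℝ) x * (D.yn n g : X → ℝ) x) ∂μ =
      ∫ x, w (p x) * inner ℝ (P (idx n (p x)) f) (P (idx n (p x)) g) ∂μ := by
  rw [← sumJ (D.pc n f f) (D.pc n g g) (D.pc n f g) D.mp (D.midx n) (fun j => D.norm_le j f)
    (fun j => D.norm_le j g) hw hwb]
  refine integral_congr_ae ?_
  filter_upwards [D.coe_yn n f, D.coe_yn n g] with x h1 h2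
  rw [h1, h2]
  rfl

theorem YData.momW (D : YData W p idx P Pj) (n : ℕ) (f g : 𝓓) {w : T → ℝ} (hw : Measurable w)
    (hwb : ∃ C, ∀ t, |w t| ≤ C) :
    ∫ x, w (p x) * ((D.yn n f : X → ℝ) x * (W g : X → ℝ) x) ∂μ =
      ∫ x, w (p x) * inner ℝ (P (idx n (p x)) f) g ∂μ := by
  have hfib1 : Integrable (fun x => w (p x) * (UA W p (idx n) (fun j => P j f) x * (W g : X → ℝ) x)) μ := by
    obtain ⟨C, hC⟩ := hwb
    exact integrable_wint (hw.comp D.mp).aestronglyMeasurable (fun x => hC _) (D.memLp_Yn n f)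
      (Lp.memLp _)
  have hfib2 : Integrable (fun x => w (p x) * inner ℝ (P (idx n (p x)) f) g) μ := by
    obtain ⟨C, hC⟩ := hwb
    refine Integrable.mono' (integrable_const (|C| * (‖f‖ * ‖g‖))) ?_
      (Eventually.of_forall fun x => ?_)
    · refine ((hw.comp D.mp).mul ?_).aestronglyMeasurable
      exact meas_fiber (K := fun x => idx n (p x)) ((D.midx n).comp D.mp)
        (F := fun i _ => inner ℝ (P i f) g) (fun _ => measurable_const)
    · rw [Real.norm_eq_abs, abs_mul]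
      refine mul_le_mul ((hC _).trans (le_abs_self C)) ?_ (abs_nonneg _) (abs_nonneg _)
      refine (abs_real_inner_le_norm _ _).trans ?_
      exact mul_le_mul_of_nonneg_right (D.norm_le _ _) (norm_nonneg _)
  have e0 : ∫ x, w (p x) * ((D.yn n f : X → ℝ) x * (W g : X → ℝ) x) ∂μ =
      ∫ x, w (p x) * (UA W p (idx n) (fun j => P j f) x * (W g : X → ℝ) x) ∂μ := by
    refine integral_congr_ae ?_
    filter_upwards [D.coe_yn n f] with x h1
    rw [h1]
    rfl
  rw [e0]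
  have e1 := integral_fiber (μ := μ) (K := fun x => idx n (p x)) ((D.midx n).comp D.mp)
    (fun i x => w (p x) * ((W (P i f) : X → ℝ) x * (W g : X → ℝ) x)) hfib1
  have e2 := integral_fiber (μ := μ) (K := fun x => idx n (p x)) ((D.midx n).comp D.mp)
    (fun i x => w (p x) * inner ℝ (P i f) g) hfib2
  refine e1.trans (Eq.trans ?_ e2.symm)
  congr 1
  ext i
  have := (D.pcW n f g).set D.mp (D.midx n) i hw hwb
  rw [this, integral_mul_const, mul_comm]

theorem YData.mom1 (D : YData W p idx P Pj) (n : ℕ) (f : 𝓓) {w : T → ℝ} (hw : Measurable w)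
    (hwb : ∃ C, ∀ t, |w t| ≤ C) :
    ∫ x, w (p x) * (D.yn n f : X → ℝ) x ∂μ = 0 := by
  have hfib1 : Integrable (fun x => w (p x) * UA W p (idx n) (fun j => P j f) x) μ := by
    obtain ⟨C, hC⟩ := hwb
    exact ((D.memLp_Yn n f).integrable (by norm_num)).bdd_mul (c := C)
      (hw.comp D.mp).aestronglyMeasurable (Eventually.of_forall fun x => hC _)
  have e0 : ∫ x, w (p x) * (D.yn n f : X → ℝ) x ∂μ =
      ∫ x, w (p x) * UA W p (idx n) (fun j => P j f) x ∂μ := by
    refine integral_congr_ae ?_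
    filter_upwards [D.coe_yn n f] with x h1
    rw [h1]
    rfl
  rw [e0]
  have e1 := integral_fiber (μ := μ) (K := fun x => idx n (p x)) ((D.midx n).comp D.mp)
    (fun i x => w (p x) * (W (P i f) : X → ℝ) x) hfib1
  refine e1.trans ?_
  have : ∀ i, ∫ x in (fun x => idx n (p x)) ⁻¹' {i}, w (p x) * (W (P i f) : X → ℝ) x ∂μ = 0 := by
    intro i
    have hm : MeasurableSet ((fun x => idx n (p x)) ⁻¹' {i}) :=
      ((D.midx n).comp D.mp) (measurableSet_singleton i)
    have hm' : MeasurableSet (idx n ⁻¹' {i}) := D.midx n (measurableSet_singleton i)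
    rw [← integral_indicator hm]
    have h1 := D.piece1 n i ((idx n ⁻¹' {i}).indicator w) (hw.indicator hm') (by
      obtain ⟨C, hC⟩ := hwb
      refine ⟨|C|, fun t => ?_⟩
      unfold Set.indicator
      split_ifs
      · exact (hC t).trans (le_abs_self C)
      · rw [abs_zero]; exact abs_nonneg C) (fun t ht => by
        by_contra h'
        exact ht (Set.indicator_of_notMem (by simpa using h') _)) (P i f) (D.idem i f)
    rw [← h1]
    congr 1
    ext x
    by_cases hx : idx n (p x) = i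
    · rw [Set.indicator_of_mem (by exact hx), Set.indicator_of_mem (by exact hx)]
    · rw [Set.indicator_of_notMem (by exact hx), Set.indicator_of_notMem (by exact hx), zero_mul]
  simp_rw [this]
  simp

omit [IsProbabilityMeasure μ] in
theorem YData.sm (D : YData W p idx P Pj) (n : ℕ) (f : 𝓓) :
    StronglyMeasurable (fun t => P (idx n t) f) :=
  (StronglyMeasurable.of_discrete (f := fun j => P j f)).comp_measurable (D.midx n)

omit [IsProbabilityMeasure μ] in
theorem YData.smPi (D : YData W p idx P Pj) (f : 𝓓) : StronglyMeasurable (fun t => Pj t f) :=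
  stronglyMeasurable_of_tendsto atTop (fun n => D.sm n f) (tendsto_pi_nhds.2 fun t => D.lim t f)

omit [IsProbabilityMeasure μ] [Countable J] [MeasurableSingletonClass J] in
theorem YData.norm_Pi_le (D : YData W p idx P Pj) (t : T) (f : 𝓓) : ‖Pj t f‖ ≤ ‖f‖ :=
  le_of_tendsto (D.lim t f).norm (Eventually.of_forall fun _ => D.norm_le _ _)

theorem YData.momNM (D : YData W p idx P Pj) {n m : ℕ} (hnm : n ≤ m) (f g : 𝓓) {w : T → ℝ}
    (hw : Measurable w) (hwb : ∃ C, ∀ t, |w t| ≤ C) :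
    ∫ x, w (p x) * ((D.yn n f : X → ℝ) x * (D.yn m g : X → ℝ) x) ∂μ =
      ∫ x, w (p x) * inner ℝ (P (idx n (p x)) f) (P (idx m (p x)) g) ∂μ := by
  set K : T → J × J := fun t => (idx n t, idx m t)
  have hA : Piece W p K (fun q => P q.1 f) (fun q => P q.1 f) := by
    rintro ⟨i, j⟩ w hw hwb hsup
    exact D.piece n i w hw hwb (fun t ht => congrArg Prod.fst (hsup t ht)) _ _ (D.idem i f)
  have hB : Piece W p K (fun q => P q.2 g) (fun q => P q.2 g) := by
    rintro ⟨i, j⟩ w hw hwb hsup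
    exact D.piece m j w hw hwb (fun t ht => congrArg Prod.snd (hsup t ht)) _ _ (D.idem j g)
  have hAB : Piece W p K (fun q => P q.1 f) (fun q => P q.2 g) := by
    rintro ⟨i, j⟩ w hw hwb hsup
    by_cases hex : ∃ t, w t ≠ 0
    · obtain ⟨t, ht⟩ := hex
      have h1 : idx n t = i := congrArg Prod.fst (hsup t ht)
      have h2 : idx m t = j := congrArg Prod.snd (hsup t ht)
      have h3 := D.mono n m hnm t f
      rw [h1, h2] at h3
      exact D.piece m j w hw hwb (fun t ht => congrArg Prod.snd (hsup t ht)) _ _ h3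
    · push Not at hex
      simp [hex]
  rw [← sumJ hA hB hAB D.mp ((D.midx n).prodMk (D.midx m)) (fun q => D.norm_le q.1 f)
    (fun q => D.norm_le q.2 g) hw hwb]
  refine integral_congr_ae ?_
  filter_upwards [D.coe_yn n f, D.coe_yn m g] with x h1 h2
  rw [h1, h2]
  rfl

omit [IsProbabilityMeasure μ] in
theorem inner_eq_int (F G : Lp ℝ 2 μ) : inner ℝ F G = ∫ x, (F : X → ℝ) x * (G : X → ℝ) x ∂μ := by
  rw [L2.inner_def]
  congr 1
  ext x
  simp only [RCLike.inner_apply, conj_trivial]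
  ring

theorem YData.integrable_inner (D : YData W p idx P Pj) (n m : ℕ) (f g : 𝓓) :
    Integrable (fun x => inner ℝ (P (idx n (p x)) f) (P (idx m (p x)) g)) μ := by
  refine Integrable.mono' (integrable_const (‖f‖ * ‖g‖)) ?_ (Eventually.of_forall fun x => ?_)
  · exact (((D.sm n f).inner (D.sm m g)).comp_measurable D.mp).aestronglyMeasurable
  · refine (abs_real_inner_le_norm _ _).trans ?_
    exact mul_le_mul (D.norm_le _ _) (D.norm_le _ _) (norm_nonneg _) (norm_nonneg _)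

theorem YData.norm_sub (D : YData W p idx P Pj) {n m : ℕ} (hnm : n ≤ m) (f : 𝓓) :
    ‖D.yn n f - D.yn m f‖ ^ 2 = ∫ x, ‖P (idx n (p x)) f - P (idx m (p x)) f‖ ^ 2 ∂μ := by
  have e : ∀ a b, a ≤ b → inner ℝ (D.yn a f) (D.yn b f) =
      ∫ x, inner ℝ (P (idx a (p x)) f) (P (idx b (p x)) f) ∂μ := by
    intro a b hab
    have h := D.momNM hab f f (w := fun _ => 1) measurable_const ⟨1, by simp⟩
    simp only [one_mul] at h
    rw [inner_eq_int, h]
  rw [norm_sub_sq_real, ← real_inner_self_eq_norm_sq, ← real_inner_self_eq_norm_sq,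
    e n n le_rfl, e n m hnm, e m m le_rfl, ← integral_const_mul, ← integral_sub, ← integral_add]
  · congr 1
    ext x
    rw [norm_sub_sq_real, real_inner_self_eq_norm_sq, real_inner_self_eq_norm_sq]
  · exact (D.integrable_inner n n f f).sub ((D.integrable_inner n m f f).const_mul 2)
  · exact D.integrable_inner m m f f
  · exact D.integrable_inner n n f f
  · exact (D.integrable_inner n m f f).const_mul 2

theorem YData.tendsto_err (D : YData W p idx P Pj) (f : 𝓓) :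
    Tendsto (fun n => ∫ x, ‖P (idx n (p x)) f - Pj (p x) f‖ ^ 2 ∂μ) atTop (𝓝 0) := by
  have h : Tendsto (fun n => ∫ x, ‖P (idx n (p x)) f - Pj (p x) f‖ ^ 2 ∂μ) atTop
      (𝓝 (∫ x : X, (0 : ℝ) ∂μ)) := by
    apply tendsto_integral_of_dominated_convergence (fun _ => (2 * ‖f‖) ^ 2)
    · intro n
      exact ((((D.sm n f).sub (D.smPi f)).comp_measurable D.mp).norm.pow 2).aestronglyMeasurable
    · exact integrable_const _
    · intro n
      refine Eventually.of_forall fun x => ?_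
      rw [Real.norm_eq_abs, abs_of_nonneg (by positivity)]
      refine pow_le_pow_left₀ (norm_nonneg _) ?_ 2
      refine (norm_sub_le _ _).trans ?_
      linarith [D.norm_le (idx n (p x)) f, D.norm_Pi_le (p x) f]
    · refine Eventually.of_forall fun x => ?_
      have := ((D.lim (p x) f).sub_const (Pj (p x) f)).norm.pow 2
      simpa using this
  simpa using h

theorem YData.cauchy (D : YData W p idx P Pj) (f : 𝓓) : CauchySeq (fun n => D.yn n f) := by
  rw [Metric.cauchySeq_iff']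
  intro ε hε
  have h := D.tendsto_err f
  rw [Metric.tendsto_atTop] at h
  obtain ⟨N, hN⟩ := h (ε ^ 2 / 4) (by positivity)
  refine ⟨N, fun n hn => ?_⟩
  have hle : ‖D.yn N f - D.yn n f‖ ^ 2 < ε ^ 2 := by
    rw [D.norm_sub hn f]
    have h1 : ∀ m, Integrable (fun x => ‖P (idx m (p x)) f - Pj (p x) f‖ ^ 2) μ := by
      intro m
      refine Integrable.mono' (integrable_const ((2 * ‖f‖) ^ 2))
        ((((D.sm m f).sub (D.smPi f)).comp_measurable D.mp).norm.pow 2).aestronglyMeasurable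
        (Eventually.of_forall fun x => ?_)
      rw [Real.norm_eq_abs, abs_of_nonneg (by positivity)]
      refine pow_le_pow_left₀ (norm_nonneg _) ?_ 2
      refine (norm_sub_le _ _).trans ?_
      linarith [D.norm_le (idx m (p x)) f, D.norm_Pi_le (p x) f]
    have h2 : ∫ x, ‖P (idx N (p x)) f - P (idx n (p x)) f‖ ^ 2 ∂μ ≤
        ∫ x, (2 * ‖P (idx N (p x)) f - Pj (p x) f‖ ^ 2 +
          2 * ‖P (idx n (p x)) f - Pj (p x) f‖ ^ 2) ∂μ := by
      refine integral_mono_of_nonneg (Eventually.of_forall fun x => by positivity)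
        (((h1 N).const_mul 2).add ((h1 n).const_mul 2)) (Eventually.of_forall fun x => ?_)
      have h3 : P (idx N (p x)) f - P (idx n (p x)) f = (P (idx N (p x)) f - Pj (p x) f) -
          (P (idx n (p x)) f - Pj (p x) f) := by abel
      have h4 := norm_sub_le (P (idx N (p x)) f - Pj (p x) f) (P (idx n (p x)) f - Pj (p x) f)
      have h5 : ‖P (idx N (p x)) f - P (idx n (p x)) f‖ ≤ ‖P (idx N (p x)) f - Pj (p x) f‖ +
        ‖P (idx n (p x)) f - Pj (p x) f‖ := by rw [h3]; exact h4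
      show ‖P (idx N (p x)) f - P (idx n (p x)) f‖ ^ 2 ≤ 2 * ‖P (idx N (p x)) f - Pj (p x) f‖ ^ 2 +
          2 * ‖P (idx n (p x)) f - Pj (p x) f‖ ^ 2
      nlinarith [norm_nonneg (P (idx N (p x)) f - P (idx n (p x)) f),
        sq_nonneg (‖P (idx N (p x)) f - Pj (p x) f‖ - ‖P (idx n (p x)) f - Pj (p x) f‖)]
    rw [integral_add ((h1 N).const_mul 2) ((h1 n).const_mul 2), integral_const_mul,
      integral_const_mul] at h2
    have h6 := hN N le_rfl
    have h7 := hN n hn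
    rw [Real.dist_eq, sub_zero] at h6 h7
    have h8 := (abs_lt.1 h6).2
    have h9 := (abs_lt.1 h7).2
    linarith
  rw [dist_eq_norm, norm_sub_rev]
  exact lt_of_pow_lt_pow_left₀ 2 hε.le hle

/-- The limit field `Y`. -/
noncomputable def YData.Y (D : YData W p idx P Pj) (f : 𝓓) : Lp ℝ 2 μ :=
  (cauchySeq_tendsto_of_complete (D.cauchy f)).choose

theorem YData.tendsto_Y (D : YData W p idx P Pj) (f : 𝓓) :
    Tendsto (fun n => D.yn n f) atTop (𝓝 (D.Y f)) :=
  (cauchySeq_tendsto_of_complete (D.cauchy f)).choose_spec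

theorem YData.wlim (D : YData W p idx P Pj) (f g : 𝓓) {w : T → ℝ}
    (hw : Measurable w) {C : ℝ} (hwb : ∀ t, |w t| ≤ C) {G : ℕ → T → 𝓓} {G' : T → 𝓓}
    (hG : ∀ n, StronglyMeasurable (G n)) (hb : ∀ n t, ‖G n t‖ ≤ ‖g‖)
    (hlim : ∀ t, Tendsto (fun n => G n t) atTop (𝓝 (G' t))) :
    Tendsto (fun n => ∫ x, w (p x) * inner ℝ (P (idx n (p x)) f) (G n (p x)) ∂μ) atTop
      (𝓝 (∫ x, w (p x) * inner ℝ (Pj (p x) f) (G' (p x)) ∂μ)) := by
  apply tendsto_integral_of_dominated_convergence (fun _ => |C| * (‖f‖ * ‖g‖))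
  · intro n
    exact ((hw.stronglyMeasurable.mul ((D.sm n f).inner (hG n))).comp_measurable
      D.mp).aestronglyMeasurable
  · exact integrable_const _
  · intro n
    refine Eventually.of_forall fun x => ?_
    rw [Real.norm_eq_abs, abs_mul]
    refine mul_le_mul ((hwb _).trans (le_abs_self C)) ?_ (abs_nonneg _) (abs_nonneg _)
    refine (abs_real_inner_le_norm _ _).trans ?_
    exact mul_le_mul (D.norm_le _ _) (hb _ _) (norm_nonneg _) (norm_nonneg _)
  · refine Eventually.of_forall fun x => ?_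
    exact ((D.lim (p x) f).inner (hlim (p x))).const_mul _

/-- `E[w Y f Y g] = E[w ⟨Π f, Π g⟩]`. -/
theorem YData.YY (D : YData W p idx P Pj) (f g : 𝓓) {w : T → ℝ}
    (hw : Measurable w) (hwb : ∃ C, ∀ t, |w t| ≤ C) :
    ∫ x, w (p x) * ((D.Y f : X → ℝ) x * (D.Y g : X → ℝ) x) ∂μ =
      ∫ x, w (p x) * inner ℝ (Pj (p x) f) (Pj (p x) g) ∂μ := by
  obtain ⟨C, hC⟩ := hwb
  have h1 := tendsto_wint (μ := μ) (w := fun x => w (p x)) (C := C)
    (hw.comp D.mp).aestronglyMeasurable (fun x => hC _) (D.tendsto_Y f) (D.tendsto_Y g)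
  have h2 := D.wlim f g hw hC (G := fun n t => P (idx n t) g) (G' := fun t => Pj t g)
    (fun n => D.sm n g) (fun n t => D.norm_le _ _) (fun t => D.lim t g)
  refine tendsto_nhds_unique (h1.congr fun n => ?_) h2
  exact D.mom n f g hw ⟨C, hC⟩

/-- `E[w Y f W g] = E[w ⟨Π f, g⟩]`. -/
theorem YData.YW (D : YData W p idx P Pj) (f g : 𝓓) {w : T → ℝ}
    (hw : Measurable w) (hwb : ∃ C, ∀ t, |w t| ≤ C) :
    ∫ x, w (p x) * ((D.Y f : X → ℝ) x * (W g : X → ℝ) x) ∂μ =
      ∫ x, w (p x) * inner ℝ (Pj (p x) f) g ∂μ := by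
  obtain ⟨C, hC⟩ := hwb
  have h1 := tendsto_wint (μ := μ) (w := fun x => w (p x)) (C := C)
    (hw.comp D.mp).aestronglyMeasurable (fun x => hC _) (D.tendsto_Y f)
    (tendsto_const_nhds (x := W g))
  have h2 := D.wlim f g hw hC (G := fun _ _ => g) (G' := fun _ => g)
    (fun n => stronglyMeasurable_const) (fun n t => le_rfl) (fun t => tendsto_const_nhds)
  refine tendsto_nhds_unique (h1.congr fun n => ?_) h2
  exact D.momW n f g hw ⟨C, hC⟩

/-- `E[w Y f] = 0`. -/
theorem YData.Y1 (D : YData W p idx P Pj) (f : 𝓓) {w : T → ℝ}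
    (hw : Measurable w) (hwb : ∃ C, ∀ t, |w t| ≤ C) :
    ∫ x, w (p x) * (D.Y f : X → ℝ) x ∂μ = 0 := by
  obtain ⟨C, hC⟩ := hwb
  have hone : MemLp (fun _ : X => (1 : ℝ)) 2 μ := memLp_const 1
  have h1 := tendsto_wint (μ := μ) (w := fun x => w (p x)) (C := C)
    (hw.comp D.mp).aestronglyMeasurable (fun x => hC _) (D.tendsto_Y f)
    (tendsto_const_nhds (x := hone.toLp _))
  have e : ∀ F : Lp ℝ 2 μ, ∫ x, w (p x) * ((F : X → ℝ) x * ((hone.toLp _ : Lp ℝ 2 μ) : X → ℝ) x) ∂μ =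
      ∫ x, w (p x) * (F : X → ℝ) x ∂μ := by
    intro F
    refine integral_congr_ae ?_
    filter_upwards [hone.coeFn_toLp] with x hx
    rw [hx, mul_one]
  simp_rw [e, D.mom1 _ f hw ⟨C, hC⟩] at h1
  exact (tendsto_nhds_unique h1 tendsto_const_nhds)

theorem YData.yn_lin (D : YData W p idx P Pj) (n : ℕ) (f g : 𝓓) (a b : ℝ) :
    D.yn n (a • f + b • g) = a • D.yn n f + b • D.yn n g := by
  apply Lp.ext
  have h0 : ∀ᵐ x ∂μ, ∀ j, (W (P j (a • f + b • g)) : X → ℝ) x =
      a * (W (P j f) : X → ℝ) x + b * (W (P j g) : X → ℝ) x := by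
    rw [ae_all_iff]
    intro j
    have e : W (P j (a • f + b • g)) = a • W (P j f) + b • W (P j g) := by
      simp only [map_add, map_smul]
    rw [e]
    filter_upwards [Lp.coeFn_add (a • W (P j f)) (b • W (P j g)), Lp.coeFn_smul a (W (P j f)),
      Lp.coeFn_smul b (W (P j g))] with x h1 h2 h3
    rw [h1, Pi.add_apply, h2, h3]
    rfl
  filter_upwards [h0, D.coe_yn n (a • f + b • g), D.coe_yn n f, D.coe_yn n g,
    Lp.coeFn_add (a • D.yn n f) (b • D.yn n g), Lp.coeFn_smul a (D.yn n f),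
      Lp.coeFn_smul b (D.yn n g)] with x h1 h2 h3 h4 h5 h6 h7
  rw [h2, h5, Pi.add_apply, h6, h7, Pi.smul_apply, Pi.smul_apply, h3, h4]
  exact h1 _

theorem YData.Y_lin (D : YData W p idx P Pj) (f g : 𝓓) (a b : ℝ) :
    D.Y (a • f + b • g) = a • D.Y f + b • D.Y g := by
  have h1 := D.tendsto_Y (a • f + b • g)
  simp_rw [D.yn_lin] at h1
  exact tendsto_nhds_unique h1 (((D.tendsto_Y f).const_smul a).add ((D.tendsto_Y g).const_smul b))

/-- On the event that `f` is in the range of the projections, `Y f = W f`. -/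
theorem YData.Y_eq (D : YData W p idx P Pj) (f : 𝓓) :
    ∀ᵐ x ∂μ, (∃ n, P (idx n (p x)) f = f) → (D.Y f : X → ℝ) x = (W f : X → ℝ) x := by
  have key : ∀ n, ∀ᵐ x ∂μ, P (idx n (p x)) f = f → (D.Y f : X → ℝ) x = (W f : X → ℝ) x := by
    intro n
    set E : Set X := {x | P (idx n (p x)) f = f} with hE
    have hEm : MeasurableSet E := by
      have h1 : MeasurableSet {j : J | P j f = f} := Set.Countable.measurableSet (Set.to_countable _)
      exact ((D.midx n).comp D.mp) h1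
    have h2 : ∀ m, n ≤ m → ∫ x in E, ((D.Y f : X → ℝ) x - (W f : X → ℝ) x) ^ 2 ∂μ ≤
        ‖D.Y f - D.yn m f‖ ^ 2 := by
      intro m hm
      have h3 : ∫ x in E, ((D.Y f : X → ℝ) x - (W f : X → ℝ) x) ^ 2 ∂μ =
          ∫ x in E, ((D.Y f - D.yn m f : Lp ℝ 2 μ) : X → ℝ) x ^ 2 ∂μ := by
        refine setIntegral_congr_ae hEm ?_
        filter_upwards [Lp.coeFn_sub (D.Y f) (D.yn m f), D.coe_yn m f] with x h4 h5 hx
        rw [h4, Pi.sub_apply, h5]
        have h6 : P (idx m (p x)) f = f := by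
          have := D.mono n m hm (p x) f
          rwa [show P (idx n (p x)) f = f from hx] at this
        show _ = ((D.Y f : X → ℝ) x - (W (P (idx m (p x)) f) : X → ℝ) x) ^ 2
        rw [h6]
      rw [h3, ← real_inner_self_eq_norm_sq, inner_eq_int]
      have h4 : ∀ x, ((D.Y f - D.yn m f : Lp ℝ 2 μ) : X → ℝ) x *
          ((D.Y f - D.yn m f : Lp ℝ 2 μ) : X → ℝ) x = ((D.Y f - D.yn m f : Lp ℝ 2 μ) : X → ℝ) x ^ 2 :=
        fun x => (sq _).symm
      simp_rw [h4]
      exact setIntegral_le_integral (Lp.memLp _).integrable_sq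
        (Eventually.of_forall fun x => sq_nonneg _)
    have h5 : Tendsto (fun m => ‖D.Y f - D.yn m f‖ ^ 2) atTop (𝓝 0) := by
      have h6 := ((tendsto_const_nhds (x := D.Y f)).sub (D.tendsto_Y f)).norm.pow 2
      simpa using h6
    have h7 : ∫ x in E, ((D.Y f : X → ℝ) x - (W f : X → ℝ) x) ^ 2 ∂μ ≤ 0 :=
      ge_of_tendsto h5 (Filter.eventually_atTop.2 ⟨n, h2⟩)
    have h8 : ∫ x in E, ((D.Y f : X → ℝ) x - (W f : X → ℝ) x) ^ 2 ∂μ = 0 :=
      le_antisymm h7 (integral_nonneg fun x => sq_nonneg _)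
    have hint : Integrable (fun x => ((D.Y f : X → ℝ) x - (W f : X → ℝ) x) ^ 2) (μ.restrict E) :=
      (((Lp.memLp (D.Y f)).sub (Lp.memLp (W f))).integrable_sq).restrict
    rw [integral_eq_zero_iff_of_nonneg (fun x => sq_nonneg _) hint] at h8
    have h9 := (ae_restrict_iff' hEm).1 h8
    filter_upwards [h9] with x hx hxE
    have := hx hxE
    have h10 : ((D.Y f : X → ℝ) x - (W f : X → ℝ) x) ^ 2 = 0 := this
    nlinarith [pow_eq_zero_iff (two_ne_zero) |>.1 h10]
  filter_upwards [ae_all_iff.2 key] with x hx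
  rintro ⟨n, hn⟩
  exact hx n hn

end YL

end Vale.Agent.P155.Uq
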